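import Claimed.Agent.R286.Cmp.Defs

/-!
# Row 286, PE Section 3, file Cmp/Prof : THE PROFILE `f`, ITS SLOPE `p`, AND THE REMOVED COVARIANCE `e(r) = λ f(λ r/d³)`      (architect helper192; prefix `cm_`)

The ONLY file which may unfold `cmF`, `cmP`.   Everything the paper uses of "a smooth function f > 0 that equals 1 near 0, comparable to (1+log t)/t, log-slope nondecreasing from 0 to 1, 1-p ≳ 1/(1+log(1+t))" (PE l.77-84, 95-99).
PROVED (both sections): helper179.   Extra exports (hypothesis-free forms): `cm_p_gap_eq`, `cm_p_gap_pos`, `cm_p_gap_le_one`, `cm_p_gap_of_le`, `cm_f_hasDerivAt` (ALL real `t`), `cm_tf_hasDerivAt`, `cm_ttf_hasDerivAt`,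
`cm_tf_strictMono`, `cm_tf_of_ge`, `cm_e_hasDerivAt_r`, `cm_re_hasDerivAt`, `cm_rre_hasDerivAt`, `cm_e_hasDerivAt_lam` (ALL real arguments), `cm_pp_cont`, `cm_pp_gap_pos`, `cm_pp_of_le`, `cm_re_le`.
-/

set_option autoImplicit false

namespace Claimed.Agent.R286

open MeasureTheory Set

/-! ## 1. the profile -/

theorem cm_f_of_le {t : ℝ} (h : t ≤ 1) : cmF t = 1 := by simp [cmF, h]

theorem cm_f_of_ge {t : ℝ} (h : 1 ≤ t) : cmF t = (1 + Real.log t) / t := by
  rcases h.eq_or_lt with rfl | h'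
  · simp [cmF]
  · simp [cmF, not_le.2 h']

theorem cm_f_pos (t : ℝ) : 0 < cmF t := by
  rcases le_total t 1 with h | h
  · rw [cm_f_of_le h]; exact one_pos
  · rw [cm_f_of_ge h]
    have := Real.log_nonneg h
    positivity

theorem cm_f_le_one (t : ℝ) : cmF t ≤ 1 := by
  rcases le_total t 1 with h | h
  · rw [cm_f_of_le h]
  · rw [cm_f_of_ge h, div_le_one (by linarith)]
    have := Real.log_le_sub_one_of_pos (show (0 : ℝ) < t by linarith)
    linarith

theorem cm_p_of_le {t : ℝ} (h : t ≤ 1) : cmP t = 0 := by simp [cmP, h]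

theorem cm_p_of_ge {t : ℝ} (h : 1 ≤ t) : cmP t = 1 - 1 / (1 + Real.log t) := by
  rcases h.eq_or_lt with rfl | h'
  · simp [cmP]
  · simp [cmP, not_le.2 h']

/-- `1 - p = 1/(1 + log⁺ t)` -/
theorem cm_p_gap_eq (t : ℝ) : 1 - cmP t = 1 / (1 + Real.log (max t 1)) := by
  rcases le_total t 1 with h | h
  · rw [cm_p_of_le h, max_eq_right h]; simp
  · rw [cm_p_of_ge h, max_eq_left h]; ring

theorem cm_p_gap_pos (t : ℝ) : 0 < 1 - cmP t := by
  rw [cm_p_gap_eq]
  have := Real.log_nonneg (le_max_right t 1)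
  positivity

theorem cm_p_gap_le_one (t : ℝ) : 1 - cmP t ≤ 1 := by
  rw [cm_p_gap_eq]
  have := Real.log_nonneg (le_max_right t 1)
  rw [div_le_one (by linarith)]
  linarith

theorem cm_p_nonneg (t : ℝ) : 0 ≤ cmP t := by linarith [cm_p_gap_le_one t]

theorem cm_p_lt_one (t : ℝ) : cmP t < 1 := by linarith [cm_p_gap_pos t]

theorem cm_p_mono : Monotone cmP := by
  intro s t hst
  have hs := cm_p_gap_eq s
  have ht := cm_p_gap_eq t
  have h1 := Real.log_nonneg (le_max_right s 1)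
  have h2 : Real.log (max s 1) ≤ Real.log (max t 1) :=
    Real.log_le_log (by positivity) (max_le_max_right 1 hst)
  have : 1 / (1 + Real.log (max t 1)) ≤ 1 / (1 + Real.log (max s 1)) := by gcongr
  linarith

theorem cm_p_cont : Continuous cmP := by
  have h : cmP = fun t => 1 - 1 / (1 + Real.log (max t 1)) := by
    funext t; linarith [cm_p_gap_eq t]
  rw [h]
  refine continuous_const.sub (continuous_const.div ?_ ?_)
  · refine continuous_const.add (Continuous.log (by fun_prop) ?_)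
    intro t
    have : (1 : ℝ) ≤ max t 1 := le_max_right t 1
    linarith
  · intro t
    have := Real.log_nonneg (le_max_right t 1)
    linarith

/-- monotone form: if `t ≤ T` and `1 ≤ T` then `1/(1 + log T) ≤ 1 - p t` -/
theorem cm_p_gap_of_le {t T : ℝ} (h : t ≤ T) (hT : 1 ≤ T) : 1 / (1 + Real.log T) ≤ 1 - cmP t := by
  rw [cm_p_gap_eq]
  have h1 := Real.log_nonneg (le_max_right t 1)
  have h2 : Real.log (max t 1) ≤ Real.log T := Real.log_le_log (by positivity) (max_le h hT)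
  gcongr

/-- `1 - p ≥ 1/(1 + log(1+t))` -/
theorem cm_p_gap {t : ℝ} (h : 0 ≤ t) : 1 / (1 + Real.log (1 + t)) ≤ 1 - cmP t :=
  cm_p_gap_of_le (by linarith) (by linarith)

/-- `p f = log t / t` for `t ≥ 1` -/
theorem cm_pf_of_ge {t : ℝ} (h : 1 ≤ t) : cmP t * cmF t = Real.log t / t := by
  rw [cm_p_of_ge h, cm_f_of_ge h]
  have := Real.log_nonneg h
  have ht : (0 : ℝ) < t := by linarith
  field_simp
  ring

theorem cm_f_hasDerivAt_aux {t : ℝ} (ht : 0 < t) :
    HasDerivAt (fun s : ℝ => (1 + Real.log s) / s) (-(Real.log t / t / t)) t := by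
  have h1 : HasDerivAt (fun s : ℝ => 1 + Real.log s) (t⁻¹) t := by
    simpa using (Real.hasDerivAt_log ht.ne').const_add 1
  have h2 := h1.div (hasDerivAt_id' t) ht.ne'
  have h3 : -(Real.log t / t / t) = (t⁻¹ * t - (1 + Real.log t) * 1) / t ^ 2 := by
    field_simp
    ring
  rw [h3]
  exact h2

/-- **`f' = -(p f / t)` at EVERY real `t`** (both sides vanish for `t ≤ 1`) -/
theorem cm_f_hasDerivAt (t : ℝ) : HasDerivAt cmF (-(cmP t * cmF t / t)) t := by
  rcases lt_trichotomy t 1 with h | h | h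
  · rw [cm_p_of_le h.le]
    have : cmF =ᶠ[nhds t] fun _ => (1 : ℝ) := by
      filter_upwards [Iio_mem_nhds h] with s hs
      exact cm_f_of_le (le_of_lt hs)
    simpa using (hasDerivAt_const t (1 : ℝ)).congr_of_eventuallyEq this
  · subst h
    rw [cm_p_of_le le_rfl]
    have hl : HasDerivWithinAt cmF 0 (Iic 1) 1 :=
      (hasDerivWithinAt_const (1 : ℝ) (Iic 1) (1 : ℝ)).congr (fun s hs => cm_f_of_le hs) (cm_f_of_le le_rfl)
    have hr : HasDerivWithinAt cmF 0 (Ici 1) 1 := by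
      have := (cm_f_hasDerivAt_aux one_pos).hasDerivWithinAt (s := Ici 1)
      simp only [Real.log_one, zero_div, neg_zero] at this
      exact this.congr (fun s hs => cm_f_of_ge hs) (cm_f_of_ge le_rfl)
    have := hl.union hr
    rw [Iic_union_Ici, hasDerivWithinAt_univ] at this
    simpa using this
  · rw [cm_pf_of_ge h.le]
    have : cmF =ᶠ[nhds t] fun s => (1 + Real.log s) / s := by
      filter_upwards [Ioi_mem_nhds h] with s hs
      exact cm_f_of_ge (le_of_lt hs)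
    exact (cm_f_hasDerivAt_aux (by linarith)).congr_of_eventuallyEq this

theorem cm_f_differentiable : Differentiable ℝ cmF := fun t => (cm_f_hasDerivAt t).differentiableAt

theorem cm_f_cont : Continuous cmF := cm_f_differentiable.continuous

/-- `f' = -p f/t`   (at `t = 1` both one-sided derivatives vanish) -/
theorem cm_f_hasDeriv {t : ℝ} (h : 0 < t) : HasDerivAt cmF (-(cmP t * cmF t / t)) t := cm_f_hasDerivAt t

theorem cm_f_deriv (t : ℝ) : deriv cmF t = -(cmP t * cmF t / t) := (cm_f_hasDerivAt t).deriv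

/-- `p t = 0` or `t ≠ 0` : the cancellation used below -/
theorem cm_p_mul_div (t c : ℝ) : t * (cmP t * c / t) = cmP t * c := by
  rcases eq_or_ne t 0 with rfl | h
  · rw [cm_p_of_le zero_le_one]; simp
  · field_simp

/-- **`(t f)' = (1 - p) f`** -/
theorem cm_tf_hasDerivAt (t : ℝ) : HasDerivAt (fun s => s * cmF s) ((1 - cmP t) * cmF t) t := by
  have := (hasDerivAt_id' t).mul (cm_f_hasDerivAt t)
  have h2 : (1 - cmP t) * cmF t = 1 * cmF t + t * -(cmP t * cmF t / t) := by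
    rw [mul_neg, cm_p_mul_div]
    ring
  rw [h2]
  exact this

/-- **`(t² f)' = (2 - p) t f`** -/
theorem cm_ttf_hasDerivAt (t : ℝ) : HasDerivAt (fun s => s ^ 2 * cmF s) ((2 - cmP t) * t * cmF t) t := by
  have h0 := (hasDerivAt_pow 2 t).mul (cm_f_hasDerivAt t)
  have h := cm_p_mul_div t (cmF t)
  have h1 : t ^ 2 * -(cmP t * cmF t / t) = - (t * (t * (cmP t * cmF t / t))) := by ring
  have h2 : (2 - cmP t) * t * cmF t = ((2 : ℕ) : ℝ) * t ^ (2 - 1) * cmF t + t ^ 2 * -(cmP t * cmF t / t) := by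
    rw [h1, h]
    norm_num
    ring
  rw [h2]
  exact h0

theorem cm_f_anti : Antitone cmF := by
  refine antitone_of_deriv_nonpos cm_f_differentiable (fun t => ?_)
  rw [cm_f_deriv]
  rcases le_total t 1 with h | h
  · rw [cm_p_of_le h]; simp
  · have := cm_p_nonneg t
    have := (cm_f_pos t).le
    have : (0 : ℝ) < t := by linarith
    have : 0 ≤ cmP t * cmF t / t := by positivity
    linarith

theorem cm_tf_strictMono : StrictMono (fun s => s * cmF s) := by
  refine strictMono_of_deriv_pos (fun t => ?_)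
  rw [(cm_tf_hasDerivAt t).deriv]
  exact mul_pos (cm_p_gap_pos t) (cm_f_pos t)

/-- `t f(t)` is nondecreasing -/
theorem cm_tf_mono : MonotoneOn (fun t => t * cmF t) (Ici 0) := cm_tf_strictMono.monotone.monotoneOn _

theorem cm_ttf_strictMonoOn : StrictMonoOn (fun s => s ^ 2 * cmF s) (Ici 0) := by
  refine strictMonoOn_of_deriv_pos (convex_Ici 0) ?_ (fun t ht => ?_)
  · exact ((continuous_pow 2).mul cm_f_cont).continuousOn
  · rw [interior_Ici] at ht
    rw [(cm_ttf_hasDerivAt t).deriv]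
    have := cm_p_lt_one t
    exact mul_pos (mul_pos (by linarith) ht) (cm_f_pos t)

/-- `t² f(t)` is nondecreasing -/
theorem cm_ttf_mono : MonotoneOn (fun t => t ^ 2 * cmF t) (Ici 0) := cm_ttf_strictMonoOn.monotoneOn

theorem cm_tf_of_ge {t : ℝ} (h : 1 ≤ t) : t * cmF t = 1 + Real.log t := by
  rw [cm_f_of_ge h]
  have : (0 : ℝ) < t := by linarith
  field_simp

/-- `t f(t) ≤ 1 + log⁺ t` -/
theorem cm_tf_le_max (t : ℝ) : t * cmF t ≤ 1 + Real.log (max t 1) := by
  rcases le_total t 1 with h | h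
  · rw [cm_f_of_le h, max_eq_right h]; simp [h]
  · rw [cm_tf_of_ge h, max_eq_left h]

theorem cm_tf_le {t : ℝ} (h : 0 ≤ t) : t * cmF t ≤ 1 + Real.log (1 + t) := by
  refine (cm_tf_le_max t).trans ?_
  have : Real.log (max t 1) ≤ Real.log (1 + t) :=
    Real.log_le_log (by positivity) (max_le (by linarith) (by linarith))
  linarith

/-- for `t ≥ 1`: `f(t) ≥ 1/t` -/
theorem cm_f_ge_inv {t : ℝ} (h : 1 ≤ t) : 1 / t ≤ cmF t := by
  rw [cm_f_of_ge h]
  have := Real.log_nonneg h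
  have ht : (0 : ℝ) < t := by linarith
  gcongr
  linarith

theorem cm_f_ge {t : ℝ} (h : 0 ≤ t) : 1 / (1 + t) ≤ cmF t := by
  rcases le_total t 1 with h1 | h1
  · rw [cm_f_of_le h1, div_le_one (by linarith)]; linarith
  · refine le_trans ?_ (cm_f_ge_inv h1)
    have ht : (0 : ℝ) < t := by linarith
    gcongr
    linarith

/-- `f(G t) ≥ f(t)/G` -/
theorem cm_f_scale {G t : ℝ} (hG : 1 ≤ G) (h : 0 ≤ t) : cmF t / G ≤ cmF (G * t) := by
  have hs0 : (0 : ℝ) < G := by linarith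
  rw [div_le_iff₀ hs0]
  rcases h.eq_or_lt with rfl | ht
  · simp only [mul_zero]
    have := (cm_f_pos 0).le
    nlinarith
  · have h : t * cmF t ≤ (G * t) * cmF (G * t) := cm_tf_strictMono.monotone (by nlinarith)
    have : t * cmF t ≤ t * (cmF (G * t) * G) := by linarith
    exact le_of_mul_le_mul_left this ht

/-! ## 2. the removed covariance -/

variable (P : CmCall)

theorem cm_e_nonneg {lam : ℝ} (hl : 0 ≤ lam) (r : ℝ) : 0 ≤ P.e lam r := mul_nonneg hl (cm_f_pos _).le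

theorem cm_e_pos {lam : ℝ} (hl : 0 < lam) (r : ℝ) : 0 < P.e lam r := mul_pos hl (cm_f_pos _)

theorem cm_e_le {lam : ℝ} (hl : 0 ≤ lam) (r : ℝ) : P.e lam r ≤ lam := by
  have := mul_le_mul_of_nonneg_left (cm_f_le_one (lam * r / P.d ^ 3)) hl
  simpa [CmCall.e] using this

theorem cm_e_zero (r : ℝ) : P.e 0 r = 0 := by simp [CmCall.e]

theorem cm_e_cont (lam : ℝ) : Continuous (fun r => P.e lam r) := by
  unfold CmCall.e
  exact continuous_const.mul (cm_f_cont.comp (by fun_prop))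

theorem cm_e_cont2 : Continuous (fun x : ℝ × ℝ => P.e x.1 x.2) := by
  unfold CmCall.e
  exact continuous_fst.mul (cm_f_cont.comp (by fun_prop))

theorem cm_pp_nonneg (lam r : ℝ) : 0 ≤ P.pp lam r := cm_p_nonneg _

theorem cm_pp_lt_one (lam r : ℝ) : P.pp lam r < 1 := cm_p_lt_one _

theorem cm_pp_gap_pos (lam r : ℝ) : 0 < 1 - P.pp lam r := cm_p_gap_pos _

theorem cm_pp_gap_le_one (lam r : ℝ) : 1 - P.pp lam r ≤ 1 := cm_p_gap_le_one _

theorem cm_pp_of_le {lam r : ℝ} (h : lam * r / P.d ^ 3 ≤ 1) : P.pp lam r = 0 := by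
  simp [CmCall.pp, cm_p_of_le h]

theorem cm_pp_cont (lam : ℝ) : Continuous (fun r => P.pp lam r) := by
  unfold CmCall.pp
  exact cm_p_cont.comp (by fun_prop)

theorem cm_pp_mono (hd : 0 < P.d) {lam : ℝ} (hl : 0 ≤ lam) : Monotone (fun r => P.pp lam r) := by
  intro r1 r2 h12
  refine cm_p_mono ?_
  have : 0 ≤ P.d ^ 3 := by positivity
  gcongr

theorem cm_e_anti (hd : 0 < P.d) {lam : ℝ} (hl : 0 ≤ lam) : Antitone (fun r => P.e lam r) := by
  intro r1 r2 h12
  have : 0 ≤ P.d ^ 3 := by positivity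
  refine mul_le_mul_of_nonneg_left (cm_f_anti ?_) hl
  gcongr

/-- **`∂_r e = -(p e / r)`** at every real `r`, no hypothesis -/
theorem cm_e_hasDerivAt_r (lam r : ℝ) : HasDerivAt (fun r => P.e lam r) (-(P.pp lam r * P.e lam r / r)) r := by
  have h1 : HasDerivAt (fun s : ℝ => lam * s / P.d ^ 3) (lam / P.d ^ 3) r := by
    simpa using ((hasDerivAt_id' r).const_mul lam).div_const (P.d ^ 3)
  have h2 := ((cm_f_hasDerivAt (lam * r / P.d ^ 3)).comp r h1).const_mul lam
  have h3 : -(P.pp lam r * P.e lam r / r)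
      = lam * (-(cmP (lam * r / P.d ^ 3) * cmF (lam * r / P.d ^ 3) / (lam * r / P.d ^ 3)) * (lam / P.d ^ 3)) := by
    unfold CmCall.pp CmCall.e
    by_cases ht : lam * r / P.d ^ 3 = 0
    · rw [ht, cm_p_of_le zero_le_one]; simp
    · have hl : lam ≠ 0 := by rintro rfl; simp at ht
      have hr : r ≠ 0 := by rintro rfl; simp at ht
      have hd : P.d ≠ 0 := by intro h; rw [h] at ht; simp at ht
      generalize cmP (lam * r / P.d ^ 3) = a
      generalize cmF (lam * r / P.d ^ 3) = b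
      field_simp
  rw [h3]
  exact h2

/-- **`∂_r (r e) = (1 - p) e`**, no hypothesis -/
theorem cm_re_hasDerivAt (lam r : ℝ) : HasDerivAt (fun s => s * P.e lam s) ((1 - P.pp lam r) * P.e lam r) r := by
  have := (hasDerivAt_id' r).mul (cm_e_hasDerivAt_r P lam r)
  have h2 : (1 - P.pp lam r) * P.e lam r = 1 * P.e lam r + r * -(P.pp lam r * P.e lam r / r) := by
    rcases eq_or_ne r 0 with rfl | h
    · rw [cm_pp_of_le P (by simp)]; simp
    · field_simp
      ring
  rw [h2]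
  exact this

/-- **`∂_r (r² e) = (2 - p) r e`**, no hypothesis -/
theorem cm_rre_hasDerivAt (lam r : ℝ) : HasDerivAt (fun s => s ^ 2 * P.e lam s) ((2 - P.pp lam r) * r * P.e lam r) r := by
  have := (hasDerivAt_pow 2 r).mul (cm_e_hasDerivAt_r P lam r)
  have h2 : (2 - P.pp lam r) * r * P.e lam r = (((2 : ℕ) : ℝ) * r ^ (2 - 1)) * P.e lam r + r ^ 2 * -(P.pp lam r * P.e lam r / r) := by
    rcases eq_or_ne r 0 with rfl | h
    · simp
    · field_simp
      norm_num
      ring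
  rw [h2]
  exact this

/-- **`∂_λ e = (1 - p) f`**, no hypothesis -/
theorem cm_e_hasDerivAt_lam (lam r : ℝ) :
    HasDerivAt (fun l => P.e l r) ((1 - P.pp lam r) * cmF (lam * r / P.d ^ 3)) lam := by
  have h1 : HasDerivAt (fun l : ℝ => l * r / P.d ^ 3) (r / P.d ^ 3) lam := by
    simpa using ((hasDerivAt_id' lam).mul_const r).div_const (P.d ^ 3)
  have h2 := (hasDerivAt_id' lam).mul ((cm_f_hasDerivAt (lam * r / P.d ^ 3)).comp lam h1)
  have h3 : (1 - P.pp lam r) * cmF (lam * r / P.d ^ 3)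
      = 1 * cmF (lam * r / P.d ^ 3)
        + lam * (-(cmP (lam * r / P.d ^ 3) * cmF (lam * r / P.d ^ 3) / (lam * r / P.d ^ 3)) * (r / P.d ^ 3)) := by
    unfold CmCall.pp
    by_cases ht : lam * r / P.d ^ 3 = 0
    · rw [ht, cm_p_of_le zero_le_one]; simp
    · have hl : lam ≠ 0 := by rintro rfl; simp at ht
      have hr : r ≠ 0 := by rintro rfl; simp at ht
      have hd : P.d ≠ 0 := by intro h; rw [h] at ht; simp at ht
      generalize cmP (lam * r / P.d ^ 3) = a
      generalize cmF (lam * r / P.d ^ 3) = b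
      field_simp
      ring
  rw [h3]
  exact h2

/-- `r e(r)` is nondecreasing -/
theorem cm_re_mono (hd : 0 < P.d) {lam : ℝ} (hl : 0 ≤ lam) : MonotoneOn (fun r => r * P.e lam r) (Ici 0) := by
  refine Monotone.monotoneOn ?_ _
  refine monotone_of_deriv_nonneg (fun r => (cm_re_hasDerivAt P lam r).differentiableAt) (fun r => ?_)
  rw [(cm_re_hasDerivAt P lam r).deriv]
  exact mul_nonneg (cm_pp_gap_pos P lam r).le (cm_e_nonneg P hl r)

/-- `r² e(r)` is nondecreasing -/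
theorem cm_rre_mono (hd : 0 < P.d) {lam : ℝ} (hl : 0 ≤ lam) : MonotoneOn (fun r => r ^ 2 * P.e lam r) (Ici 0) := by
  refine monotoneOn_of_deriv_nonneg (convex_Ici 0) ?_ ?_ (fun r hr => ?_)
  · exact ((continuous_pow 2).mul (cm_e_cont P lam)).continuousOn
  · exact fun r _ => (cm_rre_hasDerivAt P lam r).differentiableAt.differentiableWithinAt
  · rw [interior_Ici] at hr
    rw [(cm_rre_hasDerivAt P lam r).deriv]
    have := cm_pp_lt_one P lam r
    exact mul_nonneg (mul_nonneg (by linarith) (le_of_lt hr)) (cm_e_nonneg P hl r)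

/-- `e' = -p e/r` -/
theorem cm_e_hasDeriv (hd : 0 < P.d) {lam r : ℝ} (hl : 0 < lam) (hr : 0 < r) :
    HasDerivAt (fun r => P.e lam r) (-(P.pp lam r * P.e lam r / r)) r := cm_e_hasDerivAt_r P lam r

/-- `(r e)' = (1-p) e` -/
theorem cm_re_hasDeriv (hd : 0 < P.d) {lam r : ℝ} (hl : 0 < lam) (hr : 0 < r) :
    HasDerivAt (fun r => r * P.e lam r) ((1 - P.pp lam r) * P.e lam r) r := cm_re_hasDerivAt P lam r

/-- `(r² e)' = (2-p) r e` -/
theorem cm_rre_hasDeriv (hd : 0 < P.d) {lam r : ℝ} (hl : 0 < lam) (hr : 0 < r) :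
    HasDerivAt (fun r => r ^ 2 * P.e lam r) ((2 - P.pp lam r) * r * P.e lam r) r := cm_rre_hasDerivAt P lam r

/-- `r₂ e(r₂) - r₁ e(r₁) = ∫ (1-p) e` -/
theorem cm_re_integral (hd : 0 < P.d) {lam r1 r2 : ℝ} (hl : 0 ≤ lam) (h1 : 0 ≤ r1) (h12 : r1 ≤ r2) :
    r2 * P.e lam r2 - r1 * P.e lam r1 = ∫ r in r1..r2, (1 - P.pp lam r) * P.e lam r := by
  symm
  refine intervalIntegral.integral_eq_sub_of_hasDerivAt (fun s _ => cm_re_hasDerivAt P lam s) ?_
  exact ((continuous_const.sub (cm_pp_cont P lam)).mul (cm_e_cont P lam)).intervalIntegrable _ _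

/-- `∂_λ e = (1-p) f`, i.e. `∂_{log λ} e = (1-p) e` -/
theorem cm_e_hasDeriv_lam (hd : 0 < P.d) {lam r : ℝ} (hl : 0 < lam) (hr : 0 ≤ r) :
    HasDerivAt (fun l => P.e l r) ((1 - P.pp lam r) * P.e lam r / lam) lam := by
  have h : (1 - P.pp lam r) * P.e lam r / lam = (1 - P.pp lam r) * cmF (lam * r / P.d ^ 3) := by
    unfold CmCall.e
    field_simp
  rw [h]
  exact cm_e_hasDerivAt_lam P lam r

/-- monotone and 1-Lipschitz in the strength -/
theorem cm_e_lam_mono (hd : 0 < P.d) {l1 l2 r : ℝ} (h1 : 0 ≤ l1) (h12 : l1 ≤ l2) (hr : 0 ≤ r) :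
    P.e l1 r ≤ P.e l2 r ∧ P.e l2 r - P.e l1 r ≤ l2 - l1 := by
  constructor
  · have hm : Monotone (fun l => P.e l r) := by
      refine monotone_of_deriv_nonneg (fun l => (cm_e_hasDerivAt_lam P l r).differentiableAt) (fun l => ?_)
      rw [(cm_e_hasDerivAt_lam P l r).deriv]
      exact mul_nonneg (cm_pp_gap_pos P l r).le (cm_f_pos _).le
    exact hm h12
  · have hD : ∀ l, HasDerivAt (fun l => l - P.e l r) (1 - (1 - P.pp l r) * cmF (l * r / P.d ^ 3)) l :=
      fun l => (hasDerivAt_id' l).sub (cm_e_hasDerivAt_lam P l r)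
    have hm : Monotone (fun l => l - P.e l r) := by
      refine monotone_of_deriv_nonneg (fun l => (hD l).differentiableAt) (fun l => ?_)
      rw [(hD l).deriv]
      have h1 := cm_pp_gap_le_one P l r
      have h2 := cm_pp_gap_pos P l r
      have h3 := cm_f_le_one (l * r / P.d ^ 3)
      have h4 := cm_f_pos (l * r / P.d ^ 3)
      nlinarith
    have := hm h12
    simp only at this
    linarith

/-- `e(G r) ≥ e(r)/G` -/
theorem cm_e_scale (hd : 0 < P.d) {lam G r : ℝ} (hl : 0 ≤ lam) (hG : 1 ≤ G) (hr : 0 ≤ r) : P.e lam r / G ≤ P.e lam (G * r) := by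
  have h1 : cmF (lam * r / P.d ^ 3) / G ≤ cmF (G * (lam * r / P.d ^ 3)) := cm_f_scale hG (by positivity)
  have h2 : G * (lam * r / P.d ^ 3) = lam * (G * r) / P.d ^ 3 := by ring
  rw [h2] at h1
  have := mul_le_mul_of_nonneg_left h1 hl
  unfold CmCall.e
  calc lam * cmF (lam * r / P.d ^ 3) / G = lam * (cmF (lam * r / P.d ^ 3) / G) := by ring
    _ ≤ _ := this

/-- `r e(r) = d³ · (t f(t))`, `t = λ r/d³` -/
theorem cm_re_eq (hd : 0 < P.d) (lam r : ℝ) : r * P.e lam r = P.d ^ 3 * ((lam * r / P.d ^ 3) * cmF (lam * r / P.d ^ 3)) := by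
  unfold CmCall.e
  field_simp

/-- `e(r) r ≤ d³ (1 + log(1 + λ r/d³))` -/
theorem cm_er_le (hd : 0 < P.d) {lam r : ℝ} (hl : 0 ≤ lam) (hr : 0 ≤ r) :
    P.e lam r * r ≤ P.d ^ 3 * (1 + Real.log (1 + lam * r / P.d ^ 3)) := by
  rw [mul_comm, cm_re_eq P hd]
  have h3 : 0 < P.d ^ 3 := by positivity
  exact mul_le_mul_of_nonneg_left (cm_tf_le (by positivity)) h3.le

/-- `e(r) ≥ λ/(1 + λ r/d³)` -/
theorem cm_e_ge (hd : 0 < P.d) {lam r : ℝ} (hl : 0 ≤ lam) (hr : 0 ≤ r) : lam / (1 + lam * r / P.d ^ 3) ≤ P.e lam r := by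
  have h : 1 / (1 + lam * r / P.d ^ 3) ≤ cmF (lam * r / P.d ^ 3) := cm_f_ge (by positivity)
  have := mul_le_mul_of_nonneg_left h hl
  unfold CmCall.e
  calc lam / (1 + lam * r / P.d ^ 3) = lam * (1 / (1 + lam * r / P.d ^ 3)) := by ring
    _ ≤ _ := this

/-- `e(r) = λ` as long as `λ r ≤ d³` -/
theorem cm_e_eq (hd : 0 < P.d) {lam r : ℝ} (h : lam * r ≤ P.d ^ 3) : P.e lam r = lam := by
  have h3 : 0 < P.d ^ 3 := by positivity
  have : lam * r / P.d ^ 3 ≤ 1 := by rw [div_le_one h3]; exact h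
  simp [CmCall.e, cm_f_of_le this]

/-- the argument of the profile is at most `1/d` on `0 ≤ λ ≤ d²`, `r ≤ 1` -/
theorem cm_arg_le (hd : 0 < P.d) {lam r : ℝ} (hl : 0 ≤ lam) (hl2 : lam ≤ P.d ^ 2) (hr1 : r ≤ 1) :
    lam * r / P.d ^ 3 ≤ 1 / P.d := by
  have h3 : 0 < P.d ^ 3 := by positivity
  rw [div_le_iff₀ h3]
  have : lam * r ≤ P.d ^ 2 * 1 := by
    calc lam * r ≤ lam * 1 := mul_le_mul_of_nonneg_left hr1 hl
      _ ≤ P.d ^ 2 * 1 := by linarith
  have h4 : 1 / P.d * P.d ^ 3 = P.d ^ 2 := by field_simp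
  rw [h4]
  linarith

/-- `(1-p)⁻¹ ≤ 1 + log(1 + 1/d)` on `0 ≤ λ ≤ d²`, `0 ≤ r ≤ 1` -/
theorem cm_pp_gap (hd : 0 < P.d) {lam r : ℝ} (hl : 0 ≤ lam) (hl2 : lam ≤ P.d ^ 2) (hr : 0 ≤ r) (hr1 : r ≤ 1) :
    1 / (1 + Real.log (1 + 1 / P.d)) ≤ 1 - P.pp lam r := by
  have hpos : 0 < 1 / P.d := by positivity
  exact cm_p_gap_of_le (by linarith [cm_arg_le P hd hl hl2 hr1]) (by linarith)

/-- **`r e(r) ≤ d³ (1 + log (1 + 1/d))`** on `0 ≤ λ ≤ d²`, `r ≤ 1` -/
theorem cm_re_le (hd : 0 < P.d) {lam r : ℝ} (hl : 0 ≤ lam) (hl2 : lam ≤ P.d ^ 2) (hr1 : r ≤ 1) :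
    r * P.e lam r ≤ P.d ^ 3 * (1 + Real.log (1 + 1 / P.d)) := by
  rw [cm_re_eq P hd]
  have h3 : 0 < P.d ^ 3 := by positivity
  refine mul_le_mul_of_nonneg_left ((cm_tf_le_max _).trans ?_) h3.le
  have hpos : 0 < 1 / P.d := by positivity
  have : max (lam * r / P.d ^ 3) 1 ≤ 1 + 1 / P.d :=
    max_le (by linarith [cm_arg_le P hd hl hl2 hr1]) (by linarith)
  have := Real.log_le_log (by positivity) this
  linarith

end Claimed.Agent.R286
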