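import Claimed.Agent.R286.Cmp.Defs

/-!
# Row 286 (S0533), PE Section 3.4 (package P06, comparisons.tex l.749-1232): VOCABULARY      (owner helper294; adversary helper290)

P06 is typed as DETERMINISTIC REAL ANALYSIS over NUMBERS.  Nothing here knows the spin system.
* `CmNum`        the numbers of ONE pinned path, as functions of the mass `u ∈ [0,1]`:
                 `S u = E|X_u|²`, `D u = D_u`, `TH u = E tr H_u²`, `TC u = E tr C_u²`, `TW u = E tr(H_u C_u) = E W_u`,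
                 `Q4 i j = E|X_i - X_j|⁴`, `NX q u = ‖X_u‖_{2q}`, `NR u = ‖R_u‖_2`.
* `CmWt w`       a deterministic bounded probability weight on `[0,1]`.
* `X.side i w`   the cost of ONE side average with weight `w` at the evaluation mass `i`.
* `X.Ok`         ALL that P06 uses of the model (exports of PE Sec. 2):  monotonicity / bounds, the trace comparisons `u² tr C² ≤ tr H²`, `u tr HC ≤ tr H²` (Lemma 2.1),
                 Hoelder interpolation of `Q4`, and the **MASTER INEQUALITY** `master` (two-sided level averaging at one point; = l.912-975 of the paper + (1) line 3 with `p = 2`, `c_2 = 1`).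
                 Paper proof of `master`:  `Z = L_i - E L_i`;  `Z₊ ≤ ∫ w⁺|T_ij| + ½∫_{j<i} w⁺|X_i-X_j|² + |A⁺ - E A⁺| + |E A⁺ - E L_i|`  (`L_j - L_i = (y-X_j)·(X_j-X_i) + ½|X_j-X_i|²` for `i<j`), same for `Z₋` with `w⁻`;
                 `E T_ij² ≤ (E tr C²_{i∨j})^{1/2} (|S_j-S_i| + 3(D_i+D_j))`;  `Var A ≤ ∫ w² E W`;  `E L_u = S_u/2`;  `D² ≤ 4 Var L + E tr C²`.
* `CmCaps`       the geometric data of Lemma 3.3 in RADIUS coordinates: cap components `(cL i, cR i)` (degenerate ones allowed), floor set `Fl`, good contact set `Ct`.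
* `CmGeo`        the CLOSED output of Lemma 3.3 (+ the clock inequality (1) line 2 pulled back to the radius): what P04 delivers and P05/P06/P10 consume.   `Kg` = absolute constant, `Lp` = the explicit factor `sup (1-p)⁻¹`.
* `Z.capM al i`, `Z.lab al`, `Z.IsGroup al G`      mass interval of a cap, unit label (midpoint of the cap / the point itself), groups = measurable unions of complete units.
* `X.Raw x Cp`   the raw moments (12).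
-/

set_option autoImplicit false

namespace Claimed.Agent.R286

open MeasureTheory Set

noncomputable section

/-- the numbers of one pinned path, functions of the mass -/
structure CmNum where
  S : ℝ → ℝ
  D : ℝ → ℝ
  TH : ℝ → ℝ
  TC : ℝ → ℝ
  TW : ℝ → ℝ
  Q4 : ℝ → ℝ → ℝ
  NX : ℕ → ℝ → ℝ
  NR : ℝ → ℝ

/-- a deterministic bounded probability weight on `[0,1]` -/
structure CmWt (w : ℝ → ℝ) : Prop where
  meas : Measurable w
  nn : ∀ j, 0 ≤ w j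
  bdd : ∃ B : ℝ, ∀ j, w j ≤ B
  supp : ∀ j, j ∉ Icc (0 : ℝ) 1 → w j = 0
  one : ∫ j, w j = 1

namespace CmNum

variable (X : CmNum)

/-- the cost of one side average with weight `w` at the evaluation mass `i` -/
def side (i : ℝ) (w : ℝ → ℝ) : ℝ :=
  (∫ j, w j * ((Real.sqrt (X.TC i) + Real.sqrt (X.TC j)) * (|X.S j - X.S i| + 3 * (X.D i + X.D j))))
    + (∫ j, w j ^ 2 * X.TW j) + (1 / 4) * (∫ j, w j * (X.S j - X.S i)) ^ 2

/-- **all that P06 uses of the model** -/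
structure Ok : Prop where
  S_meas : Measurable X.S
  S_mono : MonotoneOn X.S (Icc 0 1)
  S_nn : ∀ u ∈ Icc (0 : ℝ) 1, 0 ≤ X.S u
  S_le : ∀ u ∈ Icc (0 : ℝ) 1, X.S u ≤ 1
  D_meas : Measurable X.D
  D_nn : ∀ u ∈ Icc (0 : ℝ) 1, 0 ≤ X.D u
  D_le : ∀ u ∈ Icc (0 : ℝ) 1, X.D u ≤ 1
  TH_meas : Measurable X.TH
  TH_nn : ∀ u ∈ Icc (0 : ℝ) 1, 0 ≤ X.TH u
  TH_le : ∀ u ∈ Icc (0 : ℝ) 1, X.TH u ≤ 1
  TC_meas : Measurable X.TC
  TC_nn : ∀ u ∈ Icc (0 : ℝ) 1, 0 ≤ X.TC u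
  TC_le : ∀ u ∈ Icc (0 : ℝ) 1, X.TC u ≤ 1
  TW_meas : Measurable X.TW
  TW_nn : ∀ u ∈ Icc (0 : ℝ) 1, 0 ≤ X.TW u
  TW_le : ∀ u ∈ Icc (0 : ℝ) 1, X.TW u ≤ 1
  tc_th : ∀ u ∈ Icc (0 : ℝ) 1, u ^ 2 * X.TC u ≤ X.TH u
  tw_th : ∀ u ∈ Icc (0 : ℝ) 1, u * X.TW u ≤ X.TH u
  NX_nn : ∀ (q : ℕ), ∀ u ∈ Icc (0 : ℝ) 1, 0 ≤ X.NX q u
  NX_le : ∀ (q : ℕ), ∀ u ∈ Icc (0 : ℝ) 1, X.NX q u ≤ 1
  s_nx : ∀ u ∈ Icc (0 : ℝ) 1, X.S u = X.NX 1 u ^ 2
  d_nr : ∀ u ∈ Icc (0 : ℝ) 1, X.D u ≤ X.NR u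
  NR_le : ∀ u ∈ Icc (0 : ℝ) 1, X.NR u ≤ 1
  q4_int : ∀ q : ℕ, 3 ≤ q → ∀ i ∈ Icc (0 : ℝ) 1, ∀ j ∈ Icc (0 : ℝ) 1,
    X.Q4 i j ≤ |X.S j - X.S i| ^ (1 - 1 / ((q : ℝ) - 1)) * (X.NX q i + X.NX q j) ^ (2 * (q : ℝ) / ((q : ℝ) - 1))
  master : ∀ i ∈ Icc (0 : ℝ) 1, ∀ wp wm : ℝ → ℝ, CmWt wp → CmWt wm → ∀ q4 : ℝ, 0 ≤ q4 →
    (∀ j ∈ Icc (0 : ℝ) 1, wp j ≠ 0 → j < i → X.Q4 i j ≤ q4) →
    (∀ j ∈ Icc (0 : ℝ) 1, wm j ≠ 0 → i < j → X.Q4 i j ≤ q4) →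
    X.D i ^ 2 ≤ X.TC i + 8 * q4 + 16 * (X.side i wp + X.side i wm)

/-- **the raw moments (12)** at the scale `x`, with the constants `Cp q` (`‖X_u‖_{2q} ≤ Cp q √(u+x)`, `‖R_u‖_2 ≤ Cp 1 (u+x)`) -/
def Raw (x : ℝ) (Cp : ℕ → ℝ) : Prop :=
  ∀ u ∈ Icc (0 : ℝ) 1, (∀ q : ℕ, 1 ≤ q → X.NX q u ≤ Cp q * Real.sqrt (u + x)) ∧ X.NR u ≤ Cp 1 * (u + x)

end CmNum

/-- the geometric data of Lemma 3.3, in radius coordinates -/
structure CmCaps where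
  cL : ℕ → ℝ
  cR : ℕ → ℝ
  Fl : Set ℝ
  Ct : Set ℝ

namespace CmCaps

variable (Z : CmCaps)

/-- the union of the cap components (radius) -/
def caps : Set ℝ := ⋃ i, Ioo (Z.cL i) (Z.cR i)
/-- radius length of the cap `i` -/
def len (i : ℕ) : ℝ := Z.cR i - Z.cL i
/-- the wall term of the cap `i`: `rmin` for an initial component, `0` otherwise -/
def io (rmin : ℝ) (i : ℕ) : ℝ := if Z.cL i = rmin then rmin else 0
/-- the mass interval of the cap `i` -/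
def capM (al : ℝ → ℝ) (i : ℕ) : Set ℝ := Ioo (al (Z.cL i)) (al (Z.cR i))

open Classical in
/-- **the unit label** (mass coordinate): the midpoint of the cap containing `u`, and `u` itself outside the caps -/
def lab (al : ℝ → ℝ) (u : ℝ) : ℝ :=
  if h : ∃ i, u ∈ Z.capM al i then (al (Z.cL h.choose) + al (Z.cR h.choose)) / 2 else u

/-- **a group**: a measurable union of complete units (complete caps, points of the good contact set), in mass coordinates -/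
structure IsGroup (al : ℝ → ℝ) (G : Set ℝ) : Prop where
  meas : MeasurableSet G
  sub : G ⊆ (⋃ i, Z.capM al i) ∪ al '' Z.Ct
  sat : ∀ i, (Z.capM al i ∩ G).Nonempty → Z.capM al i ⊆ G

end CmCaps

/-- **the closed output of Lemma 3.3** at the strength `lam`, for the quantile `q`, the numbers `X` of the changed path and the geometric data `Z` -/
structure CmGeo (P : CmCall) (lam : ℝ) (q : CmQ P) (X : CmNum) (Z : CmCaps) (Kg Lp : ℝ) : Prop where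
  Kg1 : 1 ≤ Kg
  Lp1 : 1 ≤ Lp
  cap_le : ∀ i, Z.cL i ≤ Z.cR i
  cap_lo : ∀ i, P.rmin ≤ Z.cL i
  cap_hi : ∀ i, Z.cR i ≤ 1
  cap_disj : Pairwise fun i j => Disjoint (Ioo (Z.cL i) (Z.cR i)) (Ioo (Z.cL j) (Z.cR j))
  /-- `α' = M(α)` on the caps, integrated form -/
  cap_eq : ∀ i s t, Z.cL i ≤ s → s ≤ t → t ≤ Z.cR i → q.al t - q.al s = ∫ r in s..t, P.M (q.al r)
  fl_meas : MeasurableSet Z.Fl
  fl_sub : Z.Fl ⊆ Icc P.rmin 1
  /-- `α' = k` on the floor, as a bound of the floor mass in every radius interval -/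
  fl_mass : ∀ s t, P.rmin ≤ s → s ≤ t → t ≤ 1 → volume (q.al '' (Z.Fl ∩ Icc s t)) ≤ ENNReal.ofReal (∫ r in s..t, P.k r)
  ct_meas : MeasurableSet Z.Ct
  ct_sub : Z.Ct ⊆ Icc P.rmin 1
  ct_disj : Disjoint Z.Ct Z.caps
  cover : volume (Icc P.rmin 1 \ (Z.caps ∪ Z.Fl ∪ Z.Ct)) = 0
  /-- (9) -/
  ct_le : ∀ r ∈ Z.Ct, X.S (q.al r) ≤ r
  ct_mis : ∀ r ∈ Z.Ct, (X.S (q.al r) - r) ^ 2 ≤ Kg * X.D (q.al r) ^ 2
  /-- (9), `S' ≲ (1-p)⁻¹` in the two-point form -/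
  ct_two : ∀ r1 ∈ Z.Ct, ∀ r2 ∈ Z.Ct, r1 < r2 → r2 ≤ 2 * r1 → X.S (q.al r2) - X.S (q.al r1) ≤ Kg * Lp * (r2 - r1)
  /-- (10): the increase of `S` through the interior of a cap -/
  cap_dS : ∀ i s t, Z.cL i < s → s ≤ t → t < Z.cR i → X.S (q.al t) - X.S (q.al s) ≤ Kg * Lp * (Z.len i + Z.io P.rmin i)
  cap_Sle : ∀ i, ∀ r ∈ Ioo (Z.cL i) (Z.cR i), X.S (q.al r) ≤ r + Z.len i
  cap_mis : ∀ i, ∀ r ∈ Ioo (Z.cL i) (Z.cR i), (X.S (q.al r) - r) ^ 2 ≤ Kg * Lp ^ 2 * (X.D (q.al r) ^ 2 + Z.len i ^ 2 + Z.io P.rmin i ^ 2)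
  /-- (1) line 2 in the radius coordinate, with `∂_r h ≥ (1-p) e ≥ e/Lp` -/
  clock : ∀ s t, P.rmin ≤ s → s ≤ t → t ≤ 1 → P.N / (Kg * Lp) * ∫ r in s..t, P.e lam r * X.TH (q.al r) ≤ X.S (q.al t) - X.S (q.al s)

/-- the right side of the abstract (21): `V` = mass of the group, `η` = oscillation of `S` in a bin, `q4` = reverse-order cost, `τC`, `τW` = unit averages of `E tr C²`, `E W`, `th` = strip length, `kb` = number of bins -/
def cmBrR (V η q4 τC τW th : ℝ) (kb : ℕ) : ℝ :=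
  1000000 * (V * (η ^ 2 + q4 + (1 + Real.log (1 + V / th)) ^ 2 * τC) + kb * ((1 + Real.log (1 + V / th)) * τW + th))

/-- the interpolation bound of `E|X_i-X_j|⁴` when `|S_i-S_j| ≤ ω` and `‖X‖_{2q} ≤ Cq √y0` -/
def cmQ4 (ω Cq y0 : ℝ) (q : ℕ) : ℝ :=
  ω ^ (1 - 1 / ((q : ℝ) - 1)) * (2 * Cq * Real.sqrt y0) ^ (2 * (q : ℝ) / ((q : ℝ) - 1))

/-- the bracket of (18) -/
def CmCall.R18 (P : CmCall) (lam v : ℝ) : ℝ :=
  (P.N * P.e lam v * v) ^ (-(1 / 3 : ℝ)) + (P.N * P.e lam v * v ^ 2) ^ (-(1 / 2 : ℝ)) + (P.N ^ (-P.dl) * P.E / P.d ^ 3) ^ (1 / 2 : ℝ)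
    + P.N ^ (P.dl / 2) * P.us

/-- `W = max(x, √e(x))` -/
def cmW (P : CmCall) (lam x : ℝ) : ℝ := max x (Real.sqrt (P.e lam x))

theorem cm_p6defs_eqns_cite : True := by
  have := @cmBrR.eq_1; have := @cmQ4.eq_1; have := @CmCall.R18.eq_1; have := @cmW.eq_1
  have := @CmNum.side.eq_1; have := @CmNum.Raw.eq_1; have := @CmCaps.caps.eq_1; have := @CmCaps.len.eq_1; have := @CmCaps.io.eq_1
  have := @CmCaps.capM.eq_1; have := @CmCaps.lab.eq_1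
  trivial

end

end Claimed.Agent.R286
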