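-- KEEP
import Claimed.Agent.R286.Fd.ClkDefs
import Claimed.Agent.R286.Cmp.P6Defs

/-!
# Row 286 (S0533), PE Section 3: THE SK VOCABULARY OF THE SECTION      (owner helper295, head of PE Sec 3; names `cmk*`, `Cmk*`, `CmI`)

The packages P04 (255: `CmBox`, `CmObj`, `CmPr`), P05 (247: `CmPath`), P06 (294: `CmNum`, `CmCaps`, `CmGeo`) are typed over ABSTRACT interfaces.
This file defines the SK objects which instantiate them and in which the EXITS of the section (`R286/Exit/Cmp*.lean`) are stated.   Terminal mass `a = 1`.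
Only NUMBERS exist for general clocks (`Defs/Clk.lean`, `Fd/ClkDefs.lean`).   EVERY number below is a tree number `skCNu` or one of `ckH2`, `ckC2`: existence of the limits, uniformity in the cuts and
continuity in the clocks are the exits `Exit/ClkLim`, `Exit/ClkLip` of PE Sec. 2; nothing new has to be constructed.

* `cmkStar p`           the star: all labels split at the position `p` (`= ghR2 p`);      `cmkComb p p'` 8 labels: `0..3` follow the path up to `max p p'`, `4..7` leave it at `min p p'`;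
* `cmkMX l p = E|X_p|^{2l}`,   `cmkMXc l p = E(|X_p|² - S_p)^{2l}`,   `cmkMR l p = E R_p^{2l}`,   `cmkMRc l p = E(R_p - S_p)^{2l}`,   `cmkQ4 p p' = E|X_p - X_p'|⁴`,   `cmkD2 p = D_p²`;
* `cmkNum n b h : CmNum`   the numbers of the path `(b,h)` as functions of the mass (position AFTER the jump); `TW := min 1 (E tr H²/u)` (an upper bound of `E tr HC`: the only thing P06 uses);
                        INSTANCE THEOREM: `cmk_num_ok` (file `Cmp/InstNum.lean`);      `cmkNumF n P : CmNum` the same for a STEP path (genuine expectations; `cmkCut P u` = cut at the mass `u`);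
* `cmkObj`, `CmkAdm`, `CmkSweep`, `CmkMin`, `cmkVal`, `cmkErr`      objective of (6), admissible strength / sweep, minimiser, `𝓜_λ`, the integral (7);
* `CmI`                 a comparison INSTANCE `(P, lam, b0, h0, q)`;  `I.b`, `I.h` the changed clocks, `I.num` their numbers, `I.chain F` the finite chain of the changed path through the positions `F`;
* `CmI.Std cE D0 Tm`    the standing hypotheses of Sec. 3: (3), (5), `0 < lam ≤ d²`, admissible strength, minimiser, total clocks `≤ Tm`;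
* `CmI.Loc ca ce c C C0 x`   the local hypotheses at the scale `x`: `x ≥ ca a`, `e(x) x² ≥ ce n E²`, outer regularity above `x`.
-/

set_option autoImplicit false

namespace Claimed.Agent.R286

open MeasureTheory Set

noncomputable section

/-- the mass clamped to `[0,1]` -/
def cmkCl (u : ℝ) : ℝ := max 0 (min u 1)

/-- the star: all labels split at `p` -/
def cmkStar (p : GhPos) : ℕ → ℕ → WithTop GhPos := ghR2 p

/-- 8 labels: `0..3` follow the path up to `max p p'` and split there, `4..7` leave it (and each other) at `min p p'` -/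
def cmkComb (p p' : GhPos) : ℕ → ℕ → WithTop GhPos := fun x y =>
  if x = y then ⊤ else if x < 4 ∧ y < 4 then ((max p p' : GhPos) : WithTop GhPos) else ((min p p' : GhPos) : WithTop GhPos)

section num

variable (n : ℕ) (b h : ℝ → ℝ)

/-- `E |X_p|^{2l}` -/
def cmkMX (l : ℕ) (p : GhPos) : ℝ :=
  skCNu n 1 b h (2 * l) (cmkStar p) fun σ =>
    ∏ i : Fin l, skOv (σ ⟨2 * i.1, by have := i.2; omega⟩) (σ ⟨2 * i.1 + 1, by have := i.2; omega⟩)
/-- `E (|X_p|² - S_p)^{2l}` -/
def cmkMXc (l : ℕ) (p : GhPos) : ℝ :=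
  skCNu n 1 b h (2 * (2 * l)) (cmkStar p) fun σ =>
    ∏ i : Fin (2 * l), (skOv (σ ⟨2 * i.1, by have := i.2; omega⟩) (σ ⟨2 * i.1 + 1, by have := i.2; omega⟩) - skCS n 1 b h p)
/-- `E R_p^{2l}`, two continuations split at `p` -/
def cmkMR (l : ℕ) (p : GhPos) : ℝ := skCNu n 1 b h 2 (cmkStar p) fun σ => skOv (σ 0) (σ 1) ^ (2 * l)
/-- `E (R_p - S_p)^{2l}` -/
def cmkMRc (l : ℕ) (p : GhPos) : ℝ := skCNu n 1 b h 2 (cmkStar p) fun σ => (skOv (σ 0) (σ 1) - skCS n 1 b h p) ^ (2 * l)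
/-- `E |X_p - X_p'|⁴`:   `|X_{p∨p'} - X_{p∧p'}|² = E[(y_0 - y_4)·(y_1 - y_5) | F_{p∨p'}]` -/
def cmkQ4 (p p' : GhPos) : ℝ :=
  skCNu n 1 b h 8 (cmkComb p p') fun σ =>
    (skOv (σ 0) (σ 1) - skOv (σ 0) (σ 5) - skOv (σ 4) (σ 1) + skOv (σ 4) (σ 5))
      * (skOv (σ 2) (σ 3) - skOv (σ 2) (σ 7) - skOv (σ 6) (σ 3) + skOv (σ 6) (σ 7))
/-- `D_p² = B_p - S_p²` -/
def cmkD2 (p : GhPos) : ℝ := skCB n 1 b h p - skCS n 1 b h p ^ 2

/-- **the numbers of the path `(b,h)`** as functions of the mass (positions after the jumps; the mass is clamped to `[0,1]`) -/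
def cmkNum : CmNum where
  S u := skCS n 1 b h (ghPosA (cmkCl u))
  D u := Real.sqrt (cmkD2 n b h (ghPosA (cmkCl u)))
  TH u := ckH2 n 1 b h (ghPosA (cmkCl u))
  TC u := ckC2 n 1 b h (ghPosA (cmkCl u))
  TW u := min 1 (ckH2 n 1 b h (ghPosA (cmkCl u)) / u)
  Q4 i j := cmkQ4 n b h (ghPosA (cmkCl i)) (ghPosA (cmkCl j))
  NX q u := cmkMX n b h q (ghPosA (cmkCl u)) ^ (1 / (2 * (q : ℝ)))
  NR u := Real.sqrt (skCB n 1 b h (ghPosA (cmkCl u)))

end num

/-- the cut of the step path `P` at the mass `u`: the number of revelations of mass `≤ u` -/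
def cmkCut (P : SkStp) (u : ℝ) : ℕ := (P.filter fun e => decide (e.m ≤ u)).length

/-- **the numbers of a STEP path** (genuine expectations on one planted path), piecewise constant functions of the mass -/
def cmkNumF (n : ℕ) (P : SkStp) : CmNum where
  S u := obS n 1 P 0 (cmkCut P (cmkCl u))
  D u := Real.sqrt (obD2 n 1 P 0 (cmkCut P (cmkCl u)))
  TH u := obTrH2 n 1 P 0 (cmkCut P (cmkCl u))
  TC u := obTrC2 n 1 P 0 (cmkCut P (cmkCl u))
  TW u := min 1 (obTrH2 n 1 P 0 (cmkCut P (cmkCl u)) / u)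
  Q4 i j := obE n 1 P 0 fun ξ _ => (∑ k, (obXp n 1 P 0 (cmkCut P (cmkCl i)) ξ k - obXp n 1 P 0 (cmkCut P (cmkCl j)) ξ k) ^ 2) ^ 2
  NX q u := (obE n 1 P 0 fun ξ _ => (∑ k, obXp n 1 P 0 (cmkCut P (cmkCl u)) ξ k ^ 2) ^ q) ^ (1 / (2 * (q : ℝ)))
  NR u := Real.sqrt (obB n 1 P 0 (cmkCut P (cmkCl u)))

section obj

variable (P : CmCall) (lam : ℝ) (b0 h0 : ℝ → ℝ)

/-- the objective `𝓕_λ` of (6) -/
def cmkObj (q : CmQ P) : ℝ := skCPr P.n 1 (q.bq lam b0) (q.hq lam h0) + q.pen lam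

/-- the call is admissible at the strength `lam` -/
def CmkAdm : Prop := ∀ q : CmQ P, CkAdm 1 (q.bq lam b0) (q.hq lam h0)

/-- admissible sweep from `0` to `lam` -/
def CmkSweep : Prop := ∀ l : ℝ, 0 ≤ l → l ≤ lam → CmkAdm P l b0 h0

/-- a minimiser of (6) -/
def CmkMin (q : CmQ P) : Prop := ∀ q' : CmQ P, cmkObj P lam b0 h0 q ≤ cmkObj P lam b0 h0 q'

/-- the optimal value `𝓜_λ` -/
def cmkVal : ℝ := sInf (range fun q : CmQ P => cmkObj P lam b0 h0 q)

/-- the integral (7) -/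
def cmkErr (q : CmQ P) : ℝ :=
  (1 / 4) * ∫ u in P.u0..1, P.e lam (q.r u) *
    (cmkD2 P.n (q.bq lam b0) (q.hq lam h0) (ghPosA u) + (skCS P.n 1 (q.bq lam b0) (q.hq lam h0) (ghPosA u) - q.r u) ^ 2)

end obj

/-- **a comparison instance** -/
structure CmI where
  P : CmCall
  lam : ℝ
  b0 : ℝ → ℝ
  h0 : ℝ → ℝ
  q : CmQ P

namespace CmI

variable (I : CmI)

/-- the changed matrix clock -/
def b : ℝ → ℝ := I.q.bq I.lam I.b0
/-- the changed field clock -/
def h : ℝ → ℝ := I.q.hq I.lam I.h0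
/-- the numbers of the changed path -/
def num : CmNum := cmkNum I.P.n I.b I.h
/-- the finite chain of the changed path through the positions of `F` -/
def chain (F : Finset GhPos) : SkStp := ckStp 1 I.b I.h (ghPs 1 F)

/-- **the standing hypotheses of Sec. 3** -/
structure Std (cE D0 Tm : ℝ) : Prop where
  ok : I.P.Ok cE D0
  lam0 : 0 < I.lam
  lam1 : I.lam ≤ I.P.d ^ 2
  adm : CmkAdm I.P I.lam I.b0 I.h0
  min : CmkMin I.P I.lam I.b0 I.h0 I.q
  bT : I.b 1 ≤ Tm
  hT : I.h 1 ≤ Tm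

/-- **the local hypotheses at the scale `x`** -/
structure Loc (ca ce c C C0 x : ℝ) : Prop where
  x0 : 0 < x
  x1 : x ≤ 1
  xa : ca * I.P.a ≤ x
  xe : ce * (I.P.N * I.P.E ^ 2) ≤ I.P.e I.lam x * x ^ 2
  reg : I.q.Reg c C C0 x

end CmI

theorem cmk_defs_eqns_cite : True := by
  have := @cmkCl.eq_1; have := @cmkCut.eq_1; have := @cmkNumF.eq_1; have := @cmkStar.eq_1; have := @cmkComb.eq_1; have := @cmkMX.eq_1
  have := @cmkMXc.eq_1; have := @cmkQ4.eq_1; have := @cmkMR.eq_1; have := @cmkMRc.eq_1; have := @cmkD2.eq_1; have := @cmkNum.eq_1; have := @cmkObj.eq_1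
  have := @CmkAdm.eq_1; have := @CmkSweep.eq_1; have := @CmkMin.eq_1; have := @cmkVal.eq_1; have := @cmkErr.eq_1; have := @CmI.b.eq_1; have := @CmI.h.eq_1
  have := @CmI.num.eq_1; have := @CmI.chain.eq_1
  trivial

end

end Claimed.Agent.R286
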