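import Claimed.Agent.R286.Cmp.P04Mult

/-!
# Row 286, PE Section 3 (package P04): the pressure interface and the optimised objective      (architect + OWNER helper255)

P04 uses nothing of the spin system but the interface `CmPr` / `CmPr.Ok`:
pressure `f`, moments `S`, `B` of a pair of clocks, the first line of PE (1) along segments (in mean value form),
and the fixed-`n` continuity of the moments in the clocks (proof of PE Proposition 2.14).

`CmObj` = an objective `f(b0 - c Fb(r), h0 + c Fh(r)) + ∫ c Fp(r)`, `r` = forward quantile: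
* PE (6), LL (C5): `c = 1_{[u0,1]}`, `Fb = e`, `Fh = e r`, `Fp = e r^2/4`;
* PE profile l.605, LL (G): `c` = a function of the mass, `Fb = 1`, `Fh = r`, `Fp = r^2/4`.
-/

set_option autoImplicit false

namespace Claimed.Agent.R286

open MeasureTheory Set Filter Topology
open scoped NNReal

/-- pressure and moments as functions of the two clocks -/
structure CmPr where
  Adm : (ℝ → ℝ) → (ℝ → ℝ) → Prop
  f : (ℝ → ℝ) → (ℝ → ℝ) → ℝ
  S : (ℝ → ℝ) → (ℝ → ℝ) → ℝ → ℝ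
  B : (ℝ → ℝ) → (ℝ → ℝ) → ℝ → ℝ

/-- the point at parameter `θ` of the segment from `b` to `b'` -/
def cmSeg (θ : ℝ) (b b' : ℝ → ℝ) : ℝ → ℝ := fun u => b u + θ * (b' u - b u)

/-- what P04 needs from PE Section 2 -/
structure CmPr.Ok (P : CmPr) : Prop where
  adm_seg : ∀ b h b' h', P.Adm b h → P.Adm b' h' → ∀ θ ∈ Icc (0:ℝ) 1, P.Adm (cmSeg θ b b') (cmSeg θ h h')
  S_nonneg : ∀ b h, P.Adm b h → ∀ u ∈ Icc (0:ℝ) 1, 0 ≤ P.S b h u
  S_sq : ∀ b h, P.Adm b h → ∀ u ∈ Icc (0:ℝ) 1, P.S b h u ^ 2 ≤ P.B b h u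
  B_le : ∀ b h, P.Adm b h → ∀ u ∈ Icc (0:ℝ) 1, P.B b h u ≤ 1
  S_mono : ∀ b h, P.Adm b h → MonotoneOn (P.S b h) (Icc 0 1)
  B_mono : ∀ b h, P.Adm b h → MonotoneOn (P.B b h) (Icc 0 1)
  /-- first line of PE (1), mean value form -/
  seg : ∀ b h b' h', P.Adm b h → P.Adm b' h' → ∃ θ ∈ Icc (0:ℝ) 1,
    P.f b' h' - P.f b h = -(1/4) * (∫ u in (0:ℝ)..1, P.B (cmSeg θ b b') (cmSeg θ h h') u * (b' u - b u))
      - (1/2) * ∫ u in (0:ℝ)..1, P.S (cmSeg θ b b') (cmSeg θ h h') u * (h' u - h u)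
  /-- only the values of the clocks on `[0,1]` matter -/
  congr : ∀ b h b' h', (∀ u ∈ Icc (0:ℝ) 1, b u = b' u) → (∀ u ∈ Icc (0:ℝ) 1, h u = h' u) →
    (P.Adm b h → P.Adm b' h') ∧ P.f b h = P.f b' h' ∧ ∀ u ∈ Icc (0:ℝ) 1, P.S b h u = P.S b' h' u ∧ P.B b h u = P.B b' h' u
  /-- continuity of the moments in the clocks -/
  cont : ∀ b h, P.Adm b h → ∀ ε > 0, ∃ δ > 0, ∀ b' h', P.Adm b' h' →
    (∀ u ∈ Icc (0:ℝ) 1, |b' u - b u| ≤ δ ∧ |h' u - h u| ≤ δ) →
    (∫ u in (0:ℝ)..1, |P.S b' h' u - P.S b h u|) ≤ ε ∧ (∫ u in (0:ℝ)..1, |P.B b' h' u - P.B b h u|) ≤ ε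

/-- data of an optimised objective -/
structure CmObj where
  b0 : ℝ → ℝ
  h0 : ℝ → ℝ
  c : ℝ → ℝ
  Fb : ℝ → ℝ
  Fh : ℝ → ℝ
  Fp : ℝ → ℝ
  Fb' : ℝ → ℝ
  Fh' : ℝ → ℝ
  Fp' : ℝ → ℝ

/-- standing assumptions on an objective -/
structure CmObj.Ok (O : CmObj) (X : CmBox) : Prop where
  hu0 : 0 ≤ X.u0
  hu1 : X.u1 ≤ 1
  c_meas : Measurable O.c
  c_bdd : ∃ C, ∀ u, |O.c u| ≤ C
  c_supp : ∀ u, u ∉ Icc X.u0 X.u1 → O.c u = 0
  dFb : ∀ r, HasDerivAt O.Fb (O.Fb' r) r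
  dFh : ∀ r, HasDerivAt O.Fh (O.Fh' r) r
  dFp : ∀ r, HasDerivAt O.Fp (O.Fp' r) r
  cFb : Continuous O.Fb'
  cFh : Continuous O.Fh'
  cFp : Continuous O.Fp'

/-- the changed matrix clock -/
noncomputable def CmObj.clkB (O : CmObj) (X : CmBox) (α : ℝ → ℝ) : ℝ → ℝ := fun u => O.b0 u - O.c u * O.Fb (X.inv α u)

/-- the changed field clock -/
noncomputable def CmObj.clkH (O : CmObj) (X : CmBox) (α : ℝ → ℝ) : ℝ → ℝ := fun u => O.h0 u + O.c u * O.Fh (X.inv α u)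

/-- the objective -/
noncomputable def CmObj.val (O : CmObj) (P : CmPr) (X : CmBox) (α : ℝ → ℝ) : ℝ :=
  P.f (O.clkB X α) (O.clkH X α) + ∫ u in (0:ℝ)..1, O.c u * O.Fp (X.inv α u)

/-- `S` of the changed clocks, at the mass `u` -/
noncomputable def CmObj.mS (O : CmObj) (P : CmPr) (X : CmBox) (α : ℝ → ℝ) (u : ℝ) : ℝ := P.S (O.clkB X α) (O.clkH X α) u

/-- `B` of the changed clocks, at the mass `u` -/
noncomputable def CmObj.mB (O : CmObj) (P : CmPr) (X : CmBox) (α : ℝ → ℝ) (u : ℝ) : ℝ := P.B (O.clkB X α) (O.clkH X α) u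

/-- the density of the first variation in radius coordinates (`= G/4` for PE (6)) -/
noncomputable def CmObj.grad (O : CmObj) (P : CmPr) (X : CmBox) (α : ℝ → ℝ) (s : ℝ) : ℝ :=
  O.c (α s) * (1/4 * O.mB P X α (α s) * O.Fb' s - 1/2 * O.mS P X α (α s) * O.Fh' s + O.Fp' s)

/-- all competitors give admissible clocks -/
def CmObj.AdmAll (O : CmObj) (P : CmPr) (X : CmBox) : Prop := ∀ α ∈ X.Q, P.Adm (O.clkB X α) (O.clkH X α)

variable {X : CmBox} {P : CmPr} {O : CmObj} {α β : ℝ → ℝ}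

/-! ### the layer cake formula -/

/-- a `C¹` function is Lipschitz on a compact interval -/
theorem cm4_lip_of_C1 {F F' : ℝ → ℝ} (hF : ∀ r, HasDerivAt F (F' r) r) (hF' : Continuous F') (a b : ℝ) :
    ∃ K : ℝ≥0, LipschitzOnWith K F (Icc a b) := by
  obtain ⟨C, hC⟩ := (isCompact_Icc (a := a) (b := b)).exists_bound_of_continuousOn hF'.continuousOn
  refine ⟨C.toNNReal, ?_⟩
  refine (convex_Icc a b).lipschitzOnWith_of_nnnorm_hasDerivWithin_le (f' := F') (fun x _ => (hF x).hasDerivWithinAt) ?_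
  intro x hx
  rw [← NNReal.coe_le_coe, coe_nnnorm]
  exact (hC x hx).trans (Real.le_coe_toNNReal C)

theorem cm4_inv_lipW (hX : X.Ok) (hα : α ∈ X.Q) : ∃ K : ℝ≥0, LipschitzWith K (X.inv α) := by
  obtain ⟨c, hc0, hc⟩ := hX.k_lo
  refine ⟨(1 / c).toNNReal, LipschitzWith.of_dist_le_mul fun u v => ?_⟩
  rw [Real.dist_eq, Real.dist_eq, Real.coe_toNNReal _ (by positivity)]
  calc |X.inv α u - X.inv α v| ≤ |u - v| / c := cm4_inv_lip hX hc0 hc hα u v
    _ = 1 / c * |u - v| := by ring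

theorem cm4_comp_inv_lip (hX : X.Ok) (hα : α ∈ X.Q) {F F' : ℝ → ℝ} (hF : ∀ r, HasDerivAt F (F' r) r) (hF' : Continuous F') :
    ∃ K : ℝ≥0, LipschitzWith K (fun u => F (X.inv α u)) := by
  obtain ⟨K1, h1⟩ := cm4_lip_of_C1 hF hF' X.r0 X.r1
  obtain ⟨K2, h2⟩ := cm4_inv_lipW hX hα
  refine ⟨K1 * K2, ?_⟩
  have := h1.comp h2.lipschitzOnWith (s := univ) (fun u _ => cm4_inv_mem hX hα u)
  rwa [lipschitzOnWith_univ] at this

/-- (names of helper81, used by `Cmp/P04Inst.lean`) -/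
theorem cm4o_inv_cont (hX : X.Ok) (hα : α ∈ X.Q) : Continuous (X.inv α) := by
  obtain ⟨K, hK⟩ := cm4_inv_lipW hX hα
  exact hK.continuous

theorem cm4o_bdd_mul {c g : ℝ → ℝ} {a b : ℝ} (hc : Measurable c) (hcb : ∃ C, ∀ u, |c u| ≤ C)
    (hg : IntervalIntegrable g volume a b) : IntervalIntegrable (fun u => c u * g u) volume a b := by
  obtain ⟨C, hC⟩ := hcb
  rw [intervalIntegrable_iff] at hg ⊢
  exact hg.bdd_mul hc.aestronglyMeasurable (Eventually.of_forall hC)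

theorem cm4o_cont_of_deriv {F F' : ℝ → ℝ} (hF : ∀ r, HasDerivAt F (F' r) r) : Continuous F :=
  continuous_iff_continuousAt.2 fun r => (hF r).continuousAt

/-- layer cake formula: `∫ W(u) F(r_α(u)) du = F(r1) V(u1) - ∫ F'(s) V(α s) ds`, `V = ∫_{u0} W` -/
theorem cm4_layer (hX : X.Ok) (hα : α ∈ X.Q) {W F F' : ℝ → ℝ} (hW : IntervalIntegrable W volume X.u0 X.u1)
    (hF : ∀ r, HasDerivAt F (F' r) r) (hF' : Continuous F') :
    ∫ u in X.u0..X.u1, W u * F (X.inv α u)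
      = F X.r1 * (∫ v in X.u0..X.u1, W v) - ∫ s in X.r0..X.r1, F' s * ∫ v in X.u0..(α s), W v := by
  set V : ℝ → ℝ := fun u => ∫ v in X.u0..u, W v with hV
  set R : ℝ → ℝ := X.inv α with hR
  have huIcc : uIcc X.u0 X.u1 = Icc X.u0 X.u1 := uIcc_of_le hX.hu.le
  have hVac : AbsolutelyContinuousOnInterval V X.u0 X.u1 :=
    hW.absolutelyContinuousOnInterval_intervalIntegral left_mem_uIcc
  have hVc : ContinuousOn V (Icc X.u0 X.u1) := huIcc ▸ hVac.continuousOn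
  have hαc : Continuous α := cm4_cont hX hα
  -- the continuous integrand in the radius
  have hhc : Continuous (fun s => F' s * V (α s)) :=
    hF'.mul (hVc.comp_continuous hαc fun s => cm4_mem hX hα s)
  set HH : ℝ → ℝ := fun s => ∫ x in X.r0..s, F' x * V (α x) with hHH
  have hHHd : ∀ s, HasDerivAt HH (F' s * V (α s)) s := fun s =>
    intervalIntegral.integral_hasDerivAt_right (hhc.intervalIntegrable _ _)
      hhc.stronglyMeasurable.stronglyMeasurableAtFilter hhc.continuousAt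
  obtain ⟨K1, hK1⟩ := cm4_comp_inv_lip hX hα hF hF'
  obtain ⟨K2, hK2⟩ := cm4_comp_inv_lip hX hα hHHd hhc
  have hFRac : AbsolutelyContinuousOnInterval (fun u => F (R u)) X.u0 X.u1 :=
    (hK1.lipschitzOnWith (s := uIcc X.u0 X.u1)).absolutelyContinuousOnInterval
  have hHRac : AbsolutelyContinuousOnInterval (fun u => HH (R u)) X.u0 X.u1 :=
    (hK2.lipschitzOnWith (s := uIcc X.u0 X.u1)).absolutelyContinuousOnInterval
  have hTac : AbsolutelyContinuousOnInterval (fun u => V u * F (R u) - HH (R u)) X.u0 X.u1 :=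
    (hVac.mul hFRac).sub hHRac
  have hftc := hTac.integral_deriv_eq_sub
  have hRd : ∀ᵐ u, DifferentiableAt ℝ R u := (cm4_inv_mono hX hα).ae_differentiableAt
  have hVd := hW.ae_hasDerivAt_integral
  have hae : ∀ᵐ u, u ∈ uIoc X.u0 X.u1 → deriv (fun u => V u * F (R u) - HH (R u)) u = W u * F (R u) := by
    filter_upwards [hRd, hVd] with u h1 h2 hu
    have hu' : u ∈ Icc X.u0 X.u1 := by
      rw [uIoc_of_le hX.hu.le] at hu; exact ⟨hu.1.le, hu.2⟩
    have h3 : HasDerivAt V (W u) u := h2 (huIcc ▸ hu') X.u0 left_mem_uIcc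
    have h4 : HasDerivAt (fun u => F (R u)) (F' (R u) * deriv R u) u := (hF (R u)).comp u h1.hasDerivAt
    have h5 : HasDerivAt (fun u => HH (R u)) (F' (R u) * V (α (R u)) * deriv R u) u := (hHHd (R u)).comp u h1.hasDerivAt
    have h6 : α (R u) = u := cm4_inv_right hX hα hu'
    have h7 : HasDerivAt (fun u => V u * F (R u) - HH (R u))
        (W u * F (R u) + V u * (F' (R u) * deriv R u) - F' (R u) * V (α (R u)) * deriv R u) u := (h3.mul h4).sub h5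
    rw [h7.deriv, h6]
    ring
  rw [intervalIntegral.integral_congr_ae hae] at hftc
  rw [hftc]
  have e1 : R X.u1 = X.r1 := cm4_inv_above hX hα le_rfl
  have e0 : R X.u0 = X.r0 := cm4_inv_below hX hα le_rfl
  simp only [e1, e0, hV, hHH, intervalIntegral.integral_same]
  ring

/-- a direction along which `α` can be moved inside the class is continuous, hence bounded on `[r0,r1]` -/
theorem cm4_dir_bdd (hX : X.Ok) (hα : α ∈ X.Q) {η : ℝ → ℝ}
    (hη : ∀ᶠ ε in 𝓝[>] (0:ℝ), (fun r => α r + ε * η r) ∈ X.Q) : Continuous η ∧ ∃ C, 0 ≤ C ∧ ∀ r, |η r| ≤ C := by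
  obtain ⟨ε, hε, hε0⟩ := (hη.and self_mem_nhdsWithin).exists
  have hε0' : (0:ℝ) < ε := hε0
  have h1 : Continuous (fun r => α r + ε * η r) := cm4_cont hX hε
  have h2 : Continuous α := cm4_cont hX hα
  have e : η = fun r => ((α r + ε * η r) - α r) / ε := by
    funext r; field_simp; ring
  have hc : Continuous η := by
    rw [e]; exact (h1.sub h2).div_const _
  refine ⟨hc, (X.u1 - X.u0) / ε, div_nonneg (by linarith [hX.hu]) hε0'.le, fun r => ?_⟩
  have a1 := cm4_mem hX hε r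
  have a2 := cm4_mem hX hα r
  rw [le_div_iff₀ hε0', ← abs_of_pos hε0', ← abs_mul, abs_le]
  constructor <;> nlinarith [a1.1, a1.2, a2.1, a2.2]

/-- derivative of `∫ W F(r)` along `α + ε η` -/
theorem cm4_layer_deriv (hX : X.Ok) (hα : α ∈ X.Q) {W F F' η : ℝ → ℝ} (hW : IntervalIntegrable W volume X.u0 X.u1)
    (hWb : ∃ C, ∀ u ∈ Icc X.u0 X.u1, |W u| ≤ C)
    (hF : ∀ r, HasDerivAt F (F' r) r) (hF' : Continuous F')
    (hη : ∀ᶠ ε in 𝓝[>] (0:ℝ), (fun r => α r + ε * η r) ∈ X.Q) :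
    Tendsto (fun ε => (∫ u in X.u0..X.u1, W u * (F (X.inv (fun r => α r + ε * η r) u) - F (X.inv α u))) / ε)
      (𝓝[>] 0) (𝓝 (-∫ s in X.r0..X.r1, W (α s) * F' s * η s)) := by
  set V : ℝ → ℝ := fun u => ∫ v in X.u0..u, W v with hV
  have huIcc : uIcc X.u0 X.u1 = Icc X.u0 X.u1 := uIcc_of_le hX.hu.le
  have hVac : AbsolutelyContinuousOnInterval V X.u0 X.u1 :=
    hW.absolutelyContinuousOnInterval_intervalIntegral left_mem_uIcc
  have hVc : ContinuousOn V (Icc X.u0 X.u1) := huIcc ▸ hVac.continuousOn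
  have hαc : Continuous α := cm4_cont hX hα
  obtain ⟨hηc, Cη, hCη0, hCη⟩ := cm4_dir_bdd hX hα hη
  obtain ⟨CW, hCW⟩ := hWb
  have hCW0 : 0 ≤ CW := (abs_nonneg _).trans (hCW X.u0 ⟨le_rfl, hX.hu.le⟩)
  obtain ⟨CF, hCF⟩ := (isCompact_Icc (a := X.r0) (b := X.r1)).exists_bound_of_continuousOn hF'.continuousOn
  -- `V` is Lipschitz on `[u0,u1]`
  have hVlip : ∀ x ∈ Icc X.u0 X.u1, ∀ y ∈ Icc X.u0 X.u1, |V y - V x| ≤ CW * |y - x| := by
    intro x hx y hy
    have hint : ∀ z ∈ Icc X.u0 X.u1, IntervalIntegrable W volume X.u0 z := fun z hz =>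
      hW.mono_set (by rw [uIcc_of_le hz.1, uIcc_of_le hX.hu.le]; exact Icc_subset_Icc le_rfl hz.2)
    have e : V y - V x = ∫ v in x..y, W v := by
      simp only [hV]
      rw [intervalIntegral.integral_interval_sub_left (hint y hy) (hint x hx)]
    rw [e, ← Real.norm_eq_abs]
    refine intervalIntegral.norm_integral_le_of_norm_le_const fun v hv => ?_
    rw [Real.norm_eq_abs]
    apply hCW
    have : uIoc x y ⊆ Icc X.u0 X.u1 := by
      intro z hz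
      rcases le_total x y with h | h
      · rw [uIoc_of_le h] at hz; exact ⟨hx.1.trans hz.1.le, hz.2.trans hy.2⟩
      · rw [uIoc_of_ge h] at hz; exact ⟨hy.1.trans hz.1.le, hz.2.trans hx.2⟩
    exact this hv
  -- the difference quotient as an integral in the radius
  have hEq : ∀ᶠ ε in 𝓝[>] (0:ℝ),
      (∫ u in X.u0..X.u1, W u * (F (X.inv (fun r => α r + ε * η r) u) - F (X.inv α u))) / ε
        = -∫ s in X.r0..X.r1, F' s * ((V (α s + ε * η s) - V (α s)) / ε) := by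
    filter_upwards [hη, self_mem_nhdsWithin] with ε hε hε0
    have hβc : Continuous (fun r => α r + ε * η r) := cm4_cont hX hε
    obtain ⟨K1, hK1⟩ := cm4_comp_inv_lip hX hε hF hF'
    obtain ⟨K2, hK2⟩ := cm4_comp_inv_lip hX hα hF hF'
    have i1 : IntervalIntegrable (fun u => W u * F (X.inv (fun r => α r + ε * η r) u)) volume X.u0 X.u1 :=
      hW.mul_continuousOn hK1.continuous.continuousOn
    have i2 : IntervalIntegrable (fun u => W u * F (X.inv α u)) volume X.u0 X.u1 :=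
      hW.mul_continuousOn hK2.continuous.continuousOn
    have c1 : Continuous (fun s => F' s * V (α s + ε * η s)) :=
      hF'.mul (hVc.comp_continuous hβc fun s => cm4_mem hX hε s)
    have c2 : Continuous (fun s => F' s * V (α s)) :=
      hF'.mul (hVc.comp_continuous hαc fun s => cm4_mem hX hα s)
    have e1 : ∫ u in X.u0..X.u1, W u * (F (X.inv (fun r => α r + ε * η r) u) - F (X.inv α u))
        = (∫ u in X.u0..X.u1, W u * F (X.inv (fun r => α r + ε * η r) u)) - ∫ u in X.u0..X.u1, W u * F (X.inv α u) := by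
      rw [← intervalIntegral.integral_sub i1 i2]
      congr 1; funext u; ring
    rw [e1, cm4_layer hX hε hW hF hF', cm4_layer hX hα hW hF hF']
    have e2 : ∫ s in X.r0..X.r1, F' s * ((V (α s + ε * η s) - V (α s)) / ε)
        = ((∫ s in X.r0..X.r1, F' s * V (α s + ε * η s)) - ∫ s in X.r0..X.r1, F' s * V (α s)) / ε := by
      rw [← intervalIntegral.integral_sub (c1.intervalIntegrable _ _) (c2.intervalIntegrable _ _),
        ← intervalIntegral.integral_div]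
      congr 1; funext s; ring
    rw [e2]
    simp only [hV]
    ring
  refine Tendsto.congr' (hEq.mono fun ε h => h.symm) ?_
  refine Tendsto.neg ?_
  -- dominated convergence
  have hnull : ∀ᵐ s, s ∈ Icc X.r0 X.r1 → HasDerivAt V (W (α s)) (α s) := by
    have h1 := hW.ae_hasDerivAt_integral
    rw [ae_iff] at h1
    have h2 := cm4_null hX hα h1
    rw [ae_iff]
    refine measure_mono_null ?_ h2
    intro s hs
    simp only [Set.mem_ofPred_eq, Classical.not_imp] at hs ⊢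
    refine ⟨hs.1, huIcc ▸ cm4_mem hX hα s, ?_⟩
    intro hcon
    exact hs.2 (hcon X.u0 left_mem_uIcc)
  refine intervalIntegral.tendsto_integral_filter_of_dominated_convergence (fun _ => CF * (CW * Cη)) ?_ ?_ ?_ ?_
  · filter_upwards [hη] with ε hε
    have hβc : Continuous (fun r => α r + ε * η r) := cm4_cont hX hε
    have c1 : Continuous (fun s => F' s * ((V (α s + ε * η s) - V (α s)) / ε)) :=
      hF'.mul (((hVc.comp_continuous hβc fun s => cm4_mem hX hε s).sub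
        (hVc.comp_continuous hαc fun s => cm4_mem hX hα s)).div_const _)
    exact c1.aestronglyMeasurable
  · filter_upwards [hη, self_mem_nhdsWithin] with ε hε hε0
    have hε0' : (0:ℝ) < ε := hε0
    refine ae_of_all _ fun s hs => ?_
    have hs' : s ∈ Icc X.r0 X.r1 := by
      rw [uIoc_of_le hX.hr.le] at hs; exact ⟨hs.1.le, hs.2⟩
    rw [norm_mul]
    refine mul_le_mul (hCF s hs') ?_ (norm_nonneg _) ((norm_nonneg _).trans (hCF s hs'))
    rw [Real.norm_eq_abs, abs_div, abs_of_pos hε0', div_le_iff₀ hε0']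
    have := hVlip (α s) (cm4_mem hX hα s) (α s + ε * η s) (cm4_mem hX hε s)
    calc |V (α s + ε * η s) - V (α s)| ≤ CW * |α s + ε * η s - α s| := this
      _ = CW * (ε * |η s|) := by rw [add_sub_cancel_left, abs_mul, abs_of_pos hε0']
      _ ≤ CW * (ε * Cη) := by gcongr; exact hCη s
      _ = CW * Cη * ε := by ring
  · exact intervalIntegrable_const
  · filter_upwards [hnull] with s hs hs1
    have hs' : s ∈ Icc X.r0 X.r1 := by
      rw [uIoc_of_le hX.hr.le] at hs1; exact ⟨hs1.1.le, hs1.2⟩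
    have h1 : HasDerivAt V (W (α s)) (α s + 0 * η s) := by simpa using hs hs'
    have h2 : HasDerivAt (fun ε : ℝ => α s + ε * η s) (η s) 0 := by
      simpa using ((hasDerivAt_id (0:ℝ)).mul_const (η s)).const_add (α s)
    have h3 : HasDerivAt (fun ε : ℝ => V (α s + ε * η s)) (W (α s) * η s) 0 :=
      HasDerivAt.comp (h₂ := V) (h := fun ε : ℝ => α s + ε * η s) 0 h1 h2
    have h4 := h3.tendsto_slope_zero_right
    simp only [zero_add, zero_mul, add_zero, smul_eq_mul] at h4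
    have h5 : Tendsto (fun ε : ℝ => F' s * ((V (α s + ε * η s) - V (α s)) / ε)) (𝓝[>] 0) (𝓝 (F' s * (W (α s) * η s))) := by
      refine Tendsto.const_mul _ ?_
      refine h4.congr fun ε => ?_
      rw [div_eq_inv_mul]
    convert h5 using 2
    ring

/-! ### the objective -/

theorem cm4_ii_mul {A g : ℝ → ℝ} {a b C : ℝ} (hA : IntervalIntegrable A volume a b) (hg : Measurable g)
    (hgb : ∀ u, |g u| ≤ C) : IntervalIntegrable (fun u => A u * g u) volume a b :=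
  ⟨hA.1.mul_bdd hg.aestronglyMeasurable (ae_of_all _ hgb), hA.2.mul_bdd hg.aestronglyMeasurable (ae_of_all _ hgb)⟩

/-- integrals of functions supported in `[u0,u1]` -/
theorem cm4_int_supp (hX : X.Ok) (hO : O.Ok X) {f : ℝ → ℝ} (hf : ∀ u, u ∉ Icc X.u0 X.u1 → f u = 0) :
    ∫ u in (0:ℝ)..1, f u = ∫ u in X.u0..X.u1, f u := by
  rw [intervalIntegral.integral_of_le zero_le_one, intervalIntegral.integral_of_le hX.hu.le]
  refine setIntegral_eq_of_subset_of_ae_sdiff_eq_zero measurableSet_Ioc.nullMeasurableSet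
    (Ioc_subset_Ioc hO.hu0 hO.hu1) ?_
  have h0 : ∀ᵐ u : ℝ, u ≠ X.u0 := by
    simp [ae_iff, measure_singleton]
  filter_upwards [h0] with u hu hu2
  apply hf
  intro hc
  exact hu2.2 ⟨lt_of_le_of_ne hc.1 (Ne.symm hu), hc.2⟩

/-- the increment `c (F(r_β) - F(r_α))` is measurable and bounded -/
theorem cm4_incr (hX : X.Ok) (hO : O.Ok X) (hα : α ∈ X.Q) (hβ : β ∈ X.Q) {F F' : ℝ → ℝ} (hF : ∀ r, HasDerivAt F (F' r) r)
    (hF' : Continuous F') :
    Measurable (fun u => O.c u * (F (X.inv β u) - F (X.inv α u))) := by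
  obtain ⟨K1, h1⟩ := cm4_comp_inv_lip hX hα hF hF'
  obtain ⟨K2, h2⟩ := cm4_comp_inv_lip hX hβ hF hF'
  exact hO.c_meas.mul (h2.continuous.measurable.sub h1.continuous.measurable)

/-- uniform bound of the increments -/
theorem cm4_incr_le (hX : X.Ok) {F F' : ℝ → ℝ} (hF : ∀ r, HasDerivAt F (F' r) r) (hF' : Continuous F') :
    ∃ K : ℝ, 0 ≤ K ∧ ∀ α ∈ X.Q, ∀ β ∈ X.Q, ∀ δ, (∀ r ∈ Icc X.r0 X.r1, |β r - α r| ≤ δ) →
      ∀ u, |F (X.inv β u) - F (X.inv α u)| ≤ K * δ := by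
  obtain ⟨c, hc0, hc⟩ := hX.k_lo
  obtain ⟨K1, h1⟩ := cm4_lip_of_C1 hF hF' X.r0 X.r1
  refine ⟨K1 / c, by positivity, fun α hα β hβ δ h u => ?_⟩
  have h2 := h1.dist_le_mul _ (cm4_inv_mem hX hβ u) _ (cm4_inv_mem hX hα u)
  rw [Real.dist_eq, Real.dist_eq] at h2
  have h3 := cm4_inv_stab hX hc0 hc hβ hα h u
  calc |F (X.inv β u) - F (X.inv α u)| ≤ K1 * |X.inv β u - X.inv α u| := h2
    _ ≤ K1 * (δ / c) := by gcongr
    _ = K1 / c * δ := by ring

theorem cm4_S_le_one (hP : P.Ok) {b h : ℝ → ℝ} (hA : P.Adm b h) {u : ℝ} (hu : u ∈ Icc (0:ℝ) 1) : P.S b h u ≤ 1 := by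
  have h1 := hP.S_sq b h hA u hu
  have h2 := hP.B_le b h hA u hu
  have h3 := hP.S_nonneg b h hA u hu
  nlinarith

theorem cm4_B_nonneg (hP : P.Ok) {b h : ℝ → ℝ} (hA : P.Adm b h) {u : ℝ} (hu : u ∈ Icc (0:ℝ) 1) : 0 ≤ P.B b h u :=
  (sq_nonneg _).trans (hP.S_sq b h hA u hu)

theorem cm4_S_ii (hP : P.Ok) {b h : ℝ → ℝ} (hA : P.Adm b h) : IntervalIntegrable (P.S b h) volume 0 1 :=
  MonotoneOn.intervalIntegrable (by rw [uIcc_of_le zero_le_one]; exact hP.S_mono b h hA)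

theorem cm4_B_ii (hP : P.Ok) {b h : ℝ → ℝ} (hA : P.Adm b h) : IntervalIntegrable (P.B b h) volume 0 1 :=
  MonotoneOn.intervalIntegrable (by rw [uIcc_of_le zero_le_one]; exact hP.B_mono b h hA)

/-- the trilinear expression of the increments -/
noncomputable def CmObj.tri (O : CmObj) (X : CmBox) (BB SS α β : ℝ → ℝ) : ℝ :=
  ∫ u in (0:ℝ)..1, O.c u *
        (1/4 * BB u * (O.Fb (X.inv β u) - O.Fb (X.inv α u)) - 1/2 * SS u * (O.Fh (X.inv β u) - O.Fh (X.inv α u))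
          + (O.Fp (X.inv β u) - O.Fp (X.inv α u)))

theorem cm4_tri_split (hX : X.Ok) (hO : O.Ok X) (hα : α ∈ X.Q) (hβ : β ∈ X.Q) {BB SS : ℝ → ℝ}
    (hB : IntervalIntegrable BB volume 0 1) (hS : IntervalIntegrable SS volume 0 1) :
    O.tri X BB SS α β = 1/4 * (∫ u in (0:ℝ)..1, BB u * (O.c u * (O.Fb (X.inv β u) - O.Fb (X.inv α u))))
      - 1/2 * (∫ u in (0:ℝ)..1, SS u * (O.c u * (O.Fh (X.inv β u) - O.Fh (X.inv α u))))
      + ∫ u in (0:ℝ)..1, O.c u * (O.Fp (X.inv β u) - O.Fp (X.inv α u)) := by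
  obtain ⟨Cc, hCc⟩ := hO.c_bdd
  have bd : ∀ {F F' : ℝ → ℝ} (hF : ∀ r, HasDerivAt F (F' r) r) (hF' : Continuous F'),
      ∃ C, ∀ u, |O.c u * (F (X.inv β u) - F (X.inv α u))| ≤ C := by
    intro F F' hF hF'
    obtain ⟨K, hK0, hK⟩ := cm4_incr_le hX hF hF'
    refine ⟨Cc * (K * (X.u1 - X.u0)), fun u => ?_⟩
    rw [abs_mul]
    refine mul_le_mul (hCc u) (hK α hα β hβ _ (fun r _ => ?_) u) (abs_nonneg _) ((abs_nonneg _).trans (hCc u))
    have a1 := cm4_mem hX hα r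
    have a2 := cm4_mem hX hβ r
    rw [abs_le]; constructor <;> linarith [a1.1, a1.2, a2.1, a2.2]
  obtain ⟨C1, h1⟩ := bd hO.dFb hO.cFb
  obtain ⟨C2, h2⟩ := bd hO.dFh hO.cFh
  obtain ⟨C3, h3⟩ := bd hO.dFp hO.cFp
  have i1 := cm4_ii_mul hB (cm4_incr hX hO hα hβ hO.dFb hO.cFb) h1
  have i2 := cm4_ii_mul hS (cm4_incr hX hO hα hβ hO.dFh hO.cFh) h2
  have i3 : IntervalIntegrable (fun u => O.c u * (O.Fp (X.inv β u) - O.Fp (X.inv α u))) volume 0 1 := by
    have := cm4_ii_mul (intervalIntegrable_const (c := (1:ℝ)) (a := 0) (b := 1) (μ := volume))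
      (cm4_incr hX hO hα hβ hO.dFp hO.cFp) h3
    simpa using this
  rw [← intervalIntegral.integral_const_mul, ← intervalIntegral.integral_const_mul,
    ← intervalIntegral.integral_sub (i1.const_mul _) (i2.const_mul _),
    ← intervalIntegral.integral_add ((i1.const_mul _).sub (i2.const_mul _)) i3]
  unfold CmObj.tri
  congr 1; funext u; ring

/-- exact difference of two values of the objective (same data, two quantiles) -/
theorem cm4_val_sub (hP : P.Ok) (hX : X.Ok) (hO : O.Ok X) (hA : O.AdmAll P X) (hα : α ∈ X.Q) (hβ : β ∈ X.Q) :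
    ∃ θ ∈ Icc (0:ℝ) 1, O.val P X β - O.val P X α =
      O.tri X (P.B (cmSeg θ (O.clkB X α) (O.clkB X β)) (cmSeg θ (O.clkH X α) (O.clkH X β)))
        (P.S (cmSeg θ (O.clkB X α) (O.clkB X β)) (cmSeg θ (O.clkH X α) (O.clkH X β))) α β := by
  obtain ⟨θ, hθ, h⟩ := hP.seg _ _ _ _ (hA α hα) (hA β hβ)
  refine ⟨θ, hθ, ?_⟩
  have hAθ := hP.adm_seg _ _ _ _ (hA α hα) (hA β hβ) θ hθ
  rw [cm4_tri_split hX hO hα hβ (cm4_B_ii hP hAθ) (cm4_S_ii hP hAθ)]
  obtain ⟨K1, hK1⟩ := cm4_comp_inv_lip hX hα hO.dFp hO.cFp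
  obtain ⟨K2, hK2⟩ := cm4_comp_inv_lip hX hβ hO.dFp hO.cFp
  obtain ⟨Cc, hCc⟩ := hO.c_bdd
  have ic : IntervalIntegrable O.c volume 0 1 := by
    have := cm4_ii_mul (intervalIntegrable_const (c := (1:ℝ)) (a := 0) (b := 1) (μ := volume)) hO.c_meas hCc
    simpa using this
  have j1 : IntervalIntegrable (fun u => O.c u * O.Fp (X.inv α u)) volume 0 1 := ic.mul_continuousOn hK1.continuous.continuousOn
  have j2 : IntervalIntegrable (fun u => O.c u * O.Fp (X.inv β u)) volume 0 1 := ic.mul_continuousOn hK2.continuous.continuousOn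
  have e3 : ∫ u in (0:ℝ)..1, O.c u * (O.Fp (X.inv β u) - O.Fp (X.inv α u))
      = (∫ u in (0:ℝ)..1, O.c u * O.Fp (X.inv β u)) - ∫ u in (0:ℝ)..1, O.c u * O.Fp (X.inv α u) := by
    rw [← intervalIntegral.integral_sub j2 j1]; congr 1; funext u; ring
  have e1 : ∀ BB : ℝ → ℝ, ∫ u in (0:ℝ)..1, BB u * (O.clkB X β u - O.clkB X α u)
      = -∫ u in (0:ℝ)..1, BB u * (O.c u * (O.Fb (X.inv β u) - O.Fb (X.inv α u))) := by
    intro BB
    rw [← intervalIntegral.integral_neg]; congr 1; funext u; simp only [CmObj.clkB]; ring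
  have e2 : ∀ SS : ℝ → ℝ, ∫ u in (0:ℝ)..1, SS u * (O.clkH X β u - O.clkH X α u)
      = ∫ u in (0:ℝ)..1, SS u * (O.c u * (O.Fh (X.inv β u) - O.Fh (X.inv α u))) := by
    intro SS
    congr 1; funext u; simp only [CmObj.clkH]; ring
  rw [e1, e2] at h
  unfold CmObj.val
  rw [e3]
  linarith


theorem cm4_ii_bdd {g : ℝ → ℝ} {C : ℝ} (hg : Measurable g) (hb : ∀ u, |g u| ≤ C) (a b : ℝ) :
    IntervalIntegrable g volume a b := by
  have := cm4_ii_mul (intervalIntegrable_const (c := (1:ℝ)) (a := a) (b := b) (μ := volume)) hg hb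
  simpa using this

/-- bound of one term -/
theorem cm4_term_le {A g : ℝ → ℝ} {G : ℝ} (hA : IntervalIntegrable A volume 0 1) (hg : Measurable g) (hgb : ∀ u, |g u| ≤ G) :
    |∫ u in (0:ℝ)..1, A u * g u| ≤ G * ∫ u in (0:ℝ)..1, |A u| := by
  have i1 := cm4_ii_mul hA hg hgb
  calc |∫ u in (0:ℝ)..1, A u * g u| ≤ ∫ u in (0:ℝ)..1, |A u * g u| :=
        intervalIntegral.abs_integral_le_integral_abs zero_le_one
    _ ≤ ∫ u in (0:ℝ)..1, G * |A u| := by
        refine intervalIntegral.integral_mono_on zero_le_one i1.abs (hA.abs.const_mul _) fun u _ => ?_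
        rw [abs_mul, mul_comm]
        exact mul_le_mul_of_nonneg_right (hgb u) (abs_nonneg _)
    _ = G * ∫ u in (0:ℝ)..1, |A u| := intervalIntegral.integral_const_mul _ _

theorem cm4_int_abs_le_one {A : ℝ → ℝ} (hA : IntervalIntegrable A volume 0 1) (h0 : ∀ u ∈ Icc (0:ℝ) 1, 0 ≤ A u)
    (h1 : ∀ u ∈ Icc (0:ℝ) 1, A u ≤ 1) : ∫ u in (0:ℝ)..1, |A u| ≤ 1 := by
  calc ∫ u in (0:ℝ)..1, |A u| ≤ ∫ u in (0:ℝ)..1, (1:ℝ) := by
        refine intervalIntegral.integral_mono_on zero_le_one hA.abs intervalIntegrable_const fun u hu => ?_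
        rw [abs_of_nonneg (h0 u hu)]; exact h1 u hu
    _ = 1 := by simp

/-- the objective is Lipschitz for the uniform distance -/
theorem cm4_val_lip (hP : P.Ok) (hX : X.Ok) (hO : O.Ok X) (hA : O.AdmAll P X) :
    ∃ C, ∀ α ∈ X.Q, ∀ β ∈ X.Q, ∀ δ, (∀ r ∈ Icc X.r0 X.r1, |β r - α r| ≤ δ) → |O.val P X β - O.val P X α| ≤ C * δ := by
  obtain ⟨Cc, hCc⟩ := hO.c_bdd
  have hCc0 : 0 ≤ Cc := (abs_nonneg _).trans (hCc 0)
  obtain ⟨Kb, hKb0, hKb⟩ := cm4_incr_le hX hO.dFb hO.cFb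
  obtain ⟨Kh, hKh0, hKh⟩ := cm4_incr_le hX hO.dFh hO.cFh
  obtain ⟨Kp, hKp0, hKp⟩ := cm4_incr_le hX hO.dFp hO.cFp
  refine ⟨Cc * (1/4 * Kb + 1/2 * Kh + Kp), fun α hα β hβ δ hδ => ?_⟩
  obtain ⟨θ, hθ, h⟩ := cm4_val_sub hP hX hO hA hα hβ
  have hAθ := hP.adm_seg _ _ _ _ (hA α hα) (hA β hβ) θ hθ
  rw [h, cm4_tri_split hX hO hα hβ (cm4_B_ii hP hAθ) (cm4_S_ii hP hAθ)]
  have bd : ∀ {F : ℝ → ℝ} {K : ℝ}, (∀ u, |F (X.inv β u) - F (X.inv α u)| ≤ K * δ) →
      ∀ u, |O.c u * (F (X.inv β u) - F (X.inv α u))| ≤ Cc * (K * δ) := by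
    intro F K hK u
    rw [abs_mul]
    exact mul_le_mul (hCc u) (hK u) (abs_nonneg _) hCc0
  have t1 := cm4_term_le (cm4_B_ii hP hAθ) (cm4_incr hX hO hα hβ hO.dFb hO.cFb) (bd (hKb α hα β hβ δ hδ))
  have t2 := cm4_term_le (cm4_S_ii hP hAθ) (cm4_incr hX hO hα hβ hO.dFh hO.cFh) (bd (hKh α hα β hβ δ hδ))
  have t3 := cm4_term_le (intervalIntegrable_const (c := (1:ℝ)) (a := 0) (b := 1) (μ := volume))
    (cm4_incr hX hO hα hβ hO.dFp hO.cFp) (bd (hKp α hα β hβ δ hδ))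
  have s1 := cm4_int_abs_le_one (cm4_B_ii hP hAθ) (fun u hu => cm4_B_nonneg hP hAθ hu) (fun u hu => hP.B_le _ _ hAθ u hu)
  have s2 := cm4_int_abs_le_one (cm4_S_ii hP hAθ) (fun u hu => hP.S_nonneg _ _ hAθ u hu) (fun u hu => cm4_S_le_one hP hAθ hu)
  have hδ0 : 0 ≤ δ := (abs_nonneg _).trans (hδ X.r0 ⟨le_rfl, hX.hr.le⟩)
  simp only [one_mul, abs_one, intervalIntegral.integral_const, sub_zero, smul_eq_mul, mul_one] at t3
  have n1 : 0 ≤ Cc * (Kb * δ) := by positivity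
  have n2 : 0 ≤ Cc * (Kh * δ) := by positivity
  have u1 := t1.trans (mul_le_mul_of_nonneg_left s1 n1)
  have u2 := t2.trans (mul_le_mul_of_nonneg_left s2 n2)
  rw [abs_le] at u1 u2 t3 ⊢
  constructor <;> nlinarith [u1.1, u1.2, u2.1, u2.2, t3.1, t3.2]

/-- the minimum is attained -/
theorem cm4_val_attain (hP : P.Ok) (hX : X.Ok) (hO : O.Ok X) (hA : O.AdmAll P X) (hne : X.Q.Nonempty) :
    ∃ α ∈ X.Q, ∀ β ∈ X.Q, O.val P X α ≤ O.val P X β := by
  obtain ⟨C, hC⟩ := cm4_val_lip hP hX hO hA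
  refine cm4_attain hX hne fun α hα ε hε => ?_
  refine ⟨ε / (|C| + 1), by positivity, fun β hβ h => ?_⟩
  have h1 := hC α hα β hβ _ h
  have h2 : C * (ε / (|C| + 1)) ≤ ε := by
    rw [← mul_div_assoc, div_le_iff₀ (by positivity)]
    nlinarith [le_abs_self C]
  have h3 := (abs_le.1 (h1.trans h2)).1
  linarith

theorem cm4_mB_comp_mono (hP : P.Ok) (hX : X.Ok) (hO : O.Ok X) (hA : O.AdmAll P X) (hα : α ∈ X.Q) :
    Monotone (fun s => O.mB P X α (α s)) := fun s t hst =>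
  hP.B_mono _ _ (hA α hα) ⟨hO.hu0.trans (cm4_mem hX hα s).1, (cm4_mem hX hα s).2.trans hO.hu1⟩
    ⟨hO.hu0.trans (cm4_mem hX hα t).1, (cm4_mem hX hα t).2.trans hO.hu1⟩ (cm4_mono hX hα hst)

theorem cm4_mS_comp_mono (hP : P.Ok) (hX : X.Ok) (hO : O.Ok X) (hA : O.AdmAll P X) (hα : α ∈ X.Q) :
    Monotone (fun s => O.mS P X α (α s)) := fun s t hst =>
  hP.S_mono _ _ (hA α hα) ⟨hO.hu0.trans (cm4_mem hX hα s).1, (cm4_mem hX hα s).2.trans hO.hu1⟩
    ⟨hO.hu0.trans (cm4_mem hX hα t).1, (cm4_mem hX hα t).2.trans hO.hu1⟩ (cm4_mono hX hα hst)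

theorem cm4_mem01 (hX : X.Ok) (hO : O.Ok X) (hα : α ∈ X.Q) (s : ℝ) : α s ∈ Icc (0:ℝ) 1 :=
  ⟨hO.hu0.trans (cm4_mem hX hα s).1, (cm4_mem hX hα s).2.trans hO.hu1⟩

/-- the three pieces of the gradient are integrable against continuous functions -/
theorem cm4_piece_int (hP : P.Ok) (hX : X.Ok) (hO : O.Ok X) (hA : O.AdmAll P X) (hα : α ∈ X.Q) {φ : ℝ → ℝ} (hφ : Continuous φ) :
    IntervalIntegrable (fun s => O.mB P X α (α s) * O.c (α s) * φ s) volume X.r0 X.r1 ∧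
    IntervalIntegrable (fun s => O.mS P X α (α s) * O.c (α s) * φ s) volume X.r0 X.r1 ∧
    IntervalIntegrable (fun s => O.c (α s) * φ s) volume X.r0 X.r1 := by
  obtain ⟨Cc, hCc⟩ := hO.c_bdd
  have hCc0 : 0 ≤ Cc := (abs_nonneg _).trans (hCc 0)
  have hcm : Measurable (fun s => O.c (α s)) := hO.c_meas.comp (cm4_cont hX hα).measurable
  have hA' := hA α hα
  refine ⟨?_, ?_, ?_⟩
  · refine IntervalIntegrable.mul_continuousOn (cm4_ii_bdd (C := 1 * Cc) ((cm4_mB_comp_mono hP hX hO hA hα).measurable.mul hcm)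
      (fun s => ?_) _ _) hφ.continuousOn
    rw [Pi.mul_apply, abs_mul]
    refine mul_le_mul ?_ (hCc _) (abs_nonneg _) zero_le_one
    have b0 : 0 ≤ O.mB P X α (α s) := cm4_B_nonneg hP hA' (cm4_mem01 hX hO hα s)
    have b1 : O.mB P X α (α s) ≤ 1 := hP.B_le _ _ hA' _ (cm4_mem01 hX hO hα s)
    exact abs_le.2 ⟨by linarith, b1⟩
  · refine IntervalIntegrable.mul_continuousOn (cm4_ii_bdd (C := 1 * Cc) ((cm4_mS_comp_mono hP hX hO hA hα).measurable.mul hcm)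
      (fun s => ?_) _ _) hφ.continuousOn
    rw [Pi.mul_apply, abs_mul]
    refine mul_le_mul ?_ (hCc _) (abs_nonneg _) zero_le_one
    have b0 : 0 ≤ O.mS P X α (α s) := hP.S_nonneg _ _ hA' _ (cm4_mem01 hX hO hα s)
    have b1 : O.mS P X α (α s) ≤ 1 := cm4_S_le_one hP hA' (cm4_mem01 hX hO hα s)
    exact abs_le.2 ⟨by linarith, b1⟩
  · exact IntervalIntegrable.mul_continuousOn (cm4_ii_bdd hcm (fun s => hCc _) _ _) hφ.continuousOn

theorem cm4_grad_eq (O : CmObj) (P : CmPr) (X : CmBox) (α φ : ℝ → ℝ) (s : ℝ) :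
    O.grad P X α s * φ s = 1/4 * (O.mB P X α (α s) * O.c (α s) * (O.Fb' s * φ s))
      - 1/2 * (O.mS P X α (α s) * O.c (α s) * (O.Fh' s * φ s)) + O.c (α s) * (O.Fp' s * φ s) := by
  unfold CmObj.grad; ring

theorem cm4_grad_mul_int (hP : P.Ok) (hX : X.Ok) (hO : O.Ok X) (hA : O.AdmAll P X) (hα : α ∈ X.Q) {φ : ℝ → ℝ} (hφ : Continuous φ) :
    IntervalIntegrable (fun s => O.grad P X α s * φ s) volume X.r0 X.r1 := by
  have h1 := (cm4_piece_int hP hX hO hA hα (hO.cFb.mul hφ)).1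
  have h2 := (cm4_piece_int hP hX hO hA hα (hO.cFh.mul hφ)).2.1
  have h3 := (cm4_piece_int hP hX hO hA hα (hO.cFp.mul hφ)).2.2
  have := ((h1.const_mul (1/4)).sub (h2.const_mul (1/2))).add h3
  refine this.congr ?_
  exact fun s _ => (cm4_grad_eq O P X α φ s).symm

theorem cm4_grad_int (hP : P.Ok) (hX : X.Ok) (hO : O.Ok X) (hA : O.AdmAll P X) (hα : α ∈ X.Q) :
    IntervalIntegrable (O.grad P X α) volume X.r0 X.r1 := by
  have := cm4_grad_mul_int hP hX hO hA hα (φ := fun _ => 1) continuous_const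
  simpa using this


theorem cm4_W_ok (hP : P.Ok) (hX : X.Ok) (hO : O.Ok X) (hA : O.AdmAll P X) (hα : α ∈ X.Q) :
    (IntervalIntegrable (fun u => O.mB P X α u * O.c u) volume X.u0 X.u1 ∧ ∃ C, ∀ u ∈ Icc X.u0 X.u1, |O.mB P X α u * O.c u| ≤ C) ∧
    (IntervalIntegrable (fun u => O.mS P X α u * O.c u) volume X.u0 X.u1 ∧ ∃ C, ∀ u ∈ Icc X.u0 X.u1, |O.mS P X α u * O.c u| ≤ C) ∧
    (IntervalIntegrable O.c volume X.u0 X.u1 ∧ ∃ C, ∀ u ∈ Icc X.u0 X.u1, |O.c u| ≤ C) := by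
  obtain ⟨Cc, hCc⟩ := hO.c_bdd
  have hA' := hA α hα
  have hsub : uIcc X.u0 X.u1 ⊆ uIcc (0:ℝ) 1 := by
    rw [uIcc_of_le hX.hu.le, uIcc_of_le zero_le_one]; exact Icc_subset_Icc hO.hu0 hO.hu1
  have h01 : ∀ u ∈ Icc X.u0 X.u1, u ∈ Icc (0:ℝ) 1 := fun u hu => ⟨hO.hu0.trans hu.1, hu.2.trans hO.hu1⟩
  refine ⟨⟨(cm4_ii_mul (cm4_B_ii hP hA') hO.c_meas hCc).mono_set hsub, 1 * Cc, fun u hu => ?_⟩,
    ⟨(cm4_ii_mul (cm4_S_ii hP hA') hO.c_meas hCc).mono_set hsub, 1 * Cc, fun u hu => ?_⟩,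
    ⟨cm4_ii_bdd hO.c_meas hCc _ _, Cc, fun u _ => hCc u⟩⟩
  · rw [abs_mul]
    refine mul_le_mul ?_ (hCc _) (abs_nonneg _) zero_le_one
    have b0 : 0 ≤ O.mB P X α u := cm4_B_nonneg hP hA' (h01 u hu)
    have b1 : O.mB P X α u ≤ 1 := hP.B_le _ _ hA' _ (h01 u hu)
    exact abs_le.2 ⟨by linarith, b1⟩
  · rw [abs_mul]
    refine mul_le_mul ?_ (hCc _) (abs_nonneg _) zero_le_one
    have b0 : 0 ≤ O.mS P X α u := hP.S_nonneg _ _ hA' _ (h01 u hu)
    have b1 : O.mS P X α u ≤ 1 := cm4_S_le_one hP hA' (h01 u hu)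
    exact abs_le.2 ⟨by linarith, b1⟩

/-- the main term of the difference quotient -/
theorem cm4_tri_main (hP : P.Ok) (hX : X.Ok) (hO : O.Ok X) (hA : O.AdmAll P X) (hα : α ∈ X.Q) {η : ℝ → ℝ}
    (hη : ∀ᶠ ε in 𝓝[>] (0:ℝ), (fun r => α r + ε * η r) ∈ X.Q) :
    Tendsto (fun ε => O.tri X (O.mB P X α) (O.mS P X α) α (fun r => α r + ε * η r) / ε) (𝓝[>] 0)
      (𝓝 (-∫ r in X.r0..X.r1, O.grad P X α r * η r)) := by
  obtain ⟨hηc, -⟩ := cm4_dir_bdd hX hα hη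
  obtain ⟨⟨w1, w1'⟩, ⟨w2, w2'⟩, ⟨w3, w3'⟩⟩ := cm4_W_ok hP hX hO hA hα
  have t1 := cm4_layer_deriv hX hα w1 w1' hO.dFb hO.cFb hη
  have t2 := cm4_layer_deriv hX hα w2 w2' hO.dFh hO.cFh hη
  have t3 := cm4_layer_deriv hX hα w3 w3' hO.dFp hO.cFp hη
  have t := ((t1.const_mul (1/4)).sub (t2.const_mul (1/2))).add t3
  have hA' := hA α hα
  have hlim : 1 / 4 * (-∫ s in X.r0..X.r1, O.mB P X α (α s) * O.c (α s) * O.Fb' s * η s)
      - 1 / 2 * (-∫ s in X.r0..X.r1, O.mS P X α (α s) * O.c (α s) * O.Fh' s * η s)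
      + (-∫ s in X.r0..X.r1, O.c (α s) * O.Fp' s * η s) = -∫ r in X.r0..X.r1, O.grad P X α r * η r := by
    have h1 := (cm4_piece_int hP hX hO hA hα (hO.cFb.mul hηc)).1
    have h2 := (cm4_piece_int hP hX hO hA hα (hO.cFh.mul hηc)).2.1
    have h3 := (cm4_piece_int hP hX hO hA hα (hO.cFp.mul hηc)).2.2
    have e : ∫ r in X.r0..X.r1, O.grad P X α r * η r
        = 1/4 * (∫ s in X.r0..X.r1, O.mB P X α (α s) * O.c (α s) * (O.Fb' * η) s)
          - 1/2 * (∫ s in X.r0..X.r1, O.mS P X α (α s) * O.c (α s) * (O.Fh' * η) s)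
          + ∫ s in X.r0..X.r1, O.c (α s) * (O.Fp' * η) s := by
      rw [← intervalIntegral.integral_const_mul, ← intervalIntegral.integral_const_mul,
        ← intervalIntegral.integral_sub (h1.const_mul _) (h2.const_mul _),
        ← intervalIntegral.integral_add ((h1.const_mul _).sub (h2.const_mul _)) h3]
      congr 1; funext s; exact cm4_grad_eq O P X α η s
    rw [e]
    simp only [Pi.mul_apply, mul_assoc]
    ring
  rw [hlim] at t
  refine t.congr' ?_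
  filter_upwards [hη] with ε hε
  have iB : IntervalIntegrable (O.mB P X α) volume 0 1 := cm4_B_ii hP hA'
  have iS : IntervalIntegrable (O.mS P X α) volume 0 1 := cm4_S_ii hP hA'
  rw [cm4_tri_split hX hO hα hε iB iS]
  have z : ∀ (A F : ℝ → ℝ), ∫ u in (0:ℝ)..1, A u * (O.c u * (F (X.inv (fun r => α r + ε * η r) u) - F (X.inv α u)))
      = ∫ u in X.u0..X.u1, A u * O.c u * (F (X.inv (fun r => α r + ε * η r) u) - F (X.inv α u)) := by
    intro A F
    rw [cm4_int_supp hX hO (fun u hu => by rw [hO.c_supp u hu]; ring)]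
    congr 1; funext u; ring
  have z3 : ∫ u in (0:ℝ)..1, O.c u * (O.Fp (X.inv (fun r => α r + ε * η r) u) - O.Fp (X.inv α u))
      = ∫ u in X.u0..X.u1, O.c u * (O.Fp (X.inv (fun r => α r + ε * η r) u) - O.Fp (X.inv α u)) :=
    cm4_int_supp hX hO (fun u hu => by rw [hO.c_supp u hu]; ring)
  rw [z, z, z3]
  ring

/-- the error term -/
theorem cm4_tri_err (hX : X.Ok) (hO : O.Ok X) :
    ∃ K, 0 ≤ K ∧ ∀ α ∈ X.Q, ∀ β ∈ X.Q, ∀ δ, (∀ r ∈ Icc X.r0 X.r1, |β r - α r| ≤ δ) → ∀ BB SS BB' SS' : ℝ → ℝ,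
      IntervalIntegrable BB volume 0 1 → IntervalIntegrable SS volume 0 1 → IntervalIntegrable BB' volume 0 1 →
      IntervalIntegrable SS' volume 0 1 →
      |O.tri X BB' SS' α β - O.tri X BB SS α β| ≤
        K * δ * ((∫ u in (0:ℝ)..1, |BB' u - BB u|) + ∫ u in (0:ℝ)..1, |SS' u - SS u|) := by
  obtain ⟨Cc, hCc⟩ := hO.c_bdd
  have hCc0 : 0 ≤ Cc := (abs_nonneg _).trans (hCc 0)
  obtain ⟨Kb, hKb0, hKb⟩ := cm4_incr_le hX hO.dFb hO.cFb
  obtain ⟨Kh, hKh0, hKh⟩ := cm4_incr_le hX hO.dFh hO.cFh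
  refine ⟨Cc * (Kb + Kh), by positivity, fun α hα β hβ δ hδ BB SS BB' SS' iB iS iB' iS' => ?_⟩
  have hδ0 : 0 ≤ δ := (abs_nonneg _).trans (hδ X.r0 ⟨le_rfl, hX.hr.le⟩)
  rw [cm4_tri_split hX hO hα hβ iB' iS', cm4_tri_split hX hO hα hβ iB iS]
  have bd : ∀ {F : ℝ → ℝ} {K : ℝ}, (∀ u, |F (X.inv β u) - F (X.inv α u)| ≤ K * δ) →
      ∀ u, |O.c u * (F (X.inv β u) - F (X.inv α u))| ≤ Cc * (K * δ) := by
    intro F K hK u
    rw [abs_mul]
    exact mul_le_mul (hCc u) (hK u) (abs_nonneg _) hCc0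
  have mb := cm4_incr hX hO hα hβ hO.dFb hO.cFb
  have mh := cm4_incr hX hO hα hβ hO.dFh hO.cFh
  have bb := bd (hKb α hα β hβ δ hδ)
  have bh := bd (hKh α hα β hβ δ hδ)
  have t1 := cm4_term_le (iB'.sub iB) mb bb
  have t2 := cm4_term_le (iS'.sub iS) mh bh
  have e1 : ∫ u in (0:ℝ)..1, (BB' u - BB u) * (O.c u * (O.Fb (X.inv β u) - O.Fb (X.inv α u)))
      = (∫ u in (0:ℝ)..1, BB' u * (O.c u * (O.Fb (X.inv β u) - O.Fb (X.inv α u))))
        - ∫ u in (0:ℝ)..1, BB u * (O.c u * (O.Fb (X.inv β u) - O.Fb (X.inv α u))) := by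
    rw [← intervalIntegral.integral_sub (cm4_ii_mul iB' mb bb) (cm4_ii_mul iB mb bb)]
    congr 1; funext u; ring
  have e2 : ∫ u in (0:ℝ)..1, (SS' u - SS u) * (O.c u * (O.Fh (X.inv β u) - O.Fh (X.inv α u)))
      = (∫ u in (0:ℝ)..1, SS' u * (O.c u * (O.Fh (X.inv β u) - O.Fh (X.inv α u))))
        - ∫ u in (0:ℝ)..1, SS u * (O.c u * (O.Fh (X.inv β u) - O.Fh (X.inv α u))) := by
    rw [← intervalIntegral.integral_sub (cm4_ii_mul iS' mh bh) (cm4_ii_mul iS mh bh)]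
    congr 1; funext u; ring
  rw [e1] at t1
  rw [e2] at t2
  have nB : 0 ≤ ∫ u in (0:ℝ)..1, |BB' u - BB u| := intervalIntegral.integral_nonneg zero_le_one fun u _ => abs_nonneg _
  have nS : 0 ≤ ∫ u in (0:ℝ)..1, |SS' u - SS u| := intervalIntegral.integral_nonneg zero_le_one fun u _ => abs_nonneg _
  set IB := ∫ u in (0:ℝ)..1, |BB' u - BB u|
  set IS := ∫ u in (0:ℝ)..1, |SS' u - SS u|
  have p1 : 0 ≤ Cc * δ * Kb * IB := by positivity
  have p2 : 0 ≤ Cc * δ * Kh * IS := by positivity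
  have p3 : 0 ≤ Cc * δ * Kb * IS := by positivity
  have p4 : 0 ≤ Cc * δ * Kh * IB := by positivity
  rw [abs_le] at t1 t2 ⊢
  constructor <;> nlinarith [t1.1, t1.2, t2.1, t2.2]

/-- the one-sided directional derivative of the objective -/
theorem cm4_val_deriv (hP : P.Ok) (hX : X.Ok) (hO : O.Ok X) (hA : O.AdmAll P X) (hα : α ∈ X.Q) {η : ℝ → ℝ}
    (hη : ∀ᶠ ε in 𝓝[>] (0:ℝ), (fun r => α r + ε * η r) ∈ X.Q) :
    Tendsto (fun ε => (O.val P X (fun r => α r + ε * η r) - O.val P X α) / ε) (𝓝[>] 0)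
      (𝓝 (-∫ r in X.r0..X.r1, O.grad P X α r * η r)) := by
  obtain ⟨hηc, Cη, hCη0, hCη⟩ := cm4_dir_bdd hX hα hη
  obtain ⟨K, hK0, hK⟩ := cm4_tri_err (O := O) hX hO
  obtain ⟨Cc, hCc⟩ := hO.c_bdd
  have hCc0 : 0 ≤ Cc := (abs_nonneg _).trans (hCc 0)
  obtain ⟨Kb, hKb0, hKb⟩ := cm4_incr_le hX hO.dFb hO.cFb
  obtain ⟨Kh, hKh0, hKh⟩ := cm4_incr_le hX hO.dFh hO.cFh
  have hA' := hA α hα
  have hmain := cm4_tri_main hP hX hO hA hα hη
  rw [Metric.tendsto_nhds] at hmain ⊢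
  intro e he
  -- the accuracy asked from the continuity of the moments
  set e' : ℝ := e / (4 * (K * Cη + 1)) with he'
  have he'0 : 0 < e' := by positivity
  obtain ⟨δ, hδ0, hδ⟩ := hP.cont _ _ hA' e' he'0
  have hsmall : ∀ᶠ ε in 𝓝[>] (0:ℝ), ε * (Cc * (Kb + Kh) * Cη + 1) < δ := by
    have : Tendsto (fun ε : ℝ => ε * (Cc * (Kb + Kh) * Cη + 1)) (𝓝[>] 0) (𝓝 (0 * (Cc * (Kb + Kh) * Cη + 1))) :=
      (tendsto_id.mono_left nhdsWithin_le_nhds).mul_const _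
    rw [zero_mul] at this
    exact this.eventually (gt_mem_nhds hδ0)
  filter_upwards [hmain (e / 2) (by positivity), hη, self_mem_nhdsWithin, hsmall] with ε h1 hε hε0 hs
  have hε0' : (0:ℝ) < ε := hε0
  obtain ⟨θ, hθ, hv⟩ := cm4_val_sub hP hX hO hA hα hε
  have hAθ := hP.adm_seg _ _ _ _ hA' (hA _ hε) θ hθ
  have hdist : ∀ r ∈ Icc X.r0 X.r1, |(α r + ε * η r) - α r| ≤ ε * Cη := by
    intro r _
    rw [add_sub_cancel_left, abs_mul, abs_of_pos hε0']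
    exact mul_le_mul_of_nonneg_left (hCη r) hε0'.le
  -- the clocks of the intermediate point are close to the base clocks
  have hclose : ∀ u ∈ Icc (0:ℝ) 1,
      |cmSeg θ (O.clkB X α) (O.clkB X fun r => α r + ε * η r) u - O.clkB X α u| ≤ δ ∧
      |cmSeg θ (O.clkH X α) (O.clkH X fun r => α r + ε * η r) u - O.clkH X α u| ≤ δ := by
    intro u _
    have b1 := hKb α hα _ hε _ hdist u
    have b2 := hKh α hα _ hε _ hdist u
    have hθa : |θ| ≤ 1 := by rw [abs_of_nonneg hθ.1]; exact hθ.2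
    have q1 : 0 ≤ ε * Cη := by positivity
    constructor
    · simp only [cmSeg, CmObj.clkB]
      rw [add_sub_cancel_left, abs_mul]
      have : |O.b0 u - O.c u * O.Fb (X.inv (fun r => α r + ε * η r) u) - (O.b0 u - O.c u * O.Fb (X.inv α u))|
          ≤ Cc * (Kb * (ε * Cη)) := by
        rw [show O.b0 u - O.c u * O.Fb (X.inv (fun r => α r + ε * η r) u) - (O.b0 u - O.c u * O.Fb (X.inv α u))
          = -(O.c u * (O.Fb (X.inv (fun r => α r + ε * η r) u) - O.Fb (X.inv α u))) by ring, abs_neg, abs_mul]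
        exact mul_le_mul (hCc u) b1 (abs_nonneg _) hCc0
      have q2 : 0 ≤ Cc * (Kh * (ε * Cη)) := by positivity
      calc |θ| * _ ≤ 1 * (Cc * (Kb * (ε * Cη))) := mul_le_mul hθa this (abs_nonneg _) zero_le_one
        _ ≤ δ := by nlinarith
    · simp only [cmSeg, CmObj.clkH]
      rw [add_sub_cancel_left, abs_mul]
      have : |O.h0 u + O.c u * O.Fh (X.inv (fun r => α r + ε * η r) u) - (O.h0 u + O.c u * O.Fh (X.inv α u))|
          ≤ Cc * (Kh * (ε * Cη)) := by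
        rw [show O.h0 u + O.c u * O.Fh (X.inv (fun r => α r + ε * η r) u) - (O.h0 u + O.c u * O.Fh (X.inv α u))
          = O.c u * (O.Fh (X.inv (fun r => α r + ε * η r) u) - O.Fh (X.inv α u)) by ring, abs_mul]
        exact mul_le_mul (hCc u) b2 (abs_nonneg _) hCc0
      have q2 : 0 ≤ Cc * (Kb * (ε * Cη)) := by positivity
      calc |θ| * _ ≤ 1 * (Cc * (Kh * (ε * Cη))) := mul_le_mul hθa this (abs_nonneg _) zero_le_one
        _ ≤ δ := by nlinarith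
  obtain ⟨c1, c2⟩ := hδ _ _ hAθ hclose
  have herr := hK α hα _ hε _ hdist _ _ _ _ (cm4_B_ii hP hA') (cm4_S_ii hP hA') (cm4_B_ii hP hAθ) (cm4_S_ii hP hAθ)
  rw [← hv] at herr
  rw [Real.dist_eq] at h1 ⊢
  set T := O.tri X (P.B (O.clkB X α) (O.clkH X α)) (P.S (O.clkB X α) (O.clkH X α)) α fun r => α r + ε * η r with hT
  have hT' : O.tri X (O.mB P X α) (O.mS P X α) α (fun r => α r + ε * η r) = T := rfl
  rw [hT'] at h1
  set Dv := O.val P X (fun r => α r + ε * η r) - O.val P X α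
  set Lm := -∫ r in X.r0..X.r1, O.grad P X α r * η r
  have h2 : |Dv / ε - T / ε| ≤ K * Cη * (2 * e') := by
    rw [← sub_div, abs_div, abs_of_pos hε0', div_le_iff₀ hε0']
    calc |Dv - T| ≤ K * (ε * Cη) * (_ + _) := herr
      _ ≤ K * (ε * Cη) * (e' + e') := by gcongr
      _ = K * Cη * (2 * e') * ε := by ring
  have h3 : K * Cη * (2 * e') < e / 2 := by
    rw [he']
    have : 0 ≤ K * Cη := by positivity
    rw [show K * Cη * (2 * (e / (4 * (K * Cη + 1)))) = (K * Cη * e) / (2 * (K * Cη + 1)) by field_simp; ring,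
      div_lt_iff₀ (by positivity)]
    nlinarith
  calc |Dv / ε - Lm| ≤ |Dv / ε - T / ε| + |T / ε - Lm| := abs_sub_le _ _ _
    _ < e / 2 + e / 2 := by linarith
    _ = e := by ring

/-- **PE Lemma 3.3, first part**, for all objectives of the family -/
theorem cm4_obj_mult (hP : P.Ok) (hX : X.Ok) (hO : O.Ok X) (hA : O.AdmAll P X) (hα : α ∈ X.Q)
    (hmin : ∀ β ∈ X.Q, O.val P X α ≤ O.val P X β) :
    ∃ c : ℝ, (∀ᵐ r, r ∈ Icc X.r0 X.r1 → X.pot α (O.grad P X α) c r < 0 → deriv α r = X.M (α r)) ∧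
      (∀ᵐ r, r ∈ Icc X.r0 X.r1 → 0 < X.pot α (O.grad P X α) c r → deriv α r = X.k r) :=
  cm4_mult hX hα hmin (cm4_grad_int hP hX hO hA hα) fun _ hη => cm4_val_deriv hP hX hO hA hα hη

end Claimed.Agent.R286
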