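-- KEEP
import Claimed.Agent.R286.Defs.SkLem
import Claimed.Agent.R286.Cmp.DefsSk
import Claimed.Agent.R286.Cmp.P04Obj
import Claimed.Agent.R286.Exit.ClkPr
import Claimed.Agent.R286.Exit.ClkStat
import Claimed.Agent.R286.Exit.ClkLip

/-!
# Row 286 (S0533), PE Section 3: THE SK INSTANCE OF THE PRESSURE INTERFACE `CmPr` of P04      (owner helper295; prefix `cmk_`)

`cmkPr n : CmPr` and **`cmk_pr_ok : (cmkPr n).Ok`**, PROVED from the exits of PE Sec. 2 for general clocks (`Exit/ClkPr`, `Exit/ClkStat`, `Exit/ClkLip`).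
Users: all exits of P04 (`Cmp/P04Contract.lean`) at `Pr = cmkPr n`; PE Sec. 5 (profile l.605), Sec. 6, Sec. 7.
-/

set_option autoImplicit false

namespace Claimed.Agent.R286

open MeasureTheory Set Filter Topology

noncomputable section

/-- **the SK instance of `CmPr`**: positions AFTER the jumps -/
def cmkPr (n : ℕ) : CmPr where
  Adm b h := CkAdm 1 b h
  f := skCPr n 1
  S b h u := skCS n 1 b h (ghPosA u)
  B b h u := skCB n 1 b h (ghPosA u)

theorem cmk_inst_eqns_cite : True := by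
  have := @cmkPr.eq_1
  trivial

theorem cmk_posA_ok {u : ℝ} (hu : u ∈ Icc (0 : ℝ) 1) : (ghPosA u).Ok 1 :=
  ⟨hu.1, hu.2, zero_le_one, le_rfl⟩

theorem cmk_posA_le {u v : ℝ} (h : u ≤ v) : ghPosA u ≤ ghPosA v := by
  rcases h.lt_or_eq with h | h
  · exact (Prod.Lex.toLex_le_toLex).2 (Or.inl h)
  · subst h; exact le_rfl

theorem cmk_seg_eq (θ : ℝ) (c c' : ℝ → ℝ) : ckSeg θ c c' = cmSeg θ c c' := by
  funext u; simp only [ckSeg, cmSeg]; ring

theorem cmk_clk1_seg {c c' : ℝ → ℝ} (h : GhClk1 1 c) (h' : GhClk1 1 c') {θ : ℝ} (hθ : θ ∈ Icc (0 : ℝ) 1) :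
    GhClk1 1 (cmSeg θ c c') := by
  refine ⟨fun u hu v hv huv => ?_, ?_⟩
  · have h1 := h.1 hu hv huv
    have h2 := h'.1 hu hv huv
    simp only [cmSeg]
    nlinarith [hθ.1, hθ.2, mul_le_mul_of_nonneg_left h2 hθ.1, mul_le_mul_of_nonneg_left h1 (sub_nonneg.2 hθ.2)]
  · simp only [cmSeg]
    nlinarith [hθ.1, hθ.2, mul_nonneg hθ.1 h'.2, mul_nonneg (sub_nonneg.2 hθ.2) h.2]

theorem cmk_clamp_congr {c c' : ℝ → ℝ} (h : ∀ u ∈ Icc (0 : ℝ) 1, c u = c' u) : ghClamp 1 c = ghClamp 1 c' := by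
  funext u
  simp only [ghClamp]
  split_ifs with hu
  · rfl
  · exact h _ ⟨le_min (not_lt.1 hu) zero_le_one, min_le_right _ _⟩

theorem cmk_at_congr {c c' : ℝ → ℝ} (h : ∀ u ∈ Icc (0 : ℝ) 1, c u = c' u) : ghAt 1 c = ghAt 1 c' := by
  funext p
  simp only [ghAt, cmk_clamp_congr h]

theorem cmk_stp_congr {b b' h h' : ℝ → ℝ} (hb : ∀ u ∈ Icc (0 : ℝ) 1, b u = b' u) (hh : ∀ u ∈ Icc (0 : ℝ) 1, h u = h' u)
    (ps : List GhPos) (x y : ℝ) : skCStp 1 b h x y ps = skCStp 1 b' h' x y ps := by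
  induction ps generalizing x y with
  | nil => rfl
  | cons p ps ih => simp only [skCStp, cmk_at_congr hb, cmk_at_congr hh, ih]

theorem cmk_ov_abs_le {n : ℕ} (σ τ : SkCfg n) : |skOv σ τ| ≤ 1 := by
  unfold skOv
  rcases Nat.eq_zero_or_pos n with hn | hn
  · subst hn; simp
  have hn' : (0 : ℝ) < n := by exact_mod_cast hn
  rw [abs_div, abs_of_pos hn', div_le_one hn']
  calc |∑ i, skSp σ i * skSp τ i| ≤ ∑ i : Fin n, |skSp σ i * skSp τ i| := Finset.abs_sum_le_sum_abs _ _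
    _ = ∑ _i : Fin n, (1 : ℝ) := by
        refine Finset.sum_congr rfl fun i _ => ?_
        have h1 : ∀ (ρ : SkCfg n) (k : Fin n), |skSp ρ k| = 1 := by
          intro ρ k
          have h2 : |skSp ρ k| * |skSp ρ k| = 1 := by rw [abs_mul_abs_self, sk_d_sp_mul]
          nlinarith [abs_nonneg (skSp ρ k)]
        rw [abs_mul, h1, h1, mul_one]
    _ = n := by simp

theorem cmk_r2_rt {p : GhPos} (hp : p.Ok 1) : GhIsRT 1 2 (ghR2 p) where
  diag := fun x _ => by simp [ghR2]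
  symm := fun x y _ _ => by simp only [ghR2, eq_comm]
  ultra := fun x y z _ _ _ => by
    simp only [ghR2]
    split_ifs <;> simp_all
  ok := fun x y _ _ r hr => by
    simp only [ghR2] at hr
    split_ifs at hr
    · exact absurd hr (by simp)
    · have : p = r := by exact_mod_cast hr
      exact this ▸ hp

/-- **the SK instance satisfies the interface of P04** -/
theorem cmk_pr_ok (n : ℕ) (hn : 0 < n) : (cmkPr n).Ok where
  adm_seg := fun b h b' h' H H' θ hθ => ⟨cmk_clk1_seg H.1 H'.1 hθ, cmk_clk1_seg H.2 H'.2 hθ⟩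
  S_nonneg := fun b h H u hu => (exit_clk_SB hn one_pos H (cmk_posA_ok hu) (cmk_posA_ok hu) le_rfl).1
  S_sq := fun b h H u hu => (exit_clk_SB hn one_pos H (cmk_posA_ok hu) (cmk_posA_ok hu) le_rfl).2.2.2.1
  B_le := fun b h H u hu => (exit_clk_SB hn one_pos H (cmk_posA_ok hu) (cmk_posA_ok hu) le_rfl).2.2.2.2
  S_mono := fun b h H u hu v hv huv => (exit_clk_SB hn one_pos H (cmk_posA_ok hu) (cmk_posA_ok hv) (cmk_posA_le huv)).2.1
  B_mono := fun b h H u hu v hv huv => (exit_clk_SB hn one_pos H (cmk_posA_ok hu) (cmk_posA_ok hv) (cmk_posA_le huv)).2.2.1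
  seg := by
    intro b h b' h' H H'
    obtain ⟨hd, -⟩ := exit_clk_pr_deriv hn one_pos H H'
    set g : ℝ → ℝ := fun s => skCPr n 1 (ckSeg s b b') (ckSeg s h h') with hg
    have hc : ContinuousOn g (Icc 0 1) := fun θ hθ => (hd θ hθ).continuousWithinAt
    have hd' : ∀ θ ∈ Ioo (0 : ℝ) 1, HasDerivAt g (ckDPr n 1 b h b' h' θ) θ := fun θ hθ =>
      (hd θ (Ioo_subset_Icc_self hθ)).hasDerivAt (Icc_mem_nhds hθ.1 hθ.2)
    obtain ⟨θ, hθ, he⟩ := exists_hasDerivAt_eq_slope g _ one_pos hc hd'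
    refine ⟨θ, Ioo_subset_Icc_self hθ, ?_⟩
    have h0 : ∀ c c' : ℝ → ℝ, ckSeg 0 c c' = c := fun c c' => by funext u; simp [ckSeg]
    have h1 : ∀ c c' : ℝ → ℝ, ckSeg 1 c c' = c' := fun c c' => by funext u; simp [ckSeg]
    have e1 : g 1 - g 0 = ckDPr n 1 b h b' h' θ := by rw [he]; ring
    simp only [hg, h0, h1] at e1
    simp only [cmkPr, e1, ckDPr, cmk_seg_eq]
  congr := by
    intro b h b' h' hb hh
    have hs : ∀ ps : List GhPos, skCStp 1 b h 0 0 ps = skCStp 1 b' h' 0 0 ps := fun ps => cmk_stp_congr hb hh ps 0 0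
    have hnu : ∀ (q : ℕ) (τ : ℕ → ℕ → WithTop GhPos) (P : (Fin q → SkCfg n) → ℝ), skCNu n 1 b h q τ P = skCNu n 1 b' h' q τ P := by
      intro q τ P; simp only [skCNu, hs]
    refine ⟨fun H => ⟨⟨fun u hu v hv huv => ?_, ?_⟩, ⟨fun u hu v hv huv => ?_, ?_⟩⟩, ?_, fun u _ => ⟨?_, ?_⟩⟩
    · rw [← hb u hu, ← hb v hv]; exact H.1.1 hu hv huv
    · rw [← hb 0 ⟨le_rfl, zero_le_one⟩]; exact H.1.2
    · rw [← hh u hu, ← hh v hv]; exact H.2.1 hu hv huv
    · rw [← hh 0 ⟨le_rfl, zero_le_one⟩]; exact H.2.2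
    · simp only [cmkPr, skCPr, hs]
    · simp only [cmkPr, skCS, hnu]
    · simp only [cmkPr, skCB, hnu]
  cont := by
    intro b h H ε hε
    have hn' : (0 : ℝ) < n := by exact_mod_cast hn
    refine ⟨ε / (18 * n), by positivity, fun b' h' H' hδ => ?_⟩
    have key : ∀ (T : (Fin 2 → SkCfg n) → ℝ), (∀ σ, |T σ| ≤ 1) → ∀ u ∈ Icc (0 : ℝ) 1,
        |skCNu n 1 b' h' 2 (ghR2 (ghPosA u)) T - skCNu n 1 b h 2 (ghR2 (ghPosA u)) T| ≤ ε := by
      intro T hT u hu
      have := exit_clk_nu_lip hn one_pos H' H 2 (ghR2 (ghPosA u)) (cmk_r2_rt (cmk_posA_ok hu)) T 1 (ε / (18 * n)) (ε / (18 * n)) hT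
        (fun v hv => (hδ v hv).1) (fun v hv => (hδ v hv).2)
      refine this.trans (le_of_eq ?_)
      push_cast
      field_simp
      ring
    have int_le : ∀ F : ℝ → ℝ, (∀ u ∈ Icc (0 : ℝ) 1, |F u| ≤ ε) → (∫ u in (0 : ℝ)..1, |F u|) ≤ ε := by
      intro F hF
      have := intervalIntegral.norm_integral_le_of_norm_le_const (a := (0 : ℝ)) (b := 1) (f := fun u => |F u|) (C := ε)
        (fun u hu => by
          rw [uIoc_of_le zero_le_one] at hu
          simpa using hF u ⟨hu.1.le, hu.2⟩)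
      simpa using (le_abs_self _).trans this
    refine ⟨int_le _ fun u hu => ?_, int_le _ fun u hu => ?_⟩
    · exact key _ (fun σ => cmk_ov_abs_le _ _) u hu
    · refine key _ (fun σ => ?_) u hu
      rw [abs_pow]
      exact pow_le_one₀ (abs_nonneg _) (cmk_ov_abs_le _ _)

end

end Claimed.Agent.R286
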