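import Claimed.Agent.R286.Cmp.ProjX
import Claimed.Agent.R286.L08.SpiOk
import Claimed.Agent.R286.Defs.Sk
import Claimed.Agent.R286.Defs.SkLem

/-!
# Row 286, C4 (PE Lemma 3.5), part L8 : INSTANCES      (owner helper192; prefix `cmj_`)

* `cmj_path`      : kernel form = `ghPath` form (pure congruence induction);
* `cmj_proj_path` : (13) in the `ghPath` vocabulary, levels by INDEX: the interval = the first `j` remaining levels;
* `cmj_spi_proj`  : INSTANCE `L8P.Proj r c vmin hmin` for `spiP B ls z Y dh` (L08/SpiOk.lean, helper257), `c` independent of everything, ANY `vmin, hmin > 0`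
                    (users: LL (A3) = `l8i_proj` of L08/SPI.lean; PE Sec. 3 = `cm5_l8_proj` of Cmp/P5L8.lean);
* `cmj_sk_dir`    : the levels of an SK step path carry the directions (`η = V` on the field drivers, `c = √(n dh)`);
* `cmj_proj_sk`   : (13) for SK step paths.
-/

set_option autoImplicit false
set_option linter.unusedSectionVars false

namespace Claimed.Agent.R286

open MeasureTheory ProbabilityTheory

variable {S ι : Type} [Fintype S] [Fintype ι]

/-- a test which sees the field after `ls1` and the spin -/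
theorem cmj_path (B : GhB S) (ls1 ls2 : List (GhLv S ι)) (z : S → ℝ) (G : (S → ℝ) → S → ℝ) :
    ghPath B (ls1 ++ ls2) z (fun η s => G (z + ghPre (ls1 ++ ls2) η ls1.length) s)
      = cmjK B ls1 ls2 (fun y => ghE B ls2 (G y) y) z := by
  induction ls1 generalizing z with
  | nil =>
    simp only [List.nil_append, List.length_nil, spi_pre_zero, add_zero, cmjK]
    exact spi_path_spin B ls2 z (G z)
  | cons l ls1 ih =>
    simp only [List.cons_append, List.length_cons, ghPath, cmjK, ghA]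
    refine integral_congr_ae (Filter.Eventually.of_forall fun ξ => ?_)
    simp only [spi_pre_cons, ← add_assoc]
    rw [ih (z + l.inc ξ)]

/-- the interval built from directions given by index -/
theorem cmj_build (Φ : S → ℝ) (v : ℝ) : ∀ (l1 : List (GhLv S ι)) (c : ℕ → ℝ),
    (∀ k (hk : k < l1.length), ∃ η : ι → ℝ, ∑ i, η i ^ 2 ≤ v ^ 2 ∧ ∀ s, (l1[k]).inc η s = c k * Φ s) →
    ∃ Q : List (CmjSt S ι), cmjLs Q = l1 ∧ (∀ e ∈ Q, e.Ok Φ v) ∧ cmjT Q = ∑ k ∈ Finset.range l1.length, c k ^ 2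
  | [], _, _ => ⟨[], rfl, fun e he => absurd he List.not_mem_nil, by simp [cmjT]⟩
  | l :: l1, c, h => by
    obtain ⟨η, h1, h2⟩ := h 0 (by simp)
    obtain ⟨Q, hQ1, hQ2, hQ3⟩ := cmj_build Φ v l1 (fun k => c (k + 1)) (fun k hk => by
      have := h (k + 1) (by simpa using hk)
      simpa using this)
    refine ⟨⟨l, η, c 0⟩ :: Q, ?_, ?_, ?_⟩
    · simp only [cmjLs, List.map_cons] at hQ1 ⊢
      rw [hQ1]
    · intro e he
      rcases List.mem_cons.1 he with rfl | he
      · exact ⟨h1, by simpa using h2⟩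
      · exact hQ2 e he
    · simp only [cmjT, List.map_cons, List.sum_cons, List.length_cons] at hQ3 ⊢
      rw [hQ3, Finset.sum_range_succ']
      ring

/-- (13), `ghPath` vocabulary: the interval = the first `j` remaining levels -/
theorem cmj_proj_path (p : ℕ) (hp : Even p) (hp2 : 2 ≤ p) : ∃ C : ℝ, 0 < C ∧
    ∀ (S ι : Type) [Fintype S] [Fintype ι] (B : GhB S) (ls : List (GhLv S ι)) (j : ℕ) (Φ : S → ℝ) (v vm : ℝ) (c : ℕ → ℝ) (z : S → ℝ),
      B.Ok → GhAdm B vm ls → 0 < vm → (∀ s, |Φ s| ≤ v) → j ≤ ls.length →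
      (∀ k (hk : k < ls.length), k < j → ∃ η : ι → ℝ, ∑ i, η i ^ 2 ≤ v ^ 2 ∧ ∀ s, (ls[k]).inc η s = c k * Φ s) →
      0 < ∑ k ∈ Finset.range j, c k ^ 2 →
      ghPath B ls z (fun η s => (Φ s - ghE B (ls.drop j) Φ (z + ghPre ls η j)) ^ p)
        ≤ C * v ^ p / (vm ^ p * (∑ k ∈ Finset.range j, c k ^ 2) ^ (p / 2)) := by
  obtain ⟨C, hC, h⟩ := cmj_proj0 p hp hp2
  refine ⟨C, hC, ?_⟩
  intro S ι _ _ B ls j Φ v vm c z hB hadm hvm hΦ hj hdir hT
  have hl : ls.take j ++ ls.drop j = ls := List.take_append_drop j ls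
  have hlen : (ls.take j).length = j := by simp [hj]
  have e := cmj_path B (ls.take j) (ls.drop j) z (fun y s => (Φ s - ghE B (ls.drop j) Φ y) ^ p)
  rw [hl, hlen] at e
  rw [e]
  obtain ⟨Q, hQ1, hQ2, hQ3⟩ := cmj_build Φ v (ls.take j) c (fun k hk => by
    have hk' : k < j := by rwa [hlen] at hk
    have := hdir k (lt_of_lt_of_le hk' hj) hk'
    simpa [List.getElem_take] using this)
  rw [hlen] at hQ3
  have := h S ι B Q (ls.drop j) Φ v vm z hB (by rw [hQ1, hl]; exact hadm) hvm hΦ hQ2 (by rw [hQ3]; exact hT)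
  rw [hQ1, hQ3] at this
  exact this

/-- the levels of an SK step path carry the directions -/
theorem cmj_sk_dir (n : ℕ) (e : SkInc) (u : Fin n → ℝ) :
    ∑ i, (Sum.elim (fun _ => 0) u : SkDr n → ℝ) i ^ 2 = ∑ i, u i ^ 2 ∧
      ∀ σ, (e.lv n).inc (Sum.elim (fun _ => 0) u) σ = Real.sqrt (n * e.dh) * ∑ i, u i * skY σ i := by
  constructor
  · simp [Fintype.sum_sum_type]
  · intro σ
    simp only [GhLv.inc, SkInc.lv, ghLvF, Fintype.sum_sum_type, Sum.elim_inl, Sum.elim_inr, mul_zero, Finset.sum_const_zero,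
      zero_add, skPhi, skY]
    rw [Real.sqrt_mul (Nat.cast_nonneg n), Finset.mul_sum]
    refine Finset.sum_congr rfl fun i _ => ?_
    rcases Nat.eq_zero_or_pos n with h0 | h0
    · subst h0; exact i.elim0
    · have : Real.sqrt n ≠ 0 := (Real.sqrt_pos.2 (by exact_mod_cast h0)).ne'
      field_simp

theorem cmj_sk_base_ok (n : ℕ) {a : ℝ} (ha : 0 < a) : (skBase n a).Ok where
  nonneg := fun _ => by simp only [skBase, ghUnif]; positivity
  sum := by
    simp only [skBase, ghUnif, Finset.sum_const, Finset.card_univ, nsmul_eq_mul]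
    exact mul_inv_cancel₀ (by positivity)
  pos := ha

theorem cmj_sk_adm {n : ℕ} {a ρ : ℝ} {P : SkStp} (h : SkAdm a P) (hρ : ∀ e ∈ P, ρ ≤ e.m) : GhAdm (skBase n a) ρ (skLvs n P) := by
  constructor
  · unfold skLvs
    rw [List.pairwise_map]
    exact h.1
  · intro l hl
    unfold skLvs at hl
    obtain ⟨e, he, rfl⟩ := List.mem_map.1 hl
    exact ⟨hρ e he, (h.2 e he).2.1⟩

theorem cmj_sk_y_sq {n : ℕ} (hn : 1 ≤ n) (σ : SkCfg n) : ∑ i, skY σ i ^ 2 = 1 := by
  have hn0 : (0 : ℝ) < n := by exact_mod_cast hn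
  have : ∀ i, skY σ i ^ 2 = 1 / n := by
    intro i
    unfold skY
    rw [div_pow, Real.sq_sqrt hn0.le, sq, sk_d_sp_mul]
  simp only [this, Finset.sum_const, Finset.card_univ, Fintype.card_fin, nsmul_eq_mul]
  field_simp

/-- Cauchy-Schwarz against a unit vector -/
theorem cmj_cs {m : ℕ} (u y : Fin m → ℝ) (hy : ∑ i, y i ^ 2 = 1) : |∑ i, u i * y i| ≤ Real.sqrt (∑ i, u i ^ 2) := by
  have h := Finset.sum_mul_sq_le_sq_mul_sq Finset.univ u y
  rw [hy, mul_one] at h
  exact Real.abs_le_sqrt h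

theorem cmj_sum_getD (L : List ℝ) : ∀ j : ℕ, ∑ k ∈ Finset.range j, L.getD k 0 = (L.take j).sum := by
  induction L with
  | nil => intro j; simp
  | cons x L ih =>
    intro j
    cases j with
    | zero => simp
    | succ j =>
      rw [Finset.sum_range_succ', List.take_succ_cons, List.sum_cons, ← ih j]
      simp [add_comm]

theorem cmj_sqrt_pow {x : ℝ} (hx : 0 ≤ x) {p : ℕ} (hp : Even p) : Real.sqrt x ^ p = x ^ (p / 2) := by
  obtain ⟨q, rfl⟩ := hp
  have : (q + q) / 2 = q := by omega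
  rw [this, ← two_mul, pow_mul, Real.sq_sqrt hx]

/-- (13) for SK step paths: `P` = the remaining revelations, the interval = the first `j` of them -/
theorem cmj_proj_sk (p : ℕ) (hp : Even p) (hp2 : 2 ≤ p) : ∃ C : ℝ, 0 < C ∧
    ∀ (n : ℕ) (a : ℝ) (P : SkStp) (j : ℕ) (V : Fin n → ℝ) (vm : ℝ) (z : SkCfg n → ℝ),
      1 ≤ n → 0 < a → SkAdm a P → (∀ e ∈ P, vm ≤ e.m) → 0 < vm → j ≤ P.length → 0 < skCumH P j →
      ghPath (skBase n a) (skLvs n P) z (fun η σ => ((∑ i, V i * skY σ i)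
          - ghE (skBase n a) (skLvs n (P.drop j)) (fun τ => ∑ i, V i * skY τ i) (z + ghPre (skLvs n P) η j)) ^ p)
        ≤ C * (∑ i, V i ^ 2) ^ (p / 2) / (vm ^ p * (n * skCumH P j) ^ (p / 2)) := by
  obtain ⟨C, hC, h⟩ := cmj_proj_path p hp hp2
  refine ⟨C, hC, ?_⟩
  intro n a P j V vm z hn ha hP hvmP hvm hj hH
  have hV0 : 0 ≤ ∑ i, V i ^ 2 := Finset.sum_nonneg fun i _ => sq_nonneg _
  have hsum : ∑ k ∈ Finset.range j, Real.sqrt (n * (P.map SkInc.dh).getD k 0) ^ 2 = n * skCumH P j := by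
    have h1 : ∀ k ∈ Finset.range j, Real.sqrt (n * (P.map SkInc.dh).getD k 0) ^ 2 = n * (P.map SkInc.dh).getD k 0 := by
      intro k _
      refine Real.sq_sqrt (mul_nonneg (Nat.cast_nonneg n) ?_)
      by_cases hk : k < (P.map SkInc.dh).length
      · rw [List.getD_eq_getElem _ _ hk]
        have hk' : k < P.length := by simpa using hk
        simp only [List.getElem_map]
        exact (hP.2 _ (List.getElem_mem hk')).2.2.2
      · rw [List.getD_eq_default _ _ (by omega)]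
    rw [Finset.sum_congr rfl h1, ← Finset.mul_sum, cmj_sum_getD, skCumH, List.map_take]
  have := h (SkCfg n) (SkDr n) (skBase n a) (skLvs n P) j (fun σ => ∑ i, V i * skY σ i) (Real.sqrt (∑ i, V i ^ 2)) vm
    (fun k => Real.sqrt (n * (P.map SkInc.dh).getD k 0)) z (cmj_sk_base_ok n ha) (cmj_sk_adm hP hvmP) hvm
    (fun σ => cmj_cs V _ (cmj_sk_y_sq hn σ)) (by simpa [skLvs] using hj)
    (fun k hk _ => by
      have hk' : k < P.length := by simpa [skLvs] using hk
      refine ⟨Sum.elim (fun _ => 0) V, ?_, ?_⟩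
      · rw [(cmj_sk_dir n P[k] V).1, Real.sq_sqrt hV0]
      · intro σ
        have e1 : (skLvs n P)[k] = (P[k]).lv n := by simp [skLvs]
        have e2 : (P.map SkInc.dh).getD k 0 = (P[k]).dh := by
          rw [List.getD_eq_getElem _ _ (by simpa using hk')]; simp
        rw [e1, e2]
        exact (cmj_sk_dir n P[k] V).2 σ)
    (by rw [hsum]; exact mul_pos (by exact_mod_cast hn) hH)
  rw [hsum, cmj_sqrt_pow hV0 hp] at this
  have e3 : (skLvs n P).drop j = skLvs n (P.drop j) := by simp [skLvs, List.map_drop]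
  rw [e3] at this
  exact this

theorem cmj_adm_dropk {B : GhB S} {ls : List (GhLv S ι)} (h : GhAdm B 0 ls) {k : ℕ} (hk : k < ls.length) :
    GhAdm B (ls[k]).m (ls.drop k) := by
  refine ⟨h.1.sublist (List.drop_sublist k ls), fun l hl => ?_⟩
  obtain ⟨i, hi, rfl⟩ := List.mem_iff_getElem.1 hl
  rw [List.getElem_drop]
  have hi' : k + i < ls.length := by
    rw [List.length_drop] at hi; omega
  refine ⟨?_, (h.2 _ (List.getElem_mem hi')).2⟩
  rcases Nat.eq_zero_or_pos i with rfl | h0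
  · simp
  · exact List.pairwise_iff_getElem.1 h.1 k (k + i) hk hi' (by omega)

theorem cmj_spi_X [MeasurableSpace S] [DiscreteMeasurableSpace S] {B : GhB S} (hB : B.Ok) {ls : List (GhLv S ι)} (hreg : SpiReg B ls)
    (z : S → ℝ) {m : ℕ} (Y : Fin m → S → ℝ) (hY : ∀ s, ∑ i, Y i s ^ 2 = 1) (dh : ℕ → ℝ) {k : ℕ} (hk : k ≤ ls.length) (i : Fin m)
    (ω : SpiOm S ι) : (spiP B ls z Y dh).X k i ω = ghE B (ls.drop k) (Y i) (z + ghPre ls ω.1 k) := by
  have hb : ∀ ω' : SpiOm S ι, |Y i ω'.2| ≤ 1 := by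
    intro ω'
    have h1 : Y i ω'.2 ^ 2 ≤ ∑ i, Y i ω'.2 ^ 2 :=
      Finset.single_le_sum (f := fun i => Y i ω'.2 ^ 2) (fun _ _ => sq_nonneg _) (Finset.mem_univ i)
    rw [hY] at h1
    exact abs_le_one_iff_mul_self_le_one.2 (by nlinarith)
  have h := spi_kint hB hreg z hk ω (fun ω' => Y i ω'.2) ((Measurable.of_discrete (f := Y i)).comp measurable_snd) 1 hb
  have h2 := spi_path_spin B (ls.drop k) (z + ghPre ls ω.1 k) (Y i)
  exact h.trans h2

/-- **INSTANCE**: `L8P.Proj` for the planted chain of `Defs/Gh` -/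
theorem cmj_spi_proj (r : ℕ) (hr : 1 ≤ r) : ∃ c : ℝ, 0 < c ∧
    ∀ (S ι : Type) [Fintype S] [Fintype ι] [MeasurableSpace S] [DiscreteMeasurableSpace S] (B : GhB S) (ls : List (GhLv S ι))
      (z : S → ℝ) (m : ℕ) (Y : Fin m → S → ℝ) (dh : ℕ → ℝ),
      B.Ok → SpiReg B ls → GhAdm B 0 ls → (∀ s, ∑ i, Y i s ^ 2 = 1) → (∀ k, 0 ≤ dh k) →
      (∀ k (hk : k < ls.length) (u : Fin m → ℝ), ∃ η : ι → ℝ, ∑ i, η i ^ 2 ≤ ∑ i, u i ^ 2 ∧
        ∀ s, (ls[k]).inc η s = Real.sqrt (m * dh k) * ∑ i, u i * Y i s) →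
      ∀ vmin hmin : ℝ, 0 < vmin → 0 < hmin → (spiP B ls z Y dh).Proj r c vmin hmin := by
  obtain ⟨C, hC, h⟩ := cmj_proj_path (2 * r) ⟨r, by ring⟩ (by omega)
  refine ⟨C, hC, ?_⟩
  intro S ι _ _ _ _ B ls z m Y dh hB hreg hadm hY hdh hdir vmin hmin hvmin hhmin k₁ k₂ h12 hk2 hv hh ω u
  have hnn : GhNn ls := cmj_adm_nn hadm le_rfl
  have hu0 : 0 ≤ ∑ i, u i ^ 2 := Finset.sum_nonneg fun i _ => sq_nonneg _
  have hn : (spiP B ls z Y dh).n = ls.length := rfl
  have hκ : (spiP B ls z Y dh).κ = spiKap B ls z := rfl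
  have hvv : (spiP B ls z Y dh).v k₁ = (ls.map GhLv.m).getD k₁ B.a := rfl
  have hhl : (spiP B ls z Y dh).hlen k₁ k₂ = ∑ j ∈ Finset.Ico k₁ k₂, dh j := rfl
  have hhl0 : 0 < (spiP B ls z Y dh).hlen k₁ k₂ := lt_of_lt_of_le hhmin hh
  have hv0 : 0 < (spiP B ls z Y dh).v k₁ := lt_of_lt_of_le hvmin hv
  rw [hn] at hk2
  rw [hκ]
  by_cases hk : k₂ ≤ ls.length
  · obtain ⟨j, rfl⟩ := Nat.exists_eq_add_of_le h12.le
    have hk1 : k₁ < ls.length := by omega
    have hj : 0 < j := by omega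
    -- m ≥ 1
    have hm : 0 < m := by
      rcases Nat.eq_zero_or_pos m with rfl | h0
      · exfalso
        have hne : Nonempty S := by
          by_contra hne
          rw [not_nonempty_iff] at hne
          have := hB.sum
          simp at this
        obtain ⟨s⟩ := hne
        have := hY s
        simp at this
      · exact h0
    set Φ : S → ℝ := fun s => ∑ i, u i * Y i s with hΦ
    set v : ℝ := Real.sqrt (∑ i, u i ^ 2) with hvdef
    have hΦv : ∀ s, |Φ s| ≤ v := fun s => cmj_cs u (fun i => Y i s) (hY s)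
    have hnn2 : GhNn (ls.drop (k₁ + j)) := fun l hl => hnn l (List.mem_of_mem_drop hl)
    have hR : ∀ ω' : SpiOm S ι, ∑ i, u i * (spiP B ls z Y dh).R (k₁ + j) i ω'
        = Φ ω'.2 - ghE B (ls.drop (k₁ + j)) Φ (z + ghPre ls ω'.1 (k₁ + j)) := by
      intro ω'
      have e1 : ghE B (ls.drop (k₁ + j)) Φ (z + ghPre ls ω'.1 (k₁ + j))
          = ∑ i, u i * ghE B (ls.drop (k₁ + j)) (Y i) (z + ghPre ls ω'.1 (k₁ + j)) := by
        rw [hΦ, gh_b_E_sum hB Finset.univ (fun i s => u i * Y i s) hnn2]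
        exact Finset.sum_congr rfl fun i _ => gh_b_E_const_mul B (u i) (Y i) _ _
      rw [e1, hΦ, ← Finset.sum_sub_distrib]
      refine Finset.sum_congr rfl fun i _ => ?_
      have e2 : (spiP B ls z Y dh).R (k₁ + j) i ω' = Y i ω'.2 - (spiP B ls z Y dh).X (k₁ + j) i ω' := rfl
      rw [e2, cmj_spi_X hB hreg z Y hY dh hk]
      ring
    simp only [hR]
    have hfm : Measurable fun ω' : SpiOm S ι => (Φ ω'.2 - ghE B (ls.drop (k₁ + j)) Φ (z + ghPre ls ω'.1 (k₁ + j))) ^ (2 * r) := by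
      refine Measurable.pow_const (Measurable.sub ((Measurable.of_discrete (f := Φ)).comp measurable_snd) ?_) _
      exact (gh_b_E_continuous hB Φ hnn2).measurable.comp ((spi_pre_meas ls z (k₁ + j)).comp measurable_fst)
    have hfb : ∀ ω' : SpiOm S ι, |(Φ ω'.2 - ghE B (ls.drop (k₁ + j)) Φ (z + ghPre ls ω'.1 (k₁ + j))) ^ (2 * r)| ≤ (2 * v) ^ (2 * r) := by
      intro ω'
      rw [abs_pow]
      refine pow_le_pow_left₀ (abs_nonneg _) ?_ _
      have h1 := hΦv ω'.2
      have h2 := gh_b_E_abs_le hB hΦv hnn2 (z + ghPre ls ω'.1 (k₁ + j))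
      have h3 := abs_sub (Φ ω'.2) (ghE B (ls.drop (k₁ + j)) Φ (z + ghPre ls ω'.1 (k₁ + j)))
      linarith
    rw [spi_kint hB hreg z hk1.le ω _ hfm _ hfb]
    simp only [spi_pre_add, ← add_assoc]
    have hdd : ls.drop (k₁ + j) = (ls.drop k₁).drop j := by rw [List.drop_drop]
    rw [hdd]
    have hvk : (spiP B ls z Y dh).v k₁ = (ls[k₁]).m := by rw [hvv]; exact spi_v_lt B ls hk1
    have hsum : ∑ k ∈ Finset.range j, Real.sqrt (m * dh (k₁ + k)) ^ 2 = m * (spiP B ls z Y dh).hlen k₁ (k₁ + j) := by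
      rw [hhl, Finset.sum_Ico_eq_sum_range, Finset.mul_sum]
      have : k₁ + j - k₁ = j := by omega
      rw [this]
      exact Finset.sum_congr rfl fun k _ => Real.sq_sqrt (mul_nonneg (Nat.cast_nonneg m) (hdh _))
    have hm0 : (0 : ℝ) < m := by exact_mod_cast hm
    have key := h S ι B (ls.drop k₁) j Φ v (ls[k₁]).m (fun k => Real.sqrt (m * dh (k₁ + k))) (z + ghPre ls ω.1 k₁) hB
      (cmj_adm_dropk hadm hk1) (by rw [← hvk]; exact hv0) hΦv (by rw [List.length_drop]; omega)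
      (fun k hk' _ => by
        have hk'' : k₁ + k < ls.length := by rw [List.length_drop] at hk'; omega
        obtain ⟨η, h1, h2⟩ := hdir (k₁ + k) hk'' u
        refine ⟨η, ?_, ?_⟩
        · rw [hvdef, Real.sq_sqrt hu0]; exact h1
        · intro s
          rw [List.getElem_drop]
          exact h2 s)
      (by rw [hsum]; exact mul_pos hm0 hhl0)
    rw [hsum, hvdef, cmj_sqrt_pow hu0 ⟨r, by ring⟩] at key
    have e5 : 2 * r / 2 = r := by omega
    rw [e5] at key
    refine key.trans (le_of_eq ?_)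
    rw [hvk, pow_mul, ← mul_pow, mul_assoc]
  · have hk2' : k₂ = ls.length + 1 := by omega
    have hR : ∀ ω' : SpiOm S ι, ∀ i, (spiP B ls z Y dh).R k₂ i ω' = 0 := by
      intro ω' i
      have e2 : (spiP B ls z Y dh).R k₂ i ω' = Y i ω'.2 - ∫ ω'', Y i ω''.2 ∂(spiKap B ls z k₂ ω') := rfl
      rw [e2, spi_kap_gt B z (by omega), integral_dirac]
      ring
    simp only [hR, mul_zero, Finset.sum_const_zero]
    have : (0 : ℝ) ^ (2 * r) = 0 := zero_pow (by omega)
    simp only [this, integral_zero]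
    have hm0 : (0 : ℝ) ≤ m := Nat.cast_nonneg m
    positivity

end Claimed.Agent.R286
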