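import Claimed.Agent.R286.Cmp.ProjK
import Claimed.Agent.Lib.BLGauss

/-!
# Row 286, C4 (PE Lemma 3.5), part G : CAMERON-MARTIN, MGF OF THE INNOVATION, ONE LEVEL IBP      (statements helper192; PROVER = owner helper43, claimed in claim286; prefix `cmj_`)

Design (i), (ii) of `origin/helper38:notes/R286/C4_design_38.md`.
* `cmj_shift` : Cameron-Martin on `ghStd ι` (product of `gaussianReal 0 1`); true for EVERY `f` (both sides are the same integral after the translation).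
* `cmj_cm`    : `ghD B l ls z (ξ + s η) = ghD B l ls (z + s • l.inc η) ξ * exp (m (F (z + s • l.inc η) - F z))`, `F = ghF B (l :: ls)`.
* `cmj_taylor`: second order Taylor along a line, `ghF_hasDerivAt`, `ghE_hasDerivAt`, `ghH ≤ a ghC ≤ a b²` (`gh_b_H_le` / `ghH_sandwich`).
* `cmj_ibp`   : derivative at `s = 0` of `cmj_cm` with `f = ghE B ls φ` (or Gaussian integration by parts).
-/

set_option autoImplicit false
set_option linter.unusedSectionVars false

namespace Claimed.Agent.R286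

open MeasureTheory ProbabilityTheory

variable {S ι : Type} [Fintype S] [Fintype ι]

/-- integral against `ghStd` as a Lebesgue integral (every `g`) -/
theorem cmj_std_integral (g : (ι → ℝ) → ℝ) :
    ∫ ξ, g ξ ∂ghStd ι = ∫ ξ : ι → ℝ, (∏ i, gaussianPDFReal 0 1 (ξ i)) * g ξ := by
  unfold ghStd
  rw [Claimed.Agent.BL.bl_pi_gaussian_eq_withDensity,
    integral_withDensity_eq_integral_toReal_smul (by fun_prop) (Filter.Eventually.of_forall fun _ => ENNReal.ofReal_lt_top)]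
  refine integral_congr_ae (Filter.Eventually.of_forall fun ξ => ?_)
  simp only [smul_eq_mul]
  rw [ENNReal.toReal_ofReal (Finset.prod_nonneg fun i _ => gaussianPDFReal_nonneg 0 1 _)]

/-- Cameron-Martin -/
theorem cmj_shift (η : ι → ℝ) (s : ℝ) (f : (ι → ℝ) → ℝ) :
    ∫ ξ, Real.exp (s * ∑ i, η i * ξ i) * f ξ ∂ghStd ι
      = Real.exp (s ^ 2 * (∑ i, η i ^ 2) / 2) * ∫ ξ, f (ξ + s • η) ∂ghStd ι := by
  rw [cmj_std_integral, cmj_std_integral, ← integral_const_mul,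
    ← integral_add_right_eq_self (μ := (volume : Measure (ι → ℝ))) _ (s • η)]
  refine integral_congr_ae (Filter.Eventually.of_forall fun ξ => ?_)
  simp only
  rw [← mul_assoc, ← mul_assoc]
  congr 1
  simp only [gaussianPDFReal, sub_zero, NNReal.coe_one, mul_one, Pi.add_apply, Pi.smul_apply, smul_eq_mul]
  rw [Finset.prod_mul_distrib, Finset.prod_mul_distrib, ← Real.exp_sum, ← Real.exp_sum, mul_assoc, ← Real.exp_add,
    mul_left_comm, ← Real.exp_add]
  congr 2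
  rw [Finset.mul_sum, Finset.mul_sum, Finset.sum_div, ← Finset.sum_add_distrib, ← Finset.sum_add_distrib]
  refine Finset.sum_congr rfl fun i _ => ?_
  ring

/-- crude bound of a linear form of the drivers -/
theorem cmj_lin_le (η ξ : ι → ℝ) : |∑ i, η i * ξ i| ≤ (∑ i, |η i|) * ∑ i, |ξ i| := by
  refine (Finset.abs_sum_le_sum_abs _ _).trans ?_
  rw [Finset.mul_sum]
  refine Finset.sum_le_sum fun i _ => ?_
  rw [abs_mul]
  exact mul_le_mul_of_nonneg_right
    (Finset.single_le_sum (f := fun i => |η i|) (fun _ _ => abs_nonneg _) (Finset.mem_univ i)) (abs_nonneg _)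

/-- exponential bound of the planted density -/
theorem cmj_D_le_exp {B : GhB S} (hB : B.Ok) {l : GhLv S ι} {ls : List (GhLv S ι)} (h : GhNn (l :: ls)) (z : S → ℝ)
    (ξ : ι → ℝ) :
    ghD B l ls z ξ ≤ Real.exp (l.m * (ghF B ls z - ghF B (l :: ls) z)) * Real.exp (l.m * l.nrm * ∑ i, |ξ i|) := by
  unfold ghD
  rw [← Real.exp_add]
  apply Real.exp_le_exp.2
  have h1 := (abs_le.1 ((gh_b_nice hB h.tail).abs_inc_le l z ξ)).2
  have h2 := mul_le_mul_of_nonneg_left h1 h.head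
  linarith

/-- integrability of the planted density times a continuous function of exponential growth -/
theorem cmj_int_dom {B : GhB S} (hB : B.Ok) {l : GhLv S ι} {ls : List (GhLv S ι)} (h : GhNn (l :: ls)) (z : S → ℝ)
    {G : (ι → ℝ) → ℝ} (hG : Continuous G) {K c : ℝ} (hb : ∀ ξ, |G ξ| ≤ K * Real.exp (c * ∑ i, |ξ i|)) :
    Integrable (fun ξ => ghD B l ls z ξ * G ξ) (ghStd ι) := by
  refine ((gh_b_exp_l1 (ι := ι) (l.m * l.nrm + c)).const_mul
    (Real.exp (l.m * (ghF B ls z - ghF B (l :: ls) z)) * K)).mono'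
    ((gh_b_D_continuous hB h.tail l z).mul hG).aestronglyMeasurable (Filter.Eventually.of_forall fun ξ => ?_)
  rw [norm_mul, Real.norm_eq_abs, Real.norm_eq_abs, abs_of_pos (gh_b_D_pos B l ls z ξ)]
  have h1 := mul_le_mul (cmj_D_le_exp hB h z ξ) (hb ξ) (abs_nonneg _) (by positivity)
  refine h1.trans (le_of_eq ?_)
  rw [add_mul, Real.exp_add]
  ring

theorem cmj_int_exp {B : GhB S} (hB : B.Ok) {l : GhLv S ι} {ls : List (GhLv S ι)} (h : GhNn (l :: ls)) (η : ι → ℝ) (s : ℝ)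
    {f : (S → ℝ) → ℝ} {M : ℝ} (hf : GhBC f M) (z : S → ℝ) :
    Integrable (fun ξ => ghD B l ls z ξ * (Real.exp (s * ∑ i, η i * ξ i) * f (z + l.inc ξ))) (ghStd ι) := by
  refine cmj_int_dom hB h z (K := M) (c := |s| * ∑ i, |η i|) ?_ fun ξ => ?_
  · exact (Real.continuous_exp.comp (by fun_prop)).mul (hf.cont.comp (continuous_const.add (gh_b_inc_continuous l)))
  · rw [abs_mul, abs_of_pos (Real.exp_pos _), mul_comm]
    refine mul_le_mul (hf.le _) (Real.exp_le_exp.2 ?_) (Real.exp_pos _).le hf.nonneg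
    calc s * ∑ i, η i * ξ i ≤ |s * ∑ i, η i * ξ i| := le_abs_self _
      _ = |s| * |∑ i, η i * ξ i| := abs_mul _ _
      _ ≤ |s| * ((∑ i, |η i|) * ∑ i, |ξ i|) := mul_le_mul_of_nonneg_left (cmj_lin_le η ξ) (abs_nonneg _)
      _ = _ := by ring

theorem cmj_int_lin {B : GhB S} (hB : B.Ok) {l : GhLv S ι} {ls : List (GhLv S ι)} (h : GhNn (l :: ls)) (η : ι → ℝ)
    {f : (S → ℝ) → ℝ} {M : ℝ} (hf : GhBC f M) (z : S → ℝ) :
    Integrable (fun ξ => ghD B l ls z ξ * ((∑ i, η i * ξ i) * f (z + l.inc ξ))) (ghStd ι) := by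
  refine cmj_int_dom hB h z (K := M) (c := ∑ i, |η i|) ?_ fun ξ => ?_
  · exact (by fun_prop : Continuous fun ξ : ι → ℝ => ∑ i, η i * ξ i).mul
      (hf.cont.comp (continuous_const.add (gh_b_inc_continuous l)))
  · rw [abs_mul, mul_comm]
    refine mul_le_mul (hf.le _) ?_ (abs_nonneg _) hf.nonneg
    refine (cmj_lin_le η ξ).trans ?_
    linarith [Real.add_one_le_exp ((∑ i, |η i|) * ∑ i, |ξ i|)]

/-- design (i): exponential tilt of the driver = shift of the revealed field -/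
theorem cmj_cm {B : GhB S} (hB : B.Ok) {l : GhLv S ι} {ls : List (GhLv S ι)} (h : GhNn (l :: ls)) (η : ι → ℝ) (s : ℝ)
    (f : (S → ℝ) → ℝ) (z : S → ℝ) :
    ∫ ξ, ghD B l ls z ξ * (Real.exp (s * ∑ i, η i * ξ i) * f (z + l.inc ξ)) ∂ghStd ι
      = Real.exp (s ^ 2 * (∑ i, η i ^ 2) / 2 + l.m * (ghF B (l :: ls) (z + s • l.inc η) - ghF B (l :: ls) z))
          * ghA B l ls f (z + s • l.inc η) := by
  have e1 : ∀ ξ, ghD B l ls z ξ * (Real.exp (s * ∑ i, η i * ξ i) * f (z + l.inc ξ))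
      = Real.exp (s * ∑ i, η i * ξ i) * (ghD B l ls z ξ * f (z + l.inc ξ)) := fun ξ => by ring
  simp_rw [e1]
  rw [cmj_shift η s (fun ξ => ghD B l ls z ξ * f (z + l.inc ξ)), Real.exp_add, mul_assoc]
  congr 1
  unfold ghA
  rw [← integral_const_mul]
  refine integral_congr_ae (Filter.Eventually.of_forall fun ξ => ?_)
  simp only
  have e2 : z + l.inc (ξ + s • η) = z + s • l.inc η + l.inc ξ := by
    rw [gh_b_inc_add, gh_b_inc_smul]; abel
  rw [e2, ← mul_assoc]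
  congr 1
  unfold ghD
  rw [e2, ← Real.exp_add]
  congr 1
  ring

/-- second order Taylor bound of a continuation along a line -/
theorem cmj_taylor {B : GhB S} (hB : B.Ok) {ls : List (GhLv S ι)} (h : GhNn ls) (ha : ∀ l ∈ ls, l.m ≤ B.a) {w : S → ℝ} {b : ℝ}
    (hw : ∀ s, |w s| ≤ b) (z : S → ℝ) (τ : ℝ) :
    ghF B ls (z + τ • w) - ghF B ls z - τ * ghE B ls w z ≤ B.a * b ^ 2 * τ ^ 2 / 2 := by
  have h1 : ∀ r : ℝ, HasDerivAt (fun r : ℝ => -ghF B ls (z + r • (τ • w))) (-ghE B ls (τ • w) (z + r • (τ • w))) r :=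
    fun r => (ghF_hasDerivAt hB ls z (τ • w) r).neg
  have h2 : ∀ r : ℝ, HasDerivAt (fun r : ℝ => -ghE B ls (τ • w) (z + r • (τ • w)))
      (-ghH B ls (τ • w) (τ • w) (z + r • (τ • w))) r :=
    fun r => (ghE_hasDerivAt hB ls (τ • w) z (τ • w) r).neg
  have hc : ∀ r : ℝ, -(B.a * b ^ 2 * τ ^ 2) ≤ -ghH B ls (τ • w) (τ • w) (z + r • (τ • w)) := by
    intro r
    have h3 := gh_b_H_le hB (τ • w) h ha (z + r • (τ • w))
    have h4 : ghC B ls (τ • w) (τ • w) (z + r • (τ • w)) ≤ b ^ 2 * τ ^ 2 := by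
      unfold ghC
      have h5 : ghE B ls (fun s => (τ • w) s * (τ • w) s) (z + r • (τ • w)) ≤ b ^ 2 * τ ^ 2 := by
        refine (le_abs_self _).trans (gh_b_E_abs_le hB (fun s => ?_) h _)
        simp only [Pi.smul_apply, smul_eq_mul]
        have e : τ * w s * (τ * w s) = (w s) ^ 2 * τ ^ 2 := by ring
        rw [e, abs_of_nonneg (by positivity)]
        exact mul_le_mul_of_nonneg_right (sq_le_sq' (abs_le.1 (hw s)).1 (abs_le.1 (hw s)).2) (sq_nonneg _)
      nlinarith [mul_self_nonneg (ghE B ls (τ • w) (z + r • (τ • w)))]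
    have h6 := mul_le_mul_of_nonneg_left h4 hB.pos.le
    linarith
  have h7 := Claimed.Agent.BL.bl_taylor_lower h1 h2 hc
  simp only [zero_smul, add_zero, one_smul] at h7
  have h8 : ghE B ls (τ • w) z = τ * ghE B ls w z := gh_b_E_const_mul B τ w ls z
  rw [h8] at h7
  linarith

/-- closed form of the weighted mgf of the innovation -/
theorem cmj_mgf_eq {B : GhB S} (hB : B.Ok) {e : CmjSt S ι} {ls : List (GhLv S ι)} (h : GhNn (e.l :: ls)) (Φ : S → ℝ) (t : ℝ)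
    (f : (S → ℝ) → ℝ) (z : S → ℝ) :
    ∫ ξ, ghD B e.l ls z ξ * (Real.exp (t * cmjN B e ls Φ z ξ) * f (z + e.l.inc ξ)) ∂ghStd ι
      = Real.exp (-(t * e.c * (e.c * e.l.m * ghE B (e.l :: ls) Φ z)))
        * (Real.exp ((t * e.c) ^ 2 * (∑ i, e.η i ^ 2) / 2
            + e.l.m * (ghF B (e.l :: ls) (z + (t * e.c) • e.l.inc e.η) - ghF B (e.l :: ls) z))
          * ghA B e.l ls f (z + (t * e.c) • e.l.inc e.η)) := by
  rw [← cmj_cm hB h e.η (t * e.c) f z, ← integral_const_mul]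
  refine integral_congr_ae (Filter.Eventually.of_forall fun ξ => ?_)
  simp only [cmjN]
  have e1 : t * (e.c * ((∑ i, e.η i * ξ i) - e.c * e.l.m * ghE B (e.l :: ls) Φ z))
      = -(t * e.c * (e.c * e.l.m * ghE B (e.l :: ls) Φ z)) + t * e.c * ∑ i, e.η i * ξ i := by ring
  rw [e1, Real.exp_add]
  ring

/-- mgf of the innovation of one level, with a nonnegative bounded weight of the next field; mesh `a m c² ≤ 1` -/
theorem cmj_mgf {B : GhB S} (hB : B.Ok) {e : CmjSt S ι} {ls : List (GhLv S ι)} (h : GhNn (e.l :: ls))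
    (ha : ∀ l ∈ e.l :: ls, l.m ≤ B.a) {Φ : S → ℝ} {v : ℝ} (hΦ : ∀ s, |Φ s| ≤ v) (he : e.Ok Φ v) (hmesh : B.a * e.l.m * e.c ^ 2 ≤ 1)
    (t : ℝ) {f : (S → ℝ) → ℝ} {M : ℝ} (hf : GhBC f M) (hf0 : ∀ y, 0 ≤ f y) (z : S → ℝ) :
    ∫ ξ, ghD B e.l ls z ξ * (Real.exp (t * cmjN B e ls Φ z ξ) * f (z + e.l.inc ξ)) ∂ghStd ι
      ≤ Real.exp (t ^ 2 * v ^ 2 * e.c ^ 2) * M := by
  rw [cmj_mgf_eq hB h Φ t f z, ← mul_assoc, ← Real.exp_add]
  have hinc : e.l.inc e.η = e.c • Φ := by funext s; simpa using he.2 s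
  have hA0 := gh_b_A_nonneg hB h hf0 (z + (t * e.c) • e.l.inc e.η)
  have hA1 := (abs_le.1 (gh_b_A_abs_le hB h hf (z + (t * e.c) • e.l.inc e.η))).2
  refine mul_le_mul (Real.exp_le_exp.2 ?_) hA1 hA0 (Real.exp_pos _).le
  rw [hinc, smul_smul]
  have hT := cmj_taylor hB h ha hΦ z (t * e.c * e.c)
  have hm := h.head
  have h1 := mul_le_mul_of_nonneg_left hT hm
  have h2 : (t * e.c) ^ 2 * (∑ i, e.η i ^ 2) / 2 ≤ (t * e.c) ^ 2 * v ^ 2 / 2 := by
    have := mul_le_mul_of_nonneg_left he.1 (sq_nonneg (t * e.c))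
    linarith
  have h3 : e.l.m * (B.a * v ^ 2 * (t * e.c * e.c) ^ 2 / 2) ≤ (t * e.c) ^ 2 * v ^ 2 / 2 := by
    have := mul_le_mul_of_nonneg_left hmesh (by positivity : 0 ≤ (t * e.c) ^ 2 * v ^ 2 / 2)
    calc e.l.m * (B.a * v ^ 2 * (t * e.c * e.c) ^ 2 / 2) = (t * e.c) ^ 2 * v ^ 2 / 2 * (B.a * e.l.m * e.c ^ 2) := by ring
      _ ≤ (t * e.c) ^ 2 * v ^ 2 / 2 * 1 := this
      _ = _ := by ring
  have e4 : t ^ 2 * v ^ 2 * e.c ^ 2 = (t * e.c) ^ 2 * v ^ 2 / 2 + (t * e.c) ^ 2 * v ^ 2 / 2 := by ring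
  rw [e4]
  linarith

/-- the same integral is a continuous function of `z` (closed form by `cmj_cm`) -/
theorem cmj_mgf_cont {B : GhB S} (hB : B.Ok) {e : CmjSt S ι} {ls : List (GhLv S ι)} (h : GhNn (e.l :: ls)) (Φ : S → ℝ) (t : ℝ)
    {f : (S → ℝ) → ℝ} {M : ℝ} (hf : GhBC f M) :
    Continuous fun z => ∫ ξ, ghD B e.l ls z ξ * (Real.exp (t * cmjN B e ls Φ z ξ) * f (z + e.l.inc ξ)) ∂ghStd ι := by
  simp_rw [cmj_mgf_eq hB h Φ t f]
  have hE := gh_b_E_continuous hB Φ h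
  have hF := gh_b_continuous hB h
  have hA := gh_b_A_continuous hB h hf
  have hs : Continuous fun z : S → ℝ => z + (t * e.c) • e.l.inc e.η := continuous_id.add continuous_const
  exact (Real.continuous_exp.comp (continuous_const.mul (continuous_const.mul hE)).neg).mul
    ((Real.continuous_exp.comp (continuous_const.add (continuous_const.mul ((hF.comp hs).sub hF)))).mul (hA.comp hs))

/-- `ghH` is linear in the direction -/
theorem cmj_H_smul {B : GhB S} (hB : B.Ok) (ls : List (GhLv S ι)) (φ w : S → ℝ) (c : ℝ) (z : S → ℝ) :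
    ghH B ls φ (fun s => c * w s) z = c * ghH B ls φ w z := by
  have e : (fun s => c * w s) = c • w := by funext s; simp
  rw [e, ← ghE_fderiv hB, ← ghE_fderiv hB, map_smul, smul_eq_mul]

/-- derivative at `s = 0` of the tilted integral -/
theorem cmj_tilt_deriv {B : GhB S} (hB : B.Ok) {l : GhLv S ι} {ls : List (GhLv S ι)} (h : GhNn (l :: ls)) (η : ι → ℝ)
    {f : (S → ℝ) → ℝ} {M : ℝ} (hf : GhBC f M) (z : S → ℝ) :
    HasDerivAt (fun s : ℝ => ∫ ξ, ghD B l ls z ξ * (Real.exp (s * ∑ i, η i * ξ i) * f (z + l.inc ξ)) ∂ghStd ι)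
      (∫ ξ, ghD B l ls z ξ * ((∑ i, η i * ξ i) * f (z + l.inc ξ)) ∂ghStd ι) 0 := by
  have hbi : Integrable (fun ξ : ι → ℝ => ghD B l ls z ξ * (M * Real.exp ((2 * ∑ i, |η i|) * ∑ i, |ξ i|))) (ghStd ι) := by
    refine cmj_int_dom hB h z (K := M) (c := 2 * ∑ i, |η i|) (by fun_prop) fun ξ => ?_
    rw [abs_of_nonneg (mul_nonneg hf.nonneg (Real.exp_pos _).le)]
  have key := hasDerivAt_integral_of_dominated_loc_of_deriv_le (μ := ghStd ι) (x₀ := (0 : ℝ))
    (F := fun s ξ => ghD B l ls z ξ * (Real.exp (s * ∑ i, η i * ξ i) * f (z + l.inc ξ)))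
    (F' := fun s ξ => ghD B l ls z ξ * (((∑ i, η i * ξ i) * Real.exp (s * ∑ i, η i * ξ i)) * f (z + l.inc ξ)))
    (bound := fun ξ => ghD B l ls z ξ * (M * Real.exp ((2 * ∑ i, |η i|) * ∑ i, |ξ i|)))
    (Metric.ball_mem_nhds (0 : ℝ) one_pos)
    (Filter.Eventually.of_forall fun s => (cmj_int_exp hB h η s hf z).aestronglyMeasurable)
    (cmj_int_exp hB h η 0 hf z) ?_ ?_ hbi ?_
  · have e := key.2
    simpa using e
  · have := (cmj_int_lin hB h η hf z).aestronglyMeasurable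
    simpa using this
  · refine Filter.Eventually.of_forall fun ξ s hs => ?_
    rw [norm_mul, Real.norm_eq_abs, Real.norm_eq_abs, abs_of_pos (gh_b_D_pos B l ls z ξ)]
    refine mul_le_mul_of_nonneg_left ?_ (gh_b_D_pos B l ls z ξ).le
    rw [abs_mul, mul_comm]
    refine mul_le_mul (hf.le _) ?_ (abs_nonneg _) hf.nonneg
    obtain ⟨x, hx⟩ : ∃ x, x = ∑ i, η i * ξ i := ⟨_, rfl⟩
    have hxl : |x| ≤ (∑ i, |η i|) * ∑ i, |ξ i| := hx ▸ cmj_lin_le η ξ
    rw [← hx, abs_mul, abs_of_pos (Real.exp_pos _)]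
    have hs1 : |s| < 1 := by simpa using hs
    have h1 : s * x ≤ |x| := by
      calc s * x ≤ |s * x| := le_abs_self _
        _ = |s| * |x| := abs_mul _ _
        _ ≤ 1 * |x| := mul_le_mul_of_nonneg_right hs1.le (abs_nonneg _)
        _ = |x| := one_mul _
    have h2 : |x| ≤ Real.exp |x| := by linarith [Real.add_one_le_exp |x|]
    calc |x| * Real.exp (s * x) ≤ Real.exp |x| * Real.exp |x| :=
          mul_le_mul h2 (Real.exp_le_exp.2 h1) (Real.exp_pos _).le (Real.exp_pos _).le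
      _ = Real.exp (|x| + |x|) := (Real.exp_add _ _).symm
      _ ≤ _ := Real.exp_le_exp.2 (by linarith)
  · refine Filter.Eventually.of_forall fun ξ s _ => ?_
    have h1 : HasDerivAt (fun s : ℝ => Real.exp (s * ∑ i, η i * ξ i))
        (Real.exp (s * ∑ i, η i * ξ i) * (1 * ∑ i, η i * ξ i)) s :=
      ((hasDerivAt_id s).mul_const _).exp
    have h2 := ((h1.mul_const (f (z + l.inc ξ))).const_mul (ghD B l ls z ξ))
    refine h2.congr_deriv ?_
    ring

/-- design (ii): integration by parts at ONE level -/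
theorem cmj_ibp {B : GhB S} (hB : B.Ok) {l : GhLv S ι} {ls : List (GhLv S ι)} (h : GhNn (l :: ls)) (η : ι → ℝ) (φ : S → ℝ)
    (z : S → ℝ) :
    ∫ ξ, ghD B l ls z ξ * (((∑ i, η i * ξ i) - l.m * ghE B (l :: ls) (l.inc η) z) * ghE B ls φ (z + l.inc ξ)) ∂ghStd ι
      = ghH B (l :: ls) φ (l.inc η) z := by
  have hf := gh_b_E_bc' hB φ h.tail
  have hd1 := cmj_tilt_deriv hB h η hf z
  -- the closed form and its derivative
  have hd2 : HasDerivAt (fun s : ℝ => Real.exp (s ^ 2 * (∑ i, η i ^ 2) / 2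
        + l.m * (ghF B (l :: ls) (z + s • l.inc η) - ghF B (l :: ls) z)) * ghE B (l :: ls) φ (z + s • l.inc η))
      (l.m * ghE B (l :: ls) (l.inc η) z * ghE B (l :: ls) φ z + ghH B (l :: ls) φ (l.inc η) z) 0 := by
    have a1 : HasDerivAt (fun s : ℝ => s ^ 2 * (∑ i, η i ^ 2) / 2) 0 0 := by
      have := (((hasDerivAt_id (0 : ℝ)).pow 2).mul_const (∑ i, η i ^ 2)).div_const 2
      simpa using this
    have a2 := ((ghF_hasDerivAt hB (l :: ls) z (l.inc η) 0).sub_const (ghF B (l :: ls) z)).const_mul l.m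
    have a3 := (a1.add a2).exp
    have a4 := a3.mul (ghE_hasDerivAt hB (l :: ls) φ z (l.inc η) 0)
    refine a4.congr_deriv ?_
    simp
  have heq : (fun s : ℝ => ∫ ξ, ghD B l ls z ξ * (Real.exp (s * ∑ i, η i * ξ i) * ghE B ls φ (z + l.inc ξ)) ∂ghStd ι)
      = fun s : ℝ => Real.exp (s ^ 2 * (∑ i, η i ^ 2) / 2
        + l.m * (ghF B (l :: ls) (z + s • l.inc η) - ghF B (l :: ls) z)) * ghE B (l :: ls) φ (z + s • l.inc η) := by
    funext s
    rw [cmj_cm hB h η s (ghE B ls φ) z, gh_b_E_cons]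
  rw [heq] at hd1
  have hu := hd1.unique hd2
  have e1 : ∀ ξ, ghD B l ls z ξ * (((∑ i, η i * ξ i) - l.m * ghE B (l :: ls) (l.inc η) z) * ghE B ls φ (z + l.inc ξ))
      = ghD B l ls z ξ * ((∑ i, η i * ξ i) * ghE B ls φ (z + l.inc ξ))
        - l.m * ghE B (l :: ls) (l.inc η) z * (ghD B l ls z ξ * ghE B ls φ (z + l.inc ξ)) := fun ξ => by ring
  simp_rw [e1]
  rw [integral_sub (cmj_int_lin hB h η hf z) ((gh_b_A_integrable hB h hf z).const_mul _), integral_const_mul, hu]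
  have e2 : ∫ ξ, ghD B l ls z ξ * ghE B ls φ (z + l.inc ξ) ∂ghStd ι = ghE B (l :: ls) φ z := rfl
  rw [e2]
  ring

/-- the same in the vocabulary of the intervals -/
theorem cmj_ibp_N {B : GhB S} (hB : B.Ok) {e : CmjSt S ι} {ls : List (GhLv S ι)} (h : GhNn (e.l :: ls)) {Φ : S → ℝ} {v : ℝ}
    (he : e.Ok Φ v) (φ : S → ℝ) (z : S → ℝ) :
    ∫ ξ, ghD B e.l ls z ξ * (cmjN B e ls Φ z ξ * ghE B ls φ (z + e.l.inc ξ)) ∂ghStd ι
      = e.c ^ 2 * ghH B (e.l :: ls) φ Φ z := by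
  have hinc : e.l.inc e.η = fun s => e.c * Φ s := funext he.2
  have h1 := cmj_ibp hB h e.η φ z
  rw [hinc, gh_b_E_const_mul, cmj_H_smul hB] at h1
  have e1 : ∀ ξ, ghD B e.l ls z ξ * (cmjN B e ls Φ z ξ * ghE B ls φ (z + e.l.inc ξ))
      = e.c * (ghD B e.l ls z ξ * (((∑ i, e.η i * ξ i) - e.l.m * (e.c * ghE B (e.l :: ls) Φ z))
          * ghE B ls φ (z + e.l.inc ξ))) := fun ξ => by
    simp only [cmjN]; ring
  simp_rw [e1]
  rw [integral_const_mul, h1]
  ring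

end Claimed.Agent.R286
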