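import Claimed.Agent.R286.Cmp.P6Mst
import Claimed.Agent.R286.Cmp.DefsSk
import Claimed.Agent.R286.L08.SPKitC
import Claimed.Agent.R286.L08.SPI

/-!
# Row 286 (S0533), PE Section 3.4 (package P06), file Cmp/InstNumF : `CmNum.Ok` AT THE FINITE LEVEL      (architect + owner + prover helper21; prefixes `m7_` (abstract path), `m8_` (SK), defs `L8P.m*`)

= **L2 of `Cmp/InstNum.lean`** (helper295): `m8_numF_ok : (cmkNumF n P).Ok` for every admissible step path `P` of terminal mass `1`.   0 own sorry.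
TEX[PE:comp:bracket] (the model side of Lemma 3.11; INSTANCE THEOREM of the structure `CmNum.Ok` of helper294 at the finite level).
* Sections 1-4, MODEL FREE on the abstract single path `L8P` (L08/SP):   `P.mCut u` = number of revelations of mass `≤ u`, `P.mNum : CmNum` = the numbers as step functions of the mass,
  `m7_num_ok : P.Ok → P.a = 1 → P.Pin 1 1 → P.mNum.Ok`.      The field `master` = `m6_master` (Cmp/P6Mst) with the node weights `P.mWt w l` = average of the weight function `w` over the cell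
  `P.mCell l = {j ∈ [0,1] : cut j = l}` (`|cell l| = dv l`):   linear terms are exact (`m7_wt_g`), `dv l (mWt w l)² ≤ ∫_cell w²` (`m7_wt_sq`), `E W_l ≤ min(1, E tr H_l²/j)` on the cell (`m7_TW_le`).
* Section 5, SK:   `m8_numF_eq : cmkNumF n P = (skSP n 1 P).mNum` (dictionary `l8i_*` of L08/SPI), `m8_pin_one : (skSP n a P).Pin 1 1` from `ob_pinned_variance` (K10 of Fd/ObsC, `c_2 = 1`).
-/

set_option autoImplicit false

namespace Claimed.Agent.R286

open MeasureTheory ProbabilityTheory Finset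
open scoped ENNReal

variable {Ω : Type} [mΩ : MeasurableSpace Ω] {m : ℕ}

namespace L8P

variable (P : L8P Ω m)

/-- the cut at the mass `u`: the number of revelations of mass `≤ u` -/
noncomputable def mCut (u : ℝ) : ℕ := ((range P.n).filter fun k => P.v k ≤ u).card

/-- `E tr H_k²` -/
noncomputable def mTH (k : ℕ) : ℝ := ∫ ω, P.trH2 k ω ∂P.μ

/-- **the numbers of an abstract single path**, piecewise constant functions of the mass -/
noncomputable def mNum : CmNum where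
  S u := P.S (P.mCut (cmkCl u))
  D u := Real.sqrt (P.D2 (P.mCut (cmkCl u)))
  TH u := P.mTH (P.mCut (cmkCl u))
  TC u := P.mTC (P.mCut (cmkCl u))
  TW u := min 1 (P.mTH (P.mCut (cmkCl u)) / u)
  Q4 i j := P.mQ4 (P.mCut (cmkCl i)) (P.mCut (cmkCl j))
  NX q u := P.mNX q (P.mCut (cmkCl u))
  NR u := Real.sqrt (P.B (P.mCut (cmkCl u)))

/-! ## 1. the cut -/

theorem m7_lt_cut (h : P.Ok) (u : ℝ) (k : ℕ) : k < P.mCut u ↔ k < P.n ∧ P.v k ≤ u := by
  have hsub : (range P.n).filter (fun k => P.v k ≤ u) ⊆ range (P.mCut u) := by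
    intro j hj
    rw [Finset.mem_filter, Finset.mem_range] at hj
    rw [Finset.mem_range]
    have h1 : range (j + 1) ⊆ (range P.n).filter (fun k => P.v k ≤ u) := by
      intro i hi
      rw [Finset.mem_range] at hi
      rw [Finset.mem_filter, Finset.mem_range]
      exact ⟨by omega, (h.v_mono (by omega)).trans hj.2⟩
    have h2 := Finset.card_le_card h1
    rw [Finset.card_range] at h2
    exact h2
  have heq := Finset.eq_of_subset_of_card_le hsub (by rw [Finset.card_range]; exact le_rfl)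
  have : k ∈ range (P.mCut u) ↔ k ∈ (range P.n).filter (fun k => P.v k ≤ u) := by rw [heq]
  rw [Finset.mem_range, Finset.mem_filter, Finset.mem_range] at this
  exact this

theorem m7_cut_le (u : ℝ) : P.mCut u ≤ P.n := by
  have := Finset.card_filter_le (range P.n) (fun k => P.v k ≤ u)
  rwa [Finset.card_range] at this

theorem m7_cut_mono : Monotone P.mCut := by
  intro u u' huu
  refine Finset.card_le_card fun k hk => ?_
  rw [Finset.mem_filter] at hk ⊢
  exact ⟨hk.1, hk.2.trans huu⟩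

/-- the mass is below the mass of the next revelation -/
theorem m7_le_v_cut (h : P.Ok) {u : ℝ} (hu : u ≤ P.a) : u ≤ P.v (P.mCut u) := by
  rcases (P.m7_cut_le u).eq_or_lt with he | hl
  · rw [he, h.v_term _ le_rfl]; exact hu
  · by_contra hc
    have := (P.m7_lt_cut h u (P.mCut u)).2 ⟨hl, (not_le.1 hc).le⟩
    exact lt_irrefl _ this

theorem _root_.Claimed.Agent.R286.m7_cl_id {u : ℝ} (hu : u ∈ Set.Icc (0 : ℝ) 1) : cmkCl u = u := by
  unfold cmkCl
  rw [min_eq_left hu.2, max_eq_right hu.1]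

theorem _root_.Claimed.Agent.R286.m7_cl_mono : Monotone cmkCl := fun _ _ hab => max_le_max le_rfl (min_le_min hab le_rfl)

theorem m7_c_meas : Measurable fun u : ℝ => P.mCut (cmkCl u) := (P.m7_cut_mono.comp m7_cl_mono).measurable

theorem m7_comp_meas (g : ℕ → ℝ) : Measurable fun u : ℝ => g (P.mCut (cmkCl u)) :=
  (Measurable.of_discrete (f := g)).comp P.m7_c_meas

/-- left end of the cell `l` -/
noncomputable def mLo (l : ℕ) : ℝ := if l = 0 then 0 else P.v (l - 1)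

/-- the cell of the cut `l` in the mass interval `[0,1]` -/
def mCell (l : ℕ) : Set ℝ := {j | j ∈ Set.Icc (0 : ℝ) 1 ∧ P.mCut j = l}

theorem m7_cut_eq_iff (h : P.Ok) {l : ℕ} (hl : l ≤ P.n) {j : ℝ} (hj : 0 ≤ j) :
    P.mCut j = l ↔ P.mLo l ≤ j ∧ (l = P.n ∨ j < P.v l) := by
  constructor
  · rintro rfl
    refine ⟨?_, ?_⟩
    · unfold mLo
      split_ifs with h0
      · exact hj
      · exact ((P.m7_lt_cut h j (P.mCut j - 1)).1 (by omega)).2
    · rcases hl.eq_or_lt with he | hlt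
      · exact Or.inl he
      · right
        by_contra hc
        exact lt_irrefl _ ((P.m7_lt_cut h j (P.mCut j)).2 ⟨hlt, not_lt.1 hc⟩)
  · rintro ⟨h1, h2⟩
    apply le_antisymm
    · by_contra hc
      have h3 := (P.m7_lt_cut h j l).1 (not_le.1 hc)
      rcases h2 with h2 | h2
      · omega
      · exact absurd h3.2 (not_le.2 h2)
    · rcases Nat.eq_zero_or_pos l with h0 | h0
      · omega
      · have h3 : P.v (l - 1) ≤ j := by
          unfold mLo at h1
          rwa [if_neg (by omega)] at h1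
        have := (P.m7_lt_cut h j (l - 1)).2 ⟨by omega, h3⟩
        omega

theorem m7_lo_nonneg (h : P.Ok) (l : ℕ) : 0 ≤ P.mLo l := by
  unfold mLo
  split_ifs
  · exact le_rfl
  · exact h.v_nonneg _

theorem m7_cell_eq (h : P.Ok) (ha : P.a = 1) {l : ℕ} (hl : l ≤ P.n) :
    P.mCell l = if l = P.n then Set.Icc (P.mLo l) 1 else Set.Ico (P.mLo l) (P.v l) := by
  have hv : P.v l ≤ 1 := ha ▸ l8k_v_le_a h l
  have h0 := P.m7_lo_nonneg h l
  ext j
  unfold mCell
  split_ifs with hn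
  · simp only [Set.mem_ofPred_eq, Set.mem_Icc]
    constructor
    · rintro ⟨⟨a1, a2⟩, a3⟩
      exact ⟨((P.m7_cut_eq_iff h hl a1).1 a3).1, a2⟩
    · rintro ⟨a1, a2⟩
      exact ⟨⟨h0.trans a1, a2⟩, (P.m7_cut_eq_iff h hl (h0.trans a1)).2 ⟨a1, Or.inl hn⟩⟩
  · simp only [Set.mem_ofPred_eq, Set.mem_Icc, Set.mem_Ico]
    constructor
    · rintro ⟨⟨a1, a2⟩, a3⟩
      have := (P.m7_cut_eq_iff h hl a1).1 a3
      exact ⟨this.1, this.2.resolve_left hn⟩
    · rintro ⟨a1, a2⟩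
      exact ⟨⟨h0.trans a1, (a2.le.trans hv)⟩, (P.m7_cut_eq_iff h hl (h0.trans a1)).2 ⟨a1, Or.inr a2⟩⟩

theorem m7_cell_meas (l : ℕ) : MeasurableSet (P.mCell l) :=
  measurableSet_Icc.inter (P.m7_cut_mono.measurable (measurableSet_singleton l))

theorem m7_cell_vol (h : P.Ok) (ha : P.a = 1) {l : ℕ} (hl : l ≤ P.n) : volume (P.mCell l) = ENNReal.ofReal (P.dv l) := by
  have e : P.dv l = P.v l - P.mLo l := rfl
  rw [P.m7_cell_eq h ha hl, e]
  split_ifs with hn
  · rw [Real.volume_Icc, hn, h.v_term _ le_rfl, ha]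
  · rw [Real.volume_Ico]

theorem m7_cell_union : (⋃ l ∈ range (P.n + 1), P.mCell l) = Set.Icc (0 : ℝ) 1 := by
  ext j
  simp only [Set.mem_iUnion, Finset.mem_range, mCell, Set.mem_ofPred_eq, exists_prop]
  constructor
  · rintro ⟨l, _, h1, _⟩
    exact h1
  · intro h1
    exact ⟨P.mCut j, Nat.lt_succ_of_le (P.m7_cut_le j), h1, rfl⟩

theorem m7_cell_disj : Set.Pairwise (↑(range (P.n + 1))) (Function.onFun Disjoint P.mCell) := by
  intro l _ l' _ hll
  refine Set.disjoint_left.2 fun j hj hj' => hll ?_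
  rw [← hj.2, ← hj'.2]

/-! ## 2. traces -/

theorem m7_trC2_le_one (h : P.Ok) (k : ℕ) (ω : Ω) : P.trC2 k ω ≤ 1 := by
  have e : P.trC2 k ω = ∑ i, ∑ j, P.C k i j ω * P.C k i j ω :=
    Finset.sum_congr rfl fun i _ => Finset.sum_congr rfl fun j _ => sq _
  rw [e, l8k_tr_C h k (fun i j => P.C k i j ω) ω]
  have hb1 : L8Bd (fun x => ∑ i, ∑ j, P.R k i x * P.C k i j ω * P.R k j x) :=
    L8Bd.sum _ fun i _ => L8Bd.sum _ fun j _ => ((P.l8sb_R_bd h k i).mul_const _).mul (P.l8sb_R_bd h k j)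
  have hb2 : L8Bd (fun x => ∑ i, P.R k i x * P.R k i x) := L8Bd.sum _ fun i _ => (P.l8sb_R_bd h k i).mul (P.l8sb_R_bd h k i)
  have h1 := P.l8s_E_mono h k hb1 hb2 (fun x => by
    refine (l8k_C_quad_le h k (fun i => P.R k i x) ω).trans (le_of_eq ?_)
    exact Finset.sum_congr rfl fun i _ => sq _) ω
  refine h1.trans ?_
  rw [P.l8s_E_sum h k _ fun i _ => (P.l8sb_R_bd h k i).mul (P.l8sb_R_bd h k i)]
  simp only [← P.l8s_C_eq h]
  exact P.l8s_trC_le_one h k ω

theorem m7_trCH_le (h : P.Ok) {k : ℕ} (hk : k ≤ P.n + 1) (ω : Ω) : P.trCH k ω ≤ P.a * P.trC2 k ω := by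
  have key : 0 ≤ ∑ i, ∑ j, (P.a * P.C k i j ω - P.H k i j ω) * P.C k i j ω := by
    rw [l8k_tr_C h]
    refine l8k_E_nonneg (fun x => ?_) k ω
    have := l8k_H_le_aC h hk (fun i => P.R k i x) ω
    rw [Finset.mul_sum] at this
    simp only [Finset.mul_sum] at this
    rw [← sub_nonneg, ← Finset.sum_sub_distrib] at this
    refine this.trans_eq (Finset.sum_congr rfl fun i _ => ?_)
    rw [← Finset.sum_sub_distrib]
    exact Finset.sum_congr rfl fun j _ => by ring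
  unfold L8P.trCH L8P.trC2
  rw [Finset.mul_sum, ← sub_nonneg, ← Finset.sum_sub_distrib]
  refine key.trans_eq (Finset.sum_congr rfl fun i _ => ?_)
  rw [Finset.mul_sum, ← Finset.sum_sub_distrib]
  exact Finset.sum_congr rfl fun j _ => by ring

theorem m7_trH2_le (h : P.Ok) {k : ℕ} (hk : k ≤ P.n + 1) (ω : Ω) : P.trH2 k ω ≤ P.a * P.trCH k ω := by
  have key : 0 ≤ ∑ i, ∑ j, (P.a * P.C k i j ω - P.H k i j ω) * P.H k i j ω := by
    rw [l8k_tr_H h]
    refine Finset.sum_nonneg fun l _ => mul_nonneg (h.v_nonneg l) (l8k_E_nonneg (fun x => ?_) k ω)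
    have := l8k_H_le_aC h hk (fun i => P.dX l i x) ω
    rw [Finset.mul_sum] at this
    simp only [Finset.mul_sum] at this
    rw [← sub_nonneg, ← Finset.sum_sub_distrib] at this
    refine this.trans_eq (Finset.sum_congr rfl fun i _ => ?_)
    rw [← Finset.sum_sub_distrib]
    exact Finset.sum_congr rfl fun j _ => by ring
  unfold L8P.trCH L8P.trH2
  rw [Finset.mul_sum, ← sub_nonneg, ← Finset.sum_sub_distrib]
  refine key.trans_eq (Finset.sum_congr rfl fun i _ => ?_)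
  rw [Finset.mul_sum, ← Finset.sum_sub_distrib]
  exact Finset.sum_congr rfl fun j _ => by ring

theorem m7_TC_le_one (h : P.Ok) (k : ℕ) : P.mTC k ≤ 1 := by
  have := h.prob
  have h1 : P.mTC k ≤ ∫ _ω, (1 : ℝ) ∂P.μ :=
    integral_mono ((P.m6_trC2_bd h k).integrable _) (integrable_const _) fun ω => P.m7_trC2_le_one h k ω
  simpa using h1

theorem m7_TW_eq (h : P.Ok) (k : ℕ) : P.mTW k = ∫ ω, P.trCH k ω ∂P.μ := P.l8s_integral_W h k

theorem m7_TW_nonneg (h : P.Ok) (k : ℕ) : 0 ≤ P.mTW k := integral_nonneg fun ω => P.l8s_W_nonneg h k ω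

theorem m7_TH_nonneg (k : ℕ) : 0 ≤ P.mTH k :=
  integral_nonneg fun ω => Finset.sum_nonneg fun i _ => Finset.sum_nonneg fun j _ => sq_nonneg _

theorem m7_TW_le_TC (h : P.Ok) (ha : P.a = 1) {k : ℕ} (hk : k ≤ P.n + 1) : P.mTW k ≤ P.mTC k := by
  have := h.prob
  rw [P.m7_TW_eq h k]
  refine integral_mono ((l8k_trCH_bd h k).integrable _) ((P.m6_trC2_bd h k).integrable _) fun ω => ?_
  have := P.m7_trCH_le h hk ω
  rwa [ha, one_mul] at this

theorem m7_TH_le_TW (h : P.Ok) (ha : P.a = 1) {k : ℕ} (hk : k ≤ P.n + 1) : P.mTH k ≤ P.mTW k := by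
  have := h.prob
  rw [P.m7_TW_eq h k]
  refine integral_mono ((l8k_trH2_bd h k).integrable _) ((l8k_trCH_bd h k).integrable _) fun ω => ?_
  have := P.m7_trH2_le h hk ω
  rwa [ha, one_mul] at this

theorem m7_vTW_le_TH (h : P.Ok) {k : ℕ} (hk : k ≤ P.n + 1) : P.v k * P.mTW k ≤ P.mTH k := by
  have := h.prob
  rw [P.m7_TW_eq h k, ← integral_const_mul]
  exact integral_mono (((l8k_trCH_bd h k).const_mul _).integrable _) ((l8k_trH2_bd h k).integrable _) fun ω => P.l8s_trCH_le h hk ω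

theorem m7_vTC_le_TW (h : P.Ok) {k : ℕ} (hk : k ≤ P.n + 1) : P.v k * P.mTC k ≤ P.mTW k := by
  have := h.prob
  rw [P.m7_TW_eq h k]
  unfold mTC
  rw [← integral_const_mul]
  exact integral_mono (((P.m6_trC2_bd h k).const_mul _).integrable _) ((l8k_trCH_bd h k).integrable _) fun ω => P.l8s_trC2_le h hk ω

theorem m7_B_le_one (h : P.Ok) (k : ℕ) : P.B k ≤ 1 := by
  have := h.prob
  have hyy : ∀ i j, L8Bd (fun ω' => P.y i ω' * P.y j ω') := fun i j => (P.l8s_y_bd h i).mul (P.l8s_y_bd h j)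
  have hb : L8Bd (fun ω => ∑ i, ∑ j, P.E k (fun ω' => P.y i ω' * P.y j ω') ω ^ 2) :=
    L8Bd.sum _ fun i _ => L8Bd.sum _ fun j _ => (P.l8s_E_bd h k (hyy i j)).pow 2
  have h1 : P.B k ≤ ∫ _ω, (1 : ℝ) ∂P.μ := by
    refine integral_mono (hb.integrable _) (integrable_const _) fun ω => ?_
    have h2 : ∀ i j, P.E k (fun ω' => P.y i ω' * P.y j ω') ω ^ 2 ≤ P.E k (fun ω' => (P.y i ω' * P.y j ω') ^ 2) ω := by
      intro i j
      have := P.l8s_E_pow_le h k (hyy i j) 2 ω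
      simpa only [sq_abs] using this
    refine (Finset.sum_le_sum fun i _ => Finset.sum_le_sum fun j _ => h2 i j).trans (le_of_eq ?_)
    simp only [← P.l8s_E_sum h k _ fun j _ => (hyy _ j).pow 2]
    rw [← P.l8s_E_sum h k _ fun i _ => L8Bd.sum _ fun j _ => (hyy i j).pow 2]
    have e : (fun ω' => ∑ i, ∑ j, (P.y i ω' * P.y j ω') ^ 2) = fun _ => 1 := by
      funext x
      have : ∑ i, ∑ j, (P.y i x * P.y j x) ^ 2 = (∑ i, P.y i x ^ 2) * ∑ j, P.y j x ^ 2 := by
        rw [Finset.sum_mul_sum]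
        exact Finset.sum_congr rfl fun i _ => Finset.sum_congr rfl fun j _ => by ring
      rw [this, h.y_sq x, one_mul]
    rw [e, P.l8s_E_const h]
  simpa using h1

theorem m7_D2_le_B (k : ℕ) : P.D2 k ≤ P.B k := by
  unfold L8P.D2
  nlinarith [sq_nonneg (P.S k)]

theorem m7_NX_nonneg (q k : ℕ) : 0 ≤ P.mNX q k :=
  Real.rpow_nonneg (integral_nonneg fun ω => pow_nonneg (Finset.sum_nonneg fun i _ => sq_nonneg _) _) _

theorem m7_NX_le_one (h : P.Ok) (q k : ℕ) : P.mNX q k ≤ 1 := by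
  have := h.prob
  refine Real.rpow_le_one (integral_nonneg fun ω => pow_nonneg (Finset.sum_nonneg fun i _ => sq_nonneg _) _) ?_ (by positivity)
  have h1 : ∫ ω, P.nX k ω ^ q ∂P.μ ≤ ∫ _ω, (1 : ℝ) ∂P.μ :=
    integral_mono (((P.m6_nX_bd h k).pow q).integrable _) (integrable_const _) fun ω =>
      pow_le_one₀ (Finset.sum_nonneg fun i _ => sq_nonneg _) (P.l8s_nX_le_one h k ω)
  simpa using h1

theorem m7_S_eq_NX (k : ℕ) : P.S k = P.mNX 1 k ^ 2 := by
  unfold mNX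
  have h0 : 0 ≤ ∫ ω, P.nX k ω ^ 1 ∂P.μ := integral_nonneg fun ω => pow_nonneg (Finset.sum_nonneg fun i _ => sq_nonneg _) _
  rw [← Real.rpow_natCast, ← Real.rpow_mul h0]
  norm_num
  rfl

/-! ## 3. integrals over the mass -/

/-- bounded measurable functions vanishing outside `[0,1]` are integrable -/
theorem _root_.Claimed.Agent.R286.m7_int {F : ℝ → ℝ} (hm : Measurable F) {C : ℝ} (hb : ∀ j, |F j| ≤ C)
    (hs : ∀ j, j ∉ Set.Icc (0 : ℝ) 1 → F j = 0) : Integrable F := by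
  have h1 : IntegrableOn F (Set.Icc 0 1) :=
    Measure.integrableOn_of_bounded (M := C) (by simp) hm.aestronglyMeasurable (ae_of_all _ fun j => by
      rw [Real.norm_eq_abs]; exact hb j)
  exact h1.integrable_of_forall_notMem_eq_zero hs

theorem m7_split {F : ℝ → ℝ} (hF : Integrable F) (hs : ∀ j, j ∉ Set.Icc (0 : ℝ) 1 → F j = 0) :
    ∫ j, F j = ∑ l ∈ range (P.n + 1), ∫ j in P.mCell l, F j := by
  rw [← setIntegral_eq_integral_of_forall_compl_eq_zero hs, ← P.m7_cell_union,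
    integral_biUnion_finset _ (fun l _ => P.m7_cell_meas l) P.m7_cell_disj fun l _ => hF.integrableOn]

/-- the node weights = cell averages of the weight function -/
noncomputable def mWt (w : ℝ → ℝ) (l : ℕ) : ℝ := (∫ j in P.mCell l, w j) / P.dv l

theorem _root_.Claimed.Agent.R286.m7_w_abs {w : ℝ → ℝ} (hw : CmWt w) : ∃ B : ℝ, 0 ≤ B ∧ ∀ j, |w j| ≤ B := by
  obtain ⟨B, hB⟩ := hw.bdd
  exact ⟨B, (hw.nn 0).trans (hB 0), fun j => by rw [abs_of_nonneg (hw.nn j)]; exact hB j⟩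

theorem _root_.Claimed.Agent.R286.m7_w_int {w : ℝ → ℝ} (hw : CmWt w) : Integrable w := by
  obtain ⟨B, _, hB⟩ := m7_w_abs hw
  exact m7_int hw.meas hB hw.supp

theorem _root_.Claimed.Agent.R286.m7_w2_int {w : ℝ → ℝ} (hw : CmWt w) : Integrable fun j => w j ^ 2 := by
  obtain ⟨B, hB0, hB⟩ := m7_w_abs hw
  refine m7_int (hw.meas.pow_const 2) (C := B ^ 2) (fun j => ?_) fun j hj => by rw [hw.supp j hj]; ring
  rw [abs_pow]
  exact pow_le_pow_left₀ (abs_nonneg _) (hB j) 2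

theorem m7_wt_nonneg (h : P.Ok) {w : ℝ → ℝ} (hw : CmWt w) (l : ℕ) : 0 ≤ P.mWt w l :=
  div_nonneg (setIntegral_nonneg (P.m7_cell_meas l) fun j _ => hw.nn j) (P.m6_dv_nonneg h l)

theorem m7_dv_wt (h : P.Ok) (ha : P.a = 1) (w : ℝ → ℝ) {l : ℕ} (hl : l ≤ P.n) :
    P.dv l * P.mWt w l = ∫ j in P.mCell l, w j := by
  unfold mWt
  by_cases h0 : P.dv l = 0
  · have hv : volume (P.mCell l) = 0 := by rw [P.m7_cell_vol h ha hl, h0]; simp
    rw [h0, zero_mul, Measure.restrict_eq_zero.2 hv, integral_zero_measure]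
  · field_simp

theorem m7_wt_g (h : P.Ok) (ha : P.a = 1) {w : ℝ → ℝ} (hw : CmWt w) (g : ℕ → ℝ) :
    ∑ l ∈ range (P.n + 1), P.dv l * (P.mWt w l * g l) = ∫ j, w j * g (P.mCut (cmkCl j)) := by
  obtain ⟨B, hB0, hB⟩ := m7_w_abs hw
  have hg : ∀ j, |g (P.mCut (cmkCl j))| ≤ ∑ l ∈ range (P.n + 1), |g l| := fun j =>
    Finset.single_le_sum (f := fun l => |g l|) (fun _ _ => abs_nonneg _)
      (Finset.mem_range.2 (Nat.lt_succ_of_le (P.m7_cut_le _)))
  have hF : Integrable fun j => w j * g (P.mCut (cmkCl j)) := by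
    refine m7_int (hw.meas.mul (P.m7_comp_meas g)) (C := B * ∑ l ∈ range (P.n + 1), |g l|) (fun j => ?_)
      fun j hj => by rw [hw.supp j hj, zero_mul]
    rw [abs_mul]
    exact mul_le_mul (hB j) (hg j) (abs_nonneg _) hB0
  rw [P.m7_split hF fun j hj => by rw [hw.supp j hj, zero_mul]]
  refine Finset.sum_congr rfl fun l hl => ?_
  have hl' : l ≤ P.n := Nat.lt_succ_iff.1 (Finset.mem_range.1 hl)
  rw [← mul_assoc, P.m7_dv_wt h ha w hl', ← integral_mul_const]
  refine setIntegral_congr_fun (P.m7_cell_meas l) fun j hj => ?_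
  show w j * g l = w j * g (P.mCut (cmkCl j))
  rw [m7_cl_id hj.1, hj.2]

theorem m7_wt_sum (h : P.Ok) (ha : P.a = 1) {w : ℝ → ℝ} (hw : CmWt w) :
    ∑ l ∈ range (P.n + 1), P.dv l * P.mWt w l = 1 := by
  have := P.m7_wt_g h ha hw fun _ => 1
  simp only [mul_one] at this
  rw [this, hw.one]

theorem m7_wt_sq (h : P.Ok) (ha : P.a = 1) {w : ℝ → ℝ} (hw : CmWt w) {l : ℕ} (hl : l ≤ P.n) :
    P.dv l * P.mWt w l ^ 2 ≤ ∫ j in P.mCell l, w j ^ 2 := by
  have hfin : IsFiniteMeasure (volume.restrict (P.mCell l)) :=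
    ⟨by rw [Measure.restrict_apply_univ, P.m7_cell_vol h ha hl]; exact ENNReal.ofReal_lt_top⟩
  have h1 : IntegrableOn w (P.mCell l) := (m7_w_int hw).integrableOn
  have h2 : IntegrableOn (fun j => w j ^ 2) (P.mCell l) := (m7_w2_int hw).integrableOn
  have h0 : 0 ≤ ∫ j in P.mCell l, (w j - P.mWt w l) ^ 2 := integral_nonneg fun j => sq_nonneg _
  have e : ∫ j in P.mCell l, (w j - P.mWt w l) ^ 2
      = (∫ j in P.mCell l, w j ^ 2) - 2 * P.mWt w l * (∫ j in P.mCell l, w j) + P.mWt w l ^ 2 * P.dv l := by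
    have e1 : ∀ j, (w j - P.mWt w l) ^ 2 = (w j ^ 2 - 2 * P.mWt w l * w j) + P.mWt w l ^ 2 := fun j => by ring
    have i1 : Integrable (fun j => 2 * P.mWt w l * w j) (volume.restrict (P.mCell l)) := h1.const_mul _
    have i2 : Integrable (fun j => w j ^ 2 - 2 * P.mWt w l * w j) (volume.restrict (P.mCell l)) := h2.sub i1
    rw [integral_congr_ae (ae_of_all _ e1), integral_add i2 (integrable_const _),
      integral_sub h2 i1, integral_const_mul, integral_const]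
    have e2 : (volume.restrict (P.mCell l)).real Set.univ = P.dv l := by
      rw [Measure.real, Measure.restrict_apply_univ, P.m7_cell_vol h ha hl, ENNReal.toReal_ofReal (P.m6_dv_nonneg h l)]
    rw [e2, smul_eq_mul]
    ring
  rw [e, ← P.m7_dv_wt h ha w hl] at h0
  nlinarith

/-! ## 4. the side costs, the master inequality, `Ok` -/

theorem m7_TW_meas : Measurable P.mNum.TW :=
  measurable_const.min ((P.m7_comp_meas P.mTH).div measurable_id)

/-- `E W_l ≤ min(1, E tr H_l²/j)` on the cell `l`, `j ≠ 0` -/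
theorem m7_TW_le (h : P.Ok) (ha : P.a = 1) {l : ℕ} {j : ℝ} (hj : j ∈ P.mCell l) (hj0 : j ≠ 0) : P.mTW l ≤ P.mNum.TW j := by
  have hl : l ≤ P.n := hj.2 ▸ P.m7_cut_le j
  have hl1 : l ≤ P.n + 1 := hl.trans (Nat.le_succ _)
  have hjp : 0 < j := lt_of_le_of_ne hj.1.1 (Ne.symm hj0)
  have hjv : j ≤ P.v l := by
    have := P.m7_le_v_cut h (u := j) (by rw [ha]; exact hj.1.2)
    rwa [hj.2] at this
  show P.mTW l ≤ min 1 (P.mTH (P.mCut (cmkCl j)) / j)
  rw [m7_cl_id hj.1, hj.2]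
  refine le_min ((P.m7_TW_le_TC h ha hl1).trans (P.m7_TC_le_one h l)) ?_
  rw [le_div_iff₀ hjp]
  have h1 := P.m7_vTW_le_TH h hl1
  have h2 := mul_le_mul_of_nonneg_right hjv (P.m7_TW_nonneg h l)
  linarith

theorem m7_side_two (h : P.Ok) (ha : P.a = 1) {w : ℝ → ℝ} (hw : CmWt w) :
    ∑ l ∈ range (P.n + 1), P.dv l * (P.mWt w l ^ 2 * P.mTW l) ≤ ∫ j, w j ^ 2 * P.mNum.TW j := by
  obtain ⟨B, hB0, hB⟩ := m7_w_abs hw
  have hT0 : ∀ j, j ∈ Set.Icc (0 : ℝ) 1 → 0 ≤ P.mNum.TW j := fun j hj =>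
    le_min zero_le_one (div_nonneg (P.m7_TH_nonneg _) hj.1)
  have hF : Integrable fun j => w j ^ 2 * P.mNum.TW j := by
    refine m7_int ((hw.meas.pow_const 2).mul P.m7_TW_meas) (C := B ^ 2) (fun j => ?_)
      fun j hj => by rw [hw.supp j hj]; ring
    by_cases hj : j ∈ Set.Icc (0 : ℝ) 1
    · rw [abs_mul, abs_pow, abs_of_nonneg (hT0 j hj)]
      calc |w j| ^ 2 * P.mNum.TW j ≤ B ^ 2 * 1 :=
            mul_le_mul (pow_le_pow_left₀ (abs_nonneg _) (hB j) 2) (min_le_left _ _) (hT0 j hj) (by positivity)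
        _ = B ^ 2 := mul_one _
    · rw [hw.supp j hj]
      simp only [ne_eq, OfNat.ofNat_ne_zero, not_false_eq_true, zero_pow, zero_mul, abs_zero]
      positivity
  rw [P.m7_split hF fun j hj => by rw [hw.supp j hj]; ring]
  refine Finset.sum_le_sum fun l hl => ?_
  have hl' : l ≤ P.n := Nat.lt_succ_iff.1 (Finset.mem_range.1 hl)
  have h1 := mul_le_mul_of_nonneg_right (P.m7_wt_sq h ha hw hl') (P.m7_TW_nonneg h l)
  rw [← mul_assoc]
  refine h1.trans ?_
  rw [← integral_mul_const]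
  refine setIntegral_mono_on_ae ((m7_w2_int hw).integrableOn.mul_const _) hF.integrableOn (P.m7_cell_meas l) ?_
  have hne : ∀ᵐ j : ℝ, j ∉ ({0} : Set ℝ) := measure_eq_zero_iff_ae_notMem.1 (measure_singleton (0 : ℝ))
  filter_upwards [hne] with j hj0 hj
  exact mul_le_mul_of_nonneg_left (P.m7_TW_le h ha hj (by simpa using hj0)) (sq_nonneg _)

theorem m7_side_le (h : P.Ok) (ha : P.a = 1) {i : ℝ} (hi : i ∈ Set.Icc (0 : ℝ) 1) {w : ℝ → ℝ} (hw : CmWt w) :
    P.mSide (P.mCut i) (P.mWt w) ≤ P.mNum.side i w := by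
  have e1 := P.m7_wt_g h ha hw fun l => (Real.sqrt (P.mTC (P.mCut i)) + Real.sqrt (P.mTC l))
      * (|P.S l - P.S (P.mCut i)| + 3 * (Real.sqrt (P.D2 (P.mCut i)) + Real.sqrt (P.D2 l)))
  have e3 := P.m7_wt_g h ha hw fun l => P.S l - P.S (P.mCut i)
  have e2 := P.m7_side_two h ha hw
  unfold mSide CmNum.side
  rw [e1, e3]
  have hc : cmkCl i = i := m7_cl_id hi
  have a1 : (∫ j, w j * ((Real.sqrt (P.mNum.TC i) + Real.sqrt (P.mNum.TC j)) * (|P.mNum.S j - P.mNum.S i| + 3 * (P.mNum.D i + P.mNum.D j))))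
      = ∫ j, w j * ((Real.sqrt (P.mTC (P.mCut i)) + Real.sqrt (P.mTC (P.mCut (cmkCl j))))
          * (|P.S (P.mCut (cmkCl j)) - P.S (P.mCut i)| + 3 * (Real.sqrt (P.D2 (P.mCut i)) + Real.sqrt (P.D2 (P.mCut (cmkCl j)))))) := by
    show (∫ j, w j * ((Real.sqrt (P.mTC (P.mCut (cmkCl i))) + Real.sqrt (P.mTC (P.mCut (cmkCl j))))
          * (|P.S (P.mCut (cmkCl j)) - P.S (P.mCut (cmkCl i))| + 3 * (Real.sqrt (P.D2 (P.mCut (cmkCl i))) + Real.sqrt (P.D2 (P.mCut (cmkCl j))))))) = _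
    rw [hc]
  have a3 : (∫ j, w j * (P.mNum.S j - P.mNum.S i)) = ∫ j, w j * (P.S (P.mCut (cmkCl j)) - P.S (P.mCut i)) := by
    show (∫ j, w j * (P.S (P.mCut (cmkCl j)) - P.S (P.mCut (cmkCl i)))) = _
    rw [hc]
  rw [a1, a3]
  linarith

/-- a nonzero node weight sees a point of its cell where the weight function does not vanish -/
theorem m7_wt_ne {w : ℝ → ℝ} {l : ℕ} (hne : P.mWt w l ≠ 0) : ∃ j ∈ P.mCell l, w j ≠ 0 := by
  by_contra hc
  push Not at hc
  apply hne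
  unfold mWt
  rw [setIntegral_congr_fun (P.m7_cell_meas l) (g := fun _ => (0 : ℝ)) fun j hj => hc j hj]
  simp

theorem m7_master (h : P.Ok) (ha : P.a = 1) (hp : P.Pin 1 1) (i : ℝ) (hi : i ∈ Set.Icc (0 : ℝ) 1) (wp wm : ℝ → ℝ)
    (hwp : CmWt wp) (hwm : CmWt wm) (q4 : ℝ) (hq4 : 0 ≤ q4)
    (hQp : ∀ j ∈ Set.Icc (0 : ℝ) 1, wp j ≠ 0 → j < i → P.mNum.Q4 i j ≤ q4)
    (hQm : ∀ j ∈ Set.Icc (0 : ℝ) 1, wm j ≠ 0 → i < j → P.mNum.Q4 i j ≤ q4) :
    P.mNum.D i ^ 2 ≤ P.mNum.TC i + 8 * q4 + 16 * (P.mNum.side i wp + P.mNum.side i wm) := by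
  have hc : cmkCl i = i := m7_cl_id hi
  have hQ : ∀ j ∈ Set.Icc (0 : ℝ) 1, P.mNum.Q4 i j = P.mQ4 (P.mCut i) (P.mCut j) := fun j hj => by
    show P.mQ4 (P.mCut (cmkCl i)) (P.mCut (cmkCl j)) = _
    rw [hc, m7_cl_id hj]
  have h1 := P.m6_master h hp (P.mCut i) (P.mWt wp) (P.mWt wm) (P.m7_wt_nonneg h hwp) (P.m7_wt_nonneg h hwm)
    (P.m7_wt_sum h ha hwp) (P.m7_wt_sum h ha hwm) q4 hq4
    (fun l _ hlk hne => by
      obtain ⟨j, hj, hwj⟩ := P.m7_wt_ne hne
      have hji : j < i := by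
        by_contra hcon
        have := P.m7_cut_mono (not_lt.1 hcon)
        rw [hj.2] at this
        omega
      have := hQp j hj.1 hwj hji
      rwa [hQ j hj.1, hj.2] at this)
    (fun l _ hlk hne => by
      obtain ⟨j, hj, hwj⟩ := P.m7_wt_ne hne
      have hji : i < j := by
        by_contra hcon
        have := P.m7_cut_mono (not_lt.1 hcon)
        rw [hj.2] at this
        omega
      have := hQm j hj.1 hwj hji
      rwa [hQ j hj.1, hj.2] at this)
  have s1 := P.m7_side_le h ha hi hwp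
  have s2 := P.m7_side_le h ha hi hwm
  have eD : P.mNum.D i ^ 2 = P.D2 (P.mCut i) := by
    show Real.sqrt (P.D2 (P.mCut (cmkCl i))) ^ 2 = _
    rw [hc, Real.sq_sqrt (P.m6_D2_nonneg h _)]
  have eT : P.mNum.TC i = P.mTC (P.mCut i) := by
    show P.mTC (P.mCut (cmkCl i)) = _
    rw [hc]
  rw [eD, eT]
  linarith

/-- **the numbers of an abstract single path of terminal mass `1` satisfy `CmNum.Ok`** -/
theorem m7_num_ok (h : P.Ok) (ha : P.a = 1) (hp : P.Pin 1 1) : P.mNum.Ok where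
  S_meas := P.m7_comp_meas P.S
  S_mono := fun u _ u' _ huu => P.l8s_S_mono h (P.m7_cut_mono (m7_cl_mono huu))
  S_nn := fun u _ => P.l8s_S_nonneg _
  S_le := fun u _ => P.l8s_S_le_one h _
  D_meas := P.m7_comp_meas fun k => Real.sqrt (P.D2 k)
  D_nn := fun u _ => Real.sqrt_nonneg _
  D_le := fun u _ => Real.sqrt_le_one.2 ((P.m7_D2_le_B _).trans (P.m7_B_le_one h _))
  TH_meas := P.m7_comp_meas P.mTH
  TH_nn := fun u _ => P.m7_TH_nonneg _
  TH_le := fun u _ => by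
    have hk : P.mCut (cmkCl u) ≤ P.n + 1 := (P.m7_cut_le _).trans (Nat.le_succ _)
    exact ((P.m7_TH_le_TW h ha hk).trans (P.m7_TW_le_TC h ha hk)).trans (P.m7_TC_le_one h _)
  TC_meas := P.m7_comp_meas P.mTC
  TC_nn := fun u _ => P.m6_TC_nonneg _
  TC_le := fun u _ => P.m7_TC_le_one h _
  TW_meas := P.m7_TW_meas
  TW_nn := fun u hu => le_min zero_le_one (div_nonneg (P.m7_TH_nonneg _) hu.1)
  TW_le := fun u _ => min_le_left _ _
  tc_th := fun u hu => by
    have hk : P.mCut u ≤ P.n + 1 := (P.m7_cut_le _).trans (Nat.le_succ _)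
    show u ^ 2 * P.mTC (P.mCut (cmkCl u)) ≤ P.mTH (P.mCut (cmkCl u))
    rw [m7_cl_id hu]
    have huv : u ≤ P.v (P.mCut u) := P.m7_le_v_cut h (by rw [ha]; exact hu.2)
    have h1 := P.m7_vTC_le_TW h hk
    have h2 := P.m7_vTW_le_TH h hk
    have h3 := P.m6_TC_nonneg (P.mCut u)
    have h4 := P.m7_TW_nonneg h (P.mCut u)
    have h5 : u * P.mTC (P.mCut u) ≤ P.mTW (P.mCut u) := (mul_le_mul_of_nonneg_right huv h3).trans h1
    have h6 : u * P.mTW (P.mCut u) ≤ P.mTH (P.mCut u) := (mul_le_mul_of_nonneg_right huv h4).trans h2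
    have h7 := mul_le_mul_of_nonneg_left h5 hu.1
    nlinarith
  tw_th := fun u hu => by
    show u * min 1 (P.mTH (P.mCut (cmkCl u)) / u) ≤ P.mTH (P.mCut (cmkCl u))
    rcases hu.1.eq_or_lt with h0 | h0
    · rw [← h0, zero_mul]; exact P.m7_TH_nonneg _
    · refine (mul_le_mul_of_nonneg_left (min_le_right _ _) hu.1).trans (le_of_eq ?_)
      field_simp
  NX_nn := fun q u _ => P.m7_NX_nonneg q _
  NX_le := fun q u _ => P.m7_NX_le_one h q _
  s_nx := fun u _ => P.m7_S_eq_NX _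
  d_nr := fun u _ => Real.sqrt_le_sqrt (P.m7_D2_le_B _)
  NR_le := fun u _ => Real.sqrt_le_one.2 (P.m7_B_le_one h _)
  q4_int := fun q hq i _ j _ => P.m6_q4_int h q hq _ _
  master := fun i hi wp wm hwp hwm q4 hq4 hQp hQm => P.m7_master h ha hp i hi wp wm hwp hwm q4 hq4 hQp hQm

end L8P

/-! ## 5. the SK instance -/

theorem m8_cut (a : ℝ) (P : SkStp) (u : ℝ) :
    (P.filter fun e => decide (e.m ≤ u)).length = ((range P.length).filter fun k => skMs a P k ≤ u).card := by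
  induction P with
  | nil => simp
  | cons e P ih =>
    have h1 : ∀ k, skMs a (e :: P) (k + 1) = skMs a P k := fun k => by simp [skMs]
    have h0 : skMs a (e :: P) 0 = e.m := by simp [skMs]
    rw [Finset.card_filter, List.length_cons, Finset.sum_range_succ']
    simp only [h1, h0]
    rw [← Finset.card_filter, ← ih, List.filter_cons]
    by_cases hu : e.m ≤ u
    · simp [hu]
    · simp [hu]

theorem m8_cut_eq (n : ℕ) (a : ℝ) (P : SkStp) (u : ℝ) : cmkCut P u = (skSP n a P).mCut u := m8_cut a P u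

theorem m8_path (n : ℕ) (a : ℝ) (ha : 0 < a) (P : SkStp) (hP : SkAdm a P) {f : SkOm n → ℝ} (hf : L8Bd f)
    (T : (ℕ → SkDr n → ℝ) → SkCfg n → ℝ) (hfT : ∀ ω, f ω = T ω.1 ω.2) : ∫ ω, f ω ∂(skSP n a P).μ = obE n a P 0 T := by
  obtain ⟨hm, C, hC⟩ := hf
  have e : f = fun ω : SkOm n => T ω.1 ω.2 := funext hfT
  rw [e] at hm hC ⊢
  exact l8i_path n a ha P hP T hm C fun ξ σ => hC (ξ, σ)

section
variable (n : ℕ) (hn : 1 ≤ n) (a : ℝ) (ha : 0 < a) (P : SkStp) (hP : SkAdm a P)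
include hn ha hP

theorem m8_TH {k : ℕ} (hk : k ≤ P.length) : (skSP n a P).mTH k = obTrH2 n a P 0 k :=
  m8_path n a ha P hP (l8k_trH2_bd (l8i_ok n hn a ha P hP) k) _ fun ω => by
    simp only [L8P.trH2, l8i_H n a ha P hP k hk]

theorem m8_TC {k : ℕ} (hk : k ≤ P.length) : (skSP n a P).mTC k = obTrC2 n a P 0 k :=
  m8_path n a ha P hP (l8k_trC2_bd (l8i_ok n hn a ha P hP) k) _ fun ω => by
    simp only [L8P.trC2, l8i_C n a ha P hP k hk]

theorem m8_D2 {k : ℕ} (hk : k ≤ P.length) : (skSP n a P).D2 k = obD2 n a P 0 k := by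
  unfold L8P.D2 obD2
  rw [l8i_B n a ha P hP k hk, l8i_S n a ha P hP k hk]

theorem m8_Q4 {k l : ℕ} (hk : k ≤ P.length) (hl : l ≤ P.length) :
    (skSP n a P).mQ4 k l = obE n a P 0 fun ξ _ => (∑ i, (obXp n a P 0 k ξ i - obXp n a P 0 l ξ i) ^ 2) ^ 2 :=
  m8_path n a ha P hP (((skSP n a P).m6_XX2_bd (l8i_ok n hn a ha P hP) k l).pow 2) _ fun ω => by
    simp only [L8P.XX, l8i_X n a ha P hP k hk, l8i_X n a ha P hP l hl]
    congr 1
    exact Finset.sum_congr rfl fun i _ => by ring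

theorem m8_NX (q : ℕ) {k : ℕ} (hk : k ≤ P.length) :
    (skSP n a P).mNX q k = (obE n a P 0 fun ξ _ => (∑ i, obXp n a P 0 k ξ i ^ 2) ^ q) ^ (1 / (2 * (q : ℝ))) := by
  unfold L8P.mNX
  congr 1
  exact m8_path n a ha P hP (((skSP n a P).m6_nX_bd (l8i_ok n hn a ha P hP) k).pow q) _ fun ω => by
    simp only [L8P.nX, l8i_X n a ha P hP k hk]

theorem m8_L {k : ℕ} (hk : k ≤ P.length) (ω : SkOm n) : (skSP n a P).L k ω = obL n a P 0 k ω.1 ω.2 := by
  simp only [L8P.L, L8P.nX, obL, l8i_X n a ha P hP k hk]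
  rfl

theorem m8_W {k : ℕ} (hk : k ≤ P.length) (ω : SkOm n) : (skSP n a P).W k ω = obW n a P 0 k ω.1 ω.2 := by
  simp only [L8P.W, L8P.R, obW, l8i_X n a ha P hP k hk, l8i_H n a ha P hP k hk]
  rfl

end

theorem m8_poly_bd {Ω : Type} [MeasurableSpace Ω] {f : Ω → ℝ} (hf : L8Bd f) (p : Polynomial ℝ) : L8Bd fun ω => p.eval (f ω) := by
  simp only [Polynomial.eval_eq_sum_range]
  exact L8Bd.sum _ fun i _ => (hf.pow i).const_mul _

/-- **(SP3) at `r = 1` with the sharp constant `c_2 = 1`**, from `ob_pinned_variance` (K10 of Fd/ObsC) -/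
theorem m8_pin_one (n : ℕ) (hn : 1 ≤ n) (a : ℝ) (ha : 0 < a) (P : SkStp) (hP : SkAdm a P) : (skSP n a P).Pin 1 1 := by
  intro w p
  have hok := l8i_ok n hn a ha P hP
  have hv := ob_pinned_variance (n := n) hn ha P hP w p
  have hL : ∀ k, L8Bd ((skSP n a P).L k) := fun k => (skSP n a P).l8s_L_bd hok k
  have hE : ∀ k ∈ range (P.length + 1), ∫ ω', (p k).eval ((skSP n a P).L k ω') ∂(skSP n a P).μ
      = obE n a P 0 fun ξ' σ' => (p k).eval (obL n a P 0 k ξ' σ') := fun k hk =>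
    m8_path n a ha P hP (m8_poly_bd (hL k) (p k)) _ fun ω => by
      rw [m8_L n hn a ha P hP (Nat.lt_succ_iff.1 (Finset.mem_range.1 hk))]
  have hb1 : L8Bd fun ω => (∑ k ∈ range ((skSP n a P).n + 1), (skSP n a P).dv k * w k *
        ((p k).eval ((skSP n a P).L k ω) - ∫ ω', (p k).eval ((skSP n a P).L k ω') ∂(skSP n a P).μ)) ^ (2 * 1) :=
    (L8Bd.sum _ fun k _ => ((m8_poly_bd (hL k) (p k)).sub (l8Bd_const _)).const_mul _).pow _
  have hb2 : L8Bd fun ω => (∑ k ∈ range ((skSP n a P).n + 1), (skSP n a P).dv k * w k ^ 2 *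
        ((p k).derivative.eval ((skSP n a P).L k ω)) ^ 2 * (skSP n a P).W k ω) ^ 1 :=
    (L8Bd.sum _ fun k _ => (((m8_poly_bd (hL k) (p k).derivative).pow 2).const_mul _).mul ((skSP n a P).l8s_W_bd hok k)).pow _
  rw [one_mul, m8_path n a ha P hP hb1 (fun ξ σ => (∑ j ∈ Finset.range (P.length + 1), skGap a P j * w j *
        ((p j).eval (obL n a P 0 j ξ σ) - obE n a P 0 fun ξ' σ' => (p j).eval (obL n a P 0 j ξ' σ'))) ^ 2) (fun ω => by
      rw [mul_one]
      congr 1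
      refine Finset.sum_congr rfl fun k hk => ?_
      rw [hE k hk, m8_L n hn a ha P hP (Nat.lt_succ_iff.1 (Finset.mem_range.1 hk))]
      rfl),
    m8_path n a ha P hP hb2 (fun ξ σ => ∑ j ∈ Finset.range (P.length + 1), skGap a P j * w j ^ 2 *
          ((p j).derivative.eval (obL n a P 0 j ξ σ)) ^ 2 * obW n a P 0 j ξ σ) (fun ω => by
      rw [pow_one]
      refine Finset.sum_congr rfl fun k hk => ?_
      rw [m8_L n hn a ha P hP (Nat.lt_succ_iff.1 (Finset.mem_range.1 hk)),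
        m8_W n hn a ha P hP (Nat.lt_succ_iff.1 (Finset.mem_range.1 hk))]
      rfl)]
  exact hv

/-- the numbers of a step path are the numbers of the abstract single path `skSP n 1 P` -/
theorem m8_numF_eq (n : ℕ) (hn : 1 ≤ n) (P : SkStp) (hP : SkAdm 1 P) : cmkNumF n P = (skSP n 1 P).mNum := by
  have hc : ∀ u, (skSP n 1 P).mCut u ≤ P.length := fun u => (skSP n 1 P).m7_cut_le u
  unfold cmkNumF L8P.mNum
  simp only [m8_cut_eq n 1 P]
  congr 1
  · funext u; exact (l8i_S n 1 one_pos P hP _ (hc _)).symm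
  · funext u; rw [m8_D2 n hn 1 one_pos P hP (hc _)]
  · funext u; exact (m8_TH n hn 1 one_pos P hP (hc _)).symm
  · funext u; exact (m8_TC n hn 1 one_pos P hP (hc _)).symm
  · funext u; rw [m8_TH n hn 1 one_pos P hP (hc _)]
  · funext i j; exact (m8_Q4 n hn 1 one_pos P hP (hc _) (hc _)).symm
  · funext q u; exact (m8_NX n hn 1 one_pos P hP q (hc _)).symm
  · funext u; rw [l8i_B n 1 one_pos P hP _ (hc _)]

/-- **L2 of `Cmp/InstNum.lean`** (finite level): the numbers of a step path -/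
theorem m8_numF_ok (n : ℕ) (hn : 0 < n) (P : SkStp) (hP : SkAdm 1 P) : (cmkNumF n P).Ok := by
  rw [m8_numF_eq n hn P hP]
  exact (skSP n 1 P).m7_num_ok (l8i_ok n hn 1 one_pos P hP) rfl (m8_pin_one n hn 1 one_pos P hP)

end Claimed.Agent.R286
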