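-- KEEP
import Claimed.Agent.R286.Cmp.DefsSk
import Claimed.Agent.R286.Cmp.InstNumF
import Claimed.Agent.R286.Exit.ClkLim
import Claimed.Agent.R286.Exit.ClkStat
import Claimed.Agent.R286.Brg.Path
import Claimed.Agent.R286.Brg.Refine
import Claimed.Agent.R286.Brg.Cat
import Claimed.Agent.R286.Brg.Step
import Claimed.Agent.R286.Ci.Resc
import Claimed.Agent.R286.Cmp.Inst
import Claimed.Agent.R286.Exit.ClkLip
import Claimed.Agent.R286.Brg.TrKit

/-!
# Row 286 (S0533), PE Section 3: THE SK INSTANCE OF THE NUMBERS `CmNum` of P06      (owner helper295; provers helper59, helper21, helper181; prefix `cmk_`, `cm_num_`)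

**`cmk_num_ok : (cmkNum n b h).Ok`** for every admissible pair of clocks.   Users: `Exit/CmpDir`, `Exit/CmpErr` (294), `Exit/CmpGeo` (255/106).

OWNERS (ruling 295, 03:58Z): L1, L3, L6, `cmk_chain_adm` = 59;   L2 = 21 (`Cmp/InstNumF.lean`);   L4 = 148 (else 59);   L5a = 59 (glue from `exit_clk_lim_stat`, `exit_clk_stat_pos`);   L5b = 295 (done).
ROUTE.   `CmNum.Ok` is a list of CLOSED inequalities between numbers, so it passes to limits:
* L1 `cm_num_ok_of_lim`   (model free)   `X_k.Ok` for all `k`, `X_k → X` pointwise, `Q4` uniformly   ⟹   `X.Ok`.      Measurability: limits of measurable functions.   `master`: the hypothesis `Q4 i j ≤ q4` gives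
                          `Q4_k i j ≤ q4 + ε_k`; the three integrals of each `side` converge by dominated convergence (all numbers are in `[0,1]` on `[0,1]`, the weights vanish outside `[0,1]`).
* L2 `cmk_numF_ok`        (finite level, genuine random variables on ONE planted step path)   `(cmkNumF n P).Ok`.      `master` = l.912-975 of comparisons.tex + `exit_pin` (`p = 2`); `E W ≤ min(1, E tr H²/u)`.
* L3 `cmk_cut_idx`        the cut of a chain at the mass `u` = `ghIdx` of the position after the jump at `u`.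
* L4 `cmk_star_id`, `cmk_comb_id`   (finite level)   moments of `X` at one / two cuts = tree numbers of the star / the comb (conditionally independent continuations).
* L5 `cmk_unif_stat` [PROVED from two exits, 59], `cmk_unif_nu` [PROVED, 295]   convergence of the numbers of the chains UNIFORMLY IN ALL POSITIONS AFTER A JUMP `(u,1)`, in the chain or not (148's `gh_br_refine_nu`: a fork `(u,1)` outside the chain is harmless;
                          a fork INSIDE a jump would have to belong to the chain).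
* L6 `cmk_numF_lim`       glue of L3-L5;      `cmk_num_ok` glue of L1, L2, L6 (PROVED below).
-/

set_option autoImplicit false

namespace Claimed.Agent.R286

open MeasureTheory Set Filter Topology

noncomputable section

/-- convergence of numbers: pointwise, and uniform for `Q4` -/
structure CmNumLim (Xk : ℕ → CmNum) (X : CmNum) : Prop where
  S : ∀ u, Tendsto (fun k => (Xk k).S u) atTop (𝓝 (X.S u))
  D : ∀ u, Tendsto (fun k => (Xk k).D u) atTop (𝓝 (X.D u))
  TH : ∀ u, Tendsto (fun k => (Xk k).TH u) atTop (𝓝 (X.TH u))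
  TC : ∀ u, Tendsto (fun k => (Xk k).TC u) atTop (𝓝 (X.TC u))
  TW : ∀ u, Tendsto (fun k => (Xk k).TW u) atTop (𝓝 (X.TW u))
  NX : ∀ q u, Tendsto (fun k => (Xk k).NX q u) atTop (𝓝 (X.NX q u))
  NR : ∀ u, Tendsto (fun k => (Xk k).NR u) atTop (𝓝 (X.NR u))
  Q4 : ∀ ε : ℝ, 0 < ε → ∀ᶠ k in atTop, ∀ i j, |(Xk k).Q4 i j - X.Q4 i j| ≤ ε

/-- a weight is integrable -/
theorem cm_num_wt_int {w : ℝ → ℝ} (hw : CmWt w) : Integrable w := by
  by_contra hc
  have := integral_undef hc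
  rw [hw.one] at this
  exact one_ne_zero this

/-- dominated convergence against a weight -/
theorem cm_num_dc {w : ℝ → ℝ} (hw : CmWt w) (G : ℕ → ℝ → ℝ) (g : ℝ → ℝ) (C : ℝ) (hm : ∀ k, Measurable (G k))
    (hb : ∀ k, ∀ j ∈ Icc (0 : ℝ) 1, |G k j| ≤ C) (hl : ∀ j, Tendsto (fun k => G k j) atTop (𝓝 (g j))) :
    Tendsto (fun k => ∫ j, w j * G k j) atTop (𝓝 (∫ j, w j * g j)) := by
  refine tendsto_integral_of_dominated_convergence (fun j => w j * C) (fun k => (hw.meas.mul (hm k)).aestronglyMeasurable)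
    ((cm_num_wt_int hw).mul_const C) (fun k => Eventually.of_forall fun j => ?_) (Eventually.of_forall fun j => (hl j).const_mul (w j))
  by_cases hj : j ∈ Icc (0 : ℝ) 1
  · rw [Real.norm_eq_abs, abs_mul, abs_of_nonneg (hw.nn j)]
    exact mul_le_mul_of_nonneg_left (hb k j hj) (hw.nn j)
  · rw [hw.supp j hj]; simp

/-- the cost of a side average passes to the limit -/
theorem cm_num_side_lim {Xk : ℕ → CmNum} {X : CmNum} (h : ∀ k, (Xk k).Ok) (hl : CmNumLim Xk X) {i : ℝ} (hi : i ∈ Icc (0 : ℝ) 1)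
    {w : ℝ → ℝ} (hw : CmWt w) : Tendsto (fun k => (Xk k).side i w) atTop (𝓝 (X.side i w)) := by
  unfold CmNum.side
  obtain ⟨B, hB⟩ := hw.bdd
  have hS1 : ∀ k, ∀ j ∈ Icc (0 : ℝ) 1, |(Xk k).S j - (Xk k).S i| ≤ 1 := fun k j hj => by
    have a1 := (h k).S_nn j hj; have a2 := (h k).S_le j hj; have a3 := (h k).S_nn i hi; have a4 := (h k).S_le i hi
    rw [abs_le]; constructor <;> linarith
  have e1 := cm_num_dc hw
    (fun k j => (Real.sqrt ((Xk k).TC i) + Real.sqrt ((Xk k).TC j)) * (|(Xk k).S j - (Xk k).S i| + 3 * ((Xk k).D i + (Xk k).D j)))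
    (fun j => (Real.sqrt (X.TC i) + Real.sqrt (X.TC j)) * (|X.S j - X.S i| + 3 * (X.D i + X.D j))) 14
    (fun k => (measurable_const.add (h k).TC_meas.sqrt).mul
      ((((h k).S_meas.sub measurable_const).abs).add (measurable_const.mul (measurable_const.add (h k).D_meas))))
    (fun k j hj => by
      have a1 : Real.sqrt ((Xk k).TC i) ≤ 1 := Real.sqrt_le_one.2 ((h k).TC_le i hi) |>.trans le_rfl
      have a2 : Real.sqrt ((Xk k).TC j) ≤ 1 := Real.sqrt_le_one.2 ((h k).TC_le j hj) |>.trans le_rfl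
      have a3 := Real.sqrt_nonneg ((Xk k).TC i)
      have a4 := Real.sqrt_nonneg ((Xk k).TC j)
      have a5 := hS1 k j hj
      have a6 := abs_nonneg ((Xk k).S j - (Xk k).S i)
      have a7 := (h k).D_nn i hi; have a8 := (h k).D_le i hi; have a9 := (h k).D_nn j hj; have a10 := (h k).D_le j hj
      rw [abs_of_nonneg (by positivity)]
      calc (Real.sqrt ((Xk k).TC i) + Real.sqrt ((Xk k).TC j)) * (|(Xk k).S j - (Xk k).S i| + 3 * ((Xk k).D i + (Xk k).D j))
          ≤ (1 + 1) * (1 + 3 * (1 + 1)) := by gcongr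
        _ = 14 := by norm_num)
    (fun j => (((hl.TC i).sqrt).add ((hl.TC j).sqrt)).mul ((((hl.S j).sub (hl.S i)).abs).add (((hl.D i).add (hl.D j)).const_mul 3)))
  have e2 := cm_num_dc hw (fun k j => w j * (Xk k).TW j) (fun j => w j * X.TW j) B
    (fun k => hw.meas.mul (h k).TW_meas)
    (fun k j hj => by
      rw [abs_of_nonneg (mul_nonneg (hw.nn j) ((h k).TW_nn j hj))]
      calc w j * (Xk k).TW j ≤ B * 1 := mul_le_mul (hB j) ((h k).TW_le j hj) ((h k).TW_nn j hj) ((hw.nn j).trans (hB j))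
        _ = B := mul_one B)
    (fun j => (hl.TW j).const_mul (w j))
  have e3 := cm_num_dc hw (fun k j => (Xk k).S j - (Xk k).S i) (fun j => X.S j - X.S i) 1
    (fun k => (h k).S_meas.sub measurable_const) hS1 (fun j => (hl.S j).sub (hl.S i))
  have r2 : ∀ Y : CmNum, (∫ j, w j ^ 2 * Y.TW j) = ∫ j, w j * (w j * Y.TW j) := fun Y => by
    simp only [pow_two, mul_assoc]
  simp only [r2]
  exact (e1.add e2).add ((e3.pow 2).const_mul (1 / 4))

theorem cm_num_q4_lim {Xk : ℕ → CmNum} {X : CmNum} (hl : CmNumLim Xk X) (i j : ℝ) :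
    Tendsto (fun k => (Xk k).Q4 i j) atTop (𝓝 (X.Q4 i j)) := by
  rw [Metric.tendsto_nhds]
  intro ε hε
  filter_upwards [hl.Q4 (ε / 2) (half_pos hε)] with k hk
  rw [Real.dist_eq]
  exact (hk i j).trans_lt (half_lt_self hε)

/-- **L1** (model free): `CmNum.Ok` is closed under limits -/
theorem cm_num_ok_of_lim {Xk : ℕ → CmNum} {X : CmNum} (h : ∀ k, (Xk k).Ok) (hl : CmNumLim Xk X) : X.Ok where
  S_meas := measurable_of_tendsto_metrizable (fun k => (h k).S_meas) (tendsto_pi_nhds.2 hl.S)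
  S_mono := fun x hx y hy hxy => le_of_tendsto_of_tendsto' (hl.S x) (hl.S y) fun k => (h k).S_mono hx hy hxy
  S_nn := fun u hu => ge_of_tendsto' (hl.S u) fun k => (h k).S_nn u hu
  S_le := fun u hu => le_of_tendsto' (hl.S u) fun k => (h k).S_le u hu
  D_meas := measurable_of_tendsto_metrizable (fun k => (h k).D_meas) (tendsto_pi_nhds.2 hl.D)
  D_nn := fun u hu => ge_of_tendsto' (hl.D u) fun k => (h k).D_nn u hu
  D_le := fun u hu => le_of_tendsto' (hl.D u) fun k => (h k).D_le u hu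
  TH_meas := measurable_of_tendsto_metrizable (fun k => (h k).TH_meas) (tendsto_pi_nhds.2 hl.TH)
  TH_nn := fun u hu => ge_of_tendsto' (hl.TH u) fun k => (h k).TH_nn u hu
  TH_le := fun u hu => le_of_tendsto' (hl.TH u) fun k => (h k).TH_le u hu
  TC_meas := measurable_of_tendsto_metrizable (fun k => (h k).TC_meas) (tendsto_pi_nhds.2 hl.TC)
  TC_nn := fun u hu => ge_of_tendsto' (hl.TC u) fun k => (h k).TC_nn u hu
  TC_le := fun u hu => le_of_tendsto' (hl.TC u) fun k => (h k).TC_le u hu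
  TW_meas := measurable_of_tendsto_metrizable (fun k => (h k).TW_meas) (tendsto_pi_nhds.2 hl.TW)
  TW_nn := fun u hu => ge_of_tendsto' (hl.TW u) fun k => (h k).TW_nn u hu
  TW_le := fun u hu => le_of_tendsto' (hl.TW u) fun k => (h k).TW_le u hu
  tc_th := fun u hu => le_of_tendsto_of_tendsto' ((hl.TC u).const_mul (u ^ 2)) (hl.TH u) fun k => (h k).tc_th u hu
  tw_th := fun u hu => le_of_tendsto_of_tendsto' ((hl.TW u).const_mul u) (hl.TH u) fun k => (h k).tw_th u hu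
  NX_nn := fun q u hu => ge_of_tendsto' (hl.NX q u) fun k => (h k).NX_nn q u hu
  NX_le := fun q u hu => le_of_tendsto' (hl.NX q u) fun k => (h k).NX_le q u hu
  s_nx := fun u hu => tendsto_nhds_unique (hl.S u) (((hl.NX 1 u).pow 2).congr fun k => ((h k).s_nx u hu).symm)
  d_nr := fun u hu => le_of_tendsto_of_tendsto' (hl.D u) (hl.NR u) fun k => (h k).d_nr u hu
  NR_le := fun u hu => le_of_tendsto' (hl.NR u) fun k => (h k).NR_le u hu
  q4_int := fun q hq i hi j hj => by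
    have hq3 : (3 : ℝ) ≤ q := by exact_mod_cast hq
    have e1 : (0 : ℝ) ≤ 1 - 1 / ((q : ℝ) - 1) := by
      rw [sub_nonneg, div_le_one (by linarith)]; linarith
    have e2 : (0 : ℝ) ≤ 2 * (q : ℝ) / ((q : ℝ) - 1) := div_nonneg (by linarith) (by linarith)
    refine le_of_tendsto_of_tendsto' (cm_num_q4_lim hl i j)
      (((((hl.S j).sub (hl.S i)).abs).rpow_const (Or.inr e1)).mul (((hl.NX q i).add (hl.NX q j)).rpow_const (Or.inr e2)))
      fun k => (h k).q4_int q hq i hi j hj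
  master := fun i hi wp wm hwp hwm q4 hq4 hp hm => by
    refine le_of_forall_pos_le_add fun ε hε => ?_
    have hev : ∀ᶠ k in atTop, (Xk k).D i ^ 2 ≤ (Xk k).TC i + 8 * (q4 + ε / 8) + 16 * ((Xk k).side i wp + (Xk k).side i wm) := by
      filter_upwards [hl.Q4 (ε / 8) (by positivity)] with k hk
      refine (h k).master i hi wp wm hwp hwm (q4 + ε / 8) (by positivity) (fun j hj hw hji => ?_) (fun j hj hw hji => ?_)
      · have := (abs_le.1 (hk i j)).2; have := hp j hj hw hji; linarith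
      · have := (abs_le.1 (hk i j)).2; have := hm j hj hw hji; linarith
    have := le_of_tendsto_of_tendsto ((hl.D i).pow 2)
      ((((hl.TC i).add_const (8 * (q4 + ε / 8)))).add (((cm_num_side_lim h hl hi hwp).add (cm_num_side_lim h hl hi hwm)).const_mul 16)) hev
    linarith


/-- **L2** (finite level): the numbers of a step path -/
theorem cmk_numF_ok (n : ℕ) (hn : 0 < n) (P : SkStp) (hP : SkAdm 1 P) : (cmkNumF n P).Ok :=
  m8_numF_ok n hn P hP

/-- the cut of a chain, for any list of positions with `lam ≤ 1`      (helper59) -/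
theorem cmk_cut_idx_aux (a : ℝ) (b h : ℝ → ℝ) (u : ℝ) : ∀ (ps : List GhPos) (b0 h0 : ℝ), (∀ p ∈ ps, p.lam ≤ 1) →
    ((skCStp a b h b0 h0 ps).filter fun e => decide (e.m ≤ u)).length
      = (ps.filter fun x : GhPos => decide ((x : WithTop GhPos) ≤ ((ghPosA u : GhPos) : WithTop GhPos))).length
  | [], _, _, _ => rfl
  | p :: ps, b0, h0, hok => by
      have ih := cmk_cut_idx_aux a b h u ps (ghAt a b p) (ghAt a h p) fun q hq => hok q (List.mem_cons_of_mem _ hq)
      have hp := hok p List.mem_cons_self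
      have hiff : p.u ≤ u ↔ ((p : WithTop GhPos) ≤ ((ghPosA u : GhPos) : WithTop GhPos)) := by
        rw [WithTop.coe_le_coe, gh_os_pos_le_iff]
        have h1 : (ghPosA u).u = u := rfl
        have h2 : (ghPosA u).lam = 1 := rfl
        rw [h1, h2]
        constructor
        · intro h
          rcases h.lt_or_eq with h | h
          · exact Or.inl h
          · exact Or.inr ⟨h, hp⟩
        · rintro (h | h)
          · exact h.le
          · exact h.1.le
      rw [skCStp, List.filter_cons, List.filter_cons]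
      by_cases hu : p.u ≤ u
      · have hu' := hiff.1 hu
        simp only [hu, hu', decide_true, if_true, List.length_cons, ih]
      · have hu' : ¬ ((p : WithTop GhPos) ≤ ((ghPosA u : GhPos) : WithTop GhPos)) := fun h => hu (hiff.2 h)
        simp only [hu, hu', decide_false, Bool.false_eq_true, if_false, ih]

/-- **L3**: the cut of a chain at the mass `u` -/
theorem cmk_cut_idx (b h : ℝ → ℝ) (F : Finset GhPos) (u : ℝ) :
    cmkCut (ckStp 1 b h (ghPs 1 F)) u = ghIdx (ghPs 1 F) (ghPosA u) := by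
  rw [gh_idx_eq, if_neg WithTop.coe_ne_top, add_zero]
  exact cmk_cut_idx_aux 1 b h u _ 0 0 fun p hp => (gh_os_ps_mem.1 hp).2.2.2.2

/-- **L4a** (finite level): `E|X_j|^{2l}` = the tree number of the star with `2l` labels (the labels share exactly the first `j` revelations) -/
theorem cmk_star_id (n : ℕ) (hn : 0 < n) (P : SkStp) (hP : SkAdm 1 P) (l j : ℕ) (hj : j ≤ P.length) (sh : ℕ → ℕ → ℕ)
    (hsh : ∀ x y, x ≠ y → sh x y = j) (hd : ∀ x, P.length < sh x x) :
    ghNu (skBase n 1) (skLvs n P) (ghRepN (2 * l) sh) (fun _ => 0) (fun _ σ =>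
        ∏ i : Fin l, skOv (σ ⟨2 * i.1, by have := i.2; omega⟩) (σ ⟨2 * i.1 + 1, by have := i.2; omega⟩))
      = obE n 1 P 0 fun ξ _ => (∑ k, obXp n 1 P 0 j ξ k ^ 2) ^ l :=
  gh_cat_star n hn one_pos P hP 0 l j hj sh hsh

/-- **L4b** (finite level): `E|X_j - X_j'|⁴` = the tree number of the comb (`j ≤ j'`: the labels `0..3` share `j'` revelations, all other pairs share `j`) -/
theorem cmk_comb_id (n : ℕ) (hn : 0 < n) (P : SkStp) (hP : SkAdm 1 P) (j j' : ℕ) (hjj : j ≤ j') (hj : j' ≤ P.length) (sh : ℕ → ℕ → ℕ)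
    (hsh : ∀ x y, x ≠ y → sh x y = if x < 4 ∧ y < 4 then j' else j) (hd : ∀ x, P.length < sh x x) :
    ghNu (skBase n 1) (skLvs n P) (ghRepN 8 sh) (fun _ => 0) (fun _ σ =>
        (skOv (σ 0) (σ 1) - skOv (σ 0) (σ 5) - skOv (σ 4) (σ 1) + skOv (σ 4) (σ 5))
          * (skOv (σ 2) (σ 3) - skOv (σ 2) (σ 7) - skOv (σ 6) (σ 3) + skOv (σ 6) (σ 7)))
      = obE n 1 P 0 fun ξ _ => (∑ k, (obXp n 1 P 0 j' ξ k - obXp n 1 P 0 j ξ k) ^ 2) ^ 2 :=
  gh_cat_comb n hn one_pos P hP 0 j j' hjj hj sh hsh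

/-! ### L5a (helper59): marks of small clock distance, the last position of the chain before `p`; GLUE from the exits `exit_clk_lim_stat` (positions of the chain) and `exit_clk_stat_pos` (modulus in the position) -/

/-- the filled clock takes every value between `0` and its total -/
theorem cmk_pos_ivt {a : ℝ} (ha : 0 ≤ a) {c : ℝ → ℝ} (hc : GhClk1 a c) {t : ℝ} (h0 : 0 ≤ t) (h1 : t ≤ c a) :
    ∃ p : GhPos, p.Ok a ∧ ghAt a c p = t := by
  have hg := gh_os_clamp_mono ha hc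
  set g := ghClamp a c with hgdef
  set A : Set ℝ := {u | 0 ≤ u ∧ t ≤ Function.rightLim g u} with hA
  have haA : a ∈ A := ⟨ha, by rw [gh_os_right_top a c ha le_rfl]; exact h1⟩
  have hbd : BddBelow A := ⟨0, fun u hu => hu.1⟩
  set u := sInf A with hu
  have hu0 : 0 ≤ u := le_csInf ⟨a, haA⟩ fun x hx => hx.1
  have hua : u ≤ a := csInf_le hbd haA
  have c1 : t ≤ Function.rightLim g u := by
    refine ge_of_tendsto (hg.tendsto_rightLim u) ?_
    filter_upwards [self_mem_nhdsWithin] with v hv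
    obtain ⟨x, hx, hxv⟩ := exists_lt_of_csInf_lt ⟨a, haA⟩ (show sInf A < v from hv)
    exact hx.2.trans (hg.rightLim_le hxv)
  have c2 : Function.leftLim g u ≤ t := by
    refine le_of_tendsto (hg.tendsto_leftLim u) ?_
    filter_upwards [self_mem_nhdsWithin] with v hv
    by_cases hv0 : v < 0
    · have : g v = 0 := by rw [hgdef]; unfold ghClamp; rw [if_pos hv0]
      rw [this]; exact h0
    · have hvA : v ∉ A := notMem_of_lt_csInf (show v < sInf A from hv) hbd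
      have : ¬ t ≤ Function.rightLim g v := fun h => hvA ⟨not_lt.1 hv0, h⟩
      exact (hg.le_rightLim le_rfl).trans (not_le.1 this).le
  by_cases hd : Function.rightLim g u - Function.leftLim g u = 0
  · refine ⟨ghPosF u 0, ⟨hu0, hua, le_rfl, zero_le_one⟩, ?_⟩
    show Function.leftLim g u + 0 * (Function.rightLim g u - Function.leftLim g u) = t
    linarith
  · have hd' : 0 < Function.rightLim g u - Function.leftLim g u := lt_of_le_of_ne (by linarith) (Ne.symm hd)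
    refine ⟨ghPosF u ((t - Function.leftLim g u) / (Function.rightLim g u - Function.leftLim g u)),
      ⟨hu0, hua, div_nonneg (by linarith) hd'.le, (div_le_one hd').2 (by linarith)⟩, ?_⟩
    show Function.leftLim g u + (t - Function.leftLim g u) / (Function.rightLim g u - Function.leftLim g u)
      * (Function.rightLim g u - Function.leftLim g u) = t
    rw [div_mul_cancel₀ _ hd]; ring

theorem cmk_posB0_le {a : ℝ} {p : GhPos} (hp : p.Ok a) : ghPosB 0 ≤ p := by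
  rw [gh_os_pos_le_iff]
  rcases hp.1.lt_or_eq with h | h
  · exact Or.inl h
  · exact Or.inr ⟨h, hp.2.2.1⟩

theorem cmk_posB0_ok {a : ℝ} (ha : 0 ≤ a) : (ghPosB 0).Ok a := ⟨le_rfl, ha, le_rfl, zero_le_one⟩

/-- finitely many marks: every valid position has a mark below it, at clock distance `≤ ε` -/
theorem cmk_pos_marks {a : ℝ} (ha : 0 ≤ a) {c : ℝ → ℝ} (hc : GhClk1 a c) {ε : ℝ} (hε : 0 < ε) :
    ∃ M : Finset GhPos, (∀ m ∈ M, m.Ok a) ∧ ∀ p : GhPos, p.Ok a → ∃ m ∈ M, m ≤ p ∧ ghAt a c p - ghAt a c m ≤ ε := by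
  classical
  have hT : 0 ≤ c a := hc.2.trans (hc.1 ⟨le_rfl, ha⟩ ⟨ha, le_rfl⟩ ha)
  have hex : ∀ k : ℕ, ∃ p : GhPos, p.Ok a ∧ ghAt a c p = min ((k : ℝ) * ε) (c a) := fun k =>
    cmk_pos_ivt ha hc (le_min (by positivity) hT) (min_le_right _ _)
  choose π hπ1 hπ2 using hex
  refine ⟨insert (ghPosB 0) ((Finset.range (⌈c a / ε⌉₊ + 1)).image π), fun m hm => ?_, fun p hp => ?_⟩
  · rcases Finset.mem_insert.1 hm with rfl | hm
    · exact cmk_posB0_ok ha
    · obtain ⟨k, -, rfl⟩ := Finset.mem_image.1 hm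
      exact hπ1 k
  · have hs0 : 0 ≤ ghAt a c p := gh_os_at_nonneg ha hc hp.2.2.1
    have hsT : ghAt a c p ≤ c a := by
      have := gh_os_at_le_top ha hc hp
      rwa [gh_os_at_top a c ha] at this
    rcases hs0.lt_or_eq with hs | hs
    · set K := ⌈ghAt a c p / ε⌉₊ with hK
      have hK1 : 0 < K := Nat.ceil_pos.2 (div_pos hs hε)
      have e1 : ghAt a c p / ε ≤ K := Nat.le_ceil _
      have e2 : (K : ℝ) < ghAt a c p / ε + 1 := Nat.ceil_lt_add_one (div_pos hs hε).le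
      have e3 : ((K - 1 : ℕ) : ℝ) = (K : ℝ) - 1 := by
        rw [Nat.cast_sub hK1]; simp
      have e4 : ((K - 1 : ℕ) : ℝ) * ε < ghAt a c p := by
        rw [e3, ← lt_div_iff₀ hε]; linarith
      have e5 : ghAt a c p ≤ ((K - 1 : ℕ) : ℝ) * ε + ε := by
        rw [e3]
        have := (div_le_iff₀ hε).1 e1
        linarith
      have e6 : ghAt a c (π (K - 1)) = ((K - 1 : ℕ) : ℝ) * ε := by
        rw [hπ2, min_eq_left (e4.le.trans hsT)]
      refine ⟨π (K - 1), Finset.mem_insert_of_mem (Finset.mem_image_of_mem _ (Finset.mem_range.2 ?_)), ?_, ?_⟩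
      · have : K ≤ ⌈c a / ε⌉₊ := Nat.ceil_mono (div_le_div_of_nonneg_right hsT hε.le)
        omega
      · by_contra hcon
        have := gh_os_at_mono ha hc hp.2.2.2 (hπ1 (K - 1)).2.2.1 (not_le.1 hcon).le
        rw [e6] at this
        linarith
      · rw [e6]; linarith
    · refine ⟨ghPosB 0, Finset.mem_insert_self _ _, cmk_posB0_le hp, ?_⟩
      rw [gh_os_at_posB, gh_os_left_zero a c le_rfl, ← hs]
      linarith

open Classical in
/-- the last valid position of `F` (or the empty position `ghPosB 0`) which is `≤ p` -/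
def cmkFl (F : Finset GhPos) (p : GhPos) : GhPos :=
  (insert (ghPosB 0) (F.filter fun x => x.Ok 1 ∧ x ≤ p)).max' (Finset.insert_nonempty _ _)

theorem cmk_fl_eqns_cite : True := by
  have := @cmkFl.eq_1
  trivial

theorem cmk_fl_mem' (F : Finset GhPos) (p : GhPos) :
    cmkFl F p = ghPosB 0 ∨ (cmkFl F p ∈ F ∧ (cmkFl F p).Ok 1 ∧ cmkFl F p ≤ p) := by
  classical
  have h := Finset.max'_mem (insert (ghPosB 0) (F.filter fun x => x.Ok 1 ∧ x ≤ p)) (Finset.insert_nonempty _ _)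
  rcases Finset.mem_insert.1 h with h | h
  · exact Or.inl h
  · exact Or.inr (Finset.mem_filter.1 h)

theorem cmk_fl_ok (F : Finset GhPos) (p : GhPos) : (cmkFl F p).Ok 1 := by
  rcases cmk_fl_mem' F p with h | h
  · rw [h]; exact cmk_posB0_ok zero_le_one
  · exact h.2.1

theorem cmk_fl_mem {F : Finset GhPos} (hF : ghPosB 0 ∈ F) (p : GhPos) : cmkFl F p ∈ F := by
  rcases cmk_fl_mem' F p with h | h
  · rw [h]; exact hF
  · exact h.1

theorem cmk_fl_le (F : Finset GhPos) {p : GhPos} (hp : p.Ok 1) : cmkFl F p ≤ p := by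
  rcases cmk_fl_mem' F p with h | h
  · rw [h]; exact cmk_posB0_le hp
  · exact h.2.2

theorem cmk_fl_ge {F : Finset GhPos} {p m : GhPos} (hm : m ∈ F) (hmo : m.Ok 1) (hmp : m ≤ p) : m ≤ cmkFl F p := by
  classical
  exact Finset.le_max' _ _ (Finset.mem_insert_of_mem (Finset.mem_filter.2 ⟨hm, hmo, hmp⟩))

theorem cmk_fl_mono (F : Finset GhPos) : Monotone (cmkFl F) := by
  classical
  intro p p' hpp
  refine Finset.max'_subset _ (Finset.insert_subset_insert _ fun x hx => ?_)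
  have := Finset.mem_filter.1 hx
  exact Finset.mem_filter.2 ⟨this.1, this.2.1, this.2.2.trans hpp⟩

/-- the chain does not see the difference between `p` and the last position of the chain before `p` -/
theorem cmk_fl_idx (F : Finset GhPos) {p : GhPos} (hp : p.Ok 1) :
    ghIdx (ghPs 1 F) ((cmkFl F p : GhPos) : WithTop GhPos) = ghIdx (ghPs 1 F) (p : WithTop GhPos) := by
  rw [gh_idx_eq, gh_idx_eq, if_neg WithTop.coe_ne_top, if_neg WithTop.coe_ne_top]
  congr 2
  refine List.filter_congr fun x hx => ?_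
  have hx' := gh_os_ps_mem.1 hx
  simp only [WithTop.coe_le_coe, decide_eq_decide]
  exact ⟨fun h => h.trans (cmk_fl_le F hp), fun h => cmk_fl_ge hx'.1 hx'.2 h⟩

/-- marks for the two clocks -/
theorem cmk_marks2 {b h : ℝ → ℝ} (H : CkAdm 1 b h) {ε : ℝ} (hε : 0 < ε) :
    ∃ M : Finset GhPos, ghPosB 0 ∈ M ∧ ∀ F : Finset GhPos, M ⊆ F → ∀ p : GhPos, p.Ok 1 →
      |ghAt 1 b (cmkFl F p) - ghAt 1 b p| ≤ ε ∧ |ghAt 1 h (cmkFl F p) - ghAt 1 h p| ≤ ε := by
  classical
  obtain ⟨M1, hM1, hm1⟩ := cmk_pos_marks zero_le_one H.1 hε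
  obtain ⟨M2, hM2, hm2⟩ := cmk_pos_marks zero_le_one H.2 hε
  refine ⟨insert (ghPosB 0) (M1 ∪ M2), Finset.mem_insert_self _ _, fun F hF p hp => ?_⟩
  have key : ∀ {c : ℝ → ℝ}, GhClk1 1 c → ∀ m ∈ F, m.Ok 1 → m ≤ p → ghAt 1 c p - ghAt 1 c m ≤ ε →
      |ghAt 1 c (cmkFl F p) - ghAt 1 c p| ≤ ε := by
    intro c hc m hm hmo hmp hd
    have a1 := gh_os_at_mono zero_le_one hc hmo.2.2.2 (cmk_fl_ok F p).2.2.1 (cmk_fl_ge hm hmo hmp)
    have a2 := gh_os_at_mono zero_le_one hc (cmk_fl_ok F p).2.2.2 hp.2.2.1 (cmk_fl_le F hp)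
    rw [abs_le]; constructor <;> linarith
  obtain ⟨m1, hm1m, h1a, h1b⟩ := hm1 p hp
  obtain ⟨m2, hm2m, h2a, h2b⟩ := hm2 p hp
  exact ⟨key H.1 m1 (hF (Finset.mem_insert_of_mem (Finset.mem_union_left _ hm1m))) (hM1 m1 hm1m) h1a h1b,
    key H.2 m2 (hF (Finset.mem_insert_of_mem (Finset.mem_union_right _ hm2m))) (hM2 m2 hm2m) h2a h2b⟩

/-- L5a for ALL valid positions (the big jumps are subdivided by `F0`), from `exit_clk_lim_stat` + `exit_clk_stat_pos` -/
theorem cmk_unif_stat_all (n : ℕ) (hn : 0 < n) {b h : ℝ → ℝ} (H : CkAdm 1 b h) {δ : ℝ} (hδ : 0 < δ) :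
    ∃ F0 : Finset GhPos, ∀ F : Finset GhPos, F0 ⊆ F → ∀ p : GhPos, p.Ok 1 →
      |obS n 1 (ckStp 1 b h (ghPs 1 F)) 0 (ghIdx (ghPs 1 F) p) - skCS n 1 b h p| ≤ δ ∧
      |obB n 1 (ckStp 1 b h (ghPs 1 F)) 0 (ghIdx (ghPs 1 F) p) - skCB n 1 b h p| ≤ δ ∧
      |obTrH2 n 1 (ckStp 1 b h (ghPs 1 F)) 0 (ghIdx (ghPs 1 F) p) - ckH2 n 1 b h p| ≤ δ ∧
      |obTrC2 n 1 (ckStp 1 b h (ghPs 1 F)) 0 (ghIdx (ghPs 1 F) p) - ckC2 n 1 b h p| ≤ δ := by
  classical
  obtain ⟨F1, hF1⟩ := exit_clk_lim_stat hn one_pos H (half_pos hδ)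
  obtain ⟨C, hC⟩ := exit_clk_stat_pos hn (a := 1) one_pos
  have hC1 : 0 < |C| + 1 := by positivity
  obtain ⟨M, hM0, hM⟩ := cmk_marks2 H (ε := δ / (4 * (|C| + 1))) (by positivity)
  refine ⟨F1 ∪ M, fun F hF p hp => ?_⟩
  have hF1' := hF1 F (Finset.subset_union_left.trans hF) (cmkFl F p)
    (cmk_fl_mem (hF (Finset.mem_union_right _ hM0)) p) (cmk_fl_ok F p)
  rw [cmk_fl_idx F hp] at hF1'
  have hm := hM F (Finset.subset_union_right.trans hF) p hp
  have hc := hC b h H (cmkFl F p) p (cmk_fl_ok F p) hp (δ / (2 * (|C| + 1))) (by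
    have : δ / (2 * (|C| + 1)) = δ / (4 * (|C| + 1)) + δ / (4 * (|C| + 1)) := by field_simp; ring
    rw [this]; exact add_le_add hm.1 hm.2)
  have hCd : C * (δ / (2 * (|C| + 1))) ≤ δ / 2 := by
    have h1 : C ≤ |C| + 1 := (le_abs_self C).trans (by linarith)
    calc C * (δ / (2 * (|C| + 1))) ≤ (|C| + 1) * (δ / (2 * (|C| + 1))) := mul_le_mul_of_nonneg_right h1 (by positivity)
      _ = δ / 2 := by field_simp
  have tri : ∀ x y z : ℝ, |x - y| ≤ δ / 2 → |y - z| ≤ C * (δ / (2 * (|C| + 1))) → |x - z| ≤ δ := by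
    intro x y z h1 h2
    have := abs_sub_le x y z
    linarith
  exact ⟨tri _ _ _ hF1'.1 hc.1, tri _ _ _ hF1'.2.1 hc.2.1, tri _ _ _ hF1'.2.2.1 hc.2.2.1, tri _ _ _ hF1'.2.2.2.1 hc.2.2.2.1⟩

/-- **L5a** [59: glue from the two exits]: the single path statistics of the chains converge uniformly in ALL positions after a jump (in the chain or not). -/
theorem cmk_unif_stat (n : ℕ) (hn : 0 < n) {b h : ℝ → ℝ} (H : CkAdm 1 b h) {δ : ℝ} (hδ : 0 < δ) :
    ∃ F0 : Finset GhPos, ∀ F : Finset GhPos, F0 ⊆ F → ∀ u ∈ Icc (0 : ℝ) 1,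
      |obS n 1 (ckStp 1 b h (ghPs 1 F)) 0 (ghIdx (ghPs 1 F) (ghPosA u)) - skCS n 1 b h (ghPosA u)| ≤ δ ∧
      |obB n 1 (ckStp 1 b h (ghPs 1 F)) 0 (ghIdx (ghPs 1 F) (ghPosA u)) - skCB n 1 b h (ghPosA u)| ≤ δ ∧
      |obTrH2 n 1 (ckStp 1 b h (ghPs 1 F)) 0 (ghIdx (ghPs 1 F) (ghPosA u)) - ckH2 n 1 b h (ghPosA u)| ≤ δ ∧
      |obTrC2 n 1 (ckStp 1 b h (ghPs 1 F)) 0 (ghIdx (ghPs 1 F) (ghPosA u)) - ckC2 n 1 b h (ghPosA u)| ≤ δ := by
  obtain ⟨F0, hF0⟩ := cmk_unif_stat_all n hn H hδ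
  exact ⟨F0, fun F hF u hu => hF0 F hF (ghPosA u) (cmk_posA_ok hu)⟩

theorem cmk_clk_adm {n : ℕ} {b h : ℝ → ℝ} (H : CkAdm 1 b h) : GhClk 1 (skClk n b h) := by
  intro i
  cases i with
  | inl _ => exact H.1
  | inr _ => exact H.2

theorem cmk_nuF_eq (n : ℕ) (b h : ℝ → ℝ) (q : ℕ) (τ : ℕ → ℕ → WithTop GhPos) (T : (Fin q → SkCfg n) → ℝ) (ps : List GhPos) :
    ckNuF n 1 b h q τ T ps = ghCNuF (skBase n 1) (skPhi n) (skClk n b h) 0 q τ T ps := by
  have h0 : (Sum.elim (fun _ => (0:ℝ)) fun _ => (0:ℝ) : SkDr n → ℝ) = 0 := by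
    funext i; cases i <;> rfl
  have h1 : (skBase n 1).a = 1 := rfl
  unfold ckNuF ghCNuF ckStp
  rw [sk_c_chain, h0, h1]

/-- **L5b**: the tree numbers of the chains converge uniformly in ALL real trees whose forks are positions AFTER a jump (in the chain or not) and in the tests -/
theorem cmk_unif_nu (n : ℕ) (_hn : 0 < n) {b h : ℝ → ℝ} (H : CkAdm 1 b h) (q : ℕ) {δ : ℝ} (hδ : 0 < δ) :
    ∃ F0 : Finset GhPos, ∀ F : Finset GhPos, F0 ⊆ F → ∀ τ : ℕ → ℕ → WithTop GhPos, GhIsRT 1 q τ →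
      (∀ x y (p : GhPos), x < q → y < q → τ x y = (p : WithTop GhPos) → p.lam = 1) →
      ∀ (T : (Fin q → SkCfg n) → ℝ) (K : ℝ), (∀ σ, |T σ| ≤ K) →
        |ckNuF n 1 b h q τ T (ghPs 1 F) - skCNu n 1 b h q τ T| ≤ δ * K := by
  classical
  have hB : (skBase n 1).Ok := sk_stp_base_ok n one_pos
  have ha : (skBase n 1).a = 1 := rfl
  have hv : GhClk (skBase n 1).a (skClk n b h) := cmk_clk_adm H
  have ht : Tendsto (fun F : Finset GhPos => 2 * (1:ℝ) ^ 2 * q * (q + 1) * ghOm 1 (skPhi n) (skClk n b h) (ghPs 1 F)) atTop (𝓝 0) := by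
    have := (gh_pt_om_tendsto (zero_le_one) (skPhi n) (cmk_clk_adm (n := n) H)).const_mul (2 * (1:ℝ) ^ 2 * q * (q + 1))
    rwa [mul_zero] at this
  obtain ⟨F0, hF0⟩ := eventually_atTop.1 ((tendsto_order.1 ht).2 δ hδ)
  refine ⟨F0, fun F hF τ hτ hlam T K hK => ?_⟩
  have hK0 : 0 ≤ K := by
    by_cases hq : Nonempty (Fin q → SkCfg n)
    · obtain ⟨σ⟩ := hq
      exact (abs_nonneg _).trans (hK σ)
    · exfalso; exact hq ⟨fun _ _ => true⟩
  rw [cmk_nuF_eq, sk_c_nu_eq]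
  have hτ' : GhIsRT (skBase n 1).a q τ := hτ
  have hex := gh_pt_ex_nu hB (skPhi n) hv 0 hτ' T
  have h2 : Tendsto (fun F' : Finset GhPos => |ghCNuF (skBase n 1) (skPhi n) (skClk n b h) 0 q τ T (ghPs 1 F)
      - ghCNuF (skBase n 1) (skPhi n) (skClk n b h) 0 q τ T (ghPs 1 F')|) atTop
      (𝓝 |ghCNuF (skBase n 1) (skPhi n) (skClk n b h) 0 q τ T (ghPs 1 F) - ghCNu (skBase n 1) (skPhi n) (skClk n b h) 0 q τ T|) :=
    (Tendsto.const_sub _ hex).abs
  refine le_of_tendsto h2 ((eventually_ge_atTop F).mono fun F' hF' => ?_)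
  have hfk : GhBrFk' q τ (ghPs 1 F) := by
    intro x y hx hy f hf
    right
    intro p hp hfp
    have hl := hlam x y f hx hy hf
    rcases (gh_os_pos_lt_iff f p).1 hfp with h1 | ⟨_, h1⟩
    · exact h1
    · exfalso
      have := (gh_os_ps_mem.1 hp).2.2.2.2
      linarith
  have hM : ∀ s, ∑ i, ghOsc (skBase n 1).a (skClk n b h i) 0 (ghPs 1 F) * skPhi n s i ^ 2 ≤ ghOm 1 (skPhi n) (skClk n b h) (ghPs 1 F) := by
    intro s
    have := gh_pt_om_le (zero_le_one) (skPhi n) (cmk_clk_adm (n := n) H) (gh_pt_ps_ok 1 F) s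
    unfold ghKer at this
    refine le_trans (le_of_eq ?_) this
    refine Finset.sum_congr rfl fun i _ => ?_
    rw [ha]; ring
  have key := gh_br_refine_nu hB (skPhi n) hv (ps := ghPs 1 F) (ps' := ghPs 1 F') (gh_os_ps_lt _ _)
    (fun p hp => (gh_os_ps_mem.1 hp).2) (gh_pt_ps_sub 1 hF') hM 0 hτ' hfk T hK
  rw [abs_sub_comm]
  refine key.trans ?_
  rw [ha]
  exact mul_le_mul_of_nonneg_right (hF0 F hF).le hK0

/-- chains of admissible clocks are admissible step paths -/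
theorem cmk_chain_adm {b h : ℝ → ℝ} (H : CkAdm 1 b h) (F : Finset GhPos) : SkAdm 1 (ckStp 1 b h (ghPs 1 F)) := by
  have hok : ∀ p ∈ ghPs 1 F, p.Ok 1 := fun p hp => (gh_os_ps_mem.1 hp).2
  exact sk_stp_chain_adm zero_le_one H.1 H.2 _ 0 0 (gh_os_ps_pairwise 1 F) hok
    (fun p hp => gh_os_at_nonneg zero_le_one H.1 (hok p hp).2.2.1) (fun p hp => gh_os_at_nonneg zero_le_one H.2 (hok p hp).2.2.1)

/-! ### L6 (helper59) -/

theorem cmk_stp_length (a : ℝ) (b h : ℝ → ℝ) : ∀ (ps : List GhPos) (b0 h0 : ℝ), (skCStp a b h b0 h0 ps).length = ps.length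
  | [], _, _ => rfl
  | p :: ps, _, _ => by rw [skCStp, List.length_cons, List.length_cons, cmk_stp_length a b h ps]

theorem cmk_cl_mem (u : ℝ) : cmkCl u ∈ Icc (0 : ℝ) 1 :=
  ⟨le_max_left _ _, max_le zero_le_one (min_le_right _ _)⟩

theorem cmk_tendsto_of_le {x : ℕ → ℝ} {y C : ℝ} (k0 : ℕ) (h : ∀ k, k0 ≤ k → |x k - y| ≤ 1 / ((k : ℝ) + 1) * C) :
    Tendsto x atTop (𝓝 y) := by
  rw [tendsto_iff_norm_sub_tendsto_zero]
  have h0 : Tendsto (fun k : ℕ => 1 / ((k : ℝ) + 1) * C) atTop (𝓝 0) := by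
    have := (tendsto_one_div_add_atTop_nhds_zero_nat (𝕜 := ℝ)).mul_const C
    rwa [zero_mul] at this
  refine squeeze_zero' (Eventually.of_forall fun k => norm_nonneg _) ?_ h0
  filter_upwards [eventually_ge_atTop k0] with k hk
  exact h k hk

theorem cmk_comb_rt {p p' : GhPos} (hp : p.Ok 1) (hp' : p'.Ok 1) : GhIsRT 1 8 (cmkComb p p') where
  diag := fun x _ => by simp [cmkComb]
  symm := fun x y _ _ => by
    unfold cmkComb
    by_cases hxy : x = y
    · subst hxy; rfl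
    · rw [if_neg hxy, if_neg (Ne.symm hxy)]
      simp only [and_comm]
  ultra := fun x y z _ _ _ => by
    unfold cmkComb
    by_cases hxz : x = z
    · simp [hxz]
    by_cases hxy : x = y
    · subst hxy; simp
    by_cases hyz : y = z
    · subst hyz; simp
    rw [if_neg hxz, if_neg hxy, if_neg hyz]
    by_cases h1 : x < 4 <;> by_cases h2 : y < 4 <;> by_cases h3 : z < 4 <;> simp [h1, h2, h3]
  ok := fun x y _ _ r hr => by
    have hmin : (min p p').Ok 1 := by rcases min_choice p p' with h | h <;> rw [h] <;> assumption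
    have hmax : (max p p').Ok 1 := by rcases max_choice p p' with h | h <;> rw [h] <;> assumption
    unfold cmkComb at hr
    split_ifs at hr
    · exact absurd hr (by simp)
    · rw [← WithTop.coe_injective hr]; exact hmax
    · rw [← WithTop.coe_injective hr]; exact hmin

/-- the star number on a chain -/
theorem cmk_star_chain (n : ℕ) (hn : 0 < n) {b h : ℝ → ℝ} (H : CkAdm 1 b h) (F : Finset GhPos) (l : ℕ) (p : GhPos) :
    (obE n 1 (ckStp 1 b h (ghPs 1 F)) 0 fun ξ _ => (∑ k, obXp n 1 (ckStp 1 b h (ghPs 1 F)) 0 (ghIdx (ghPs 1 F) p) ξ k ^ 2) ^ l)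
      = ckNuF n 1 b h (2 * l) (cmkStar p) (fun σ =>
        ∏ i : Fin l, skOv (σ ⟨2 * i.1, by have := i.2; omega⟩) (σ ⟨2 * i.1 + 1, by have := i.2; omega⟩)) (ghPs 1 F) := by
  have hlen : (ckStp 1 b h (ghPs 1 F)).length = (ghPs 1 F).length := cmk_stp_length 1 b h _ 0 0
  refine (cmk_star_id n hn _ (cmk_chain_adm H F) l (ghIdx (ghPs 1 F) p) (by rw [hlen]; exact gh_tk_idx_coe_le _ _)
    (ghDisc (ghPs 1 F) (cmkStar p)) (fun x y hxy => ?_) (fun x => ?_)).symm
  · show ghIdx (ghPs 1 F) (cmkStar p x y) = _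
    rw [cmkStar, ghR2, if_neg hxy]
  · show _ < ghIdx (ghPs 1 F) (cmkStar p x x)
    rw [cmkStar, ghR2, if_pos rfl, gh_tk_idx_top, hlen]
    exact Nat.lt_succ_self _

/-- the comb number on a chain -/
theorem cmk_comb_chain (n : ℕ) (hn : 0 < n) {b h : ℝ → ℝ} (H : CkAdm 1 b h) (F : Finset GhPos) (p p' : GhPos) :
    (obE n 1 (ckStp 1 b h (ghPs 1 F)) 0 fun ξ _ => (∑ k, (obXp n 1 (ckStp 1 b h (ghPs 1 F)) 0 (ghIdx (ghPs 1 F) p) ξ k
        - obXp n 1 (ckStp 1 b h (ghPs 1 F)) 0 (ghIdx (ghPs 1 F) p') ξ k) ^ 2) ^ 2)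
      = ckNuF n 1 b h 8 (cmkComb p p') (fun σ =>
        (skOv (σ 0) (σ 1) - skOv (σ 0) (σ 5) - skOv (σ 4) (σ 1) + skOv (σ 4) (σ 5))
          * (skOv (σ 2) (σ 3) - skOv (σ 2) (σ 7) - skOv (σ 6) (σ 3) + skOv (σ 6) (σ 7))) (ghPs 1 F) := by
  have hlen : (ckStp 1 b h (ghPs 1 F)).length = (ghPs 1 F).length := cmk_stp_length 1 b h _ 0 0
  have key := cmk_comb_id n hn _ (cmk_chain_adm H F) (ghIdx (ghPs 1 F) ((min p p' : GhPos) : WithTop GhPos))
    (ghIdx (ghPs 1 F) ((max p p' : GhPos) : WithTop GhPos)) (gh_tk_idx_mono _ (WithTop.coe_le_coe.2 min_le_max))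
    (by rw [hlen]; exact gh_tk_idx_coe_le _ _)
    (ghDisc (ghPs 1 F) (cmkComb p p')) (fun x y hxy => by
      show ghIdx (ghPs 1 F) (cmkComb p p' x y) = _
      rw [cmkComb, if_neg hxy]
      split_ifs <;> rfl) (fun x => by
      show _ < ghIdx (ghPs 1 F) (cmkComb p p' x x)
      rw [cmkComb, if_pos rfl, gh_tk_idx_top, hlen]
      exact Nat.lt_succ_self _)
  unfold ckNuF
  rw [key]
  rcases le_total p p' with hpp | hpp
  · rw [min_eq_left hpp, max_eq_right hpp]
    congr 1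
    funext ξ _
    congr 1
    refine Finset.sum_congr rfl fun k _ => ?_
    ring
  · rw [min_eq_right hpp, max_eq_left hpp]

theorem cmk_star_lam {u : ℝ} (q : ℕ) : ∀ x y (p : GhPos), x < q → y < q → cmkStar (ghPosA u) x y = (p : WithTop GhPos) → p.lam = 1 := by
  intro x y p _ _ hp
  rw [cmkStar, ghR2] at hp
  split_ifs at hp
  · exact absurd hp (by simp)
  · rw [← WithTop.coe_injective hp]; rfl

theorem cmk_comb_lam {u v : ℝ} (q : ℕ) : ∀ x y (p : GhPos), x < q → y < q →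
    cmkComb (ghPosA u) (ghPosA v) x y = (p : WithTop GhPos) → p.lam = 1 := by
  intro x y p _ _ hp
  rw [cmkComb] at hp
  split_ifs at hp
  · exact absurd hp (by simp)
  · rw [← WithTop.coe_injective hp]
    rcases max_choice (ghPosA u) (ghPosA v) with h | h <;> rw [h] <;> rfl
  · rw [← WithTop.coe_injective hp]
    rcases min_choice (ghPosA u) (ghPosA v) with h | h <;> rw [h] <;> rfl

theorem cmk_star_test_le {n : ℕ} (l : ℕ) (σ : Fin (2 * l) → SkCfg n) :
    |∏ i : Fin l, skOv (σ ⟨2 * i.1, by have := i.2; omega⟩) (σ ⟨2 * i.1 + 1, by have := i.2; omega⟩)| ≤ 1 := by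
  rw [Finset.abs_prod]
  exact Finset.prod_le_one (fun i _ => abs_nonneg _) fun i _ => cmk_ov_abs_le _ _

theorem cmk_comb_test_le {n : ℕ} (σ : Fin 8 → SkCfg n) :
    |(skOv (σ 0) (σ 1) - skOv (σ 0) (σ 5) - skOv (σ 4) (σ 1) + skOv (σ 4) (σ 5))
          * (skOv (σ 2) (σ 3) - skOv (σ 2) (σ 7) - skOv (σ 6) (σ 3) + skOv (σ 6) (σ 7))| ≤ 16 := by
  have h4 : ∀ a b c d : ℝ, |a| ≤ 1 → |b| ≤ 1 → |c| ≤ 1 → |d| ≤ 1 → |a - b - c + d| ≤ 4 := by
    intro a b c d ha hb hc hd
    rw [abs_le] at *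
    constructor <;> linarith [ha.1, ha.2, hb.1, hb.2, hc.1, hc.2, hd.1, hd.2]
  rw [abs_mul]
  calc _ ≤ (4 : ℝ) * 4 := mul_le_mul (h4 _ _ _ _ (cmk_ov_abs_le _ _) (cmk_ov_abs_le _ _) (cmk_ov_abs_le _ _) (cmk_ov_abs_le _ _))
        (h4 _ _ _ _ (cmk_ov_abs_le _ _) (cmk_ov_abs_le _ _) (cmk_ov_abs_le _ _) (cmk_ov_abs_le _ _)) (abs_nonneg _) (by norm_num)
    _ = 16 := by norm_num

/-- **L6**: the numbers of a suitable sequence of chains converge to the numbers of the path -/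
theorem cmk_numF_lim (n : ℕ) (hn : 0 < n) {b h : ℝ → ℝ} (H : CkAdm 1 b h) :
    ∃ F : ℕ → Finset GhPos, CmNumLim (fun k => cmkNumF n (ckStp 1 b h (ghPs 1 (F k)))) (cmkNum n b h) := by
  classical
  have hδ : ∀ k : ℕ, (0 : ℝ) < 1 / ((k : ℝ) + 1) := fun k => by positivity
  choose FS hFS using fun k : ℕ => cmk_unif_stat n hn H (hδ k)
  choose FN hFN using fun (q k : ℕ) => cmk_unif_nu n hn H q (hδ k)
  set F : ℕ → Finset GhPos := fun k => FS k ∪ (Finset.range (2 * k + 9)).biUnion fun q => FN q k with hF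
  have hsubS : ∀ k, FS k ⊆ F k := fun k => Finset.subset_union_left
  have hsubN : ∀ q k, q < 2 * k + 9 → FN q k ⊆ F k := fun q k hq =>
    (Finset.subset_biUnion_of_mem (fun q => FN q k) (Finset.mem_range.2 hq)).trans Finset.subset_union_right
  have hst := fun (k : ℕ) (u : ℝ) => hFS k (F k) (hsubS k) (cmkCl u) (cmk_cl_mem u)
  have tS : ∀ u, Tendsto (fun k => obS n 1 (ckStp 1 b h (ghPs 1 (F k))) 0 (ghIdx (ghPs 1 (F k)) (ghPosA (cmkCl u)))) atTop
      (𝓝 (skCS n 1 b h (ghPosA (cmkCl u)))) := fun u =>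
    cmk_tendsto_of_le (C := 1) 0 fun k _ => by rw [mul_one]; exact (hst k u).1
  have tB : ∀ u, Tendsto (fun k => obB n 1 (ckStp 1 b h (ghPs 1 (F k))) 0 (ghIdx (ghPs 1 (F k)) (ghPosA (cmkCl u)))) atTop
      (𝓝 (skCB n 1 b h (ghPosA (cmkCl u)))) := fun u =>
    cmk_tendsto_of_le (C := 1) 0 fun k _ => by rw [mul_one]; exact (hst k u).2.1
  have tH : ∀ u, Tendsto (fun k => obTrH2 n 1 (ckStp 1 b h (ghPs 1 (F k))) 0 (ghIdx (ghPs 1 (F k)) (ghPosA (cmkCl u)))) atTop
      (𝓝 (ckH2 n 1 b h (ghPosA (cmkCl u)))) := fun u =>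
    cmk_tendsto_of_le (C := 1) 0 fun k _ => by rw [mul_one]; exact (hst k u).2.2.1
  have tC : ∀ u, Tendsto (fun k => obTrC2 n 1 (ckStp 1 b h (ghPs 1 (F k))) 0 (ghIdx (ghPs 1 (F k)) (ghPosA (cmkCl u)))) atTop
      (𝓝 (ckC2 n 1 b h (ghPosA (cmkCl u)))) := fun u =>
    cmk_tendsto_of_le (C := 1) 0 fun k _ => by rw [mul_one]; exact (hst k u).2.2.2
  refine ⟨F, ⟨?_, ?_, ?_, ?_, ?_, ?_, ?_, ?_⟩⟩
  · intro u
    simp only [cmkNumF, cmkNum, cmk_cut_idx]
    exact tS u
  · intro u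
    simp only [cmkNumF, cmkNum, cmk_cut_idx, obD2, cmkD2]
    exact ((tB u).sub ((tS u).pow 2)).sqrt
  · intro u
    simp only [cmkNumF, cmkNum, cmk_cut_idx]
    exact tH u
  · intro u
    simp only [cmkNumF, cmkNum, cmk_cut_idx]
    exact tC u
  · intro u
    simp only [cmkNumF, cmkNum, cmk_cut_idx]
    exact tendsto_const_nhds.min ((tH u).div_const u)
  · intro q u
    simp only [cmkNumF, cmkNum, cmk_cut_idx, cmk_star_chain n hn H]
    refine Tendsto.rpow_const ?_ (Or.inr (by positivity))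
    refine cmk_tendsto_of_le (C := 1) q fun k hk => ?_
    exact hFN (2 * q) k (F k) (hsubN _ _ (by omega)) _ (gh_pt_star_rt _ (cmk_posA_ok (cmk_cl_mem u))) (cmk_star_lam _) _ 1
      (cmk_star_test_le q)
  · intro u
    simp only [cmkNumF, cmkNum, cmk_cut_idx]
    exact (tB u).sqrt
  · intro ε hε
    have h0 : Tendsto (fun k : ℕ => 1 / ((k : ℝ) + 1) * 16) atTop (𝓝 0) := by
      have := (tendsto_one_div_add_atTop_nhds_zero_nat (𝕜 := ℝ)).mul_const 16
      rwa [zero_mul] at this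
    filter_upwards [(tendsto_order.1 h0).2 ε hε] with k hk i j
    simp only [cmkNumF, cmkNum, cmk_cut_idx, cmk_comb_chain n hn H]
    exact (hFN 8 k (F k) (hsubN _ _ (by omega)) _ (cmk_comb_rt (cmk_posA_ok (cmk_cl_mem i)) (cmk_posA_ok (cmk_cl_mem j)))
      (cmk_comb_lam _) _ 16 cmk_comb_test_le).trans hk.le

/-- **THE INSTANCE THEOREM of `CmNum`** (debt of 294's structure, rule 3 of the captain) -/
theorem cmk_num_ok (n : ℕ) (hn : 0 < n) {b h : ℝ → ℝ} (H : CkAdm 1 b h) : (cmkNum n b h).Ok := by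
  obtain ⟨F, hF⟩ := cmk_numF_lim n hn H
  exact cm_num_ok_of_lim (fun k => cmk_numF_ok n hn _ (cmk_chain_adm H (F k))) hF

end

end Claimed.Agent.R286
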