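import Claimed.Agent.R286.Cmp.Prof

/-!
# Row 286, PE Section 3, file Cmp/Num : SCALES OF A COMPARISON CALL AND THE ALGEBRA OF THE BRACKET      (architect helper192; prefix `cm_`)

Model free.   Sources: PE comparisons.tex l.28-75, 137-153, 292-316;   closed forms of helper255 (N1-N7, A1-A5), helper247 (F0), helper294 (DT1).   `n^x` is `P.N ^ x` (rpow), `δ = P.dl`, `κ = P.kap = 3m - δ`.
OWNERS (preset):   section 1 (N1, N2): helper168 (PROVED);   section 2 (N4, N5, F0): helper170;   section 3 (A1-A5): helper172;   section 4 (logs, `Λ`): helper175;   section 5 (DT1): helper179;   section 6 (quantile basics N6, N7): helper181.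
Hints: `Real.rpow_add`, `Real.rpow_natCast`, `Real.sqrt_eq_rpow`, `Real.rpow_le_rpow_of_exponent_le`; first prove `cm_N_pos`, `cm_E_pos`; write every quantity as `N^x * d^i * E^j`.
-/

set_option autoImplicit false

namespace Claimed.Agent.R286

open MeasureTheory Set

variable {P : CmCall} {cE D0 : ℝ}

/-! ## 1. N1, N2 : the basic scales -/

theorem cm_N_ge (h : P.Ok cE D0) : 3 ≤ P.N := by
  have := h.n3
  unfold CmCall.N
  exact_mod_cast this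

theorem cm_N_pos (h : P.Ok cE D0) : 0 < P.N := by
  linarith [cm_N_ge h]

theorem cm_dl_pos (h : P.Ok cE D0) : 0 < P.dl := by
  have := h.m0
  unfold CmCall.dl
  positivity

theorem cm_kap_pos (h : P.Ok cE D0) : 0 < P.kap := by
  have := h.m0
  unfold CmCall.kap CmCall.dl
  linarith

theorem cm_E_pos (hc : 0 < cE) (h : P.Ok cE D0) : 0 < P.E := by
  have hN := cm_N_pos h
  have hd := h.d0
  have : 0 < cE * P.N ^ (-(2 / 3 : ℝ) + P.m) * P.d := by positivity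
  linarith [h.E1]

theorem cm_a_pos (hc : 0 < cE) (h : P.Ok cE D0) : 0 < P.a := by
  have hN := cm_N_pos h
  have hd := h.d0
  have hE := cm_E_pos hc h
  unfold CmCall.a
  positivity

theorem cm_us_pos (hc : 0 < cE) (h : P.Ok cE D0) : 0 < P.us := by
  have hN := cm_N_pos h
  have hE := cm_E_pos hc h
  unfold CmCall.us
  positivity

theorem cm_L_pos (hc : 0 < cE) (h : P.Ok cE D0) : 0 < P.L := by
  have ha := cm_a_pos hc h
  have hu := cm_us_pos hc h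
  have hd := h.d0
  unfold CmCall.L
  exact lt_min hu (by positivity)

theorem cm_L_le_us : P.L ≤ P.us := by
  unfold CmCall.L
  exact min_le_left _ _

theorem cm_sqrtN (h : P.Ok cE D0) : Real.sqrt P.N * P.N ^ (-(1 / 2 : ℝ)) = 1 := by
  have hN := cm_N_pos h
  rw [Real.sqrt_eq_rpow, ← Real.rpow_add hN]
  norm_num

/-- `a ≤ d` -/
theorem cm_a_le_d (hc : 0 < cE) (h : P.Ok cE D0) : P.a ≤ P.d := by
  have hN := cm_N_pos h
  have hd := h.d0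
  unfold CmCall.a
  rw [div_le_iff₀ hd]
  have h1 : Real.sqrt P.N * P.E ≤ Real.sqrt P.N * (P.N ^ (-(1 / 2 : ℝ)) * P.d ^ 2) :=
    mul_le_mul_of_nonneg_left h.E2 (Real.sqrt_nonneg _)
  have h2 : Real.sqrt P.N * (P.N ^ (-(1 / 2 : ℝ)) * P.d ^ 2) = P.d * P.d := by
    rw [← mul_assoc, cm_sqrtN h]; ring
  linarith

/-- `a ≥ cE n^(-1/6+m)` -/
theorem cm_a_ge (hc : 0 < cE) (h : P.Ok cE D0) : cE * P.N ^ (-(1 / 6 : ℝ) + P.m) ≤ P.a := by
  have hN := cm_N_pos h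
  have hd := h.d0
  unfold CmCall.a
  rw [le_div_iff₀ hd]
  have h1 : Real.sqrt P.N * (cE * P.N ^ (-(2 / 3 : ℝ) + P.m) * P.d) ≤ Real.sqrt P.N * P.E :=
    mul_le_mul_of_nonneg_left h.E1 (Real.sqrt_nonneg _)
  have h2 : Real.sqrt P.N * P.N ^ (-(2 / 3 : ℝ) + P.m) = P.N ^ (-(1 / 6 : ℝ) + P.m) := by
    rw [Real.sqrt_eq_rpow, ← Real.rpow_add hN]
    congr 1; ring
  calc cE * P.N ^ (-(1 / 6 : ℝ) + P.m) * P.d = Real.sqrt P.N * (cE * P.N ^ (-(2 / 3 : ℝ) + P.m) * P.d) := by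
        rw [← h2]; ring
    _ ≤ _ := h1

/-- `u_* ≥ n^(-1/2)/D0²` -/
theorem cm_us_ge (hc : 0 < cE) (h : P.Ok cE D0) : P.N ^ (-(1 / 2 : ℝ)) / D0 ^ 2 ≤ P.us := by
  have hN := cm_N_pos h
  have hd := h.d0
  have hE := cm_E_pos hc h
  have hD : 0 < D0 := lt_of_lt_of_le hd h.d1
  unfold CmCall.us
  rw [div_le_div_iff₀ (by positivity) (by positivity)]
  have h1 : P.E ≤ P.N ^ (-(1 / 2 : ℝ)) * D0 ^ 2 := by
    refine h.E2.trans ?_
    have : P.d ^ 2 ≤ D0 ^ 2 := pow_le_pow_left₀ hd.le h.d1 2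
    exact mul_le_mul_of_nonneg_left this (by positivity)
  have h2 : P.N ^ (-(1 / 2 : ℝ)) * P.N * P.N ^ (-(1 / 2 : ℝ)) = 1 := by
    have : P.N ^ (-(1 / 2 : ℝ)) * P.N ^ (1 : ℝ) * P.N ^ (-(1 / 2 : ℝ)) = 1 := by
      rw [← Real.rpow_add hN, ← Real.rpow_add hN]; norm_num
    rwa [Real.rpow_one] at this
  calc P.N ^ (-(1 / 2 : ℝ)) * (P.N * P.E) ≤ P.N ^ (-(1 / 2 : ℝ)) * (P.N * (P.N ^ (-(1 / 2 : ℝ)) * D0 ^ 2)) := by
        gcongr
    _ = (P.N ^ (-(1 / 2 : ℝ)) * P.N * P.N ^ (-(1 / 2 : ℝ))) * D0 ^ 2 := by ring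
    _ = 1 * D0 ^ 2 := by rw [h2]

/-- `u_* ≤ cE⁻² n^(-1/6-2m)` -/
theorem cm_us_le (hc : 0 < cE) (h : P.Ok cE D0) : P.us ≤ cE⁻¹ ^ 2 * P.N ^ (-(1 / 6 : ℝ) - 2 * P.m) := by
  have hN := cm_N_pos h
  have hd := h.d0
  have hE := cm_E_pos hc h
  have h1 : cE * P.N ^ (-(1 / 6 : ℝ) + P.m) ≤ P.d := (cm_a_ge hc h).trans (cm_a_le_d hc h)
  have h2 : cE * P.N ^ (-(2 / 3 : ℝ) + P.m) * (cE * P.N ^ (-(1 / 6 : ℝ) + P.m)) ≤ P.E :=
    (mul_le_mul_of_nonneg_left h1 (by positivity)).trans h.E1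
  have h3 : P.N * (P.N ^ (-(2 / 3 : ℝ) + P.m) * P.N ^ (-(1 / 6 : ℝ) + P.m)) * P.N ^ (-(1 / 6 : ℝ) - 2 * P.m) = 1 := by
    have : P.N ^ (1 : ℝ) * (P.N ^ (-(2 / 3 : ℝ) + P.m) * P.N ^ (-(1 / 6 : ℝ) + P.m)) * P.N ^ (-(1 / 6 : ℝ) - 2 * P.m) = 1 := by
      rw [← Real.rpow_add hN, ← Real.rpow_add hN, ← Real.rpow_add hN]
      have : (1 : ℝ) + (-(2 / 3 : ℝ) + P.m + (-(1 / 6 : ℝ) + P.m)) + (-(1 / 6 : ℝ) - 2 * P.m) = 0 := by ring
      rw [this, Real.rpow_zero]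
    rwa [Real.rpow_one] at this
  unfold CmCall.us
  rw [div_le_iff₀ (by positivity)]
  have hY : 0 < P.N ^ (-(1 / 6 : ℝ) - 2 * P.m) := by positivity
  calc (1 : ℝ) = cE⁻¹ ^ 2 * P.N ^ (-(1 / 6 : ℝ) - 2 * P.m) * (P.N * (cE * P.N ^ (-(2 / 3 : ℝ) + P.m) * (cE * P.N ^ (-(1 / 6 : ℝ) + P.m)))) := by
        have : cE⁻¹ ^ 2 * P.N ^ (-(1 / 6 : ℝ) - 2 * P.m) * (P.N * (cE * P.N ^ (-(2 / 3 : ℝ) + P.m) * (cE * P.N ^ (-(1 / 6 : ℝ) + P.m))))
            = (cE⁻¹ * cE) ^ 2 * (P.N * (P.N ^ (-(2 / 3 : ℝ) + P.m) * P.N ^ (-(1 / 6 : ℝ) + P.m)) * P.N ^ (-(1 / 6 : ℝ) - 2 * P.m)) := by ring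
        rw [this, h3, inv_mul_cancel₀ hc.ne']; norm_num
    _ ≤ _ := by gcongr

theorem cm_c_pos (hc : 0 < cE) (h : P.Ok cE D0) : 0 < P.N ^ (2 * P.dl) * P.us := by
  have hN := cm_N_pos h
  have hu := cm_us_pos hc h
  positivity

theorem cm_k_pos (hc : 0 < cE) (h : P.Ok cE D0) {r : ℝ} (hr : 0 ≤ r) : 0 < P.k r := by
  have hN := cm_N_pos h
  have hu := cm_us_pos hc h
  have hcc := cm_c_pos hc h
  unfold CmCall.k
  positivity

/-- `k ≤ n^(-3δ)` -/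
theorem cm_k_le (hc : 0 < cE) (h : P.Ok cE D0) {r : ℝ} (hr : 0 ≤ r) : P.k r ≤ P.N ^ (-(3 * P.dl)) := by
  have hN := cm_N_pos h
  have hu := cm_us_pos hc h
  have hcc := cm_c_pos hc h
  unfold CmCall.k
  rw [div_le_iff₀ (by positivity)]
  have h1 : (P.N ^ (2 * P.dl) * P.us) ^ 2 ≤ (r + P.N ^ (2 * P.dl) * P.us) ^ 2 :=
    pow_le_pow_left₀ hcc.le (by linarith) 2
  have h2 : P.N ^ (-(3 * P.dl)) * (P.N ^ (2 * P.dl) * P.N ^ (2 * P.dl)) = P.N ^ P.dl := by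
    rw [← Real.rpow_add hN, ← Real.rpow_add hN]; congr 1; ring
  calc P.N ^ P.dl * P.us ^ 2 = P.N ^ (-(3 * P.dl)) * (P.N ^ (2 * P.dl) * P.us) ^ 2 := by
        rw [← h2]; ring
    _ ≤ _ := mul_le_mul_of_nonneg_left h1 (by positivity)

theorem cm_k_anti (hc : 0 < cE) (h : P.Ok cE D0) : AntitoneOn P.k (Ici 0) := by
  have hN := cm_N_pos h
  have hu := cm_us_pos hc h
  have hcc := cm_c_pos hc h
  intro r1 h1 r2 h2 h12
  have h1' : (0 : ℝ) ≤ r1 := h1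
  unfold CmCall.k
  apply div_le_div_of_nonneg_left (by positivity) (by positivity)
  exact pow_le_pow_left₀ (by linarith) (by linarith) 2

theorem cm_k_cont (hc : 0 < cE) (h : P.Ok cE D0) : ContinuousOn P.k (Ici 0) := by
  have hcc := cm_c_pos hc h
  unfold CmCall.k
  apply ContinuousOn.div continuousOn_const (by fun_prop)
  intro r hr
  have hr' : (0 : ℝ) ≤ r := hr
  positivity

/-- `∫ k ≤ n^(-δ) u_*` -/
theorem cm_k_integral (hc : 0 < cE) (h : P.Ok cE D0) {r1 r2 : ℝ} (h1 : 0 ≤ r1) (h12 : r1 ≤ r2) :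
    ∫ r in r1..r2, P.k r ≤ P.N ^ (-P.dl) * P.us := by
  have hN := cm_N_pos h
  have hu := cm_us_pos hc h
  have hcc := cm_c_pos hc h
  set c := P.N ^ (2 * P.dl) * P.us with hcdef
  set A := P.N ^ P.dl * P.us ^ 2 with hA
  have hA0 : 0 < A := by positivity
  have hder : ∀ x ∈ uIcc r1 r2, HasDerivAt (fun r => -A / (r + c)) (P.k x) x := by
    intro x hx
    rw [uIcc_of_le h12] at hx
    have hx0 : 0 < x + c := by linarith [hx.1]
    have h0 : HasDerivAt (fun r : ℝ => r + c) 1 x := (hasDerivAt_id x).add_const c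
    have h3 : HasDerivAt (fun r : ℝ => -A / (r + c)) ((0 * (x + c) - (-A) * 1) / (x + c) ^ 2) x :=
      (hasDerivAt_const x (-A)).div h0 hx0.ne'
    have e : P.k x = (0 * (x + c) - (-A) * 1) / (x + c) ^ 2 := by
      unfold CmCall.k
      rw [← hcdef, ← hA]; ring
    rw [e]; exact h3
  have hint : IntervalIntegrable P.k volume r1 r2 := by
    apply ContinuousOn.intervalIntegrable
    rw [uIcc_of_le h12]
    exact (cm_k_cont hc h).mono (fun x hx => h1.trans hx.1)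
  rw [intervalIntegral.integral_eq_sub_of_hasDerivAt hder hint]
  have e1 : A / c = P.N ^ (-P.dl) * P.us := by
    rw [hA, hcdef, div_eq_iff (by positivity)]
    have : P.N ^ (-P.dl) * P.N ^ (2 * P.dl) = P.N ^ P.dl := by
      rw [← Real.rpow_add hN]; congr 1; ring
    rw [← this]; ring
  have e2 : A / (r1 + c) ≤ A / c := div_le_div_of_nonneg_left hA0.le hcc (by linarith)
  have e3 : 0 ≤ A / (r2 + c) := by
    have : 0 < r2 + c := by linarith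
    positivity
  rw [← e1]
  have : -A / (r2 + c) - -A / (r1 + c) = A / (r1 + c) - A / (r2 + c) := by ring
  rw [this]; linarith

/-- for `r ≥ n^(2δ) u_*`: `k(r) ≥ n^δ u_*²/(4 r²)` -/
theorem cm_k_ge (hc : 0 < cE) (h : P.Ok cE D0) {r : ℝ} (hr : P.N ^ (2 * P.dl) * P.us ≤ r) : P.N ^ P.dl * P.us ^ 2 / (4 * r ^ 2) ≤ P.k r := by
  have hN := cm_N_pos h
  have hu := cm_us_pos hc h
  have hcc := cm_c_pos hc h
  have hr0 : 0 < r := lt_of_lt_of_le hcc hr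
  unfold CmCall.k
  apply div_le_div_of_nonneg_left (by positivity) (by positivity)
  have : (r + P.N ^ (2 * P.dl) * P.us) ^ 2 ≤ (2 * r) ^ 2 := pow_le_pow_left₀ (by positivity) (by linarith) 2
  calc _ ≤ (2 * r) ^ 2 := this
    _ = 4 * r ^ 2 := by ring

/-- `M ≥ n^δ` -/
theorem cm_M_ge (hc : 0 < cE) (h : P.Ok cE D0) {u : ℝ} (hu : 0 ≤ u) : P.N ^ P.dl ≤ P.M u := by
  have hN := cm_N_pos h
  have hus := cm_us_pos hc h
  have hL := cm_L_pos hc h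
  have hE := cm_E_pos hc h
  have hd := h.d0
  unfold CmCall.M
  have h1 : 1 ≤ (u + P.us) / P.L := by
    rw [le_div_iff₀ hL]
    have := @cm_L_le_us P
    linarith
  have h2 : 0 ≤ P.d ^ 3 / P.E * (u + P.us) ^ 2 := by positivity
  calc P.N ^ P.dl = P.N ^ P.dl * 1 := by ring
    _ ≤ _ := mul_le_mul_of_nonneg_left (by linarith) (by positivity)

theorem cm_M_mono (hc : 0 < cE) (h : P.Ok cE D0) : MonotoneOn P.M (Ici 0) := by
  have hN := cm_N_pos h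
  have hus := cm_us_pos hc h
  have hL := cm_L_pos hc h
  have hE := cm_E_pos hc h
  have hd := h.d0
  intro u hu v hv huv
  have hu' : (0 : ℝ) ≤ u := hu
  unfold CmCall.M
  gcongr

theorem cm_M_cont : Continuous P.M := by
  unfold CmCall.M
  fun_prop

theorem cm_M_hasDeriv (u : ℝ) : HasDerivAt P.M (P.N ^ P.dl * (1 / P.L + P.d ^ 3 / P.E * (2 * (u + P.us)))) u := by
  unfold CmCall.M
  have h0 : HasDerivAt (fun u : ℝ => u + P.us) 1 u := (hasDerivAt_id u).add_const _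
  have h1 := h0.div_const P.L
  have h2 := (h0.pow 2).const_mul (P.d ^ 3 / P.E)
  have h3 := (h1.add h2).const_mul (P.N ^ P.dl)
  have e : P.N ^ P.dl * (1 / P.L + P.d ^ 3 / P.E * (2 * (u + P.us))) = P.N ^ P.dl * (1 / P.L + P.d ^ 3 / P.E * (((2 : ℕ) : ℝ) * (u + P.us) ^ (2 - 1) * 1)) := by
    norm_num
  rw [e]
  exact h3

/-- `M'/M ≤ 2/(u + u_*)` -/
theorem cm_M_logderiv (hc : 0 < cE) (h : P.Ok cE D0) {u : ℝ} (hu : 0 ≤ u) :
    P.N ^ P.dl * (1 / P.L + P.d ^ 3 / P.E * (2 * (u + P.us))) ≤ 2 / (u + P.us) * P.M u := by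
  have hN := cm_N_pos h
  have hus := cm_us_pos hc h
  have hL := cm_L_pos hc h
  have hE := cm_E_pos hc h
  have hd := h.d0
  have hs : 0 < u + P.us := by linarith
  unfold CmCall.M
  have e : 2 / (u + P.us) * (P.N ^ P.dl * ((u + P.us) / P.L + P.d ^ 3 / P.E * (u + P.us) ^ 2))
      = P.N ^ P.dl * (2 / P.L + P.d ^ 3 / P.E * (2 * (u + P.us))) := by
    field_simp
  rw [e]
  apply mul_le_mul_of_nonneg_left _ (by positivity)
  have : 1 / P.L ≤ 2 / P.L := by gcongr; norm_num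
  linarith

/-- `M(v)/M(u) ≤ ((v+u_*)/(u+u_*))²` -/
theorem cm_M_ratio (hc : 0 < cE) (h : P.Ok cE D0) {u v : ℝ} (hu : 0 ≤ u) (huv : u ≤ v) : P.M v ≤ ((v + P.us) / (u + P.us)) ^ 2 * P.M u := by
  have hN := cm_N_pos h
  have hus := cm_us_pos hc h
  have hL := cm_L_pos hc h
  have hE := cm_E_pos hc h
  have hd := h.d0
  have hs : 0 < u + P.us := by linarith
  set s := (v + P.us) / (u + P.us) with hsdef
  have hs1 : 1 ≤ s := by rw [hsdef, le_div_iff₀ hs]; linarith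
  have hv : v + P.us = s * (u + P.us) := by rw [hsdef]; field_simp
  unfold CmCall.M
  rw [hv]
  have e : s ^ 2 * (P.N ^ P.dl * ((u + P.us) / P.L + P.d ^ 3 / P.E * (u + P.us) ^ 2))
      = P.N ^ P.dl * (s ^ 2 * ((u + P.us) / P.L) + P.d ^ 3 / P.E * (s * (u + P.us)) ^ 2) := by ring
  rw [e]
  apply mul_le_mul_of_nonneg_left _ (by positivity)
  have h1 : s * (u + P.us) / P.L = s * ((u + P.us) / P.L) := by ring
  rw [h1]
  have h2 : s ≤ s ^ 2 := by nlinarith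
  have h3 : 0 ≤ (u + P.us) / P.L := by positivity
  nlinarith [mul_le_mul_of_nonneg_right h2 h3]

theorem cm_M_pos (hc : 0 < cE) (h : P.Ok cE D0) {u : ℝ} (hu : 0 ≤ u) : 0 < P.M u :=
  lt_of_lt_of_le (Real.rpow_pos_of_pos (cm_N_pos h) _) (cm_M_ge hc h hu)

theorem cm_invM_intble (hc : 0 < cE) (h : P.Ok cE D0) {u1 u2 : ℝ} (h1 : 0 ≤ u1) (h12 : u1 ≤ u2) :
    IntervalIntegrable (fun u => (P.M u)⁻¹) volume u1 u2 := by
  apply ContinuousOn.intervalIntegrable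
  rw [uIcc_of_le h12]
  apply ContinuousOn.inv₀ cm_M_cont.continuousOn
  intro x hx
  exact (cm_M_pos hc h (h1.trans hx.1)).ne'

/-- `∫ du/M ≤ n^(-δ) L log((u₂+u_*)/(u₁+u_*))` -/
theorem cm_invM_integral (hc : 0 < cE) (h : P.Ok cE D0) {u1 u2 : ℝ} (h1 : 0 ≤ u1) (h12 : u1 ≤ u2) :
    ∫ u in u1..u2, (P.M u)⁻¹ ≤ P.N ^ (-P.dl) * P.L * Real.log ((u2 + P.us) / (u1 + P.us)) := by
  have hN := cm_N_pos h
  have hus := cm_us_pos hc h
  have hL := cm_L_pos hc h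
  have hE := cm_E_pos hc h
  have hd := h.d0
  have hb : ∀ x ∈ Icc u1 u2, (P.M x)⁻¹ ≤ P.N ^ (-P.dl) * P.L * (x + P.us)⁻¹ := by
    intro x hx
    have hx0 : 0 ≤ x := h1.trans hx.1
    have hs : 0 < x + P.us := by linarith
    have hM := cm_M_pos hc h hx0
    rw [inv_le_comm₀ hM (by positivity)]
    have e : (P.N ^ (-P.dl) * P.L * (x + P.us)⁻¹)⁻¹ = P.N ^ P.dl * ((x + P.us) / P.L) := by
      rw [Real.rpow_neg hN.le]; field_simp
    rw [e]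
    unfold CmCall.M
    apply mul_le_mul_of_nonneg_left _ (by positivity)
    have : 0 ≤ P.d ^ 3 / P.E * (x + P.us) ^ 2 := by positivity
    linarith
  have hder : ∀ x ∈ uIcc u1 u2, HasDerivAt (fun u => P.N ^ (-P.dl) * P.L * Real.log (u + P.us)) (P.N ^ (-P.dl) * P.L * (x + P.us)⁻¹) x := by
    intro x hx
    rw [uIcc_of_le h12] at hx
    have hs : 0 < x + P.us := by linarith [hx.1]
    have h0 : HasDerivAt (fun r : ℝ => r + P.us) 1 x := (hasDerivAt_id x).add_const _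
    have h3 := (h0.log hs.ne').const_mul (P.N ^ (-P.dl) * P.L)
    have e : P.N ^ (-P.dl) * P.L * (x + P.us)⁻¹ = P.N ^ (-P.dl) * P.L * (1 / (x + P.us)) := by rw [one_div]
    rw [e]
    exact h3
  have hint2 : IntervalIntegrable (fun x => P.N ^ (-P.dl) * P.L * (x + P.us)⁻¹) volume u1 u2 := by
    apply ContinuousOn.intervalIntegrable
    rw [uIcc_of_le h12]
    apply ContinuousOn.mul continuousOn_const
    apply ContinuousOn.inv₀ (by fun_prop)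
    intro x hx
    have : 0 < x + P.us := by linarith [hx.1]
    exact this.ne'
  calc ∫ u in u1..u2, (P.M u)⁻¹ ≤ ∫ x in u1..u2, P.N ^ (-P.dl) * P.L * (x + P.us)⁻¹ :=
        intervalIntegral.integral_mono_on h12 (cm_invM_intble hc h h1 h12) hint2 hb
    _ = P.N ^ (-P.dl) * P.L * Real.log (u2 + P.us) - P.N ^ (-P.dl) * P.L * Real.log (u1 + P.us) :=
        intervalIntegral.integral_eq_sub_of_hasDerivAt hder hint2
    _ = _ := by
        have p2 : (0 : ℝ) < u2 + P.us := by linarith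
        have p1 : (0 : ℝ) < u1 + P.us := by linarith
        rw [Real.log_div p2.ne' p1.ne']
        ring

/-- second form: on masses `≥ v`: `∫ du/M ≤ n^(-δ) (E/d³) (u₂-u₁)/v²` -/
theorem cm_invM_integral' (hc : 0 < cE) (h : P.Ok cE D0) {u1 u2 : ℝ} (h1 : 0 < u1) (h12 : u1 ≤ u2) :
    ∫ u in u1..u2, (P.M u)⁻¹ ≤ P.N ^ (-P.dl) * (P.E / P.d ^ 3) * ((u2 - u1) / u1 ^ 2) := by
  have hN := cm_N_pos h
  have hus := cm_us_pos hc h
  have hL := cm_L_pos hc h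
  have hE := cm_E_pos hc h
  have hd := h.d0
  have hb : ∀ x ∈ Icc u1 u2, (P.M x)⁻¹ ≤ P.N ^ (-P.dl) * (P.E / P.d ^ 3) * (1 / u1 ^ 2) := by
    intro x hx
    have hx0 : 0 ≤ x := h1.le.trans hx.1
    have hM := cm_M_pos hc h hx0
    rw [inv_le_comm₀ hM (by positivity)]
    have e : (P.N ^ (-P.dl) * (P.E / P.d ^ 3) * (1 / u1 ^ 2))⁻¹ = P.N ^ P.dl * (P.d ^ 3 / P.E * u1 ^ 2) := by
      rw [Real.rpow_neg hN.le]; field_simp
    rw [e]
    unfold CmCall.M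
    apply mul_le_mul_of_nonneg_left _ (by positivity)
    have h2 : 0 ≤ (x + P.us) / P.L := by positivity
    have h3 : u1 ^ 2 ≤ (x + P.us) ^ 2 := pow_le_pow_left₀ h1.le (by linarith [hx.1]) 2
    have h4 : P.d ^ 3 / P.E * u1 ^ 2 ≤ P.d ^ 3 / P.E * (x + P.us) ^ 2 := mul_le_mul_of_nonneg_left h3 (by positivity)
    linarith
  calc ∫ u in u1..u2, (P.M u)⁻¹ ≤ ∫ _x in u1..u2, P.N ^ (-P.dl) * (P.E / P.d ^ 3) * (1 / u1 ^ 2) :=
        intervalIntegral.integral_mono_on h12 (cm_invM_intble hc h h1.le h12) intervalIntegrable_const hb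
    _ = _ := by
        rw [intervalIntegral.integral_const, smul_eq_mul]; ring

/-- `r_min ≤ n^(-δ) L` -/
theorem cm_rmin_le (hc : 0 < cE) (h : P.Ok cE D0) : P.rmin ≤ P.N ^ (-P.dl) * P.L := by
  have hN := cm_N_pos h
  have hus := cm_us_pos hc h
  have hL := cm_L_pos hc h
  have hE := cm_E_pos hc h
  have hd := h.d0
  have hu0 := h.u00
  have hM := cm_M_pos hc h hu0
  refine h.r1.trans ?_
  rw [div_le_iff₀ hM]
  have h1 : P.N ^ P.dl * (P.us / P.L) ≤ P.M P.u0 := by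
    unfold CmCall.M
    apply mul_le_mul_of_nonneg_left _ (by positivity)
    have h2 : 0 ≤ P.d ^ 3 / P.E * (P.u0 + P.us) ^ 2 := by positivity
    have h3 : P.us / P.L ≤ (P.u0 + P.us) / P.L := by gcongr; linarith
    linarith
  calc P.us = P.N ^ (-P.dl) * P.L * (P.N ^ P.dl * (P.us / P.L)) := by
        rw [Real.rpow_neg hN.le]; field_simp
    _ ≤ _ := mul_le_mul_of_nonneg_left h1 (by positivity)

/-- `d³ L u_*/E ≤ √n E/d² ≤ 1` -/
theorem cm_dLus (hc : 0 < cE) (h : P.Ok cE D0) : P.d ^ 3 * P.L * P.us / P.E ≤ Real.sqrt P.N * P.E / P.d ^ 2 ∧ Real.sqrt P.N * P.E / P.d ^ 2 ≤ 1 := by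
  have hN := cm_N_pos h
  have hus := cm_us_pos hc h
  have hL := cm_L_pos hc h
  have hE := cm_E_pos hc h
  have hd := h.d0
  constructor
  · have h1 : P.L ≤ P.a ^ 3 / P.d ^ 2 := by unfold CmCall.L; exact min_le_right _ _
    have h2 : P.d ^ 3 * (P.a ^ 3 / P.d ^ 2) * P.us / P.E = Real.sqrt P.N * P.E / P.d ^ 2 := by
      unfold CmCall.a CmCall.us
      have hs : Real.sqrt P.N ^ 2 = P.N := Real.sq_sqrt hN.le
      have hs0 : 0 < Real.sqrt P.N := Real.sqrt_pos.2 hN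
      field_simp
      exact hs
    rw [← h2]
    gcongr
  · rw [div_le_one (by positivity)]
    have h1 : Real.sqrt P.N * P.E ≤ Real.sqrt P.N * (P.N ^ (-(1 / 2 : ℝ)) * P.d ^ 2) :=
      mul_le_mul_of_nonneg_left h.E2 (Real.sqrt_nonneg _)
    have h2 : Real.sqrt P.N * (P.N ^ (-(1 / 2 : ℝ)) * P.d ^ 2) = P.d ^ 2 := by
      rw [← mul_assoc, cm_sqrtN h]; ring
    linarith

/-! ## 2. N4, N5, F0 : the power margins of (8), (11) -/

/-- parametrisation `n = w⁶`, `X = n^m` of the hypotheses (3) -/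
theorem cm_s2_par (hc : 0 < cE) (h : P.Ok cE D0) : ∃ w X : ℝ, 0 < w ∧ 1 ≤ X ∧ P.N = w ^ 6 ∧ Real.sqrt P.N = w ^ 3 ∧
    P.N ^ (-(2 / 3 : ℝ)) = 1 / w ^ 4 ∧ P.N ^ (-P.m) = 1 / X ∧ P.N ^ (-(3 * P.m)) = 1 / X ^ 3 ∧ P.N ^ (-(6 * P.m)) = 1 / X ^ 6 ∧
    cE * X * P.d ≤ w ^ 4 * P.E ∧ w ^ 3 * P.E ≤ P.d ^ 2 := by
  have hN := cm_N_pos h
  have hN1 : 1 ≤ P.N := by linarith [cm_N_ge h]
  have hw : 0 < P.N ^ (1 / 6 : ℝ) := Real.rpow_pos_of_pos hN _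
  have hX : 0 < P.N ^ P.m := Real.rpow_pos_of_pos hN _
  have e6 : P.N = (P.N ^ (1 / 6 : ℝ)) ^ 6 := by
    rw [← Real.rpow_natCast, ← Real.rpow_mul hN.le]; norm_num
  have e3 : Real.sqrt P.N = (P.N ^ (1 / 6 : ℝ)) ^ 3 := by
    rw [Real.sqrt_eq_rpow, ← Real.rpow_natCast, ← Real.rpow_mul hN.le]; norm_num
  have e4 : P.N ^ (-(2 / 3 : ℝ)) = 1 / (P.N ^ (1 / 6 : ℝ)) ^ 4 := by
    rw [Real.rpow_neg hN.le, ← Real.rpow_natCast (P.N ^ (1 / 6 : ℝ)), ← Real.rpow_mul hN.le, one_div]; norm_num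
  have e2 : P.N ^ (-(1 / 2 : ℝ)) = 1 / (P.N ^ (1 / 6 : ℝ)) ^ 3 := by
    rw [Real.rpow_neg hN.le, ← Real.rpow_natCast (P.N ^ (1 / 6 : ℝ)), ← Real.rpow_mul hN.le, one_div]; norm_num
  have m1 : P.N ^ (-P.m) = 1 / P.N ^ P.m := by rw [Real.rpow_neg hN.le, one_div]
  have m3 : P.N ^ (-(3 * P.m)) = 1 / (P.N ^ P.m) ^ 3 := by
    rw [Real.rpow_neg hN.le, ← Real.rpow_natCast (P.N ^ P.m), ← Real.rpow_mul hN.le, one_div]
    congr 2; push_cast; ring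
  have m6 : P.N ^ (-(6 * P.m)) = 1 / (P.N ^ P.m) ^ 6 := by
    rw [Real.rpow_neg hN.le, ← Real.rpow_natCast (P.N ^ P.m), ← Real.rpow_mul hN.le, one_div]
    congr 2; push_cast; ring
  refine ⟨P.N ^ (1 / 6 : ℝ), P.N ^ P.m, hw, Real.one_le_rpow hN1 h.m0.le, e6, e3, e4, m1, m3, m6, ?_, ?_⟩
  · have h1 := h.E1
    rw [Real.rpow_add hN, e4] at h1
    have h4 : 0 < (P.N ^ (1 / 6 : ℝ)) ^ 4 := by positivity
    have : cE * (1 / (P.N ^ (1 / 6 : ℝ)) ^ 4 * P.N ^ P.m) * P.d = cE * P.N ^ P.m * P.d / (P.N ^ (1 / 6 : ℝ)) ^ 4 := by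
      field_simp
    rw [this, div_le_iff₀ h4] at h1
    linarith
  · have h1 := h.E2
    rw [e2] at h1
    have h3 : 0 < (P.N ^ (1 / 6 : ℝ)) ^ 3 := by positivity
    have : 1 / (P.N ^ (1 / 6 : ℝ)) ^ 3 * P.d ^ 2 = P.d ^ 2 / (P.N ^ (1 / 6 : ℝ)) ^ 3 := by field_simp
    rw [this, le_div_iff₀ h3] at h1
    linarith

/-- `u_*/a = d/(n^(3/2) E²) ≤ cE⁻³ n^(-3m)` -/
theorem cm_us_a (hc : 0 < cE) (h : P.Ok cE D0) : P.us ≤ cE⁻¹ ^ 3 * P.N ^ (-(3 * P.m)) * P.a := by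
  obtain ⟨w, X, hw, hX, e6, e3, e4, m1, m3, m6, hA, hB⟩ := cm_s2_par hc h
  have hE := cm_E_pos hc h
  have hd := h.d0
  have hX0 : 0 < X := by linarith
  have h1 : cE * X ≤ w * P.d := by
    have : cE * X * (w ^ 3 * P.d) ≤ w * P.d * (w ^ 3 * P.d) := by
      have a1 := mul_le_mul_of_nonneg_right hA (pow_pos hw 3).le
      have a2 := mul_le_mul_of_nonneg_left hB (pow_pos hw 4).le
      nlinarith
    exact le_of_mul_le_mul_right this (by positivity)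
  have h2 : (cE * X * P.d) ^ 2 ≤ (w ^ 4 * P.E) ^ 2 := pow_le_pow_left₀ (by positivity) hA 2
  have h3 : cE ^ 3 * X ^ 3 * P.d ≤ w ^ 9 * P.E ^ 2 := by
    have : cE ^ 3 * X ^ 3 * P.d * P.d ≤ w ^ 9 * P.E ^ 2 * P.d := by
      calc cE ^ 3 * X ^ 3 * P.d * P.d = (cE * X) * (cE * X * P.d) ^ 2 := by ring
        _ ≤ (w * P.d) * (w ^ 4 * P.E) ^ 2 := mul_le_mul h1 h2 (by positivity) (by positivity)
        _ = w ^ 9 * P.E ^ 2 * P.d := by ring
    exact le_of_mul_le_mul_right this hd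
  unfold CmCall.us CmCall.a
  rw [m3, e3, e6]
  have : cE⁻¹ ^ 3 * (1 / X ^ 3) * (w ^ 3 * P.E / P.d) = w ^ 3 * P.E / (cE ^ 3 * X ^ 3 * P.d) := by
    field_simp
  rw [this, div_le_div_iff₀ (by positivity) (by positivity)]
  nlinarith

/-- `u_*² d²/a⁴ ≤ cE⁻⁶ n^(-6m)` -/
theorem cm_us_d_a (hc : 0 < cE) (h : P.Ok cE D0) : P.us ^ 2 * P.d ^ 2 ≤ cE⁻¹ ^ 6 * P.N ^ (-(6 * P.m)) * P.a ^ 4 := by
  obtain ⟨w, X, hw, hX, e6, e3, e4, m1, m3, m6, hA, hB⟩ := cm_s2_par hc h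
  have hE := cm_E_pos hc h
  have hd := h.d0
  have hX0 : 0 < X := by linarith
  have h2 : (cE * X * P.d) ^ 6 ≤ (w ^ 4 * P.E) ^ 6 := pow_le_pow_left₀ (by positivity) hA 6
  unfold CmCall.us CmCall.a
  rw [m6, e3, e6]
  have e1 : (1 / (w ^ 6 * P.E)) ^ 2 * P.d ^ 2 = P.d ^ 2 / (w ^ 12 * P.E ^ 2) := by
    field_simp
  have e2 : cE⁻¹ ^ 6 * (1 / X ^ 6) * (w ^ 3 * P.E / P.d) ^ 4 = w ^ 12 * P.E ^ 4 / (cE ^ 6 * X ^ 6 * P.d ^ 4) := by
    field_simp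
  rw [e1, e2, div_le_div_iff₀ (by positivity) (by positivity)]
  calc P.d ^ 2 * (cE ^ 6 * X ^ 6 * P.d ^ 4) = (cE * X * P.d) ^ 6 := by ring
    _ ≤ (w ^ 4 * P.E) ^ 6 := h2
    _ = w ^ 12 * P.E ^ 4 * (w ^ 12 * P.E ^ 2) := by ring

/-- `d³/(n²E³) ≤ cE⁻³ n^(-3m)` -/
theorem cm_d_nE (hc : 0 < cE) (h : P.Ok cE D0) : P.d ^ 3 ≤ cE⁻¹ ^ 3 * P.N ^ (-(3 * P.m)) * (P.N ^ 2 * P.E ^ 3) := by
  obtain ⟨w, X, hw, hX, e6, e3, e4, m1, m3, m6, hA, hB⟩ := cm_s2_par hc h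
  have hE := cm_E_pos hc h
  have hd := h.d0
  have hX0 : 0 < X := by linarith
  have h2 : (cE * X * P.d) ^ 3 ≤ (w ^ 4 * P.E) ^ 3 := pow_le_pow_left₀ (by positivity) hA 3
  rw [m3, e6]
  have : cE⁻¹ ^ 3 * (1 / X ^ 3) * ((w ^ 6) ^ 2 * P.E ^ 3) = (w ^ 4 * P.E) ^ 3 / (cE ^ 3 * X ^ 3) := by
    field_simp
  rw [this, le_div_iff₀ (by positivity)]
  calc P.d ^ 3 * (cE ^ 3 * X ^ 3) = (cE * X * P.d) ^ 3 := by ring
    _ ≤ _ := h2

/-- `n^(-2/3) d ≤ cE⁻¹ n^(-m) E` -/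
theorem cm_d_E (hc : 0 < cE) (h : P.Ok cE D0) : P.N ^ (-(2 / 3 : ℝ)) * P.d ≤ cE⁻¹ * P.N ^ (-P.m) * P.E := by
  obtain ⟨w, X, hw, hX, e6, e3, e4, m1, m3, m6, hA, hB⟩ := cm_s2_par hc h
  have hX0 : 0 < X := by linarith
  rw [e4, m1]
  have e1 : 1 / w ^ 4 * P.d = P.d / w ^ 4 := by field_simp
  have e2 : cE⁻¹ * (1 / X) * P.E = P.E / (cE * X) := by field_simp
  rw [e1, e2, div_le_div_iff₀ (by positivity) (by positivity)]
  linarith


/-- **(11), first gain**: `M(u) ≤ C n^(-κ) (nEv)²` for `v ≥ c1 a`, `u ≤ K v` -/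
theorem cm_M_gain (hc : 0 < cE) {c1 K : ℝ} (h1 : 0 < c1) (hK : 0 < K) :
    ∃ C : ℝ, 0 < C ∧ ∀ P : CmCall, P.Ok cE D0 → ∀ u v : ℝ, c1 * P.a ≤ v → 0 ≤ u → u ≤ K * v → P.M u ≤ C * P.N ^ (-P.kap) * (P.N * P.E * v) ^ 2 := by
  set c := cE⁻¹ with hcdef
  have hc0 : 0 < c := inv_pos.2 hc
  set K' := K + c ^ 3 / c1 with hK'
  have hK'0 : 0 < K' := by positivity
  refine ⟨K' * c ^ 3 / c1 + K' * c ^ 6 / c1 + c ^ 3 * K' ^ 2, by positivity, ?_⟩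
  intro P h u v hv hu huv
  have hN := cm_N_pos h
  have hN1 : 1 ≤ P.N := by linarith [cm_N_ge h]
  have hE := cm_E_pos hc h
  have hd := h.d0
  have ha := cm_a_pos hc h
  have hus := cm_us_pos hc h
  have hp : 0 < P.N ^ P.dl := Real.rpow_pos_of_pos hN _
  set Y := P.N ^ (-(3 * P.m)) with hY
  have hY0 : 0 < Y := Real.rpow_pos_of_pos hN _
  have hY1 : Y ≤ 1 := Real.rpow_le_one_of_one_le_of_nonpos hN1 (by linarith [h.m0])
  have hY2 : P.N ^ (-(6 * P.m)) = Y ^ 2 := by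
    rw [hY, ← Real.rpow_natCast, ← Real.rpow_mul hN.le]; congr 1; push_cast; ring
  have hkap : P.N ^ (-P.kap) = P.N ^ P.dl * Y := by
    rw [hY, ← Real.rpow_add hN]; congr 1; unfold CmCall.kap; ring
  have hv0 : 0 < v := lt_of_lt_of_le (by positivity) hv
  have hav : P.a ≤ v / c1 := by rw [le_div_iff₀ h1]; linarith
  have b1 : P.us ≤ c ^ 3 * Y * P.a := cm_us_a hc h
  have b2 : P.us ^ 2 * P.d ^ 2 ≤ c ^ 6 * Y ^ 2 * P.a ^ 4 := by rw [← hY2]; exact cm_us_d_a hc h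
  have b3 : P.d ^ 3 ≤ c ^ 3 * Y * (P.N ^ 2 * P.E ^ 3) := cm_d_nE hc h
  have b1' : P.us ≤ c ^ 3 * Y * (v / c1) := b1.trans (mul_le_mul_of_nonneg_left hav (by positivity))
  have hs : u + P.us ≤ K' * v := by
    have a1 : c ^ 3 * Y * (v / c1) ≤ c ^ 3 * 1 * (v / c1) := by gcongr
    have e : K' * v = K * v + c ^ 3 * 1 * (v / c1) := by rw [hK']; field_simp
    linarith
  have hs0 : 0 < u + P.us := by linarith
  have hLinv : (u + P.us) / P.L ≤ (u + P.us) / P.us + (u + P.us) * (P.d ^ 2 / P.a ^ 3) := by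
    unfold CmCall.L
    rcases le_total P.us (P.a ^ 3 / P.d ^ 2) with hle | hle
    · rw [min_eq_left hle]
      have : 0 ≤ (u + P.us) * (P.d ^ 2 / P.a ^ 3) := by positivity
      linarith
    · rw [min_eq_right hle]
      have : 0 ≤ (u + P.us) / P.us := by positivity
      have e : (u + P.us) / (P.a ^ 3 / P.d ^ 2) = (u + P.us) * (P.d ^ 2 / P.a ^ 3) := by field_simp
      linarith
  set q := P.N * P.E with hq
  have hq0 : 0 < q := by positivity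
  have husq : P.us * q = 1 := by unfold CmCall.us; rw [hq]; field_simp
  have t1 : (u + P.us) / P.us ≤ K' * c ^ 3 / c1 * Y * (q * v) ^ 2 := by
    have e1 : (u + P.us) / P.us = (u + P.us) * q := by
      rw [div_eq_iff hus.ne']
      calc u + P.us = (u + P.us) * (P.us * q) := by rw [husq]; ring
        _ = (u + P.us) * q * P.us := by ring
    have e2 : 1 ≤ c ^ 3 * Y * (v / c1) * q := by
      rw [← husq]; exact mul_le_mul_of_nonneg_right b1' hq0.le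
    calc (u + P.us) / P.us = (u + P.us) * q := e1
      _ ≤ K' * v * q := mul_le_mul_of_nonneg_right hs hq0.le
      _ = K' * v * q * 1 := by ring
      _ ≤ K' * v * q * (c ^ 3 * Y * (v / c1) * q) := mul_le_mul_of_nonneg_left e2 (by positivity)
      _ = K' * c ^ 3 / c1 * Y * (q * v) ^ 2 := by ring
  have t2 : (u + P.us) * (P.d ^ 2 / P.a ^ 3) ≤ K' * c ^ 6 / c1 * Y * (q * v) ^ 2 := by
    have e1 : P.d ^ 2 ≤ c ^ 6 * Y ^ 2 * P.a ^ 4 * q ^ 2 := by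
      have e0 : (P.us * q) ^ 2 = 1 := by rw [husq]; norm_num
      calc P.d ^ 2 = (P.us * q) ^ 2 * P.d ^ 2 := by rw [e0]; ring
        _ = P.us ^ 2 * P.d ^ 2 * q ^ 2 := by ring
        _ ≤ c ^ 6 * Y ^ 2 * P.a ^ 4 * q ^ 2 := mul_le_mul_of_nonneg_right b2 (by positivity)
    have e2 : P.d ^ 2 / P.a ^ 3 ≤ c ^ 6 * Y ^ 2 * P.a * q ^ 2 := by
      rw [div_le_iff₀ (by positivity)]
      calc P.d ^ 2 ≤ c ^ 6 * Y ^ 2 * P.a ^ 4 * q ^ 2 := e1
        _ = c ^ 6 * Y ^ 2 * P.a * q ^ 2 * P.a ^ 3 := by ring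
    have e3 : c ^ 6 * Y ^ 2 * P.a * q ^ 2 ≤ c ^ 6 * Y * (v / c1) * q ^ 2 := by
      have a1 : Y ^ 2 * P.a ≤ Y * (v / c1) := by
        calc Y ^ 2 * P.a = Y * (Y * P.a) := by ring
          _ ≤ Y * (1 * (v / c1)) := by gcongr
          _ = Y * (v / c1) := by ring
      calc c ^ 6 * Y ^ 2 * P.a * q ^ 2 = c ^ 6 * q ^ 2 * (Y ^ 2 * P.a) := by ring
        _ ≤ c ^ 6 * q ^ 2 * (Y * (v / c1)) := mul_le_mul_of_nonneg_left a1 (by positivity)
        _ = c ^ 6 * Y * (v / c1) * q ^ 2 := by ring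
    calc (u + P.us) * (P.d ^ 2 / P.a ^ 3) ≤ (K' * v) * (c ^ 6 * Y * (v / c1) * q ^ 2) :=
          mul_le_mul hs (e2.trans e3) (by positivity) (by positivity)
      _ = K' * c ^ 6 / c1 * Y * (q * v) ^ 2 := by ring
  have t3 : P.d ^ 3 / P.E * (u + P.us) ^ 2 ≤ c ^ 3 * K' ^ 2 * Y * (q * v) ^ 2 := by
    have e1 : P.d ^ 3 / P.E ≤ c ^ 3 * Y * q ^ 2 := by
      rw [div_le_iff₀ hE]
      calc P.d ^ 3 ≤ c ^ 3 * Y * (P.N ^ 2 * P.E ^ 3) := b3
        _ = c ^ 3 * Y * q ^ 2 * P.E := by rw [hq]; ring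
    have e2 : (u + P.us) ^ 2 ≤ (K' * v) ^ 2 := pow_le_pow_left₀ hs0.le hs 2
    calc P.d ^ 3 / P.E * (u + P.us) ^ 2 ≤ (c ^ 3 * Y * q ^ 2) * (K' * v) ^ 2 :=
          mul_le_mul e1 e2 (by positivity) (by positivity)
      _ = c ^ 3 * K' ^ 2 * Y * (q * v) ^ 2 := by ring
  unfold CmCall.M
  rw [hkap]
  calc P.N ^ P.dl * ((u + P.us) / P.L + P.d ^ 3 / P.E * (u + P.us) ^ 2)
      ≤ P.N ^ P.dl * ((K' * c ^ 3 / c1 * Y * (q * v) ^ 2 + K' * c ^ 6 / c1 * Y * (q * v) ^ 2) + c ^ 3 * K' ^ 2 * Y * (q * v) ^ 2) := by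
        apply mul_le_mul_of_nonneg_left _ hp.le; linarith
    _ = (K' * c ^ 3 / c1 + K' * c ^ 6 / c1 + c ^ 3 * K' ^ 2) * (P.N ^ P.dl * Y) * (q * v) ^ 2 := by ring

/-- **(11), second comparison**: `(nEv)² ≤ c2⁻¹ n e(v) v⁴` for `v ≥ x`, if `e(x)x² ≥ c2 nE²` -/
theorem cm_nEv_le (hc : 0 < cE) (h : P.Ok cE D0) {lam c2 x v : ℝ} (hl : 0 ≤ lam) (h2 : 0 < c2) (hx : 0 < x) (hxv : x ≤ v)
    (he : c2 * (P.N * P.E ^ 2) ≤ P.e lam x * x ^ 2) : (P.N * P.E * v) ^ 2 ≤ c2⁻¹ * (P.N * P.e lam v * v ^ 4) := by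
  have hN := cm_N_pos h
  have hv : 0 < v := lt_of_lt_of_le hx hxv
  have hm : x ^ 2 * P.e lam x ≤ v ^ 2 * P.e lam v :=
    cm_rre_mono P h.d0 hl (mem_Ici.2 hx.le) (mem_Ici.2 hv.le) hxv
  have h3 : c2 * (P.N * P.E ^ 2) ≤ v ^ 2 * P.e lam v := by linarith
  have h4 : c2 * (P.N * P.E ^ 2) * (P.N * v ^ 2) ≤ v ^ 2 * P.e lam v * (P.N * v ^ 2) :=
    mul_le_mul_of_nonneg_right h3 (by positivity)
  rw [inv_mul_eq_div, le_div_iff₀ h2]
  linarith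

/-- `A_λ ≥ n^δ a` -/
theorem cm_Al_ge (hc : 0 < cE) (h : P.Ok cE D0) {lam : ℝ} (hl : 0 < lam) (hl2 : lam ≤ P.d ^ 2) : P.N ^ P.dl * P.a ≤ P.Al lam := by
  have hN := cm_N_pos h
  have hE := cm_E_pos hc h
  have hd := h.d0
  have hs : 0 < Real.sqrt lam := Real.sqrt_pos.2 hl
  have hs2 : Real.sqrt lam ≤ P.d := by
    rw [show P.d = Real.sqrt (P.d ^ 2) from (Real.sqrt_sq hd.le).symm]
    exact Real.sqrt_le_sqrt hl2
  have hp : 0 < P.N ^ P.dl := Real.rpow_pos_of_pos hN _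
  have hq : 0 < Real.sqrt P.N := Real.sqrt_pos.2 hN
  unfold CmCall.a CmCall.Al
  rw [show P.N ^ P.dl * (Real.sqrt P.N * P.E / P.d) = P.N ^ P.dl * Real.sqrt P.N * P.E / P.d by ring]
  exact div_le_div_of_nonneg_left (by positivity) hs hs2

/-- `λ A_λ² = n^(1+2δ) E²` -/
theorem cm_lam_Al_sq (hc : 0 < cE) (h : P.Ok cE D0) {lam : ℝ} (hl : 0 < lam) : lam * P.Al lam ^ 2 = P.N ^ (1 + 2 * P.dl) * P.E ^ 2 := by
  have hN := cm_N_pos h
  have hs : 0 < Real.sqrt lam := Real.sqrt_pos.2 hl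
  have e1 : Real.sqrt lam ^ 2 = lam := Real.sq_sqrt hl.le
  have e2 : Real.sqrt P.N ^ 2 = P.N := Real.sq_sqrt hN.le
  have e3 : P.N ^ (1 + 2 * P.dl) = P.N * (P.N ^ P.dl) ^ 2 := by
    rw [Real.rpow_add hN, Real.rpow_one, ← Real.rpow_natCast (P.N ^ P.dl), ← Real.rpow_mul hN.le]
    congr 2; push_cast; ring
  unfold CmCall.Al
  rw [e3, div_pow, e1, mul_pow, mul_pow, e2]
  field_simp

/-- `λ A_λ/d³ ≤ n^δ` -/
theorem cm_lam_Al (hc : 0 < cE) (h : P.Ok cE D0) {lam : ℝ} (hl : 0 < lam) (hl2 : lam ≤ P.d ^ 2) : lam * P.Al lam / P.d ^ 3 ≤ P.N ^ P.dl := by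
  obtain ⟨w, X, hw, hX, e6, e3, e4, m1, m3, m6, hA, hB⟩ := cm_s2_par hc h
  have hN := cm_N_pos h
  have hE := cm_E_pos hc h
  have hd := h.d0
  have hs : 0 < Real.sqrt lam := Real.sqrt_pos.2 hl
  have hs2 : Real.sqrt lam ≤ P.d := by
    rw [show P.d = Real.sqrt (P.d ^ 2) from (Real.sqrt_sq hd.le).symm]
    exact Real.sqrt_le_sqrt hl2
  have e1 : Real.sqrt lam ^ 2 = lam := Real.sq_sqrt hl.le
  have hp : 0 < P.N ^ P.dl := Real.rpow_pos_of_pos hN _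
  have e5 : lam * P.Al lam = P.N ^ P.dl * (w ^ 3 * P.E) * Real.sqrt lam := by
    unfold CmCall.Al
    rw [e3]
    nth_rewrite 1 [← e1]
    field_simp
  rw [e5, div_le_iff₀ (by positivity)]
  have h1 : (w ^ 3 * P.E) * Real.sqrt lam ≤ P.d ^ 2 * P.d := mul_le_mul hB hs2 hs.le (by positivity)
  calc P.N ^ P.dl * (w ^ 3 * P.E) * Real.sqrt lam = P.N ^ P.dl * ((w ^ 3 * P.E) * Real.sqrt lam) := by ring
    _ ≤ P.N ^ P.dl * (P.d ^ 2 * P.d) := mul_le_mul_of_nonneg_left h1 hp.le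
    _ = P.N ^ P.dl * P.d ^ 3 := by ring

/-- **N4** (after (8)): `x ≥ A_λ ⇒ e(x)x² ≥ n^δ nE²` -/
theorem cm_e_Al (hc : 0 < cE) (h : P.Ok cE D0) {lam x : ℝ} (hl : 0 < lam) (hl2 : lam ≤ P.d ^ 2) (hx : P.Al lam ≤ x) :
    P.N ^ P.dl * (P.N * P.E ^ 2) ≤ P.e lam x * x ^ 2 := by
  have hN := cm_N_pos h
  have hN1 : 1 ≤ P.N := by linarith [cm_N_ge h]
  have hE := cm_E_pos hc h
  have hp : 0 < P.N ^ P.dl := Real.rpow_pos_of_pos hN _
  have hp1 : 1 ≤ P.N ^ P.dl := Real.one_le_rpow hN1 (cm_dl_pos h).le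
  have hA0 : 0 < P.Al lam := by
    unfold CmCall.Al
    have := Real.sqrt_pos.2 hl
    have := Real.sqrt_pos.2 hN
    positivity
  have hm : P.Al lam ^ 2 * P.e lam (P.Al lam) ≤ x ^ 2 * P.e lam x :=
    cm_rre_mono P h.d0 hl.le (mem_Ici.2 hA0.le) (mem_Ici.2 (hA0.le.trans hx)) hx
  have hf : 1 / P.N ^ P.dl ≤ cmF (lam * P.Al lam / P.d ^ 3) :=
    (cm_f_ge_inv hp1).trans (cm_f_anti (cm_lam_Al hc h hl hl2))
  have e3 : P.N ^ (1 + 2 * P.dl) = P.N * (P.N ^ P.dl) ^ 2 := by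
    rw [Real.rpow_add hN, Real.rpow_one, ← Real.rpow_natCast (P.N ^ P.dl), ← Real.rpow_mul hN.le]
    congr 2; push_cast; ring
  have hsq := cm_lam_Al_sq hc h hl
  have h5 : P.Al lam ^ 2 * P.e lam (P.Al lam) = (lam * P.Al lam ^ 2) * cmF (lam * P.Al lam / P.d ^ 3) := by
    unfold CmCall.e; ring
  have h6 : (lam * P.Al lam ^ 2) * (1 / P.N ^ P.dl) ≤ (lam * P.Al lam ^ 2) * cmF (lam * P.Al lam / P.d ^ 3) :=
    mul_le_mul_of_nonneg_left hf (by positivity)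
  have h7 : (lam * P.Al lam ^ 2) * (1 / P.N ^ P.dl) = P.N ^ P.dl * (P.N * P.E ^ 2) := by
    rw [hsq, e3]; field_simp
  linarith

/-- on `r ≤ K A_λ`: `e(r) ≥ λ n^(-δ)/(2K)`      (`K ≥ 1`) -/
theorem cm_e_inner (hc : 0 < cE) (h : P.Ok cE D0) {lam K r : ℝ} (hl : 0 < lam) (hl2 : lam ≤ P.d ^ 2) (hK : 1 ≤ K) (hr : 0 ≤ r) (hrA : r ≤ K * P.Al lam) :
    lam * P.N ^ (-P.dl) / (2 * K) ≤ P.e lam r := by
  have hN := cm_N_pos h
  have hN1 : 1 ≤ P.N := by linarith [cm_N_ge h]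
  have hd := h.d0
  have hp : 0 < P.N ^ P.dl := Real.rpow_pos_of_pos hN _
  have hp1 : 1 ≤ P.N ^ P.dl := Real.one_le_rpow hN1 (cm_dl_pos h).le
  have hK0 : 0 < K := by linarith
  have h1 := cm_e_ge P hd hl.le hr
  have h2 : lam * r / P.d ^ 3 ≤ K * P.N ^ P.dl := by
    have a1 : lam * r / P.d ^ 3 ≤ lam * (K * P.Al lam) / P.d ^ 3 :=
      div_le_div_of_nonneg_right (mul_le_mul_of_nonneg_left hrA hl.le) (by positivity)
    have a2 : lam * (K * P.Al lam) / P.d ^ 3 = K * (lam * P.Al lam / P.d ^ 3) := by ring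
    have a3 := mul_le_mul_of_nonneg_left (cm_lam_Al hc h hl hl2) hK0.le
    linarith
  have h3 : 1 ≤ K * P.N ^ P.dl := by nlinarith
  have h4 : 0 ≤ lam * r / P.d ^ 3 := by positivity
  refine le_trans ?_ h1
  rw [Real.rpow_neg hN.le]
  rw [show lam * (P.N ^ P.dl)⁻¹ / (2 * K) = lam / (2 * K * P.N ^ P.dl) by field_simp]
  exact div_le_div_of_nonneg_left hl.le (by linarith) (by linarith)

/-! ## 3. A1-A5 : the algebra of the bracket -/

/-- identity: `Br = (r-S)((2-p) + pS/r) - p(B-S²)/r` -/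
theorem cm_br_id {p r S B : ℝ} (hr : 0 < r) : cmBr p r S B = (r - S) * ((2 - p) + p * S / r) - p * (B - S ^ 2) / r := by
  unfold cmBr
  field_simp
  ring

/-- **A1**: the bracket decreases with `p` -/
theorem cm_br_anti {p p' r S B : ℝ} (hr : 0 < r) (hp : p ≤ p') (hB : S ^ 2 ≤ B) : cmBr p' r S B ≤ cmBr p r S B := by
  have e : cmBr p r S B - cmBr p' r S B = (p' - p) * (((r - S) ^ 2 + (B - S ^ 2)) / r) := by
    unfold cmBr
    field_simp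
    ring
  have h1 : 0 ≤ ((r - S) ^ 2 + (B - S ^ 2)) / r := div_nonneg (by nlinarith [sq_nonneg (r - S)]) hr.le
  have h2 := mul_nonneg (sub_nonneg.2 hp) h1
  linarith

/-- **A2** -/
theorem cm_br_nonneg {p r S B : ℝ} (hr : 0 < r) (hp0 : 0 ≤ p) (hp1 : p < 1) (hS : 0 ≤ S) (hB : S ^ 2 ≤ B) (h : 0 ≤ cmBr p r S B) :
    S ≤ r ∧ p * B ≤ 2 * r ^ 2 := by
  constructor
  · rw [cm_br_id hr] at h
    have h1 : 0 ≤ p * (B - S ^ 2) / r := div_nonneg (mul_nonneg hp0 (sub_nonneg.2 hB)) hr.le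
    have h2 : 0 < (2 - p) + p * S / r := by
      have : 0 ≤ p * S / r := div_nonneg (mul_nonneg hp0 hS) hr.le
      linarith
    have h3 : 0 ≤ (r - S) * ((2 - p) + p * S / r) := by linarith
    have := nonneg_of_mul_nonneg_left h3 h2
    linarith
  · unfold cmBr at h
    have h1 : p * B / r ≤ 2 * r := by
      have : 0 ≤ 2 * (1 - p) * S := by
        have : 0 ≤ 1 - p := by linarith
        positivity
      have : 0 ≤ p * r := by positivity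
      linarith
    rw [div_le_iff₀ hr] at h1
    linarith

/-- **A3**, the two-point inequality -/
theorem cm_br_two {p1 p2 r1 r2 S1 S2 B1 B2 : ℝ} (hr1 : 0 < r1) (hr : r1 ≤ r2) (hp0 : 0 ≤ p1) (hp : p1 ≤ p2) (hp1 : p2 < 1) (hS0 : 0 ≤ S1) (hS : S1 ≤ S2)
    (hB : B1 ≤ B2) (hB1 : S1 ^ 2 ≤ B1) (hB2 : S2 ^ 2 ≤ B2) (h1 : cmBr p1 r1 S1 B1 ≤ 0) (h2 : 0 ≤ cmBr p2 r2 S2 B2) :
    2 * (1 - p2) * (S2 - S1) ≤ (2 + 2 * r2 / r1) * (r2 - r1) := by
  have hr2 : 0 < r2 := lt_of_lt_of_le hr1 hr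
  have hp20 : 0 ≤ p2 := hp0.trans hp
  have a1 : cmBr p2 r1 S1 B1 ≤ 0 := (cm_br_anti hr1 hp hB1).trans h1
  obtain ⟨-, a2⟩ := cm_br_nonneg hr2 hp20 hp1 (hS0.trans hS) hB2 h2
  have hB10 : 0 ≤ B1 := (sq_nonneg _).trans hB1
  have a3 : p2 * B1 ≤ 2 * r2 ^ 2 := (mul_le_mul_of_nonneg_left hB hp20).trans a2
  unfold cmBr at a1 h2
  -- `p B1/r1 - p B2/r2 ≤ (2 r2/r1)(r2 - r1)`
  have a4 : p2 * B1 / r1 - p2 * B2 / r2 ≤ 2 * r2 / r1 * (r2 - r1) := by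
    have b1 : p2 * B1 / r2 ≤ p2 * B2 / r2 := div_le_div_of_nonneg_right (mul_le_mul_of_nonneg_left hB hp20) hr2.le
    have b2 : p2 * B1 / r1 - p2 * B1 / r2 = p2 * B1 * ((r2 - r1) / (r1 * r2)) := by
      field_simp
    have b3 : p2 * B1 * ((r2 - r1) / (r1 * r2)) ≤ 2 * r2 ^ 2 * ((r2 - r1) / (r1 * r2)) :=
      mul_le_mul_of_nonneg_right a3 (div_nonneg (sub_nonneg.2 hr) (by positivity))
    have b4 : 2 * r2 ^ 2 * ((r2 - r1) / (r1 * r2)) = 2 * r2 / r1 * (r2 - r1) := by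
      field_simp
    linarith
  have a5 : 0 ≤ p2 * (r2 - r1) := mul_nonneg hp20 (sub_nonneg.2 hr)
  nlinarith

/-- **A4**, mismatch inside a cap with comparable end radii -/
theorem cm_br_mismatch {pL p pR rL r rR SL S SR BL B BR : ℝ} (hrL : 0 < rL) (hr1 : rL ≤ r) (hr2 : r ≤ rR) (hr3 : rR ≤ 2 * rL)
    (hp0 : 0 ≤ pL) (hp1 : pL ≤ p) (hp2 : p ≤ pR) (hp3 : pR < 1) (hS0 : 0 ≤ SL) (hS1 : SL ≤ S) (hS2 : S ≤ SR) (hB1 : BL ≤ B) (hB2 : B ≤ BR)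
    (hL : SL ^ 2 ≤ BL) (hM : S ^ 2 ≤ B) (hR : SR ^ 2 ≤ BR) (h1 : cmBr pL rL SL BL ≤ 0) (h2 : 0 ≤ cmBr pR rR SR BR) :
    S ≤ r + (rR - rL) ∧ cmBr p r S B ≤ 10 * (rR - rL) ∧ (r - S) ^ 2 ≤ 200 * (rR - rL) ^ 2 + 2 * (B - S ^ 2) := by
  have hr : 0 < r := lt_of_lt_of_le hrL hr1
  have hrR : 0 < rR := lt_of_lt_of_le hr hr2
  have hS : 0 ≤ S := hS0.trans hS1
  have hp : 0 ≤ p := hp0.trans hp1
  have hpR : 0 ≤ pR := hp.trans hp2
  have hp' : p < 1 := lt_of_le_of_lt hp2 hp3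
  obtain ⟨a1, a2⟩ := cm_br_nonneg hrR hpR hp3 (hS.trans hS2) hR h2
  have hBL0 : 0 ≤ BL := (sq_nonneg _).trans hL
  have c1 : S ≤ r + (rR - rL) := by linarith
  have c2 : cmBr p r S B ≤ 10 * (rR - rL) := by
    have b0 : cmBr p r S B ≤ cmBr pL r S B := cm_br_anti hr hp1 hM
    have b1 : pL * BL ≤ 2 * rR ^ 2 := (mul_le_mul (hp1.trans hp2) (hB1.trans hB2) hBL0 hpR).trans a2
    have b2 : pL * BL / rL - pL * B / r ≤ 8 * (r - rL) := by
      have d1 : pL * BL / r ≤ pL * B / r := div_le_div_of_nonneg_right (mul_le_mul_of_nonneg_left hB1 hp0) hr.le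
      have d2 : pL * BL / rL - pL * BL / r = pL * BL * ((r - rL) / (rL * r)) := by
        field_simp
      have d3 : pL * BL * ((r - rL) / (rL * r)) ≤ 2 * rR ^ 2 * ((r - rL) / (rL * r)) :=
        mul_le_mul_of_nonneg_right b1 (div_nonneg (sub_nonneg.2 hr1) (by positivity))
      have d4 : 2 * rR ^ 2 * ((r - rL) / (rL * r)) ≤ 8 * (r - rL) := by
        have e1 : 2 * rR ^ 2 * ((r - rL) / (rL * r)) = (2 * rR ^ 2 / (rL * r)) * (r - rL) := by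
          field_simp
        rw [e1]
        refine mul_le_mul_of_nonneg_right ?_ (sub_nonneg.2 hr1)
        rw [div_le_iff₀ (by positivity)]
        nlinarith
      linarith
    have b3 : cmBr pL r S B - cmBr pL rL SL BL = (2 - pL) * (r - rL) - 2 * (1 - pL) * (S - SL) + (pL * BL / rL - pL * B / r) := by
      unfold cmBr
      ring
    have b4 : 0 ≤ 2 * (1 - pL) * (S - SL) := by
      have : 0 ≤ 1 - pL := by linarith
      have : 0 ≤ S - SL := by linarith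
      positivity
    have b5 : (2 - pL) * (r - rL) ≤ 2 * (r - rL) := mul_le_mul_of_nonneg_right (by linarith) (sub_nonneg.2 hr1)
    linarith
  refine ⟨c1, c2, ?_⟩
  have hΔ : 0 ≤ rR - rL := by linarith
  have hV : 0 ≤ B - S ^ 2 := sub_nonneg.2 hM
  rcases le_total r S with hc | hc
  · have : (r - S) ^ 2 ≤ (rR - rL) ^ 2 := by
      have e1 : (r - S) ^ 2 = (S - r) ^ 2 := by ring
      rw [e1]
      exact pow_le_pow_left₀ (sub_nonneg.2 hc) (by linarith) 2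
    nlinarith [sq_nonneg (rR - rL)]
  · rw [cm_br_id hr] at c2
    have hx : 0 ≤ r - S := sub_nonneg.2 hc
    have f1 : (r - S) * 1 ≤ (r - S) * ((2 - p) + p * S / r) := by
      refine mul_le_mul_of_nonneg_left ?_ hx
      have : 0 ≤ p * S / r := div_nonneg (mul_nonneg hp hS) hr.le
      linarith
    have f2 : r - S ≤ 10 * (rR - rL) + p * (B - S ^ 2) / r := by linarith
    have f3 : (r - S) * (p * (B - S ^ 2) / r) ≤ B - S ^ 2 := by
      have e1 : (r - S) * (p * (B - S ^ 2) / r) = ((r - S) / r * p) * (B - S ^ 2) := by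
        field_simp
      rw [e1]
      have g1 : (r - S) / r ≤ 1 := by rw [div_le_one hr]; linarith
      have g2 : 0 ≤ (r - S) / r := div_nonneg hx hr.le
      have g3 : (r - S) / r * p ≤ 1 := by nlinarith
      exact mul_le_of_le_one_left hV g3
    have f4 : (r - S) ^ 2 ≤ (r - S) * (10 * (rR - rL)) + (B - S ^ 2) := by
      have := mul_le_mul_of_nonneg_left f2 hx
      nlinarith
    nlinarith [sq_nonneg ((r - S) - 10 * (rR - rL))]

/-- **A4'**, only the right end is used (initial caps, non comparable radii): `0 ≤ S ≤ S_R ≤ r_R` -/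
theorem cm_br_right {pR r rR S SR BR : ℝ} (hr0 : 0 ≤ r) (hr2 : r ≤ rR) (hrR : 0 < rR) (hp0 : 0 ≤ pR) (hp3 : pR < 1) (hS0 : 0 ≤ S) (hS2 : S ≤ SR)
    (hR : SR ^ 2 ≤ BR) (h2 : 0 ≤ cmBr pR rR SR BR) : S ≤ rR ∧ (r - S) ^ 2 ≤ rR ^ 2 := by
  obtain ⟨a1, -⟩ := cm_br_nonneg hrR hp0 hp3 (hS0.trans hS2) hR h2
  have hS : S ≤ rR := hS2.trans a1
  exact ⟨hS, sq_le_sq' (by linarith) (by linarith)⟩

/-- **A5**, contact -/
theorem cm_br_zero {p r S B : ℝ} (hr : 0 < r) (hp0 : 0 ≤ p) (hp1 : p < 1) (hS : 0 ≤ S) (hB : S ^ 2 ≤ B) (h : cmBr p r S B = 0) :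
    S ≤ r ∧ (r - S) ^ 2 ≤ B - S ^ 2 := by
  obtain ⟨a1, -⟩ := cm_br_nonneg hr hp0 hp1 hS hB h.ge
  refine ⟨a1, ?_⟩
  rw [cm_br_id hr] at h
  have hx : 0 ≤ r - S := sub_nonneg.2 a1
  have hV : 0 ≤ B - S ^ 2 := sub_nonneg.2 hB
  have f1 : (r - S) * 1 ≤ (r - S) * ((2 - p) + p * S / r) := by
    refine mul_le_mul_of_nonneg_left ?_ hx
    have : 0 ≤ p * S / r := div_nonneg (mul_nonneg hp0 hS) hr.le
    linarith
  have f2 : r - S ≤ p * (B - S ^ 2) / r := by linarith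
  have f3 : (r - S) * (p * (B - S ^ 2) / r) ≤ B - S ^ 2 := by
    have e1 : (r - S) * (p * (B - S ^ 2) / r) = ((r - S) / r * p) * (B - S ^ 2) := by
      field_simp
    rw [e1]
    have g1 : (r - S) / r ≤ 1 := by rw [div_le_one hr]; linarith
    have g2 : 0 ≤ (r - S) / r := div_nonneg hx hr.le
    have g3 : (r - S) / r * p ≤ 1 := by nlinarith
    exact mul_le_of_le_one_left hV g3
  have := mul_le_mul_of_nonneg_left f2 hx
  nlinarith

/-- at radius `1` the bracket is nonnegative -/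
theorem cm_br_one {p S B : ℝ} (hp0 : 0 ≤ p) (hp1 : p < 1) (hS : S ≤ 1) (hB : B ≤ 1) : 0 ≤ cmBr p 1 S B := by
  unfold cmBr
  have h1 : 2 * (1 - p) * S ≤ 2 * (1 - p) * 1 := mul_le_mul_of_nonneg_left hS (by linarith)
  have h2 : p * B ≤ p * 1 := mul_le_mul_of_nonneg_left hB hp0
  rw [div_one]
  linarith

/-- caps with `p = 0` -/
theorem cm_br_p0 {rL r rR SL S SR BL BR : ℝ} (hr1 : rL ≤ r) (hr2 : r ≤ rR) (hS1 : SL ≤ S) (hS2 : S ≤ SR)
    (h1 : cmBr 0 rL SL BL ≤ 0) (h2 : 0 ≤ cmBr 0 rR SR BR) : |S - r| ≤ rR - rL := by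
  unfold cmBr at h1 h2
  simp only [zero_mul, zero_div, sub_zero] at h1 h2
  rw [abs_le]
  constructor <;> linarith

/-! ## 4. logarithms : every `n^{o(1)}` of P04-P06 that is a power of `log n` -/

theorem cm_Lam_ge_one (h : P.Ok cE D0) : 1 ≤ P.Lam := by
  have hN := cm_N_ge h
  rw [CmCall.Lam, Real.le_log_iff_exp_le (by linarith)]
  have := Real.exp_one_lt_d9
  linarith

/-- `1 + log(1 + 1/d) ≤ C log n` -/
theorem cm_log_d (hc : 0 < cE) : ∃ C : ℝ, 0 < C ∧ ∀ P : CmCall, P.Ok cE D0 → 1 + Real.log (1 + 1 / P.d) ≤ C * P.Lam := by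
  refine ⟨2 + Real.log (1 + 1 / cE), by
    have : 0 ≤ Real.log (1 + 1 / cE) := Real.log_nonneg (by
      have : 0 < 1 / cE := by positivity
      linarith)
    linarith, ?_⟩
  intro P h
  have hd := h.d0
  have hN := cm_N_pos h
  have hN1 : 1 ≤ P.N := by have := cm_N_ge h; linarith
  have hL := cm_Lam_ge_one h
  have hlog0 : 0 ≤ Real.log (1 + 1 / cE) := Real.log_nonneg (by
      have : 0 < 1 / cE := by positivity
      linarith)
  -- d ≥ cE n^(-1/6)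
  have hdge : cE * P.N ^ (-(1 / 6 : ℝ)) ≤ P.d := by
    calc cE * P.N ^ (-(1 / 6 : ℝ)) ≤ cE * P.N ^ (-(1 / 6 : ℝ) + P.m) := by
          apply mul_le_mul_of_nonneg_left _ hc.le
          exact Real.rpow_le_rpow_of_exponent_le hN1 (by linarith [h.m0])
      _ ≤ P.a := cm_a_ge hc h
      _ ≤ P.d := cm_a_le_d hc h
  have hpos : 0 < cE * P.N ^ (-(1 / 6 : ℝ)) := by positivity
  have h1 : 1 / P.d ≤ 1 / cE * P.N ^ (1 / 6 : ℝ) := by
    calc 1 / P.d ≤ 1 / (cE * P.N ^ (-(1 / 6 : ℝ))) := one_div_le_one_div_of_le hpos hdge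
      _ = 1 / cE * P.N ^ (1 / 6 : ℝ) := by
        rw [Real.rpow_neg hN.le]; field_simp
  have hN6 : 1 ≤ P.N ^ (1 / 6 : ℝ) := Real.one_le_rpow hN1 (by norm_num)
  have h2 : 1 + 1 / P.d ≤ (1 + 1 / cE) * P.N ^ (1 / 6 : ℝ) := by
    have : (1 + 1 / cE) * P.N ^ (1 / 6 : ℝ) = P.N ^ (1 / 6 : ℝ) + 1 / cE * P.N ^ (1 / 6 : ℝ) := by ring
    rw [this]; linarith
  have h3 : Real.log (1 + 1 / P.d) ≤ Real.log (1 + 1 / cE) + (1 / 6) * P.Lam := by
    calc Real.log (1 + 1 / P.d) ≤ Real.log ((1 + 1 / cE) * P.N ^ (1 / 6 : ℝ)) :=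
          Real.log_le_log (by positivity) h2
      _ = Real.log (1 + 1 / cE) + (1 / 6) * P.Lam := by
        rw [Real.log_mul (by positivity) (by positivity), Real.log_rpow hN, CmCall.Lam]
  nlinarith

/-- `(1-p)⁻¹ ≤ C log n` on the polynomial scales -/
theorem cm_pp_log (hc : 0 < cE) : ∃ C : ℝ, 0 < C ∧ ∀ P : CmCall, P.Ok cE D0 → ∀ lam r : ℝ, 0 ≤ lam → lam ≤ P.d ^ 2 → 0 ≤ r → r ≤ 1 →
    1 ≤ C * P.Lam * (1 - P.pp lam r) := by
  obtain ⟨C, hC, hlog⟩ := cm_log_d (D0 := D0) hc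
  refine ⟨C, hC, ?_⟩
  intro P h lam r hl hl2 hr hr1
  have hd := h.d0
  have hgap := cm_pp_gap P hd hl hl2 hr hr1
  have hX : 0 < 1 + Real.log (1 + 1 / P.d) := by
    have : 0 ≤ Real.log (1 + 1 / P.d) := Real.log_nonneg (by
      have : 0 < 1 / P.d := by positivity
      linarith)
    linarith
  have h1 := hlog P h
  calc (1 : ℝ) = (1 + Real.log (1 + 1 / P.d)) * (1 / (1 + Real.log (1 + 1 / P.d))) := (mul_one_div_cancel hX.ne').symm
    _ ≤ (C * P.Lam) * (1 / (1 + Real.log (1 + 1 / P.d))) := mul_le_mul_of_nonneg_right h1 (by positivity)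
    _ ≤ (C * P.Lam) * (1 - P.pp lam r) := mul_le_mul_of_nonneg_left hgap (hX.le.trans h1)

/-- `e(v) v ≤ C d³ log n` -/
theorem cm_ev_log (hc : 0 < cE) : ∃ C : ℝ, 0 < C ∧ ∀ P : CmCall, P.Ok cE D0 → ∀ lam v : ℝ, 0 ≤ lam → lam ≤ P.d ^ 2 → 0 ≤ v → v ≤ 1 →
    P.e lam v * v ≤ C * P.d ^ 3 * P.Lam := by
  obtain ⟨C, hC, hlog⟩ := cm_log_d (D0 := D0) hc
  refine ⟨C, hC, ?_⟩
  intro P h lam v hl hl2 hv hv1
  have hd := h.d0
  have h1 := cm_er_le P hd hl hv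
  have harg : lam * v / P.d ^ 3 ≤ 1 / P.d := by
    rw [div_le_div_iff₀ (by positivity) hd]
    calc lam * v * P.d ≤ P.d ^ 2 * 1 * P.d := by
          apply mul_le_mul_of_nonneg_right _ hd.le
          exact mul_le_mul hl2 hv1 hv (by positivity)
      _ = 1 * P.d ^ 3 := by ring
  have harg0 : 0 ≤ lam * v / P.d ^ 3 := by positivity
  have h2 : Real.log (1 + lam * v / P.d ^ 3) ≤ Real.log (1 + 1 / P.d) :=
    Real.log_le_log (by linarith) (by linarith)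
  calc P.e lam v * v ≤ P.d ^ 3 * (1 + Real.log (1 + lam * v / P.d ^ 3)) := h1
    _ ≤ P.d ^ 3 * (C * P.Lam) := mul_le_mul_of_nonneg_left (by linarith [hlog P h]) (by positivity)
    _ = C * P.d ^ 3 * P.Lam := by ring

/-- `log((1+u_*)/(u0+u_*)) ≤ C log n` -/
theorem cm_log_us (hc : 0 < cE) (hD : 0 < D0) : ∃ C : ℝ, 0 < C ∧ ∀ P : CmCall, P.Ok cE D0 → ∀ u1 u2 : ℝ, 0 ≤ u1 → u1 ≤ u2 → u2 ≤ 1 →
    Real.log ((u2 + P.us) / (u1 + P.us)) ≤ C * P.Lam := by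
  have hlog0 : 0 ≤ Real.log (1 + D0 ^ 2) := Real.log_nonneg (by nlinarith [sq_nonneg D0])
  refine ⟨1 + Real.log (1 + D0 ^ 2), by linarith, ?_⟩
  intro P h u1 u2 h1 h12 h2
  have hN := cm_N_pos h
  have hN1 : 1 ≤ P.N := by have := cm_N_ge h; linarith
  have hL := cm_Lam_ge_one h
  have hus := cm_us_pos hc h
  have husge := cm_us_ge hc h
  have hN2 : 1 ≤ P.N ^ (1 / 2 : ℝ) := Real.one_le_rpow hN1 (by norm_num)
  have hinv : 1 / P.us ≤ D0 ^ 2 * P.N ^ (1 / 2 : ℝ) := by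
    calc 1 / P.us ≤ 1 / (P.N ^ (-(1 / 2 : ℝ)) / D0 ^ 2) := one_div_le_one_div_of_le (by positivity) husge
      _ = D0 ^ 2 * P.N ^ (1 / 2 : ℝ) := by
        rw [Real.rpow_neg hN.le]; field_simp
  have hr : (u2 + P.us) / (u1 + P.us) ≤ (1 + D0 ^ 2) * P.N ^ (1 / 2 : ℝ) := by
    calc (u2 + P.us) / (u1 + P.us) ≤ (1 + P.us) / P.us :=
          div_le_div₀ (by linarith) (by linarith) hus (by linarith)
      _ = 1 + 1 / P.us := by field_simp; ring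
      _ ≤ P.N ^ (1 / 2 : ℝ) + D0 ^ 2 * P.N ^ (1 / 2 : ℝ) := by linarith
      _ = (1 + D0 ^ 2) * P.N ^ (1 / 2 : ℝ) := by ring
  have hpos : 0 < (u2 + P.us) / (u1 + P.us) := by
    apply div_pos <;> linarith
  have h3 : Real.log ((u2 + P.us) / (u1 + P.us)) ≤ Real.log (1 + D0 ^ 2) + (1 / 2) * P.Lam := by
    calc Real.log ((u2 + P.us) / (u1 + P.us)) ≤ Real.log ((1 + D0 ^ 2) * P.N ^ (1 / 2 : ℝ)) :=
          Real.log_le_log hpos hr
      _ = Real.log (1 + D0 ^ 2) + (1 / 2) * P.Lam := by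
        rw [Real.log_mul (by positivity) (by positivity), Real.log_rpow hN, CmCall.Lam]
  nlinarith

/-- powers of `log n` are `n^{o(1)}` -/
theorem cm_log_pow (j : ℕ) {ε : ℝ} (hε : 0 < ε) : ∃ C : ℝ, 0 < C ∧ ∀ x : ℝ, 1 ≤ x → Real.log x ^ j ≤ C * x ^ ε := by
  rcases Nat.eq_zero_or_pos j with rfl | hj
  · refine ⟨1, one_pos, fun x hx => ?_⟩
    simpa using Real.one_le_rpow hx hε.le
  · have hj' : (0 : ℝ) < j := by exact_mod_cast hj
    refine ⟨((j : ℝ) / ε) ^ j, by positivity, fun x hx => ?_⟩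
    have hx0 : 0 ≤ x := by linarith
    have h1 : Real.log x ≤ x ^ (ε / j) / (ε / j) := Real.log_le_rpow_div hx0 (by positivity)
    have h0 : 0 ≤ Real.log x := Real.log_nonneg hx
    calc Real.log x ^ j ≤ (x ^ (ε / j) / (ε / j)) ^ j := pow_le_pow_left₀ h0 h1 j
      _ = ((j : ℝ) / ε) ^ j * x ^ ε := by
        rw [div_pow, ← Real.rpow_natCast (x ^ (ε / j)) j, ← Real.rpow_mul hx0]
        have : ε / (j : ℝ) * (j : ℝ) = ε := by field_simp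
        rw [this, div_pow, div_pow]
        field_simp

/-! ## 5. DT1 : the scales of a small direct test (PE l.1086-1109);   `W = max(x, √e(x))` -/

/-- `e(x) ≥ c x²` forces `x ≤ C d` and `W ≤ C d` -/
theorem cm_dt_W_le (hc : 0 < cE) (h : P.Ok cE D0) {lam c x : ℝ} (hl : 0 ≤ lam) (hl2 : lam ≤ P.d ^ 2) (h0 : 0 < c) (hx : 0 < x) (he : c * x ^ 2 ≤ P.e lam x) :
    x ≤ P.d / Real.sqrt c ∧ max x (Real.sqrt (P.e lam x)) ≤ max 1 (1 / Real.sqrt c) * P.d := by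
  have hd := h.d0
  have hsc : 0 < Real.sqrt c := Real.sqrt_pos.mpr h0
  have he2 : P.e lam x ≤ P.d ^ 2 := (cm_e_le P hl x).trans hl2
  have hx1 : x ≤ P.d / Real.sqrt c := by
    rw [le_div_iff₀ hsc]
    have h1 : (x * Real.sqrt c) ^ 2 ≤ P.d ^ 2 := by
      rw [mul_pow, Real.sq_sqrt h0.le]
      linarith
    exact (pow_le_pow_iff_left₀ (by positivity) hd.le two_ne_zero).mp h1
  refine ⟨hx1, max_le ?_ ?_⟩
  · calc x ≤ P.d / Real.sqrt c := hx1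
      _ = (1 / Real.sqrt c) * P.d := by ring
      _ ≤ max 1 (1 / Real.sqrt c) * P.d := mul_le_mul_of_nonneg_right (le_max_right _ _) hd.le
  · calc Real.sqrt (P.e lam x) ≤ Real.sqrt (P.d ^ 2) := Real.sqrt_le_sqrt he2
      _ = P.d := Real.sqrt_sq hd.le
      _ = 1 * P.d := (one_mul _).symm
      _ ≤ max 1 (1 / Real.sqrt c) * P.d := mul_le_mul_of_nonneg_right (le_max_left _ _) hd.le

/-- `e(v) ≥ c' W²` for `v ≤ G W` -/
theorem cm_dt_e_ge (hc : 0 < cE) {c G : ℝ} (h0 : 0 < c) (hG : 1 ≤ G) : ∃ c' : ℝ, 0 < c' ∧ ∀ P : CmCall, P.Ok cE D0 → ∀ lam x v : ℝ, 0 ≤ lam → lam ≤ P.d ^ 2 → 0 < x →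
    c * x ^ 2 ≤ P.e lam x → 0 ≤ v → v ≤ G * max x (Real.sqrt (P.e lam x)) → c' * (max x (Real.sqrt (P.e lam x))) ^ 2 ≤ P.e lam v := by
  set C1 : ℝ := max 1 (1 / Real.sqrt c) with hC1
  have hC1pos : 0 < C1 := lt_of_lt_of_le one_pos (le_max_left _ _)
  set C2 : ℝ := max 1 (1 / c) with hC2
  have hC2pos : 0 < C2 := lt_of_lt_of_le one_pos (le_max_left _ _)
  refine ⟨1 / (C2 * (1 + G * C1)), by positivity, ?_⟩
  intro P h lam x v hl hl2 hx he hv hvW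
  have hd := h.d0
  obtain ⟨-, hW⟩ := cm_dt_W_le hc h hl hl2 h0 hx he
  set W : ℝ := max x (Real.sqrt (P.e lam x)) with hWdef
  have hWpos : 0 < W := lt_of_lt_of_le hx (le_max_left _ _)
  have he0 : 0 ≤ P.e lam x := cm_e_nonneg P hl x
  have hel : P.e lam x ≤ lam := cm_e_le P hl x
  -- W² ≤ C2 lam
  have hW2 : W ^ 2 ≤ C2 * lam := by
    rcases max_cases x (Real.sqrt (P.e lam x)) with ⟨hm, -⟩ | ⟨hm, -⟩
    · rw [hWdef, hm]
      calc x ^ 2 = (1 / c) * (c * x ^ 2) := by field_simp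
        _ ≤ (1 / c) * lam := mul_le_mul_of_nonneg_left (he.trans hel) (by positivity)
        _ ≤ C2 * lam := mul_le_mul_of_nonneg_right (le_max_right _ _) hl
    · rw [hWdef, hm, Real.sq_sqrt he0]
      calc P.e lam x ≤ lam := hel
        _ = 1 * lam := (one_mul _).symm
        _ ≤ C2 * lam := mul_le_mul_of_nonneg_right (le_max_left _ _) hl
  -- lam v / d³ ≤ G C1
  have hv2 : v ≤ G * C1 * P.d := by
    calc v ≤ G * W := hvW
      _ ≤ G * (C1 * P.d) := mul_le_mul_of_nonneg_left hW (by linarith)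
      _ = G * C1 * P.d := by ring
  have harg : lam * v / P.d ^ 3 ≤ G * C1 := by
    rw [div_le_iff₀ (by positivity)]
    calc lam * v ≤ P.d ^ 2 * (G * C1 * P.d) := mul_le_mul hl2 hv2 hv (by positivity)
      _ = G * C1 * P.d ^ 3 := by ring
  have harg0 : 0 ≤ lam * v / P.d ^ 3 := by positivity
  have hge := cm_e_ge P hd hl hv
  have h1 : lam / (1 + G * C1) ≤ lam / (1 + lam * v / P.d ^ 3) :=
    div_le_div_of_nonneg_left hl (by linarith) (by linarith)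
  calc 1 / (C2 * (1 + G * C1)) * W ^ 2 ≤ 1 / (C2 * (1 + G * C1)) * (C2 * lam) :=
        mul_le_mul_of_nonneg_left hW2 (by positivity)
    _ = lam / (1 + G * C1) := by field_simp
    _ ≤ _ := h1.trans hge

/-- `x²/W ≥ c' a²/d`      (`x ≥ ca a`) -/
theorem cm_dt_xW (hc : 0 < cE) {c ca : ℝ} (h0 : 0 < c) (ha : 0 < ca) : ∃ c' : ℝ, 0 < c' ∧ ∀ P : CmCall, P.Ok cE D0 → ∀ lam x : ℝ, 0 ≤ lam → lam ≤ P.d ^ 2 → 0 < x →
    ca * P.a ≤ x → c * x ^ 2 ≤ P.e lam x → c' * (P.a ^ 2 / P.d) ≤ x ^ 2 / max x (Real.sqrt (P.e lam x)) := by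
  set C1 : ℝ := max 1 (1 / Real.sqrt c) with hC1
  have hC1pos : 0 < C1 := lt_of_lt_of_le one_pos (le_max_left _ _)
  refine ⟨ca ^ 2 / C1, by positivity, ?_⟩
  intro P h lam x hl hl2 hx hax he
  have hd := h.d0
  have hapos := cm_a_pos hc h
  obtain ⟨-, hW⟩ := cm_dt_W_le hc h hl hl2 h0 hx he
  set W : ℝ := max x (Real.sqrt (P.e lam x)) with hWdef
  have hWpos : 0 < W := lt_of_lt_of_le hx (le_max_left _ _)
  rw [le_div_iff₀ hWpos]
  have h1 : (ca * P.a) ^ 2 ≤ x ^ 2 := pow_le_pow_left₀ (by positivity) hax 2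
  calc ca ^ 2 / C1 * (P.a ^ 2 / P.d) * W ≤ ca ^ 2 / C1 * (P.a ^ 2 / P.d) * (C1 * P.d) :=
        mul_le_mul_of_nonneg_left hW (by positivity)
    _ = (ca * P.a) ^ 2 := by field_simp
    _ ≤ x ^ 2 := h1

/-- the cap term against `a²/d`: `(n^(-δ) E/d³)^(1/2) = (a²/d) (n^(-δ) d³/(n²E³))^(1/2)` -/
theorem cm_dt_cap (hc : 0 < cE) (h : P.Ok cE D0) :
    Real.sqrt (P.N ^ (-P.dl) * P.E / P.d ^ 3) = P.a ^ 2 / P.d * Real.sqrt (P.N ^ (-P.dl) * (P.d ^ 3 / (P.N ^ 2 * P.E ^ 3))) := by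
  have hd := h.d0
  have hN := cm_N_pos h
  have hE := cm_E_pos hc h
  have hA : 0 ≤ P.a ^ 2 / P.d := by positivity
  have hsq : Real.sqrt P.N ^ 2 = P.N := Real.sq_sqrt hN.le
  have e1 : P.N ^ (-P.dl) * P.E / P.d ^ 3 = (P.a ^ 2 / P.d) ^ 2 * (P.N ^ (-P.dl) * (P.d ^ 3 / (P.N ^ 2 * P.E ^ 3))) := by
    have : P.a ^ 2 = P.N * P.E ^ 2 / P.d ^ 2 := by
      rw [CmCall.a, div_pow, mul_pow, hsq]
    rw [this]
    field_simp
  rw [e1, Real.sqrt_mul (by positivity), Real.sqrt_sq hA]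

/-- the floor term against `a²/d`: `n^(δ/2) u_* = (a²/d) n^(δ/2) d³/(n²E³)` -/
theorem cm_dt_floor (hc : 0 < cE) (h : P.Ok cE D0) : P.N ^ (P.dl / 2) * P.us = P.a ^ 2 / P.d * (P.N ^ (P.dl / 2) * (P.d ^ 3 / (P.N ^ 2 * P.E ^ 3))) := by
  have hd := h.d0
  have hN := cm_N_pos h
  have hE := cm_E_pos hc h
  have hsq : Real.sqrt P.N ^ 2 = P.N := Real.sq_sqrt hN.le
  have : P.a ^ 2 = P.N * P.E ^ 2 / P.d ^ 2 := by
    rw [CmCall.a, div_pow, mul_pow, hsq]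
  rw [this, CmCall.us]
  field_simp

/-- `n^(-1/3)/x² ≤ C n^(-2m)`, `n^(-1/2)/x³ ≤ C n^(-3m)`      (`x ≥ ca a`) -/
theorem cm_dt_x (hc : 0 < cE) (h : P.Ok cE D0) {ca x : ℝ} (ha : 0 < ca) (hx : ca * P.a ≤ x) :
    P.N ^ (-(1 / 3 : ℝ)) ≤ (ca * cE)⁻¹ ^ 2 * P.N ^ (-(2 * P.m)) * x ^ 2 ∧ P.N ^ (-(1 / 2 : ℝ)) ≤ (ca * cE)⁻¹ ^ 3 * P.N ^ (-(3 * P.m)) * x ^ 3 := by
  have hN := cm_N_pos h
  have hage := cm_a_ge hc h
  have hy : ca * cE * P.N ^ (-(1 / 6 : ℝ) + P.m) ≤ x := by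
    calc ca * cE * P.N ^ (-(1 / 6 : ℝ) + P.m) = ca * (cE * P.N ^ (-(1 / 6 : ℝ) + P.m)) := by ring
      _ ≤ ca * P.a := mul_le_mul_of_nonneg_left hage ha.le
      _ ≤ x := hx
  have hcc : 0 < ca * cE := by positivity
  have hy0 : 0 ≤ ca * cE * P.N ^ (-(1 / 6 : ℝ) + P.m) := by positivity
  constructor
  · have h2 := pow_le_pow_left₀ hy0 hy 2
    have e : P.N ^ (-(1 / 3 : ℝ)) = (ca * cE)⁻¹ ^ 2 * P.N ^ (-(2 * P.m)) * (ca * cE * P.N ^ (-(1 / 6 : ℝ) + P.m)) ^ 2 := by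
      rw [mul_pow, ← Real.rpow_natCast (P.N ^ (-(1 / 6 : ℝ) + P.m)) 2, ← Real.rpow_mul hN.le]
      have : (ca * cE)⁻¹ ^ 2 * P.N ^ (-(2 * P.m)) * ((ca * cE) ^ 2 * P.N ^ ((-(1 / 6 : ℝ) + P.m) * ((2 : ℕ) : ℝ)))
          = P.N ^ (-(2 * P.m)) * P.N ^ ((-(1 / 6 : ℝ) + P.m) * ((2 : ℕ) : ℝ)) := by
        field_simp
      rw [this, ← Real.rpow_add hN]
      congr 1
      push_cast
      ring
    rw [e]
    exact mul_le_mul_of_nonneg_left h2 (by positivity)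
  · have h3 := pow_le_pow_left₀ hy0 hy 3
    have e : P.N ^ (-(1 / 2 : ℝ)) = (ca * cE)⁻¹ ^ 3 * P.N ^ (-(3 * P.m)) * (ca * cE * P.N ^ (-(1 / 6 : ℝ) + P.m)) ^ 3 := by
      rw [mul_pow, ← Real.rpow_natCast (P.N ^ (-(1 / 6 : ℝ) + P.m)) 3, ← Real.rpow_mul hN.le]
      have : (ca * cE)⁻¹ ^ 3 * P.N ^ (-(3 * P.m)) * ((ca * cE) ^ 3 * P.N ^ ((-(1 / 6 : ℝ) + P.m) * ((3 : ℕ) : ℝ)))
          = P.N ^ (-(3 * P.m)) * P.N ^ ((-(1 / 6 : ℝ) + P.m) * ((3 : ℕ) : ℝ)) := by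
        field_simp
      rw [this, ← Real.rpow_add hN]
      congr 1
      push_cast
      ring
    rw [e]
    exact mul_le_mul_of_nonneg_left h3 (by positivity)

/-- `n e_g x⁴ ≥ c2 (x/u_*)²` -/
theorem cm_dt_nex (hc : 0 < cE) (h : P.Ok cE D0) {lam c2 x : ℝ} (hx : 0 < x) (he : c2 * (P.N * P.E ^ 2) ≤ P.e lam x * x ^ 2) :
    c2 * (x / P.us) ^ 2 ≤ P.N * P.e lam x * x ^ 4 := by
  have hN := cm_N_pos h
  have hE := cm_E_pos hc h
  have e1 : x / P.us = x * (P.N * P.E) := by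
    rw [CmCall.us]; field_simp
  rw [e1]
  calc c2 * (x * (P.N * P.E)) ^ 2 = (P.N * x ^ 2) * (c2 * (P.N * P.E ^ 2)) := by ring
    _ ≤ (P.N * x ^ 2) * (P.e lam x * x ^ 2) := mul_le_mul_of_nonneg_left he (by positivity)
    _ = P.N * P.e lam x * x ^ 4 := by ring

/-! ## 6. N6, N7 : first facts on feasible quantiles -/

theorem cm_q_al_strictMono (hc : 0 < cE) (h : P.Ok cE D0) (q : CmQ P) : StrictMonoOn q.al (Icc P.rmin 1) := by
  intro r1 hr1 r2 hr2 h12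
  have hlo := q.lo r1 r2 hr1.1 h12.le hr2.2
  have hr10 : 0 ≤ r1 := h.r0.trans hr1.1
  have hsub : Icc r1 r2 ⊆ Ici (0 : ℝ) := fun t ht => hr10.trans ht.1
  have hpos : 0 < ∫ t in r1..r2, P.k t :=
    intervalIntegral.intervalIntegral_pos_of_pos_on
      (((cm_k_cont hc h).mono hsub).intervalIntegrable_of_Icc h12.le)
      (fun t ht => cm_k_pos hc h (hr10.trans ht.1.le)) h12
  linarith

theorem cm_q_al_mem (hc : 0 < cE) (h : P.Ok cE D0) (q : CmQ P) {t : ℝ} (ht : t ∈ Icc P.rmin 1) : q.al t ∈ Icc P.u0 1 := by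
  have hm := (cm_q_al_strictMono hc h q).monotoneOn
  have h1 : P.rmin ≤ 1 := ht.1.trans ht.2
  constructor
  · rw [← q.al_min]; exact hm ⟨le_rfl, h1⟩ ht ht.1
  · rw [← q.al_one]; exact hm ht ⟨h1, le_rfl⟩ ht.2

theorem cm_q_r_strictMono (hc : 0 < cE) (h : P.Ok cE D0) (q : CmQ P) : StrictMonoOn q.r (Icc P.u0 1) := by
  intro u1 hu1 u2 hu2 h12
  by_contra hcon
  push Not at hcon
  have hm := (cm_q_al_strictMono hc h q).monotoneOn (q.r_mem u2 hu2) (q.r_mem u1 hu1) hcon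
  rw [q.al_r u1 hu1, q.al_r u2 hu2] at hm
  linarith

theorem cm_q_r_min (q : CmQ P) (h : P.rmin ≤ 1) : q.r P.u0 = P.rmin := by
  have := q.r_al P.rmin ⟨le_rfl, h⟩
  rwa [q.al_min] at this

theorem cm_q_r_one (q : CmQ P) (h : P.rmin ≤ 1) : q.r 1 = 1 := by
  have := q.r_al 1 ⟨h, le_rfl⟩
  rwa [q.al_one] at this

/-- `al` is Lipschitz with the constant `M(1)` -/
theorem cm_q_al_lip (hc : 0 < cE) (h : P.Ok cE D0) (q : CmQ P) {r1 r2 : ℝ} (h1 : P.rmin ≤ r1) (h12 : r1 ≤ r2) (h2 : r2 ≤ 1) : q.al r2 - q.al r1 ≤ P.M 1 * (r2 - r1) := by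
  refine (q.hi r1 r2 h1 h12 h2).trans ?_
  have hmem : ∀ t ∈ Icc r1 r2, q.al t ∈ Icc P.u0 1 := fun t ht =>
    cm_q_al_mem hc h q ⟨h1.trans ht.1, ht.2.trans h2⟩
  have hmono : MonotoneOn (fun t => P.M (q.al t)) (Icc r1 r2) := by
    intro s hs t ht hst
    exact cm_M_mono hc h (h.u00.trans (hmem s hs).1) (h.u00.trans (hmem t ht).1)
      ((cm_q_al_strictMono hc h q).monotoneOn ⟨h1.trans hs.1, hs.2.trans h2⟩
        ⟨h1.trans ht.1, ht.2.trans h2⟩ hst)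
  have hint : IntervalIntegrable (fun t => P.M (q.al t)) volume r1 r2 := by
    apply MonotoneOn.intervalIntegrable
    rwa [uIcc_of_le h12]
  have hle := intervalIntegral.integral_mono_on h12 hint (intervalIntegrable_const (c := P.M 1))
    (fun t ht => cm_M_mono hc h (h.u00.trans (hmem t ht).1) (show (0 : ℝ) ≤ 1 by norm_num) (hmem t ht).2)
  rw [intervalIntegral.integral_const, smul_eq_mul] at hle
  linarith

/-- `r` is Lipschitz with the constant `1/k(1)` -/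
theorem cm_q_r_lip (hc : 0 < cE) (h : P.Ok cE D0) (q : CmQ P) {u1 u2 : ℝ} (h1 : P.u0 ≤ u1) (h12 : u1 ≤ u2) (h2 : u2 ≤ 1) : q.r u2 - q.r u1 ≤ (u2 - u1) / P.k 1 := by
  have hu1 : u1 ∈ Icc P.u0 1 := ⟨h1, h12.trans h2⟩
  have hu2 : u2 ∈ Icc P.u0 1 := ⟨h1.trans h12, h2⟩
  have hr12 : q.r u1 ≤ q.r u2 := (cm_q_r_strictMono hc h q).monotoneOn hu1 hu2 h12
  have hm1 := q.r_mem u1 hu1
  have hm2 := q.r_mem u2 hu2
  have hlo := q.lo (q.r u1) (q.r u2) hm1.1 hr12 hm2.2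
  rw [q.al_r u1 hu1, q.al_r u2 hu2] at hlo
  have hr10 : 0 ≤ q.r u1 := h.r0.trans hm1.1
  have hsub : Icc (q.r u1) (q.r u2) ⊆ Ici (0 : ℝ) := fun t ht => hr10.trans ht.1
  have hle := intervalIntegral.integral_mono_on (μ := volume) hr12 (intervalIntegrable_const (c := P.k 1))
    (((cm_k_cont hc h).mono hsub).intervalIntegrable_of_Icc hr12)
    (fun t ht => cm_k_anti hc h (hr10.trans ht.1) (show (0 : ℝ) ≤ 1 by norm_num) (ht.2.trans hm2.2))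
  rw [intervalIntegral.integral_const, smul_eq_mul] at hle
  rw [le_div_iff₀ (cm_k_pos hc h (by norm_num))]
  linarith

theorem cm_q_al_cont (hc : 0 < cE) (h : P.Ok cE D0) (q : CmQ P) : ContinuousOn q.al (Icc P.rmin 1) := by
  have hM0 : 0 ≤ P.M 1 := (Real.rpow_nonneg (cm_N_pos h).le _).trans (cm_M_ge hc h (by norm_num))
  have hL : LipschitzOnWith (Real.toNNReal (P.M 1)) q.al (Icc P.rmin 1) := by
    apply LipschitzOnWith.of_dist_le_mul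
    intro x hx y hy
    have hm := (cm_q_al_strictMono hc h q).monotoneOn
    rw [Real.dist_eq, Real.dist_eq, Real.coe_toNNReal _ hM0]
    rcases le_total x y with hxy | hxy
    · rw [abs_sub_comm, abs_of_nonneg (sub_nonneg.2 (hm hx hy hxy)), abs_sub_comm,
        abs_of_nonneg (sub_nonneg.2 hxy)]
      exact cm_q_al_lip hc h q hx.1 hxy hy.2
    · rw [abs_of_nonneg (sub_nonneg.2 (hm hy hx hxy)), abs_of_nonneg (sub_nonneg.2 hxy)]
      exact cm_q_al_lip hc h q hy.1 hxy hx.2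
  exact hL.continuousOn

theorem cm_q_r_cont (hc : 0 < cE) (h : P.Ok cE D0) (q : CmQ P) : ContinuousOn q.r (Icc P.u0 1) := by
  have hk0 : 0 < P.k 1 := cm_k_pos hc h (by norm_num)
  have hL : LipschitzOnWith (Real.toNNReal (1 / P.k 1)) q.r (Icc P.u0 1) := by
    apply LipschitzOnWith.of_dist_le_mul
    intro x hx y hy
    have hm := (cm_q_r_strictMono hc h q).monotoneOn
    rw [Real.dist_eq, Real.dist_eq, Real.coe_toNNReal _ (by positivity)]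
    rcases le_total x y with hxy | hxy
    · rw [abs_sub_comm, abs_of_nonneg (sub_nonneg.2 (hm hx hy hxy)), abs_sub_comm,
        abs_of_nonneg (sub_nonneg.2 hxy)]
      have := cm_q_r_lip hc h q hx.1 hxy hy.2
      rw [div_eq_mul_one_div, mul_comm] at this
      exact this
    · rw [abs_of_nonneg (sub_nonneg.2 (hm hy hx hxy)), abs_of_nonneg (sub_nonneg.2 hxy)]
      have := cm_q_r_lip hc h q hy.1 hxy hx.2
      rw [div_eq_mul_one_div, mul_comm] at this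
      exact this
  exact hL.continuousOn

/-- **N6**: the field clock in radius coordinates gains `r e(r)` -/
theorem cm_q_h_gain (hc : 0 < cE) (h : P.Ok cE D0) (q : CmQ P) {lam : ℝ} (h0 : ℝ → ℝ) (hh : MonotoneOn h0 (Icc P.u0 1)) {r1 r2 : ℝ}
    (h1 : P.rmin ≤ r1) (h12 : r1 ≤ r2) (h2 : r2 ≤ 1) : r2 * P.e lam r2 - r1 * P.e lam r1 ≤ q.hq lam h0 (q.al r2) - q.hq lam h0 (q.al r1) := by
  have hr1 : r1 ∈ Icc P.rmin 1 := ⟨h1, h12.trans h2⟩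
  have hr2 : r2 ∈ Icc P.rmin 1 := ⟨h1.trans h12, h2⟩
  have ha1 := cm_q_al_mem hc h q hr1
  have ha2 := cm_q_al_mem hc h q hr2
  have hmono := hh ha1 ha2 ((cm_q_al_strictMono hc h q).monotoneOn hr1 hr2 h12)
  unfold CmQ.hq
  rw [if_pos ha1.1, if_pos ha2.1, q.r_al r1 hr1, q.r_al r2 hr2]
  linarith

/-- **N6'**: `h(α r₂) - h(α r₁) ≥ (C log n)⁻¹ ∫ e` -/
theorem cm_q_h_slope (hc : 0 < cE) : ∃ C : ℝ, 0 < C ∧ ∀ (P : CmCall), P.Ok cE D0 → ∀ (q : CmQ P) (lam : ℝ) (h0 : ℝ → ℝ), 0 ≤ lam → lam ≤ P.d ^ 2 → MonotoneOn h0 (Icc P.u0 1) →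
    ∀ r1 r2 : ℝ, P.rmin ≤ r1 → r1 ≤ r2 → r2 ≤ 1 → ∫ r in r1..r2, P.e lam r ≤ C * P.Lam * (q.hq lam h0 (q.al r2) - q.hq lam h0 (q.al r1)) := by
  obtain ⟨C, hC, H⟩ := cm_pp_log (cE := cE) (D0 := D0) hc
  refine ⟨C, hC, fun P h q lam h0 hl hl2 hh r1 r2 h1 h12 h2 => ?_⟩
  have hgain := cm_q_h_gain hc h q (lam := lam) h0 hh h1 h12 h2
  have hr10 : 0 ≤ r1 := h.r0.trans h1
  rw [cm_re_integral P h.d0 hl hr10 h12] at hgain
  have hLam : 0 ≤ C * P.Lam := by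
    have := cm_Lam_ge_one h
    have : 0 ≤ P.Lam := by linarith
    positivity
  have hec : Continuous (fun r => P.e lam r) := cm_e_cont P lam
  have hpc : Continuous (fun r => P.pp lam r) := by
    unfold CmCall.pp
    exact cm_p_cont.comp (by fun_prop)
  have hcc : Continuous (fun r => (C * P.Lam) * ((1 - P.pp lam r) * P.e lam r)) :=
    continuous_const.mul ((continuous_const.sub hpc).mul hec)
  have hle := intervalIntegral.integral_mono_on (μ := volume) h12 (hec.intervalIntegrable r1 r2)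
    (hcc.intervalIntegrable r1 r2)
    (fun r hr => by
      have h3 := H P h lam r hl hl2 (hr10.trans hr.1) (hr.2.trans h2)
      have h4 := cm_e_nonneg P hl r
      have := mul_le_mul_of_nonneg_right h3 h4
      linarith)
  rw [intervalIntegral.integral_const_mul] at hle
  exact hle.trans (mul_le_mul_of_nonneg_left hgain hLam)

/-- **N7**, first half -/
theorem cm_q_reg_r (hc : 0 < cE) (h : P.Ok cE D0) (q : CmQ P) {c C C0 x K u : ℝ} (hC : 0 < C) (hx : 0 < x) (hR : q.Reg c C C0 x) (hu0 : P.u0 ≤ u) (hu : u ≤ K * x)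
    (hK : max K C0 * x ≤ 1) : q.r u ≤ C * max K C0 * x := by
  have h1 : u ≤ max K C0 * x := hu.trans (mul_le_mul_of_nonneg_right (le_max_left _ _) hx.le)
  have h2 : C0 * x ≤ max K C0 * x := mul_le_mul_of_nonneg_right (le_max_right _ _) hx.le
  have h3 := (hR (max K C0 * x) h2 hK (hu0.trans h1)).2
  have h4 := (cm_q_r_strictMono hc h q).monotoneOn ⟨hu0, h1.trans hK⟩ ⟨hu0.trans h1, hK⟩ h1
  rw [mul_assoc]
  exact h4.trans h3

/-- **N7**, second half -/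
theorem cm_q_reg_u (hc : 0 < cE) (h : P.Ok cE D0) (q : CmQ P) {c C C0 x K u : ℝ} (hc0 : 0 < c) (hx : 0 < x) (hR : q.Reg c C C0 x) (hu0 : P.u0 ≤ u) (hu1 : u ≤ 1)
    (hr : q.r u ≤ K * x) : u ≤ max C0 (K / c) * x := by
  rcases le_total u (C0 * x) with hu | hu
  · exact hu.trans (mul_le_mul_of_nonneg_right (le_max_left _ _) hx.le)
  · have h1 := (hR u hu hu1 hu0).1
    have h2 : u ≤ K / c * x := by
      rw [div_mul_eq_mul_div, le_div_iff₀ hc0]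
      linarith
    exact h2.trans (mul_le_mul_of_nonneg_right (le_max_right _ _) hx.le)

end Claimed.Agent.R286
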