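import Claimed.Agent.R286.Cmp.P6Abs
import Claimed.Agent.R286.Cmp.Num

/-!
# Row 286 (S0533), PE Section 3.4 (package P06): CONTRACT 2 = UNITS, TRACES, BRACKET ON A `CmGeo`      (owner helper294; adversary helper290)

Lemma 3.10 (20), Lemma 3.11 (21), the paragraph "Broad cap units and the initial wall" (l.984-1016), for the constraints (5).   All constants explicit.
Sections:  1 transport by `α` (null sets, images, density of the radius measure);   2 unit labels;   3 traces (20);   4 bracket (21) on groups and on slices of caps;   5 covering of a mass interval by units.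
Imports: `Cmp/Num.lean` (N2: `cm_M_*`, `cm_k_*`, `cm_q_*`), `Cmp/Prof.lean` (`cm_e_*`), `Cmp/P6Abs.lean`.
-/

set_option autoImplicit false

namespace Claimed.Agent.R286

open MeasureTheory Set

noncomputable section

variable {P : CmCall} {cE D0 lam Kg Lp : ℝ} {q : CmQ P} {X : CmNum} {Z : CmCaps}

/-! ## 1. transport by `α` -/

/-- the working radius interval is not empty -/
theorem cm_g_rmin_le (hP : P.Ok cE D0) (q : CmQ P) : P.rmin ≤ 1 := by
  have h := q.r_mem 1 ⟨by linarith [hP.u01], le_rfl⟩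
  exact h.1.trans h.2

/-- a Lipschitz image of a null set of the line is a null set -/
theorem cm_g_lip_null {f : ℝ → ℝ} {K : NNReal} {t s : Set ℝ} (hf : LipschitzOnWith K f t) (hs : s ⊆ t) (h0 : volume s = 0) :
    volume (f '' s) = 0 := by
  have h1 := (hf.mono hs).hausdorffMeasure_image_le (d := 1) zero_le_one
  rw [hausdorffMeasure_real, h0, mul_zero] at h1
  exact le_antisymm h1 zero_le

theorem cm_g_al_lipOn (hc : 0 < cE) (h : P.Ok cE D0) (q : CmQ P) : LipschitzOnWith (Real.toNNReal (P.M 1)) q.al (Icc P.rmin 1) := by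
  have hM0 : 0 ≤ P.M 1 := (Real.rpow_nonneg (cm_N_pos h).le _).trans (cm_M_ge hc h (by norm_num))
  apply LipschitzOnWith.of_dist_le_mul
  intro x hx y hy
  have hm := (cm_q_al_strictMono hc h q).monotoneOn
  rw [Real.dist_eq, Real.dist_eq, Real.coe_toNNReal _ hM0]
  rcases le_total x y with hxy | hxy
  · rw [abs_sub_comm, abs_of_nonneg (sub_nonneg.2 (hm hx hy hxy)), abs_sub_comm,
      abs_of_nonneg (sub_nonneg.2 hxy)]
    exact cm_q_al_lip hc h q hx.1 hxy hy.2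
  · rw [abs_of_nonneg (sub_nonneg.2 (hm hy hx hxy)), abs_of_nonneg (sub_nonneg.2 hxy)]
    exact cm_q_al_lip hc h q hy.1 hxy hx.2

theorem cm_g_r_lipOn (hc : 0 < cE) (h : P.Ok cE D0) (q : CmQ P) : LipschitzOnWith (Real.toNNReal (1 / P.k 1)) q.r (Icc P.u0 1) := by
  have hk0 : 0 < P.k 1 := cm_k_pos hc h (by norm_num)
  apply LipschitzOnWith.of_dist_le_mul
  intro x hx y hy
  have hm := (cm_q_r_strictMono hc h q).monotoneOn
  rw [Real.dist_eq, Real.dist_eq, Real.coe_toNNReal _ (by positivity)]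
  rcases le_total x y with hxy | hxy
  · rw [abs_sub_comm, abs_of_nonneg (sub_nonneg.2 (hm hx hy hxy)), abs_sub_comm,
      abs_of_nonneg (sub_nonneg.2 hxy)]
    have := cm_q_r_lip hc h q hx.1 hxy hy.2
    rw [div_eq_mul_one_div, mul_comm] at this
    exact this
  · rw [abs_of_nonneg (sub_nonneg.2 (hm hy hx hxy)), abs_of_nonneg (sub_nonneg.2 hxy)]
    have := cm_q_r_lip hc h q hy.1 hxy hx.2
    rw [div_eq_mul_one_div, mul_comm] at this
    exact this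

/-- `α` maps the working radius interval onto the working mass interval -/
theorem cm_g_al_image (hc : 0 < cE) (hP : P.Ok cE D0) (q : CmQ P) : q.al '' Icc P.rmin 1 = Icc P.u0 1 := by
  apply Subset.antisymm
  · rintro _ ⟨r, hr, rfl⟩; exact cm_q_al_mem hc hP q hr
  · intro u hu; exact ⟨q.r u, q.r_mem u hu, q.al_r u hu⟩

theorem cm_g_cL_mem (hG : CmGeo P lam q X Z Kg Lp) (i : ℕ) : Z.cL i ∈ Icc P.rmin 1 :=
  ⟨hG.cap_lo i, (hG.cap_le i).trans (hG.cap_hi i)⟩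

theorem cm_g_cR_mem (hG : CmGeo P lam q X Z Kg Lp) (i : ℕ) : Z.cR i ∈ Icc P.rmin 1 :=
  ⟨(hG.cap_lo i).trans (hG.cap_le i), hG.cap_hi i⟩

theorem cm_g_cap_sub (hG : CmGeo P lam q X Z Kg Lp) (i : ℕ) : Icc (Z.cL i) (Z.cR i) ⊆ Icc P.rmin 1 :=
  Icc_subset_Icc (hG.cap_lo i) (hG.cap_hi i)

/-- `α` maps null sets to null sets (Lipschitz, `cm_q_al_lip`) -/
theorem cm_al_null (hc : 0 < cE) (hP : P.Ok cE D0) (q : CmQ P) {s : Set ℝ} (hs : s ⊆ Icc P.rmin 1) (h0 : volume s = 0) :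
    volume (q.al '' s) = 0 := by
  exact cm_g_lip_null (cm_g_al_lipOn hc hP q) hs h0

/-- `α` maps measurable sets to measurable sets (continuous, injective) -/
theorem cm_al_meas (hc : 0 < cE) (hP : P.Ok cE D0) (q : CmQ P) {s : Set ℝ} (hs : s ⊆ Icc P.rmin 1) (hm : MeasurableSet s) :
    MeasurableSet (q.al '' s) := by
  exact hm.image_of_continuousOn_injOn ((cm_q_al_cont hc hP q).mono hs) ((cm_q_al_strictMono hc hP q).injOn.mono hs)

/-- **the density of the radius measure in the mass coordinate**: `ϖ = r'(u) = 1/α'(r(u)) ≤ 1/k(r(u))`, and the change of variables `∫ F(α r) dr = ∫ F ϖ du` -/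
theorem cm_q_dens (hc : 0 < cE) (hP : P.Ok cE D0) (q : CmQ P) :
    ∃ ϖ : ℝ → ℝ, Measurable ϖ ∧ (∀ u, 0 ≤ ϖ u) ∧ (∀ u, ϖ u ≤ 1 / P.k 1) ∧ (∀ u ∈ Icc P.u0 1, ϖ u ≤ 1 / P.k (q.r u)) ∧
      ∀ F : ℝ → ℝ, Measurable F → (∃ B : ℝ, ∀ u, |F u| ≤ B) → ∀ A : Set ℝ, MeasurableSet A → A ⊆ Icc P.rmin 1 →
        ∫ r in A, F (q.al r) = ∫ u in q.al '' A, F u * ϖ u := by
  have hu01 : P.u0 < 1 := by linarith [hP.u01]
  let cl : ℝ → ℝ := fun u => max P.u0 (min u 1)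
  have hcl_mem : ∀ u, cl u ∈ Icc P.u0 1 := fun u => ⟨le_max_left _ _, max_le hu01.le (min_le_right _ _)⟩
  have hcl_id : ∀ u ∈ Icc P.u0 1, cl u = u := fun u hu => by
    simp only [cl]; rw [min_eq_left hu.2, max_eq_right hu.1]
  have hcl_mono : Monotone cl := fun a b hab => max_le_max le_rfl (min_le_min hab le_rfl)
  let rt : ℝ → ℝ := fun u => q.r (cl u)
  have hrm := (cm_q_r_strictMono hc hP q)
  have hrt_mono : Monotone rt := fun a b hab => hrm.monotoneOn (hcl_mem a) (hcl_mem b) (hcl_mono hab)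
  have hrt_id : ∀ u ∈ Icc P.u0 1, rt u = q.r u := fun u hu => by simp only [rt, hcl_id u hu]
  have hk : ∀ r, 0 ≤ r → 0 < P.k r := fun r hr => cm_k_pos hc hP hr
  have hd0 : ∀ u, 0 ≤ deriv rt u := fun u => hrt_mono.deriv_nonneg
  have hdb : ∀ u ∈ Ioo P.u0 1, deriv rt u ≤ 1 / P.k (q.r u) := by
    intro u hu
    have hu' : u ∈ Icc P.u0 1 := ⟨hu.1.le, hu.2.le⟩
    have hru := q.r_mem u hu'
    have hkp : 0 < P.k (q.r u) := hk _ (hP.r0.trans hru.1)
    by_cases hdiff : DifferentiableAt ℝ rt u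
    · have hs : Filter.Tendsto (slope rt u) (nhdsWithin u (Iio u)) (nhds (deriv rt u)) :=
        hdiff.hasDerivAt.tendsto_slope.mono_left (nhdsWithin_mono u (fun x (hx : x < u) => ne_of_lt hx))
      refine le_of_tendsto hs ?_
      have hev : ∀ᶠ v in nhdsWithin u (Iio u), P.u0 < v := nhdsWithin_le_nhds (Ioi_mem_nhds hu.1)
      filter_upwards [self_mem_nhdsWithin, hev] with v hv hv0
      have hvu : v < u := hv
      have hv' : v ∈ Icc P.u0 1 := ⟨hv0.le, hvu.le.trans hu.2.le⟩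
      rw [slope_def_field, hrt_id u hu', hrt_id v hv']
      have hrv := q.r_mem v hv'
      have hrvu : q.r v ≤ q.r u := hrm.monotoneOn hv' hu' hvu.le
      have hlo := q.lo (q.r v) (q.r u) hrv.1 hrvu hru.2
      rw [q.al_r u hu', q.al_r v hv'] at hlo
      have hr10 : 0 ≤ q.r v := hP.r0.trans hrv.1
      have hsub2 : Icc (q.r v) (q.r u) ⊆ Ici (0 : ℝ) := fun t ht => hr10.trans ht.1
      have hle := intervalIntegral.integral_mono_on (μ := volume) hrvu (intervalIntegrable_const (c := P.k (q.r u)))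
        (((cm_k_cont hc hP).mono hsub2).intervalIntegrable_of_Icc hrvu)
        (fun t ht => cm_k_anti hc hP (hr10.trans ht.1) (hr10.trans hrvu) ht.2)
      rw [intervalIntegral.integral_const, smul_eq_mul] at hle
      rw [← neg_sub (q.r u), ← neg_sub u, neg_div_neg_eq, div_le_div_iff₀ (sub_pos.2 hvu) hkp]
      linarith
    · rw [deriv_zero_of_not_differentiableAt hdiff]; positivity
  refine ⟨(Ioo P.u0 1).indicator (deriv rt), (measurable_deriv rt).indicator measurableSet_Ioo,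
    fun u => indicator_nonneg (fun x _ => hd0 x) u, ?_, ?_, ?_⟩
  · intro u
    by_cases hu : u ∈ Ioo P.u0 1
    · rw [indicator_of_mem hu]
      have hu' : u ∈ Icc P.u0 1 := ⟨hu.1.le, hu.2.le⟩
      have hru := q.r_mem u hu'
      refine (hdb u hu).trans (one_div_le_one_div_of_le (hk 1 zero_le_one) ?_)
      exact cm_k_anti hc hP (hP.r0.trans hru.1) (show (0 : ℝ) ≤ 1 by norm_num) hru.2
    · rw [indicator_of_notMem hu]
      have := hk 1 zero_le_one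
      positivity
  · intro u hu'
    by_cases hu : u ∈ Ioo P.u0 1
    · rw [indicator_of_mem hu]; exact hdb u hu
    · rw [indicator_of_notMem hu]
      have := hk (q.r u) (hP.r0.trans (q.r_mem u hu').1)
      positivity
  · intro F _ _ A hA hAsub
    have hBm : MeasurableSet (q.al '' A) := cm_al_meas hc hP q hAsub hA
    have hBsub : q.al '' A ⊆ Icc P.u0 1 := by
      rintro _ ⟨a, ha, rfl⟩; exact cm_q_al_mem hc hP q (hAsub ha)
    let Dg : Set ℝ := (q.al '' A ∩ Ioo P.u0 1) ∩ {u | DifferentiableAt ℝ rt u}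
    have hDgm : MeasurableSet Dg := (hBm.inter measurableSet_Ioo).inter (measurableSet_of_differentiableAt ℝ rt)
    have hDgB : Dg ⊆ q.al '' A := fun u hu => hu.1.1
    have hnull : volume (q.al '' A \ Dg) = 0 := by
      have h1 : q.al '' A \ Dg ⊆ ({P.u0} ∪ {1}) ∪ {u | ¬ DifferentiableAt ℝ rt u} := by
        rintro u ⟨huB, hun⟩
        by_cases hd : DifferentiableAt ℝ rt u
        · left
          have hu1 := hBsub huB
          by_contra hcon
          simp only [mem_union, mem_singleton_iff, not_or] at hcon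
          exact hun ⟨⟨huB, lt_of_le_of_ne hu1.1 (Ne.symm hcon.1), lt_of_le_of_ne hu1.2 hcon.2⟩, hd⟩
        · right; exact hd
      refine measure_mono_null h1 (measure_union_null (measure_union_null (by simp) (by simp)) ?_)
      exact hrt_mono.ae_differentiableAt
    have hinj : InjOn rt Dg := by
      intro a ha b hb hab
      have ha1 := hBsub (hDgB ha)
      have hb1 := hBsub (hDgB hb)
      rw [hrt_id a ha1, hrt_id b hb1] at hab
      exact hrm.injOn ha1 hb1 hab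
    have hcv := integral_image_eq_integral_abs_deriv_smul hDgm (f := rt) (f' := deriv rt)
      (fun x hx => hx.2.hasDerivAt.hasDerivWithinAt) hinj (fun r => F (q.al r))
    have hAe : (rt '' Dg : Set ℝ) =ᵐ[volume] A := by
      rw [ae_eq_set]
      constructor
      · have : rt '' Dg \ A = ∅ := by
          rw [sdiff_eq_empty]
          rintro _ ⟨u, hu, rfl⟩
          obtain ⟨a, ha, rfl⟩ := hDgB hu
          rw [hrt_id _ (cm_q_al_mem hc hP q (hAsub ha)), q.r_al a (hAsub ha)]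
          exact ha
        rw [this]; simp
      · have hsub : A \ rt '' Dg ⊆ q.r '' (q.al '' A \ Dg) := by
          rintro a ⟨ha, hna⟩
          refine ⟨q.al a, ⟨⟨a, ha, rfl⟩, fun hD => hna ⟨q.al a, hD, ?_⟩⟩, q.r_al a (hAsub ha)⟩
          rw [hrt_id _ (cm_q_al_mem hc hP q (hAsub ha)), q.r_al a (hAsub ha)]
        exact measure_mono_null hsub (cm_g_lip_null (cm_g_r_lipOn hc hP q) (sdiff_subset.trans hBsub) hnull)
    have hBe : (Dg : Set ℝ) =ᵐ[volume] (q.al '' A : Set ℝ) := by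
      rw [ae_eq_set]
      exact ⟨by rw [sdiff_eq_empty.2 hDgB]; simp, hnull⟩
    calc ∫ r in A, F (q.al r) = ∫ r in rt '' Dg, F (q.al r) := (setIntegral_congr_set hAe).symm
      _ = ∫ u in Dg, |deriv rt u| • F (q.al (rt u)) := hcv
      _ = ∫ u in Dg, F u * (Ioo P.u0 1).indicator (deriv rt) u := by
          refine setIntegral_congr_fun hDgm (fun u hu => ?_)
          have hu1 := hBsub (hDgB hu)
          rw [indicator_of_mem hu.1.2, abs_of_nonneg (hd0 u), hrt_id u hu1, q.al_r u hu1, smul_eq_mul, mul_comm]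
      _ = ∫ u in q.al '' A, F u * (Ioo P.u0 1).indicator (deriv rt) u := setIntegral_congr_set hBe

/-- the three kinds of points cover the working interval of masses -/
theorem cm_cover_mass (hc : 0 < cE) (hP : P.Ok cE D0) (hG : CmGeo P lam q X Z Kg Lp) :
    volume (Icc P.u0 1 \ ((⋃ i, Z.capM q.al i) ∪ q.al '' Z.Fl ∪ q.al '' Z.Ct)) = 0 := by
  have h0 := cm_al_null hc hP q (s := Icc P.rmin 1 \ (Z.caps ∪ Z.Fl ∪ Z.Ct)) sdiff_subset hG.cover
  refine measure_mono_null ?_ h0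
  rintro u ⟨hu, hn⟩
  refine ⟨q.r u, ⟨q.r_mem u hu, ?_⟩, q.al_r u hu⟩
  rintro ((hcap | hfl) | hct)
  · obtain ⟨i, hi⟩ := mem_iUnion.1 hcap
    apply hn
    refine Or.inl (Or.inl (mem_iUnion.2 ⟨i, ?_⟩))
    have hm := cm_q_al_strictMono hc hP q
    have a1 := hm (cm_g_cL_mem hG i) (q.r_mem u hu) hi.1
    have a2 := hm (q.r_mem u hu) (cm_g_cR_mem hG i) hi.2
    rw [q.al_r u hu] at a1 a2
    exact ⟨a1, a2⟩
  · exact hn (Or.inl (Or.inr ⟨q.r u, hfl, q.al_r u hu⟩))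
  · exact hn (Or.inr ⟨q.r u, hct, q.al_r u hu⟩)

/-- total floor mass -/
theorem cm_floor_mass (hc : 0 < cE) (hP : P.Ok cE D0) (hG : CmGeo P lam q X Z Kg Lp) :
    volume (q.al '' Z.Fl) ≤ ENNReal.ofReal (P.N ^ (-P.dl) * P.us) := by
  have h1 := hG.fl_mass P.rmin 1 le_rfl (cm_g_rmin_le hP q) le_rfl
  rw [inter_eq_left.2 hG.fl_sub] at h1
  exact h1.trans (ENNReal.ofReal_le_ofReal (cm_k_integral hc hP hP.r0 (cm_g_rmin_le hP q)))

/-- floor mass in a mass interval `[u1,u2]`: at most `(r(u2) - r(u1)) k(r(u1))` -/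
theorem cm_floor_mass_loc (hc : 0 < cE) (hP : P.Ok cE D0) (hG : CmGeo P lam q X Z Kg Lp) {u1 u2 : ℝ} (h1 : P.u0 ≤ u1) (h12 : u1 ≤ u2) (h2 : u2 ≤ 1) :
    volume (q.al '' Z.Fl ∩ Icc u1 u2) ≤ ENNReal.ofReal ((q.r u2 - q.r u1) * P.k (q.r u1)) := by
  have hu1 : u1 ∈ Icc P.u0 1 := ⟨h1, h12.trans h2⟩
  have hu2 : u2 ∈ Icc P.u0 1 := ⟨h1.trans h12, h2⟩
  have hm := (cm_q_r_strictMono hc hP q).monotoneOn
  have hr12 : q.r u1 ≤ q.r u2 := hm hu1 hu2 h12
  have hm1 := q.r_mem u1 hu1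
  have hm2 := q.r_mem u2 hu2
  have hsub : q.al '' Z.Fl ∩ Icc u1 u2 ⊆ q.al '' (Z.Fl ∩ Icc (q.r u1) (q.r u2)) := by
    rintro _ ⟨⟨a, ha, rfl⟩, hau⟩
    have ha1 := hG.fl_sub ha
    have hal := cm_q_al_mem hc hP q ha1
    refine ⟨a, ⟨ha, ?_, ?_⟩, rfl⟩
    · have := hm hu1 hal hau.1
      rwa [q.r_al a ha1] at this
    · have := hm hal hu2 hau.2
      rwa [q.r_al a ha1] at this
  refine (measure_mono hsub).trans ((hG.fl_mass _ _ hm1.1 hr12 hm2.2).trans (ENNReal.ofReal_le_ofReal ?_))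
  have hr10 : 0 ≤ q.r u1 := hP.r0.trans hm1.1
  have hsub2 : Icc (q.r u1) (q.r u2) ⊆ Ici (0 : ℝ) := fun t ht => hr10.trans ht.1
  have hle := intervalIntegral.integral_mono_on (μ := volume) hr12
    (((cm_k_cont hc hP).mono hsub2).intervalIntegrable_of_Icc hr12) (intervalIntegrable_const (c := P.k (q.r u1)))
    (fun t ht => cm_k_anti hc hP hr10 (hr10.trans ht.1) ht.1)
  rw [intervalIntegral.integral_const, smul_eq_mul] at hle
  exact hle

/-! ## 2. caps in the mass coordinate, unit labels -/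

theorem cm_capM_sub (hc : 0 < cE) (hP : P.Ok cE D0) (hG : CmGeo P lam q X Z Kg Lp) (i : ℕ) : Z.capM q.al i ⊆ Icc P.u0 1 := by
  intro u hu
  exact ⟨(cm_q_al_mem hc hP q (cm_g_cL_mem hG i)).1.trans hu.1.le, hu.2.le.trans (cm_q_al_mem hc hP q (cm_g_cR_mem hG i)).2⟩

theorem cm_capM_image (hc : 0 < cE) (hP : P.Ok cE D0) (hG : CmGeo P lam q X Z Kg Lp) (i : ℕ) :
    Z.capM q.al i = q.al '' Ioo (Z.cL i) (Z.cR i) := by
  have hm := cm_q_al_strictMono hc hP q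
  apply Subset.antisymm
  · intro u hu
    have hu1 := cm_capM_sub hc hP hG i hu
    refine ⟨q.r u, ⟨?_, ?_⟩, q.al_r u hu1⟩
    · by_contra hcon
      push Not at hcon
      have := hm.monotoneOn (q.r_mem u hu1) (cm_g_cL_mem hG i) hcon
      rw [q.al_r u hu1] at this
      exact absurd hu.1 (not_lt.2 this)
    · by_contra hcon
      push Not at hcon
      have := hm.monotoneOn (cm_g_cR_mem hG i) (q.r_mem u hu1) hcon
      rw [q.al_r u hu1] at this
      exact absurd hu.2 (not_lt.2 this)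
  · rintro _ ⟨r, hr, rfl⟩
    have hr1 : r ∈ Icc P.rmin 1 := cm_g_cap_sub hG i ⟨hr.1.le, hr.2.le⟩
    exact ⟨hm (cm_g_cL_mem hG i) hr1 hr.1, hm hr1 (cm_g_cR_mem hG i) hr.2⟩

theorem cm_capM_disj (hc : 0 < cE) (hP : P.Ok cE D0) (hG : CmGeo P lam q X Z Kg Lp) :
    Pairwise fun i j => Disjoint (Z.capM q.al i) (Z.capM q.al j) := by
  intro i j hij
  rw [cm_capM_image hc hP hG i, cm_capM_image hc hP hG j, Set.disjoint_left]
  rintro _ ⟨a, ha, rfl⟩ ⟨b, hb, hab⟩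
  have ha1 : a ∈ Icc P.rmin 1 := cm_g_cap_sub hG i ⟨ha.1.le, ha.2.le⟩
  have hb1 : b ∈ Icc P.rmin 1 := cm_g_cap_sub hG j ⟨hb.1.le, hb.2.le⟩
  have := (cm_q_al_strictMono hc hP q).injOn hb1 ha1 hab
  subst this
  exact Set.disjoint_left.1 (hG.cap_disj hij) ha hb

theorem cm_capM_ct (hc : 0 < cE) (hP : P.Ok cE D0) (hG : CmGeo P lam q X Z Kg Lp) (i : ℕ) : Disjoint (Z.capM q.al i) (q.al '' Z.Ct) := by
  rw [cm_capM_image hc hP hG i, Set.disjoint_left]
  rintro _ ⟨a, ha, rfl⟩ ⟨b, hb, hab⟩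
  have ha1 : a ∈ Icc P.rmin 1 := cm_g_cap_sub hG i ⟨ha.1.le, ha.2.le⟩
  have := (cm_q_al_strictMono hc hP q).injOn (hG.ct_sub hb) ha1 hab
  subst this
  exact Set.disjoint_left.1 hG.ct_disj hb (mem_iUnion.2 ⟨i, ha⟩)

theorem cm_lab_cap (hc : 0 < cE) (hP : P.Ok cE D0) (hG : CmGeo P lam q X Z Kg Lp) {i : ℕ} {u : ℝ} (hu : u ∈ Z.capM q.al i) :
    Z.lab q.al u = (q.al (Z.cL i) + q.al (Z.cR i)) / 2 := by
  have hex : ∃ i, u ∈ Z.capM q.al i := ⟨i, hu⟩
  have hi : hex.choose = i := by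
    by_contra hne
    exact Set.disjoint_left.1 (cm_capM_disj hc hP hG hne) hex.choose_spec hu
  unfold CmCaps.lab
  rw [dif_pos hex, hi]

theorem cm_lab_out {al : ℝ → ℝ} {u : ℝ} (hu : ∀ i, u ∉ Z.capM al i) : Z.lab al u = u := by
  unfold CmCaps.lab
  rw [dif_neg (by push Not; exact hu)]

theorem cm_lab_mem (hc : 0 < cE) (hP : P.Ok cE D0) (hG : CmGeo P lam q X Z Kg Lp) {i : ℕ} {u : ℝ} (hu : u ∈ Z.capM q.al i) :
    Z.lab q.al u ∈ Z.capM q.al i := by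
  rw [cm_lab_cap hc hP hG hu]
  have h1 : q.al (Z.cL i) < q.al (Z.cR i) := hu.1.trans hu.2
  exact ⟨by linarith, by linarith⟩

theorem cm_lab_mono (hc : 0 < cE) (hP : P.Ok cE D0) (hG : CmGeo P lam q X Z Kg Lp) : Monotone (Z.lab q.al) := by
  intro u v huv
  by_cases hu : ∃ i, u ∈ Z.capM q.al i
  · obtain ⟨i, hi⟩ := hu
    by_cases hvi : v ∈ Z.capM q.al i
    · rw [cm_lab_cap hc hP hG hi, cm_lab_cap hc hP hG hvi]
    · have hvR : q.al (Z.cR i) ≤ v := by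
        by_contra hcon
        push Not at hcon
        exact hvi ⟨lt_of_lt_of_le hi.1 huv, hcon⟩
      have h1 := (cm_lab_mem hc hP hG hi).2
      by_cases hv : ∃ j, v ∈ Z.capM q.al j
      · obtain ⟨j, hj⟩ := hv
        have hij : i ≠ j := by rintro rfl; exact hvi hj
        have hLR : q.al (Z.cR i) ≤ q.al (Z.cL j) := by
          by_contra hcon
          push Not at hcon
          have hd := Set.disjoint_left.1 (cm_capM_disj hc hP hG hij)
          have hlt : max (q.al (Z.cL i)) (q.al (Z.cL j)) < min (q.al (Z.cR i)) (q.al (Z.cR j)) := by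
            apply max_lt <;> apply lt_min
            · exact hi.1.trans hi.2
            · exact lt_of_lt_of_le hi.1 (huv.trans hj.2.le)
            · exact hcon
            · exact hj.1.trans hj.2
          obtain ⟨w, hw1, hw2⟩ := exists_between hlt
          exact hd ⟨(le_max_left _ _).trans_lt hw1, hw2.trans_le (min_le_left _ _)⟩
            ⟨(le_max_right _ _).trans_lt hw1, hw2.trans_le (min_le_right _ _)⟩
        have h2 := (cm_lab_mem hc hP hG hj).1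
        linarith
      · push Not at hv
        rw [cm_lab_out hv]
        linarith
  · push Not at hu
    rw [cm_lab_out hu]
    by_cases hv : ∃ j, v ∈ Z.capM q.al j
    · obtain ⟨j, hj⟩ := hv
      have huL : u ≤ q.al (Z.cL j) := by
        by_contra hcon
        push Not at hcon
        exact hu j ⟨hcon, lt_of_le_of_lt huv hj.2⟩
      have h2 := (cm_lab_mem hc hP hG hj).1
      linarith
    · push Not at hv
      rw [cm_lab_out hv]
      exact huv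

theorem cm_lab_meas (hc : 0 < cE) (hP : P.Ok cE D0) (hG : CmGeo P lam q X Z Kg Lp) : Measurable (Z.lab q.al) := by
  exact (cm_lab_mono hc hP hG).measurable

/-- equal labels: the same point or the same cap -/
theorem cm_lab_eq (hc : 0 < cE) (hP : P.Ok cE D0) (hG : CmGeo P lam q X Z Kg Lp) {u v : ℝ} (h : Z.lab q.al u = Z.lab q.al v) :
    u = v ∨ ∃ i, u ∈ Z.capM q.al i ∧ v ∈ Z.capM q.al i := by
  by_cases hu : ∃ i, u ∈ Z.capM q.al i
  · obtain ⟨i, hi⟩ := hu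
    have h1 := cm_lab_mem hc hP hG hi
    by_cases hv : ∃ j, v ∈ Z.capM q.al j
    · obtain ⟨j, hj⟩ := hv
      have h2 := cm_lab_mem hc hP hG hj
      have hij : i = j := by
        by_contra hne
        rw [h] at h1
        exact Set.disjoint_left.1 (cm_capM_disj hc hP hG hne) h1 h2
      subst hij
      exact Or.inr ⟨i, hi, hj⟩
    · push Not at hv
      rw [h, cm_lab_out hv] at h1
      exact absurd h1 (hv i)
  · push Not at hu
    by_cases hv : ∃ j, v ∈ Z.capM q.al j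
    · obtain ⟨j, hj⟩ := hv
      have h2 := cm_lab_mem hc hP hG hj
      rw [← h, cm_lab_out hu] at h2
      exact absurd h2 (hu j)
    · push Not at hv
      rw [cm_lab_out hu, cm_lab_out hv] at h
      exact Or.inl h

/-- oscillation of `S` inside a cap, mass coordinate -/
theorem cm_cap_osc (hc : 0 < cE) (hP : P.Ok cE D0) (hX : X.Ok) (hG : CmGeo P lam q X Z Kg Lp) {i : ℕ} {u v : ℝ} (hu : u ∈ Z.capM q.al i) (hv : v ∈ Z.capM q.al i) :
    |X.S v - X.S u| ≤ Kg * Lp * (Z.len i + Z.io P.rmin i) := by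
  have key : ∀ u v : ℝ, u ∈ Z.capM q.al i → v ∈ Z.capM q.al i → u ≤ v → |X.S v - X.S u| ≤ Kg * Lp * (Z.len i + Z.io P.rmin i) := by
    intro u v hu hv huv
    have hu1 := cm_capM_sub hc hP hG i hu
    have hv1 := cm_capM_sub hc hP hG i hv
    have hu01 : u ∈ Icc (0 : ℝ) 1 := ⟨hP.u00.trans hu1.1, hu1.2⟩
    have hv01 : v ∈ Icc (0 : ℝ) 1 := ⟨hP.u00.trans hv1.1, hv1.2⟩
    rw [abs_of_nonneg (sub_nonneg.2 (hX.S_mono hu01 hv01 huv))]
    rw [cm_capM_image hc hP hG i] at hu hv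
    obtain ⟨s, hs, rfl⟩ := hu
    obtain ⟨t, ht, rfl⟩ := hv
    have hs1 : s ∈ Icc P.rmin 1 := cm_g_cap_sub hG i ⟨hs.1.le, hs.2.le⟩
    have ht1 : t ∈ Icc P.rmin 1 := cm_g_cap_sub hG i ⟨ht.1.le, ht.2.le⟩
    have hst : s ≤ t := ((cm_q_al_strictMono hc hP q).le_iff_le hs1 ht1).1 huv
    exact hG.cap_dS i s t hs.1 hst ht.2
  rcases le_total u v with huv | huv
  · exact key u v hu hv huv
  · rw [abs_sub_comm]; exact key v u hv hu huv

theorem cm_geo_cL_mem (hG : CmGeo P lam q X Z Kg Lp) (i : ℕ) : Z.cL i ∈ Icc P.rmin 1 :=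
  ⟨hG.cap_lo i, (hG.cap_le i).trans (hG.cap_hi i)⟩

theorem cm_geo_cR_mem (hG : CmGeo P lam q X Z Kg Lp) (i : ℕ) : Z.cR i ∈ Icc P.rmin 1 :=
  ⟨(hG.cap_lo i).trans (hG.cap_le i), hG.cap_hi i⟩

theorem cm_geo_cap_mem (hG : CmGeo P lam q X Z Kg Lp) {i : ℕ} {t : ℝ} (ht : t ∈ Icc (Z.cL i) (Z.cR i)) : t ∈ Icc P.rmin 1 :=
  ⟨(hG.cap_lo i).trans ht.1, ht.2.trans (hG.cap_hi i)⟩

/-- on a cap `dr = du / M(u)` -/
theorem cm_geo_cap_len_eq (hc : 0 < cE) (hP : P.Ok cE D0) (hG : CmGeo P lam q X Z Kg Lp) (i : ℕ) :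
    Z.len i = ∫ u in q.al (Z.cL i)..q.al (Z.cR i), (P.M u)⁻¹ := by
  have hle := hG.cap_le i
  have hsub : Icc (Z.cL i) (Z.cR i) ⊆ Icc P.rmin 1 := fun t ht => cm_geo_cap_mem hG ht
  have hal : ContinuousOn q.al (Icc (Z.cL i) (Z.cR i)) := (cm_q_al_cont hc hP q).mono hsub
  have hMal : ContinuousOn (fun r => P.M (q.al r)) (Icc (Z.cL i) (Z.cR i)) := cm_M_cont.comp_continuousOn hal
  have hpos : ∀ t ∈ Icc (Z.cL i) (Z.cR i), 0 < P.M (q.al t) := fun t ht =>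
    cm_M_pos hc hP (hP.u00.trans (cm_q_al_mem hc hP q (hsub ht)).1)
  have hder : ∀ x ∈ Ioo (min (Z.cL i) (Z.cR i)) (max (Z.cL i) (Z.cR i)),
      HasDerivWithinAt q.al (P.M (q.al x)) (Ioi x) x := by
    intro x hx
    rw [min_eq_left hle, max_eq_right hle] at hx
    have hnhds : Icc (Z.cL i) (Z.cR i) ∈ nhds x := Icc_mem_nhds hx.1 hx.2
    have hca : ContinuousAt (fun r => P.M (q.al r)) x := hMal.continuousAt hnhds
    have hint : IntervalIntegrable (fun r => P.M (q.al r)) volume (Z.cL i) x :=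
      (hMal.mono (Icc_subset_Icc_right hx.2.le)).intervalIntegrable_of_Icc hx.1.le
    have hmeas : StronglyMeasurableAtFilter (fun r => P.M (q.al r)) (nhds x) volume :=
      hMal.stronglyMeasurableAtFilter_nhdsWithin measurableSet_Icc x |>.filter_mono (by
        rw [nhdsWithin_eq_nhds.2 hnhds])
    have h1 : HasDerivAt (fun t => ∫ r in (Z.cL i)..t, P.M (q.al r)) (P.M (q.al x)) x :=
      intervalIntegral.integral_hasDerivAt_right hint hmeas hca
    have h2 : HasDerivAt (fun t => q.al (Z.cL i) + ∫ r in (Z.cL i)..t, P.M (q.al r)) (P.M (q.al x)) x :=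
      h1.const_add _
    have h3 : q.al =ᶠ[nhds x] fun t => q.al (Z.cL i) + ∫ r in (Z.cL i)..t, P.M (q.al r) := by
      filter_upwards [hnhds] with t ht
      have := hG.cap_eq i (Z.cL i) t le_rfl ht.1 ht.2
      linarith
    exact (h2.congr_of_eventuallyEq h3).hasDerivWithinAt
  have hsubst := intervalIntegral.integral_comp_mul_deriv'' (a := Z.cL i) (b := Z.cR i) (f := q.al)
    (f' := fun r => P.M (q.al r)) (g := fun u => (P.M u)⁻¹) (by rwa [uIcc_of_le hle]) hder (by rwa [uIcc_of_le hle])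
    (by
      rw [uIcc_of_le hle]
      apply ContinuousOn.inv₀ cm_M_cont.continuousOn
      rintro u ⟨t, ht, rfl⟩
      exact (hpos t ht).ne')
  rw [← hsubst]
  have hone : ∫ x in (Z.cL i)..(Z.cR i), ((fun u => (P.M u)⁻¹) ∘ q.al) x * P.M (q.al x) = ∫ x in (Z.cL i)..(Z.cR i), (1 : ℝ) := by
    apply intervalIntegral.integral_congr
    intro x hx
    rw [uIcc_of_le hle] at hx
    simp only [Function.comp]
    exact inv_mul_cancel₀ (hpos x hx).ne'
  rw [hone]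
  simp [CmCaps.len]

/-- **time spent in a piece of a cap**: `t - s = ∫ du/M(u)` between the end masses (`α' = M(α)`) -/
theorem cm_g_cap_time (hc : 0 < cE) (hP : P.Ok cE D0) (hG : CmGeo P lam q X Z Kg Lp) (i : ℕ) {s t : ℝ} (hs : Z.cL i ≤ s) (hst : s ≤ t) (ht : t ≤ Z.cR i) :
    t - s = ∫ u in (q.al s)..(q.al t), (P.M u)⁻¹ := by
  have hsub : Icc s t ⊆ Icc P.rmin 1 := (Icc_subset_Icc hs ht).trans (cm_g_cap_sub hG i)
  have hac : ContinuousOn q.al (Icc s t) := (cm_q_al_cont hc hP q).mono hsub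
  have hφc : ContinuousOn (fun r => P.M (q.al r)) (Icc s t) := cm_M_cont.comp_continuousOn hac
  have hpos : ∀ r ∈ Icc s t, 0 < P.M (q.al r) := fun r hr =>
    cm_M_pos hc hP (hP.u00.trans (cm_q_al_mem hc hP q (hsub hr)).1)
  have hder : ∀ x ∈ Ioo s t, HasDerivWithinAt q.al (P.M (q.al x)) (Ioi x) x := by
    intro x hx
    have hx' : x ∈ Icc s t := ⟨hx.1.le, hx.2.le⟩
    have : Fact (x ∈ Icc s t) := ⟨hx'⟩
    have a1 : HasDerivWithinAt (fun y => ∫ r in s..y, P.M (q.al r)) (P.M (q.al x)) (Icc s t) x :=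
      intervalIntegral.integral_hasDerivWithinAt_right
        ((hφc.mono (Icc_subset_Icc le_rfl hx.2.le)).intervalIntegrable_of_Icc hx.1.le)
        (hφc.stronglyMeasurableAtFilter_nhdsWithin measurableSet_Icc x) (hφc x hx')
    have a2 : HasDerivWithinAt q.al (P.M (q.al x)) (Icc s t) x := by
      refine (a1.const_add (q.al s)).congr (fun y hy => ?_) ?_
      · linarith [hG.cap_eq i s y hs hy.1 (hy.2.trans ht)]
      · linarith [hG.cap_eq i s x hs hx.1.le (hx.2.le.trans ht)]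
    exact (a2.hasDerivAt (Icc_mem_nhds hx.1 hx.2)).hasDerivWithinAt
  have hgc : ContinuousOn (fun u => (P.M u)⁻¹) (q.al '' uIcc s t) := by
    rw [uIcc_of_le hst]
    rintro _ ⟨r, hr, rfl⟩
    exact (cm_M_cont.continuousAt.inv₀ (hpos r hr).ne').continuousWithinAt
  have hcv := intervalIntegral.integral_comp_mul_deriv'' (a := s) (b := t) (f := q.al) (f' := fun r => P.M (q.al r))
    (g := fun u => (P.M u)⁻¹) (by rwa [uIcc_of_le hst]) (by rwa [min_eq_left hst, max_eq_right hst])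
    (by rwa [uIcc_of_le hst]) hgc
  rw [← hcv]
  have e1 : ∫ x in s..t, ((fun u => (P.M u)⁻¹) ∘ q.al) x * P.M (q.al x) = ∫ _x in s..t, (1 : ℝ) := by
    apply intervalIntegral.integral_congr
    intro x hx
    rw [uIcc_of_le hst] at hx
    simp only [Function.comp]
    exact inv_mul_cancel₀ (hpos x hx).ne'
  rw [e1]; simp

/-- length of a cap (first form): `ℓ ≤ n^(-δ) L log((α r₂+u_*)/(α r₁+u_*))` -/
theorem cm_cap_len (hc : 0 < cE) (hP : P.Ok cE D0) (hG : CmGeo P lam q X Z Kg Lp) (i : ℕ) :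
    Z.len i ≤ P.N ^ (-P.dl) * P.L * Real.log ((q.al (Z.cR i) + P.us) / (q.al (Z.cL i) + P.us)) := by
  rw [cm_geo_cap_len_eq hc hP hG i]
  exact cm_invM_integral hc hP (hP.u00.trans (cm_q_al_mem hc hP q (cm_geo_cL_mem hG i)).1)
    ((cm_q_al_strictMono hc hP q).monotoneOn (cm_geo_cL_mem hG i) (cm_geo_cR_mem hG i) (hG.cap_le i))

/-- length of a cap (second form): `α(r₁)² ℓ ≤ n^(-δ) (E/d³) μ` -/
theorem cm_cap_len' (hc : 0 < cE) (hP : P.Ok cE D0) (hG : CmGeo P lam q X Z Kg Lp) (i : ℕ) :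
    q.al (Z.cL i) ^ 2 * Z.len i ≤ P.N ^ (-P.dl) * (P.E / P.d ^ 3) * (q.al (Z.cR i) - q.al (Z.cL i)) := by
  have h0 : 0 ≤ q.al (Z.cL i) := hP.u00.trans (cm_q_al_mem hc hP q (cm_geo_cL_mem hG i)).1
  have h12 : q.al (Z.cL i) ≤ q.al (Z.cR i) :=
    (cm_q_al_strictMono hc hP q).monotoneOn (cm_geo_cL_mem hG i) (cm_geo_cR_mem hG i) (hG.cap_le i)
  have hN := cm_N_pos hP
  have hE := cm_E_pos hc hP
  have hd := hP.d0
  rcases h0.eq_or_lt with h | h
  · rw [← h]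
    have : 0 ≤ P.N ^ (-P.dl) * (P.E / P.d ^ 3) * (q.al (Z.cR i) - 0) := by
      have h3 : 0 ≤ q.al (Z.cR i) - 0 := by rw [h]; linarith
      have h4 : 0 ≤ P.N ^ (-P.dl) := Real.rpow_nonneg hN.le _
      positivity
    simpa using this
  · have h1 := cm_invM_integral' hc hP h h12
    rw [← cm_geo_cap_len_eq hc hP hG i] at h1
    calc q.al (Z.cL i) ^ 2 * Z.len i
        ≤ q.al (Z.cL i) ^ 2 * (P.N ^ (-P.dl) * (P.E / P.d ^ 3) * ((q.al (Z.cR i) - q.al (Z.cL i)) / q.al (Z.cL i) ^ 2)) :=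
          mul_le_mul_of_nonneg_left h1 (sq_nonneg _)
      _ = P.N ^ (-P.dl) * (P.E / P.d ^ 3) * (q.al (Z.cR i) - q.al (Z.cL i)) := by
          field_simp

/-! ## 3. Lemma 3.10: traces on units, (20) -/

/-- all three conclusions of `cm_ut_cap_abs` on a piece `[s,t]` of a cap -/
theorem cm_ut_cap_all (hc : 0 < cE) (hP : P.Ok cE D0) (hl : 0 < lam) (hX : X.Ok) (hG : CmGeo P lam q X Z Kg Lp) {i : ℕ} {s t eg : ℝ}
    (hs : Z.cL i ≤ s) (hst : s < t) (ht : t ≤ Z.cR i) (heg0 : 0 < eg) (heg : ∀ r ∈ Ioo s t, eg ≤ P.e lam r) :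
    (∫ u in Ioo (q.al s) (q.al t), X.TH u ≤ P.M (q.al t) * (Kg ^ 2 * Lp ^ 2 * (Z.len i + Z.io P.rmin i) / (P.N * eg))) ∧
    P.M (q.al s) * (t - s) ≤ q.al t - q.al s := by
  have hN := cm_N_pos hP
  have hKg : 0 < Kg := lt_of_lt_of_le one_pos hG.Kg1
  have hLp : 0 < Lp := lt_of_lt_of_le one_pos hG.Lp1
  have hs0 : P.rmin ≤ s := (hG.cap_lo i).trans hs
  have ht1 : t ≤ 1 := ht.trans (hG.cap_hi i)
  have hsub : Icc s t ⊆ Icc P.rmin 1 := Icc_subset_Icc hs0 ht1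
  have hsm : s ∈ Icc P.rmin 1 := hsub (left_mem_Icc.2 hst.le)
  have htm : t ∈ Icc P.rmin 1 := hsub (right_mem_Icc.2 hst.le)
  have hu01 : Icc (q.al s) (q.al t) ⊆ Icc (0 : ℝ) 1 :=
    Icc_subset_Icc (hP.u00.trans (cm_q_al_mem hc hP q hsm).1) (cm_q_al_mem hc hP q htm).2
  have H := cm_ut_cap_abs q.al X.S X.TH (fun r => P.e lam r) P.M s t (P.N / (Kg * Lp)) (Kg * Lp * (Z.len i + Z.io P.rmin i)) eg hst
    ((cm_q_al_strictMono hc hP q).monotoneOn.mono hsub) ((cm_q_al_cont hc hP q).mono hsub)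
    cm_M_cont.continuousOn (fun u hu => cm_M_pos hc hP (hu01 hu).1) ((cm_M_mono hc hP).mono (fun u hu => (hu01 hu).1))
    (fun s' t' h1 h2 h3 => hG.cap_eq i s' t' (hs.trans h1) h2 (h3.trans ht))
    hX.TH_meas (fun u hu => hX.TH_nn u (hu01 hu)) (fun u hu => hX.TH_le u (hu01 hu))
    (cm_e_cont P lam).continuousOn (by positivity) heg0 heg
    (fun s' t' h1 h2 h3 => hG.clock s' t' (hs0.trans h1) h2 (h3.trans ht1))
    (fun s' t' h1 h2 h3 => hG.cap_dS i s' t' (lt_of_le_of_lt hs h1) h2 (lt_of_lt_of_le h3 ht))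
  have e : Kg * Lp * (Z.len i + Z.io P.rmin i) / (P.N / (Kg * Lp) * eg) = Kg ^ 2 * Lp ^ 2 * (Z.len i + Z.io P.rmin i) / (P.N * eg) := by
    field_simp
  rw [e] at H
  exact ⟨H.2.1, H.2.2⟩

/-- the trace on a piece `[s,t]` of a cap, in mass -/
theorem cm_ut_cap (hc : 0 < cE) (hP : P.Ok cE D0) (hl : 0 < lam) (hX : X.Ok) (hG : CmGeo P lam q X Z Kg Lp) {i : ℕ} {s t eg : ℝ}
    (hs : Z.cL i ≤ s) (hst : s < t) (ht : t ≤ Z.cR i) (heg0 : 0 < eg) (heg : ∀ r ∈ Ioo s t, eg ≤ P.e lam r) :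
    ∫ u in Ioo (q.al s) (q.al t), X.TH u ≤ P.M (q.al t) * (Kg ^ 2 * Lp ^ 2 * (Z.len i + Z.io P.rmin i) / (P.N * eg)) := by
  exact (cm_ut_cap_all hc hP hl hX hG hs hst ht heg0 heg).1

/-- **(20) on a complete cap** with comparable end masses and no wall loss -/
theorem cm_ut_unit (hc : 0 < cE) (hP : P.Ok cE D0) (hl : 0 < lam) (hX : X.Ok) (hG : CmGeo P lam q X Z Kg Lp) {i : ℕ} {Gam eg : ℝ}
    (hi : Z.cL i < Z.cR i) (hGam : 1 ≤ Gam) (hratio : q.al (Z.cR i) + P.us ≤ Gam * (q.al (Z.cL i) + P.us))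
    (hwall : Z.io P.rmin i = 0 ∨ P.us ≤ q.al (Z.cR i) - q.al (Z.cL i))
    (heg0 : 0 < eg) (heg : ∀ r ∈ Ioo (Z.cL i) (Z.cR i), eg ≤ P.e lam r) :
    ∫ u in Z.capM q.al i, X.TH u ≤ 2 * Gam ^ 2 * Kg ^ 2 * Lp ^ 2 / (P.N * eg) * (q.al (Z.cR i) - q.al (Z.cL i)) := by
  have hN := cm_N_pos hP
  have hus := cm_us_pos hc hP
  have hKg : 0 < Kg := lt_of_lt_of_le one_pos hG.Kg1
  have hLp : 0 < Lp := lt_of_lt_of_le one_pos hG.Lp1
  obtain ⟨H1, H2⟩ := cm_ut_cap_all hc hP hl hX hG le_rfl hi le_rfl heg0 heg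
  have hLm : Z.cL i ∈ Icc P.rmin 1 := ⟨hG.cap_lo i, hi.le.trans (hG.cap_hi i)⟩
  have hRm : Z.cR i ∈ Icc P.rmin 1 := ⟨(hG.cap_lo i).trans hi.le, hG.cap_hi i⟩
  have haL : 0 ≤ q.al (Z.cL i) := hP.u00.trans (cm_q_al_mem hc hP q hLm).1
  have hLR : q.al (Z.cL i) ≤ q.al (Z.cR i) := (cm_q_al_strictMono hc hP q).monotoneOn hLm hRm hi.le
  set μ := q.al (Z.cR i) - q.al (Z.cL i) with hμ
  have hμ0 : 0 ≤ μ := by rw [hμ]; linarith
  have hML : 0 < P.M (q.al (Z.cL i)) := cm_M_pos hc hP haL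
  have hMR : P.M (q.al (Z.cR i)) ≤ Gam ^ 2 * P.M (q.al (Z.cL i)) := by
    refine (cm_M_ratio hc hP haL hLR).trans ?_
    apply mul_le_mul_of_nonneg_right _ hML.le
    apply pow_le_pow_left₀ (div_nonneg (by linarith) (by linarith))
    rw [div_le_iff₀ (by linarith)]
    exact hratio
  have hlen : P.M (q.al (Z.cL i)) * Z.len i ≤ μ := H2
  have hlen0 : 0 ≤ Z.len i := by unfold CmCaps.len; linarith
  have hio : P.M (q.al (Z.cL i)) * Z.io P.rmin i ≤ μ := by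
    rcases hwall with h0 | h1
    · rw [h0, mul_zero]; exact hμ0
    · unfold CmCaps.io
      split_ifs with hc'
      · rw [hc', q.al_min]
        have hM0 : 0 < P.M P.u0 := cm_M_pos hc hP hP.u00
        have := hP.r1
        rw [le_div_iff₀ hM0] at this
        linarith
      · rw [mul_zero]; exact hμ0
  have hio0 : 0 ≤ Z.io P.rmin i := by
    unfold CmCaps.io
    split_ifs
    · exact hP.r0
    · exact le_rfl
  have hA : P.M (q.al (Z.cR i)) * (Z.len i + Z.io P.rmin i) ≤ 2 * Gam ^ 2 * μ := by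
    calc P.M (q.al (Z.cR i)) * (Z.len i + Z.io P.rmin i) ≤ Gam ^ 2 * P.M (q.al (Z.cL i)) * (Z.len i + Z.io P.rmin i) :=
          mul_le_mul_of_nonneg_right hMR (by linarith)
      _ = Gam ^ 2 * (P.M (q.al (Z.cL i)) * Z.len i + P.M (q.al (Z.cL i)) * Z.io P.rmin i) := by ring
      _ ≤ Gam ^ 2 * (μ + μ) := by gcongr
      _ = 2 * Gam ^ 2 * μ := by ring
  refine H1.trans ?_
  calc P.M (q.al (Z.cR i)) * (Kg ^ 2 * Lp ^ 2 * (Z.len i + Z.io P.rmin i) / (P.N * eg))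
      = (P.M (q.al (Z.cR i)) * (Z.len i + Z.io P.rmin i)) * (Kg ^ 2 * Lp ^ 2 / (P.N * eg)) := by ring
    _ ≤ (2 * Gam ^ 2 * μ) * (Kg ^ 2 * Lp ^ 2 / (P.N * eg)) := mul_le_mul_of_nonneg_right hA (by positivity)
    _ = _ := by ring

/-- integrability of `TH ∘ α` on the radius interval -/
theorem cm_THal_int (hc : 0 < cE) (hP : P.Ok cE D0) (hX : X.Ok) (q : CmQ P) : IntegrableOn (fun r => X.TH (q.al r)) (Icc P.rmin 1) volume := by
  apply Integrable.mono' (integrable_const (1 : ℝ))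
  · exact (hX.TH_meas.comp_aemeasurable ((cm_q_al_cont hc hP q).aemeasurable measurableSet_Icc)).aestronglyMeasurable
  · rw [ae_restrict_iff' measurableSet_Icc]
    refine Filter.Eventually.of_forall (fun r hr => ?_)
    have hm := cm_q_al_mem hc hP q hr
    have hm' : q.al r ∈ Icc (0 : ℝ) 1 := ⟨hP.u00.trans hm.1, hm.2⟩
    rw [Real.norm_of_nonneg (hX.TH_nn _ hm')]
    exact hX.TH_le _ hm'

/-- the trace integrated in RADIUS over an interval (l.1134-1140) -/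
theorem cm_ut_rad (hc : 0 < cE) (hP : P.Ok cE D0) (hl : 0 < lam) (hX : X.Ok) (hG : CmGeo P lam q X Z Kg Lp) {s t eg : ℝ}
    (hs : P.rmin ≤ s) (hst : s ≤ t) (ht : t ≤ 1) (heg0 : 0 < eg) (heg : ∀ r ∈ Icc s t, eg ≤ P.e lam r) :
    ∫ r in s..t, X.TH (q.al r) ≤ Kg * Lp * (X.S (q.al t) - X.S (q.al s)) / (P.N * eg) := by
  have hN := cm_N_pos hP
  have hKg : 0 < Kg := lt_of_lt_of_le one_pos hG.Kg1
  have hLp : 0 < Lp := lt_of_lt_of_le one_pos hG.Lp1
  have hgi : IntervalIntegrable (fun r => X.TH (q.al r)) volume s t := by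
    rw [intervalIntegrable_iff_integrableOn_Icc_of_le hst]
    exact (cm_THal_int hc hP hX q).mono_set (Icc_subset_Icc hs ht)
  have h1 := hG.clock s t hs hst ht
  have h2 : ∫ r in s..t, eg * X.TH (q.al r) ≤ ∫ r in s..t, P.e lam r * X.TH (q.al r) := by
    apply intervalIntegral.integral_mono_on hst (hgi.const_mul eg)
    · exact hgi.continuousOn_mul (cm_e_cont P lam).continuousOn
    · intro x hx
      have hm := cm_q_al_mem hc hP q (⟨hs.trans hx.1, hx.2.trans ht⟩ : x ∈ Icc P.rmin 1)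
      exact mul_le_mul_of_nonneg_right (heg x hx) (hX.TH_nn _ ⟨hP.u00.trans hm.1, hm.2⟩)
  rw [intervalIntegral.integral_const_mul] at h2
  rw [le_div_iff₀ (by positivity)]
  have h3 : P.N / (Kg * Lp) * (eg * ∫ r in s..t, X.TH (q.al r)) ≤ X.S (q.al t) - X.S (q.al s) :=
    (mul_le_mul_of_nonneg_left h2 (by positivity)).trans h1
  calc (∫ r in s..t, X.TH (q.al r)) * (P.N * eg) = Kg * Lp * (P.N / (Kg * Lp) * (eg * ∫ r in s..t, X.TH (q.al r))) := by
        field_simp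
    _ ≤ _ := mul_le_mul_of_nonneg_left h3 (by positivity)

/-- **(20) on contact**, radius coordinate (from `clock`, `ct_two`, `cm_density_le`) -/
theorem cm_ut_ct (hc : 0 < cE) (hP : P.Ok cE D0) (hl : 0 < lam) (hX : X.Ok) (hG : CmGeo P lam q X Z Kg Lp) :
    ∀ᵐ r ∂(volume.restrict Z.Ct), P.e lam r * X.TH (q.al r) ≤ Kg ^ 2 * Lp ^ 2 / P.N := by
  have hN := cm_N_pos hP
  have hKg : 0 < Kg := lt_of_lt_of_le one_pos hG.Kg1
  have hLp : 0 < Lp := lt_of_lt_of_le one_pos hG.Lp1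
  set f : ℝ → ℝ := fun r => P.e lam r * X.TH (q.al r) with hf
  have hfI : IntegrableOn f (Icc P.rmin 1) volume := by
    by_cases h1 : P.rmin ≤ 1
    · have h3 : IntervalIntegrable (fun r => X.TH (q.al r)) volume P.rmin 1 := by
        rw [intervalIntegrable_iff_integrableOn_Icc_of_le h1]
        exact cm_THal_int hc hP hX q
      have h4 := h3.continuousOn_mul (g := fun r => P.e lam r) (cm_e_cont P lam).continuousOn
      rwa [intervalIntegrable_iff_integrableOn_Icc_of_le h1] at h4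
    · rw [Icc_eq_empty h1]; exact integrableOn_empty
  set F : ℝ → ℝ := (Icc P.rmin 1).indicator f with hF
  have hFl : LocallyIntegrable F volume := (hfI.integrable_indicator measurableSet_Icc).locallyIntegrable
  have key := cm_density_le F hFl Z.Ct hG.ct_meas (fun r hr => hP.r0.trans (hG.ct_sub hr).1) (Kg ^ 2 * Lp ^ 2 / P.N) (by
    intro r1 h1 r2 h2 h12 h22
    have m1 := hG.ct_sub h1
    have m2 := hG.ct_sub h2
    have e1 : ∫ r in r1..r2, F r = ∫ r in r1..r2, f r := by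
      apply intervalIntegral.integral_congr
      intro x hx
      rw [uIcc_of_le h12.le] at hx
      have hxm : x ∈ Icc P.rmin 1 := ⟨m1.1.trans hx.1, hx.2.trans m2.2⟩
      exact indicator_of_mem hxm f
    rw [e1]
    have c1 := hG.clock r1 r2 m1.1 h12.le m2.2
    have c2 := hG.ct_two r1 h1 r2 h2 h12 h22
    have c3 : P.N / (Kg * Lp) * ∫ r in r1..r2, f r ≤ Kg * Lp * (r2 - r1) := c1.trans c2
    calc ∫ r in r1..r2, f r = Kg * Lp / P.N * (P.N / (Kg * Lp) * ∫ r in r1..r2, f r) := by field_simp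
      _ ≤ Kg * Lp / P.N * (Kg * Lp * (r2 - r1)) := mul_le_mul_of_nonneg_left c3 (by positivity)
      _ = _ := by ring)
  rw [ae_restrict_iff' hG.ct_meas] at key ⊢
  filter_upwards [key] with r hr hrC
  have := hr hrC
  rwa [hF, indicator_of_mem (hG.ct_sub hrC)] at this

/-- **(20) on contact**, mass coordinate -/
theorem cm_ut_ct_mass (hc : 0 < cE) (hP : P.Ok cE D0) (hl : 0 < lam) (hX : X.Ok) (hG : CmGeo P lam q X Z Kg Lp) :
    ∀ᵐ u ∂(volume.restrict (q.al '' Z.Ct)), P.e lam (q.r u) * X.TH u ≤ Kg ^ 2 * Lp ^ 2 / P.N := by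
  have h1 := cm_ut_ct hc hP hl hX hG
  rw [ae_restrict_iff' hG.ct_meas, ae_iff] at h1
  rw [ae_restrict_iff' (cm_al_meas hc hP q hG.ct_sub hG.ct_meas), ae_iff]
  set Nn := {r | ¬(r ∈ Z.Ct → P.e lam r * X.TH (q.al r) ≤ Kg ^ 2 * Lp ^ 2 / P.N)} with hNn
  have hNsub : Nn ⊆ Icc P.rmin 1 := by
    intro r hr
    rw [hNn, mem_ofPred_eq, Classical.not_imp] at hr
    exact hG.ct_sub hr.1
  have h2 := cm_al_null hc hP q hNsub h1
  refine measure_mono_null ?_ h2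
  intro u hu
  rw [mem_ofPred_eq, Classical.not_imp] at hu
  obtain ⟨⟨r, hr, rfl⟩, hu2⟩ := hu
  rw [q.r_al r (hG.ct_sub hr)] at hu2
  refine ⟨r, ?_, rfl⟩
  rw [hNn, mem_ofPred_eq, Classical.not_imp]
  exact ⟨hr, hu2⟩

/-- **unit averages tested against unit-measurable functions**: cap averages + a.e. bound on contact give the hypothesis `hC`, `hW` of `cm_br_abs` -/
theorem cm_group_trace (hc : 0 < cE) (hP : P.Ok cE D0) (hG : CmGeo P lam q X Z Kg Lp) {G : Set ℝ} (hGr : Z.IsGroup q.al G) {τ : ℝ} {F : ℝ → ℝ}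
    (hFm : Measurable F) (hF0 : ∀ u ∈ Icc (0 : ℝ) 1, 0 ≤ F u) (hF1 : ∃ B : ℝ, ∀ u ∈ Icc (0 : ℝ) 1, F u ≤ B)
    (hcap : ∀ i, Z.cL i < Z.cR i → Z.capM q.al i ⊆ G → ∫ u in Z.capM q.al i, F u ≤ τ * (q.al (Z.cR i) - q.al (Z.cL i)))
    (hct : ∀ᵐ u ∂(volume.restrict (G ∩ q.al '' Z.Ct)), F u ≤ τ)
    (g : ℝ → ℝ) (hgm : Measurable g) (hg0 : ∀ x, 0 ≤ g x) (hgb : ∃ B : ℝ, ∀ x, g x ≤ B) :
    ∫ j in G, g (Z.lab q.al j) * F j ≤ τ * ∫ j in G, g (Z.lab q.al j) := by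
  obtain ⟨BF, hBF⟩ := hF1
  obtain ⟨Bg, hBg⟩ := hgb
  have hcapm : ∀ i, MeasurableSet (Z.capM q.al i) := fun i => by unfold CmCaps.capM; exact measurableSet_Ioo
  have hCtm : MeasurableSet (q.al '' Z.Ct) := cm_al_meas hc hP q hG.ct_sub hG.ct_meas
  have hG01 : G ⊆ Icc (0 : ℝ) 1 := by
    intro u hu
    rcases hGr.sub hu with h | h
    · obtain ⟨i, hi⟩ := mem_iUnion.1 h
      have := cm_capM_sub hc hP hG i hi
      exact ⟨hP.u00.trans this.1, this.2⟩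
    · obtain ⟨r, hr, rfl⟩ := h
      have := cm_q_al_mem hc hP q (hG.ct_sub hr)
      exact ⟨hP.u00.trans this.1, this.2⟩
  have hfinG : volume G < ⊤ := lt_of_le_of_lt (measure_mono hG01) (by simp)
  have : IsFiniteMeasure (volume.restrict G) := ⟨by rw [Measure.restrict_apply_univ]; exact hfinG⟩
  have hlm : Measurable (fun j => g (Z.lab q.al j)) := hgm.comp (cm_lab_meas hc hP hG)
  set h1 : ℝ → ℝ := fun j => g (Z.lab q.al j) * F j with hh1
  set h2 : ℝ → ℝ := fun j => g (Z.lab q.al j) with hh2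
  have i2 : IntegrableOn h2 G volume := by
    apply Integrable.mono' (integrable_const Bg) hlm.aestronglyMeasurable
    refine Filter.Eventually.of_forall (fun j => ?_)
    rw [Real.norm_of_nonneg (hg0 _)]
    exact hBg _
  have i1 : IntegrableOn h1 G volume := by
    apply Integrable.mono' (integrable_const (Bg * BF)) (hlm.mul hFm).aestronglyMeasurable
    rw [ae_restrict_iff' hGr.meas]
    refine Filter.Eventually.of_forall (fun j hj => ?_)
    have f0 := hF0 j (hG01 hj)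
    show ‖g (Z.lab q.al j) * F j‖ ≤ Bg * BF
    rw [Real.norm_of_nonneg (mul_nonneg (hg0 _) f0)]
    exact mul_le_mul (hBg _) (hBF j (hG01 hj)) f0 ((hg0 0).trans (hBg 0))
  set C := G ∩ q.al '' Z.Ct with hC
  set A : ℕ → Set ℝ := fun i => Z.capM q.al i ∩ G with hA
  have hAm : ∀ i, MeasurableSet (A i) := fun i => (hcapm i).inter hGr.meas
  have hAd : Pairwise (Function.onFun Disjoint A) := by
    intro i j hij
    exact (cm_capM_disj hc hP hG hij).mono inter_subset_left inter_subset_left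
  have hGeq : G = C ∪ ⋃ i, A i := by
    apply Subset.antisymm
    · intro u hu
      rcases hGr.sub hu with h | h
      · obtain ⟨i, hi⟩ := mem_iUnion.1 h
        exact Or.inr (mem_iUnion.2 ⟨i, hi, hu⟩)
      · exact Or.inl ⟨hu, h⟩
    · intro u hu
      rcases hu with h | h
      · exact h.1
      · obtain ⟨i, hi⟩ := mem_iUnion.1 h
        exact hi.2
  have hCA : Disjoint C (⋃ i, A i) := by
    rw [disjoint_iUnion_right]
    intro i
    exact ((cm_capM_ct hc hP hG i).mono inter_subset_left inter_subset_right).symm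
  have hUm : MeasurableSet (⋃ i, A i) := MeasurableSet.iUnion hAm
  have hCsub : C ⊆ G := inter_subset_left
  have hUsub : (⋃ i, A i) ⊆ G := iUnion_subset (fun i => inter_subset_right)
  have split : ∀ h : ℝ → ℝ, IntegrableOn h G volume →
      (∫ j in G, h j = (∫ j in C, h j) + ∑' i, ∫ j in A i, h j) ∧ Summable (fun i => ∫ j in A i, h j) := by
    intro h hi
    have hs := hasSum_integral_iUnion hAm hAd (hi.mono_set hUsub)
    refine ⟨?_, hs.summable⟩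
    conv_lhs => rw [hGeq]
    rw [setIntegral_union hCA hUm (hi.mono_set hCsub) (hi.mono_set hUsub), hs.tsum_eq]
  obtain ⟨e1, s1⟩ := split h1 i1
  obtain ⟨e2, s2⟩ := split h2 i2
  rw [e1, e2, mul_add, ← tsum_mul_left]
  have hCle : ∫ j in C, h1 j ≤ τ * ∫ j in C, h2 j := by
    rw [← integral_const_mul]
    apply integral_mono_ae (i1.mono_set hCsub) ((i2.mono_set hCsub).const_mul τ)
    filter_upwards [hct] with u hu
    show g (Z.lab q.al u) * F u ≤ τ * g (Z.lab q.al u)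
    rw [mul_comm τ]
    exact mul_le_mul_of_nonneg_left hu (hg0 _)
  have hAle : ∀ i, ∫ j in A i, h1 j ≤ τ * ∫ j in A i, h2 j := by
    intro i
    by_cases hne : (Z.capM q.al i ∩ G).Nonempty
    · have hsub := hGr.sat i hne
      have hAi : A i = Z.capM q.al i := inter_eq_left.2 hsub
      rw [hAi]
      obtain ⟨u0, hu0, -⟩ := hne
      have hlt : q.al (Z.cL i) < q.al (Z.cR i) := by
        unfold CmCaps.capM at hu0
        exact hu0.1.trans hu0.2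
      have hlt' : Z.cL i < Z.cR i := by
        rcases (hG.cap_le i).eq_or_lt with h | h
        · rw [h] at hlt; exact absurd hlt (lt_irrefl _)
        · exact h
      set m := (q.al (Z.cL i) + q.al (Z.cR i)) / 2 with hm
      have c1 : ∫ j in Z.capM q.al i, h1 j = g m * ∫ j in Z.capM q.al i, F j := by
        rw [← integral_const_mul]
        apply setIntegral_congr_fun (hcapm i)
        intro j hj
        show g (Z.lab q.al j) * F j = g m * F j
        rw [cm_lab_cap hc hP hG hj]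
      have c2 : ∫ j in Z.capM q.al i, h2 j = g m * (q.al (Z.cR i) - q.al (Z.cL i)) := by
        have : ∫ j in Z.capM q.al i, h2 j = ∫ _j in Z.capM q.al i, g m := by
          apply setIntegral_congr_fun (hcapm i)
          intro j hj
          show g (Z.lab q.al j) = g m
          rw [cm_lab_cap hc hP hG hj]
        rw [this, setIntegral_const, smul_eq_mul]
        unfold CmCaps.capM
        rw [Real.volume_real_Ioo_of_le hlt.le]
        ring
      rw [c1, c2]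
      calc g m * ∫ j in Z.capM q.al i, F j ≤ g m * (τ * (q.al (Z.cR i) - q.al (Z.cL i))) :=
            mul_le_mul_of_nonneg_left (hcap i hlt' hsub) (hg0 m)
        _ = _ := by ring
    · have hAi : A i = ∅ := not_nonempty_iff_eq_empty.1 hne
      rw [hAi]; simp
  exact add_le_add hCle (s1.tsum_le_tsum hAle (s2.mul_left τ))

/-! ## 4. Lemma 3.11: the bracket (21) -/

/-- the interpolation bound of `E|X_i-X_j|⁴` in the closed form `cmQ4` -/
theorem cm_g_q4 (hX : X.Ok) {qq : ℕ} (hqq : 3 ≤ qq) {i j ω Cq y0 : ℝ} (hi : i ∈ Icc (0 : ℝ) 1) (hj : j ∈ Icc (0 : ℝ) 1)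
    (hω : |X.S j - X.S i| ≤ ω) (hNi : X.NX qq i ≤ Cq * Real.sqrt y0) (hNj : X.NX qq j ≤ Cq * Real.sqrt y0) :
    X.Q4 i j ≤ cmQ4 ω Cq y0 qq := by
  have hq3 : (3 : ℝ) ≤ (qq : ℝ) := by exact_mod_cast hqq
  have hq1 : (0 : ℝ) < (qq : ℝ) - 1 := by linarith
  have he1 : 0 ≤ 1 - 1 / ((qq : ℝ) - 1) := by
    rw [sub_nonneg, div_le_one hq1]; linarith
  have he2 : 0 ≤ 2 * (qq : ℝ) / ((qq : ℝ) - 1) := by positivity
  refine (hX.q4_int qq hqq i hi j hj).trans ?_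
  unfold cmQ4
  have h1 := hX.NX_nn qq i hi
  have h2 := hX.NX_nn qq j hj
  exact mul_le_mul (Real.rpow_le_rpow (abs_nonneg _) hω he1)
    (Real.rpow_le_rpow (by linarith) (by linarith) he2) (Real.rpow_nonneg (by linarith) _)
    (Real.rpow_nonneg ((abs_nonneg _).trans hω) _)

theorem cm_g_q4_nonneg {ω Cq y0 : ℝ} (hω : 0 ≤ ω) (hCq : 0 ≤ Cq) (qq : ℕ) : 0 ≤ cmQ4 ω Cq y0 qq := by
  unfold cmQ4
  exact mul_nonneg (Real.rpow_nonneg hω _) (Real.rpow_nonneg (by positivity) _)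

/-- a measurable function bounded on `[0,1]` is integrable on the subsets of `[0,1]` -/
theorem cm_g_intOn {F : ℝ → ℝ} (hm : Measurable F) {B : ℝ} (h0 : ∀ u ∈ Icc (0 : ℝ) 1, 0 ≤ F u) (h1 : ∀ u ∈ Icc (0 : ℝ) 1, F u ≤ B)
    {G : Set ℝ} (hG : G ⊆ Icc (0 : ℝ) 1) : IntegrableOn F G := by
  have h : IntegrableOn F (Icc (0 : ℝ) 1) := by
    refine Integrable.of_bound hm.aestronglyMeasurable B ?_
    rw [ae_restrict_iff' measurableSet_Icc]
    exact Filter.Eventually.of_forall fun u hu => by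
      rw [Real.norm_eq_abs, abs_of_nonneg (h0 u hu)]; exact h1 u hu
  exact h.mono_set hG

/-- **(21) on a group of ordinary units** at masses `≍ v`: `k0` height bins, strips `th`, moment order `2 qq`.
`cm_br_abs` with `c = lab`, `b x = ⌊k0 S(x)/y0⌋₊`, `kb = k0 + 1`, `η = y0/k0 + 2ω`, `ω = Kg Lp l0`. -/
theorem cm_br_geo (hc : 0 < cE) (hP : P.Ok cE D0) (hl : 0 < lam) (hX : X.Ok) (hG : CmGeo P lam q X Z Kg Lp)
    {G : Set ℝ} (hGr : Z.IsGroup q.al G) {v Gam y0 l0 eg th Cq : ℝ} {qq k0 : ℕ}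
    (hv : 0 < v) (hGam : 1 ≤ Gam) (hy0 : 0 < y0) (hl0 : 0 ≤ l0) (heg0 : 0 < eg) (hth : 0 < th) (hCq : 0 ≤ Cq) (hqq : 3 ≤ qq) (hk0 : 1 ≤ k0)
    (hband : G ⊆ Icc (v / Gam) (Gam * v))
    (hratio : ∀ i, Z.cL i < Z.cR i → Z.capM q.al i ⊆ G → q.al (Z.cR i) + P.us ≤ Gam * (q.al (Z.cL i) + P.us))
    (hwall : ∀ i, Z.cL i < Z.cR i → Z.capM q.al i ⊆ G → Z.io P.rmin i = 0 ∨ P.us ≤ q.al (Z.cR i) - q.al (Z.cL i))
    (hlen : ∀ i, Z.cL i < Z.cR i → Z.capM q.al i ⊆ G → Z.len i + Z.io P.rmin i ≤ l0)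
    (heg : ∀ u ∈ G, eg ≤ P.e lam (q.r u)) (hS : ∀ u ∈ G, X.S u ≤ y0) (hNX : ∀ u ∈ G, X.NX qq u ≤ Cq * Real.sqrt y0) :
    ∫ u in G, X.D u ^ 2 ≤ cmBrR (volume G).toReal (y0 / k0 + 2 * (Kg * Lp * l0)) (cmQ4 (Kg * Lp * l0) Cq y0 qq)
      ((Gam / v) ^ 2 * (2 * Gam ^ 2 * Kg ^ 2 * Lp ^ 2 / (P.N * eg))) (Gam / v * (2 * Gam ^ 2 * Kg ^ 2 * Lp ^ 2 / (P.N * eg))) th (k0 + 1) := by
  have hN := cm_N_pos hP
  have hKg : 0 < Kg := lt_of_lt_of_le one_pos hG.Kg1
  have hLp : 0 < Lp := lt_of_lt_of_le one_pos hG.Lp1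
  have hGam0 : 0 < Gam := lt_of_lt_of_le one_pos hGam
  have hGu : G ⊆ Icc P.u0 1 := by
    intro u hu
    rcases hGr.sub hu with h | h
    · obtain ⟨i, hi⟩ := mem_iUnion.1 h
      exact cm_capM_sub hc hP hG i hi
    · obtain ⟨r, hr, rfl⟩ := h
      exact cm_q_al_mem hc hP q (hG.ct_sub hr)
  have hG01 : G ⊆ Icc (0 : ℝ) 1 := fun u hu => ⟨hP.u00.trans (hGu hu).1, (hGu hu).2⟩
  -- caps meeting the group
  have hcapG : ∀ i u, u ∈ G → u ∈ Z.capM q.al i → Z.cL i < Z.cR i ∧ Z.capM q.al i ⊆ G := by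
    intro i u huG hu
    refine ⟨lt_of_le_of_ne (hG.cap_le i) (fun h => ?_), hGr.sat i ⟨u, hu, huG⟩⟩
    have hu' : u ∈ Ioo (q.al (Z.cL i)) (q.al (Z.cR i)) := hu
    rw [h] at hu'
    exact lt_irrefl _ (hu'.1.trans hu'.2)
  have hlabG : ∀ u ∈ G, Z.lab q.al u ∈ G := by
    intro u hu
    by_cases h : ∃ i, u ∈ Z.capM q.al i
    · obtain ⟨i, hi⟩ := h
      exact (hcapG i u hu hi).2 (cm_lab_mem hc hP hG hi)
    · push Not at h
      rw [cm_lab_out h]; exact hu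
  obtain ⟨ω, hω⟩ : ∃ ω, ω = Kg * Lp * l0 := ⟨_, rfl⟩
  have hω0 : 0 ≤ ω := by rw [hω]; positivity
  have hcaposc : ∀ i u w, u ∈ G → u ∈ Z.capM q.al i → w ∈ Z.capM q.al i → |X.S w - X.S u| ≤ ω := by
    intro i u w huG hu hw
    obtain ⟨h1, h2⟩ := hcapG i u huG hu
    refine (cm_cap_osc hc hP hX hG hu hw).trans ?_
    rw [hω]
    exact mul_le_mul_of_nonneg_left (hlen i h1 h2) (by positivity)
  have hosc : ∀ u ∈ G, |X.S (Z.lab q.al u) - X.S u| ≤ ω := by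
    intro u hu
    by_cases h : ∃ i, u ∈ Z.capM q.al i
    · obtain ⟨i, hi⟩ := h
      exact hcaposc i u _ hu hi (cm_lab_mem hc hP hG hi)
    · push Not at h
      rw [cm_lab_out h]; simpa using hω0
  have hk0r : (0 : ℝ) < (k0 : ℝ) := by exact_mod_cast hk0
  -- the bins
  let b : ℝ → ℕ := fun x => ⌊(k0 : ℝ) * X.S x / y0⌋₊
  have hb : Measurable b := Nat.measurable_floor.comp ((hX.S_meas.const_mul (k0 : ℝ)).div_const y0)
  have hkb : ∀ i ∈ G, b (Z.lab q.al i) < k0 + 1 := by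
    intro i hi
    refine Nat.lt_succ_of_le (Nat.floor_le_of_le ?_)
    rw [div_le_iff₀ hy0]
    exact mul_le_mul_of_nonneg_left (hS _ (hlabG i hi)) hk0r.le
  have hSb : ∀ i ∈ G, ∀ j ∈ G, b (Z.lab q.al i) = b (Z.lab q.al j) → |X.S j - X.S i| ≤ y0 / k0 + 2 * ω := by
    intro i hi j hj hij
    have hxi : 0 ≤ (k0 : ℝ) * X.S (Z.lab q.al i) / y0 := by
      have := hX.S_nn _ (hG01 (hlabG i hi)); positivity
    have hxj : 0 ≤ (k0 : ℝ) * X.S (Z.lab q.al j) / y0 := by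
      have := hX.S_nn _ (hG01 (hlabG j hj)); positivity
    have a1 := Nat.floor_le hxi
    have a2 := Nat.lt_floor_add_one ((k0 : ℝ) * X.S (Z.lab q.al i) / y0)
    have a3 := Nat.floor_le hxj
    have a4 := Nat.lt_floor_add_one ((k0 : ℝ) * X.S (Z.lab q.al j) / y0)
    have hij' : (⌊(k0 : ℝ) * X.S (Z.lab q.al i) / y0⌋₊ : ℝ) = (⌊(k0 : ℝ) * X.S (Z.lab q.al j) / y0⌋₊ : ℝ) := by
      exact_mod_cast hij
    have hd : |X.S (Z.lab q.al j) - X.S (Z.lab q.al i)| ≤ y0 / k0 := by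
      have e : X.S (Z.lab q.al j) - X.S (Z.lab q.al i)
          = ((k0 : ℝ) * X.S (Z.lab q.al j) / y0 - (k0 : ℝ) * X.S (Z.lab q.al i) / y0) * (y0 / k0) := by
        field_simp
      have hpos : 0 < y0 / (k0 : ℝ) := by positivity
      rw [e, abs_mul, abs_of_pos hpos]
      have : |(k0 : ℝ) * X.S (Z.lab q.al j) / y0 - (k0 : ℝ) * X.S (Z.lab q.al i) / y0| ≤ 1 := by
        rw [abs_le]; constructor <;> linarith
      calc _ ≤ 1 * (y0 / (k0 : ℝ)) := mul_le_mul_of_nonneg_right this hpos.le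
        _ = y0 / k0 := one_mul _
    have h1 := hosc i hi
    have h2 := hosc j hj
    have e2 : X.S j - X.S i = -(X.S (Z.lab q.al j) - X.S j) + (X.S (Z.lab q.al j) - X.S (Z.lab q.al i)) + (X.S (Z.lab q.al i) - X.S i) := by ring
    rw [e2]
    refine (abs_add_three _ _ _).trans ?_
    rw [abs_neg]
    linarith
  have hQ : ∀ i ∈ G, ∀ j ∈ G, Z.lab q.al i = Z.lab q.al j → X.Q4 i j ≤ cmQ4 ω Cq y0 qq := by
    intro i hi j hj hij
    refine cm_g_q4 hX hqq (hG01 hi) (hG01 hj) ?_ (hNX i hi) (hNX j hj)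
    rcases cm_lab_eq hc hP hG hij with h | ⟨m, hm1, hm2⟩
    · rw [h]; simpa using hω0
    · exact hcaposc m i j hi hm1 hm2
  -- traces
  obtain ⟨T, hT⟩ : ∃ T, T = 2 * Gam ^ 2 * Kg ^ 2 * Lp ^ 2 / (P.N * eg) := ⟨_, rfl⟩
  have hT0 : 0 ≤ T := by rw [hT]; positivity
  have hcapTH : ∀ i, Z.cL i < Z.cR i → Z.capM q.al i ⊆ G → ∫ u in Z.capM q.al i, X.TH u ≤ T * (q.al (Z.cR i) - q.al (Z.cL i)) := by
    intro i hi hsub
    rw [hT]
    refine cm_ut_unit hc hP hl hX hG hi hGam (hratio i hi hsub) (hwall i hi hsub) heg0 ?_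
    intro r hr
    have hr1 : r ∈ Icc P.rmin 1 := cm_g_cap_sub hG i ⟨hr.1.le, hr.2.le⟩
    have hmem : q.al r ∈ Z.capM q.al i := by
      rw [cm_capM_image hc hP hG i]; exact ⟨r, hr, rfl⟩
    have := heg _ (hsub hmem)
    rwa [q.r_al r hr1] at this
  have hCtm : MeasurableSet (q.al '' Z.Ct) := cm_al_meas hc hP q hG.ct_sub hG.ct_meas
  have hctTH : ∀ᵐ u ∂(volume.restrict (G ∩ q.al '' Z.Ct)), u ∈ G ∧ X.TH u ≤ T := by
    have h1 := ae_restrict_of_ae_restrict_of_subset (s := G ∩ q.al '' Z.Ct) inter_subset_right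
      (cm_ut_ct_mass hc hP hl hX hG)
    filter_upwards [h1, ae_restrict_mem (hGr.meas.inter hCtm)] with u hu hmem
    refine ⟨hmem.1, ?_⟩
    have h0 := hX.TH_nn u (hG01 hmem.1)
    have h2 : eg * X.TH u ≤ Kg ^ 2 * Lp ^ 2 / P.N := (mul_le_mul_of_nonneg_right (heg u hmem.1) h0).trans hu
    have h3 : X.TH u ≤ Kg ^ 2 * Lp ^ 2 / (P.N * eg) := by
      rw [le_div_iff₀ (by positivity)]
      rw [le_div_iff₀ hN] at h2
      linarith
    refine h3.trans ?_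
    rw [hT]
    apply div_le_div_of_nonneg_right _ (by positivity)
    have h4 : 1 ≤ 2 * Gam ^ 2 := by nlinarith
    have h5 : 0 ≤ Kg ^ 2 * Lp ^ 2 := by positivity
    nlinarith
  have key : ∀ (F : ℝ → ℝ) (κ : ℝ), 0 ≤ κ → Measurable F → (∀ u ∈ Icc (0 : ℝ) 1, 0 ≤ F u) → (∀ u ∈ Icc (0 : ℝ) 1, F u ≤ 1) →
      (∀ u ∈ G, F u ≤ κ * X.TH u) → ∀ g : ℝ → ℝ, Measurable g → (∀ x, 0 ≤ g x) → (∃ B : ℝ, ∀ x, g x ≤ B) →
      ∫ j in G, g (Z.lab q.al j) * F j ≤ (κ * T) * ∫ j in G, g (Z.lab q.al j) := by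
    intro F κ hκ hFm hF0 hF1 hFT g hgm hg0 hgb
    refine cm_group_trace hc hP hG hGr hFm hF0 ⟨1, hF1⟩ ?_ ?_ g hgm hg0 hgb
    · intro i hi hsub
      have hsub01 : Z.capM q.al i ⊆ Icc (0 : ℝ) 1 := hsub.trans hG01
      have hm : MeasurableSet (Z.capM q.al i) := by unfold CmCaps.capM; exact measurableSet_Ioo
      have h1 : ∫ u in Z.capM q.al i, F u ≤ ∫ u in Z.capM q.al i, κ * X.TH u :=
        setIntegral_mono_on (cm_g_intOn hFm hF0 hF1 hsub01)
          ((cm_g_intOn hX.TH_meas hX.TH_nn hX.TH_le hsub01).const_mul κ) hm (fun u hu => hFT u (hsub hu))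
      rw [integral_const_mul] at h1
      calc _ ≤ κ * ∫ u in Z.capM q.al i, X.TH u := h1
        _ ≤ κ * (T * (q.al (Z.cR i) - q.al (Z.cL i))) := mul_le_mul_of_nonneg_left (hcapTH i hi hsub) hκ
        _ = κ * T * (q.al (Z.cR i) - q.al (Z.cL i)) := by ring
    · filter_upwards [hctTH] with u hu
      exact (hFT u hu.1).trans (mul_le_mul_of_nonneg_left hu.2 hκ)
  have hlow : ∀ u ∈ G, v / Gam ≤ u := fun u hu => (hband hu).1
  have hvG : 0 < v / Gam := by positivity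
  have hC := key X.TC ((Gam / v) ^ 2) (by positivity) hX.TC_meas hX.TC_nn hX.TC_le (by
    intro u hu
    have h1 := hX.tc_th u (hG01 hu)
    have h2 : (v / Gam) ^ 2 * X.TC u ≤ u ^ 2 * X.TC u :=
      mul_le_mul_of_nonneg_right (pow_le_pow_left₀ hvG.le (hlow u hu) 2) (hX.TC_nn u (hG01 hu))
    have h3 : X.TC u = (Gam / v) ^ 2 * ((v / Gam) ^ 2 * X.TC u) := by field_simp
    rw [h3]
    exact mul_le_mul_of_nonneg_left (h2.trans h1) (by positivity))
  have hW := key X.TW (Gam / v) (by positivity) hX.TW_meas hX.TW_nn hX.TW_le (by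
    intro u hu
    have h1 := hX.tw_th u (hG01 hu)
    have h2 : (v / Gam) * X.TW u ≤ u * X.TW u :=
      mul_le_mul_of_nonneg_right (hlow u hu) (hX.TW_nn u (hG01 hu))
    have h3 : X.TW u = (Gam / v) * ((v / Gam) * X.TW u) := by field_simp
    rw [h3]
    exact mul_le_mul_of_nonneg_left (h2.trans h1) (by positivity))
  rw [← hω, ← hT]
  exact cm_br_abs X hX G hGr.meas hG01 (Z.lab q.al) (cm_lab_meas hc hP hG) ((cm_lab_mono hc hP hG).monotoneOn G) b hb (k0 + 1) hkb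
    (y0 / k0 + 2 * ω) (cmQ4 ω Cq y0 qq) ((Gam / v) ^ 2 * T) (Gam / v * T) th (by positivity) (cm_g_q4_nonneg hω0 hCq qq)
    (by positivity) (by positivity) hth hSb hQ hC hW

/-- **optimisation of the number of bins** (l.976-981): `k0 = ⌈(y0² v²/T)^{1/3}⌉`;   `T` = the unit trace bound `τ_H`.   Pure arithmetic. -/
theorem cm_brR_opt {V v Gam y0 ω q4 T th : ℝ} (hV0 : 0 ≤ V) (hV : V ≤ Gam * v) (hv : 0 < v) (hGam : 1 ≤ Gam) (hy0 : 0 < y0) (hω : 0 ≤ ω) (hq4 : 0 ≤ q4)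
    (hT : 0 < T) (hth : 0 < th) :
    ∃ k0 : ℕ, 1 ≤ k0 ∧ (k0 : ℝ) ≤ 1 + (y0 ^ 2 * v ^ 2 / T) ^ (1 / 3 : ℝ) ∧
      cmBrR V (y0 / k0 + 2 * ω) q4 ((Gam / v) ^ 2 * T) (Gam / v * T) th (k0 + 1) ≤
        10000000 * Gam ^ 3 * (1 + Real.log (1 + Gam * v / th)) ^ 2 * (v * ((y0 * T / v ^ 2) ^ (2 / 3 : ℝ) + T / v ^ 2 + ω ^ 2 + q4))
          + 1000000 * (3 + (y0 ^ 2 * v ^ 2 / T) ^ (1 / 3 : ℝ)) * th := by
  have hbase : 0 < y0 ^ 2 * v ^ 2 / T := by positivity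
  obtain ⟨κ, hκ⟩ : ∃ κ, κ = (y0 ^ 2 * v ^ 2 / T) ^ (1 / 3 : ℝ) := ⟨_, rfl⟩
  have hκ0 : 0 < κ := by rw [hκ]; exact Real.rpow_pos_of_pos hbase _
  have hκ3 : κ ^ 3 = y0 ^ 2 * v ^ 2 / T := by
    rw [hκ, ← Real.rpow_natCast, ← Real.rpow_mul hbase.le]; norm_num
  have hTeq : T = y0 ^ 2 * v ^ 2 / κ ^ 3 := by rw [hκ3]; field_simp
  have hA : (y0 * T / v ^ 2) ^ (2 / 3 : ℝ) = (y0 / κ) ^ 2 := by
    have e : y0 * T / v ^ 2 = (y0 / κ) ^ 3 := by rw [hTeq]; field_simp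
    have h0 : 0 ≤ y0 / κ := by positivity
    rw [e, ← Real.rpow_natCast, ← Real.rpow_mul h0, ← Real.rpow_natCast]
    norm_num
  rw [← hκ, hA]
  obtain ⟨a, ha⟩ : ∃ a, a = y0 / κ := ⟨_, rfl⟩
  obtain ⟨B, hB⟩ : ∃ B, B = T / v ^ 2 := ⟨_, rfl⟩
  have ha0 : 0 < a := by rw [ha]; positivity
  have hB0 : 0 < B := by rw [hB]; positivity
  have hκB : κ * B = a ^ 2 := by rw [hB, ha, hTeq]; field_simp
  have hk1 : κ ≤ (⌈κ⌉₊ : ℝ) := Nat.le_ceil κ
  have hk2 : (⌈κ⌉₊ : ℝ) ≤ 1 + κ := by linarith [(Nat.ceil_lt_add_one hκ0.le).le]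
  refine ⟨⌈κ⌉₊, Nat.ceil_pos.2 hκ0, hk2, ?_⟩
  obtain ⟨k, hk⟩ : ∃ k : ℝ, k = (⌈κ⌉₊ : ℝ) := ⟨_, rfl⟩
  rw [← hk] at hk1 hk2
  have hk0 : 0 < k := lt_of_lt_of_le hκ0 hk1
  obtain ⟨Lg, hLg⟩ : ∃ Lg, Lg = 1 + Real.log (1 + V / th) := ⟨_, rfl⟩
  obtain ⟨Λ, hΛ⟩ : ∃ Λ, Λ = 1 + Real.log (1 + Gam * v / th) := ⟨_, rfl⟩
  have hLg1 : 1 ≤ Lg := by
    rw [hLg]
    have : 0 ≤ Real.log (1 + V / th) := Real.log_nonneg (by have : 0 ≤ V / th := by positivity
                                                            linarith)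
    linarith
  have hLgΛ : Lg ≤ Λ := by
    rw [hLg, hΛ]
    have h1 : 0 < 1 + V / th := by have : 0 ≤ V / th := by positivity
                                   linarith
    have h2 : 1 + V / th ≤ 1 + Gam * v / th := by
      have := div_le_div_of_nonneg_right hV hth.le
      linarith
    linarith [Real.log_le_log h1 h2]
  have hΛ1 : 1 ≤ Λ := hLg1.trans hLgΛ
  unfold cmBrR
  push_cast
  rw [← hk, ← hLg, ← hΛ, ← hB, ← ha]
  have e2 : (Gam / v) ^ 2 * T = Gam ^ 2 * B := by rw [hB]; field_simp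
  have e3 : Gam / v * T = Gam * v * B := by rw [hB]; field_simp
  rw [e2, e3]
  have f1 : (y0 / k + 2 * ω) ^ 2 ≤ 2 * a ^ 2 + 8 * ω ^ 2 := by
    have h1 : y0 / k ≤ a := by rw [ha]; exact div_le_div_of_nonneg_left hy0.le hκ0 hk1
    have h0 : 0 ≤ y0 / k := by positivity
    have h2 : (y0 / k) ^ 2 ≤ a ^ 2 := pow_le_pow_left₀ h0 h1 2
    have h3 : (y0 / k + 2 * ω) ^ 2 = 2 * (y0 / k) ^ 2 + 8 * ω ^ 2 - (y0 / k - 2 * ω) ^ 2 := by ring
    linarith [sq_nonneg (y0 / k - 2 * ω)]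
  have hGam0 : 0 < Gam := by linarith
  have f2 : Lg ^ 2 * (Gam ^ 2 * B) ≤ Λ ^ 2 * (Gam ^ 2 * B) :=
    mul_le_mul_of_nonneg_right (pow_le_pow_left₀ (by linarith) hLgΛ 2) (by positivity)
  have s1 : V * ((y0 / k + 2 * ω) ^ 2 + q4 + Lg ^ 2 * (Gam ^ 2 * B)) ≤ (Gam * v) * (2 * a ^ 2 + 8 * ω ^ 2 + q4 + Λ ^ 2 * (Gam ^ 2 * B)) :=
    mul_le_mul hV (by linarith) (by positivity) (by positivity)
  have s2 : (k + 1) * (Lg * (Gam * v * B) + th) ≤ (κ + 2) * (Λ * (Gam * v * B) + th) := by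
    have h1 : Lg * (Gam * v * B) ≤ Λ * (Gam * v * B) := mul_le_mul_of_nonneg_right hLgΛ (by positivity)
    exact mul_le_mul (by linarith) (by linarith) (by positivity) (by positivity)
  obtain ⟨W, hW⟩ : ∃ W, W = Gam ^ 3 * Λ ^ 2 := ⟨_, rfl⟩
  have hG3 : Gam ≤ Gam ^ 3 := le_self_pow₀ hGam (by norm_num)
  have hΛ2 : Λ ≤ Λ ^ 2 := le_self_pow₀ hΛ1 (by norm_num)
  have hW2 : Λ * Gam ≤ W := by
    rw [hW, mul_comm]; exact mul_le_mul hG3 hΛ2 (by linarith) (by positivity)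
  have hW1 : Gam ≤ W := by
    have : Gam ≤ Λ * Gam := le_mul_of_one_le_left hGam0.le hΛ1
    linarith
  have t1 := mul_le_mul_of_nonneg_right hW1 (show 0 ≤ v * (2 * a ^ 2 + 8 * ω ^ 2 + q4) by positivity)
  have t2 := mul_le_mul_of_nonneg_right hW2 (show 0 ≤ v * (a ^ 2 + 2 * B) by positivity)
  have t3 : 0 ≤ W * (v * (7 * a ^ 2 + 7 * B + 2 * ω ^ 2 + 9 * q4)) := by
    have : 0 ≤ W := by rw [hW]; positivity
    positivity
  have e4 : (κ + 2) * (Λ * (Gam * v * B) + th) = Λ * Gam * (v * (κ * B + 2 * B)) + (κ + 2) * th := by ring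
  rw [hκB] at e4
  have e5 : (Gam * v) * (2 * a ^ 2 + 8 * ω ^ 2 + q4 + Λ ^ 2 * (Gam ^ 2 * B)) = Gam * (v * (2 * a ^ 2 + 8 * ω ^ 2 + q4)) + W * (v * B) := by
    rw [hW]; ring
  have e6 : 10000000 * Gam ^ 3 * Λ ^ 2 * (v * (a ^ 2 + B + ω ^ 2 + q4)) = 1000000 * (10 * (W * (v * (a ^ 2 + B + ω ^ 2 + q4)))) := by
    rw [hW]; ring
  rw [e6]
  linarith

/-- **(21) on a slice `(a,b)` of one cap** (broad caps, l.984-1011): `cm_br1` with `ϖ = 1`, `cm_ut_cap`, `tc_th`, `tw_th` -/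
theorem cm_br_slice (hc : 0 < cE) (hP : P.Ok cE D0) (hl : 0 < lam) (hX : X.Ok) (hG : CmGeo P lam q X Z Kg Lp) {i : ℕ} {a b y0 eg Cq : ℝ} {qq : ℕ}
    (ha : 0 < a) (hab : a < b) (hsub : Ioo a b ⊆ Z.capM q.al i) (hy0 : 0 < y0) (heg0 : 0 < eg) (hCq : 0 ≤ Cq) (hqq : 3 ≤ qq)
    (heg : ∀ u ∈ Ioo a b, eg ≤ P.e lam (q.r u)) (hNX : ∀ u ∈ Ioo a b, X.NX qq u ≤ Cq * Real.sqrt y0) :
    ∫ u in Ioo a b, X.D u ^ 2 ≤ 200000 * ((b - a) * ((Kg * Lp * (Z.len i + Z.io P.rmin i)) ^ 2 + cmQ4 (Kg * Lp * (Z.len i + Z.io P.rmin i)) Cq y0 qq)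
      + (1 / a ^ 2 + 1 / (a * (b - a))) * (P.M b * (Kg ^ 2 * Lp ^ 2 * (Z.len i + Z.io P.rmin i) / (P.N * eg)))) := by
  obtain ⟨haL, hbR⟩ := (Ioo_subset_Ioo_iff hab).1 hsub
  have hLm := cm_q_al_mem hc hP q (cm_g_cL_mem hG i)
  have hRm := cm_q_al_mem hc hP q (cm_g_cR_mem hG i)
  have ha1 : a ∈ Icc P.u0 1 := ⟨hLm.1.trans haL, (hab.le.trans hbR).trans hRm.2⟩
  have hb1 : b ∈ Icc P.u0 1 := ⟨hLm.1.trans (haL.trans hab.le), hbR.trans hRm.2⟩
  have hrm := cm_q_r_strictMono hc hP q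
  have ham := cm_q_al_strictMono hc hP q
  have hs : Z.cL i ≤ q.r a := by
    have := hrm.monotoneOn hLm ha1 haL
    rwa [q.r_al _ (cm_g_cL_mem hG i)] at this
  have ht : q.r b ≤ Z.cR i := by
    have := hrm.monotoneOn hb1 hRm hbR
    rwa [q.r_al _ (cm_g_cR_mem hG i)] at this
  have hst : q.r a < q.r b := hrm ha1 hb1 hab
  have heg' : ∀ r ∈ Ioo (q.r a) (q.r b), eg ≤ P.e lam r := by
    intro r hr
    have hr1 : r ∈ Icc P.rmin 1 := ⟨(q.r_mem a ha1).1.trans hr.1.le, hr.2.le.trans (q.r_mem b hb1).2⟩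
    have h1 := ham (q.r_mem a ha1) hr1 hr.1
    have h2 := ham hr1 (q.r_mem b hb1) hr.2
    rw [q.al_r a ha1] at h1
    rw [q.al_r b hb1] at h2
    have := heg (q.al r) ⟨h1, h2⟩
    rwa [q.r_al r hr1] at this
  have hTH := cm_ut_cap hc hP hl hX hG hs hst ht heg0 heg'
  rw [q.al_r a ha1, q.al_r b hb1] at hTH
  have hG01 : Ioo a b ⊆ Icc (0 : ℝ) 1 := fun u hu => ⟨ha.le.trans hu.1.le, hu.2.le.trans hb1.2⟩
  obtain ⟨η, hη⟩ : ∃ η, η = Kg * Lp * (Z.len i + Z.io P.rmin i) := ⟨_, rfl⟩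
  obtain ⟨Tb, hTb⟩ : ∃ Tb, Tb = P.M b * (Kg ^ 2 * Lp ^ 2 * (Z.len i + Z.io P.rmin i) / (P.N * eg)) := ⟨_, rfl⟩
  rw [← hη, ← hTb]
  rw [← hTb] at hTH
  have hS : ∀ u ∈ Ioo a b, ∀ w ∈ Ioo a b, |X.S w - X.S u| ≤ η := fun u hu w hw => by
    rw [hη]; exact cm_cap_osc hc hP hX hG (hsub hu) (hsub hw)
  have hη0 : 0 ≤ η := by
    obtain ⟨w, hw⟩ := nonempty_Ioo.2 hab
    exact (abs_nonneg _).trans (hS w hw w hw)
  have hQ : ∀ u ∈ Ioo a b, ∀ w ∈ Ioo a b, X.Q4 u w ≤ cmQ4 η Cq y0 qq := fun u hu w hw =>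
    cm_g_q4 hX hqq (hG01 hu) (hG01 hw) (hS u hu w hw) (hNX u hu) (hNX w hw)
  have h1int : ∫ _u in Ioo a b, (1 : ℝ) = b - a := by
    simp [Measure.real, Real.volume_Ioo, hab.le]
  have main := cm_br1 X hX (Ioo a b) measurableSet_Ioo hG01 (fun _ => 1) measurable_const (fun _ => zero_le_one)
    ⟨1, fun _ => le_rfl⟩ (by rw [h1int]; linarith) η (cmQ4 η Cq y0 qq) hη0 (cm_g_q4_nonneg hη0 hCq qq) hS hQ
  simp only [one_mul, one_pow] at main
  rw [h1int] at main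
  have hTHi : IntegrableOn X.TH (Ioo a b) := cm_g_intOn hX.TH_meas hX.TH_nn hX.TH_le hG01
  have hTC : ∫ u in Ioo a b, X.TC u ≤ 1 / a ^ 2 * Tb := by
    have h1 : ∫ u in Ioo a b, X.TC u ≤ ∫ u in Ioo a b, 1 / a ^ 2 * X.TH u := by
      refine setIntegral_mono_on (cm_g_intOn hX.TC_meas hX.TC_nn hX.TC_le hG01) (hTHi.const_mul _) measurableSet_Ioo ?_
      intro u hu
      have h2 := hX.tc_th u (hG01 hu)
      have h3 : a ^ 2 * X.TC u ≤ u ^ 2 * X.TC u :=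
        mul_le_mul_of_nonneg_right (pow_le_pow_left₀ ha.le hu.1.le 2) (hX.TC_nn u (hG01 hu))
      rw [one_div, inv_mul_eq_div, le_div_iff₀ (by positivity)]
      linarith
    rw [integral_const_mul] at h1
    exact h1.trans (mul_le_mul_of_nonneg_left hTH (by positivity))
  have hTW : ∫ u in Ioo a b, X.TW u ≤ 1 / a * Tb := by
    have h1 : ∫ u in Ioo a b, X.TW u ≤ ∫ u in Ioo a b, 1 / a * X.TH u := by
      refine setIntegral_mono_on (cm_g_intOn hX.TW_meas hX.TW_nn hX.TW_le hG01) (hTHi.const_mul _) measurableSet_Ioo ?_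
      intro u hu
      have h2 := hX.tw_th u (hG01 hu)
      have h3 : a * X.TW u ≤ u * X.TW u :=
        mul_le_mul_of_nonneg_right hu.1.le (hX.TW_nn u (hG01 hu))
      rw [one_div, inv_mul_eq_div, le_div_iff₀ ha]
      linarith
    rw [integral_const_mul] at h1
    exact h1.trans (mul_le_mul_of_nonneg_left hTH (by positivity))
  refine main.trans (mul_le_mul_of_nonneg_left ?_ (by norm_num))
  have hba : 0 < b - a := sub_pos.2 hab
  have h4 : (∫ u in Ioo a b, X.TW u) / (b - a) ≤ 1 / (a * (b - a)) * Tb := by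
    rw [div_le_iff₀ hba]
    refine hTW.trans (le_of_eq ?_)
    field_simp
  have h5 : (1 / a ^ 2 + 1 / (a * (b - a))) * Tb = 1 / a ^ 2 * Tb + 1 / (a * (b - a)) * Tb := by ring
  rw [h5]
  linarith

/-! ## 5. covering a mass interval by units -/

/-- an ORDINARY cap: nondegenerate, end masses comparable with the ratio `Gam`, no wall loss -/
def CmCaps.Ord (Z : CmCaps) (P : CmCall) (al : ℝ → ℝ) (Gam : ℝ) (i : ℕ) : Prop :=
  Z.cL i < Z.cR i ∧ al (Z.cR i) + P.us ≤ Gam * (al (Z.cL i) + P.us) ∧ (Z.io P.rmin i = 0 ∨ P.us ≤ al (Z.cR i) - al (Z.cL i))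

/-- a BROAD cap -/
def CmCaps.Broad (Z : CmCaps) (P : CmCall) (al : ℝ → ℝ) (Gam : ℝ) (i : ℕ) : Prop :=
  Z.cL i < Z.cR i ∧ Gam * (al (Z.cL i) + P.us) < al (Z.cR i) + P.us

/-- **the ordinary group of a mass set `J`**: the contact points in `J` and the complete ordinary caps meeting `J` -/
def CmCaps.grp (Z : CmCaps) (P : CmCall) (al : ℝ → ℝ) (Gam : ℝ) (J : Set ℝ) : Set ℝ :=
  (J ∩ al '' Z.Ct) ∪ ⋃ i ∈ {i | Z.Ord P al Gam i ∧ (Z.capM al i ∩ J).Nonempty}, Z.capM al i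

/-- a point of a cap which lies in the ordinary group: the cap is one of the caps of the group -/
theorem cm_geo_grp_mem (hc : 0 < cE) (hP : P.Ok cE D0) (hG : CmGeo P lam q X Z Kg Lp) {Gam : ℝ} {J : Set ℝ} {i : ℕ} {u : ℝ}
    (hui : u ∈ Z.capM q.al i) (hu : u ∈ Z.grp P q.al Gam J) :
    ∃ j, (Z.Ord P q.al Gam j ∧ (Z.capM q.al j ∩ J).Nonempty) ∧ j = i := by
  rcases hu with hu | hu
  · exact absurd hu.2 (Set.disjoint_left.1 (cm_capM_ct hc hP hG i) hui)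
  · obtain ⟨j, hj, huj⟩ := Set.mem_iUnion₂.1 hu
    refine ⟨j, hj, ?_⟩
    by_contra hne
    exact Set.disjoint_left.1 (cm_capM_disj hc hP hG hne) huj hui

theorem cm_grp_isGroup (hc : 0 < cE) (hP : P.Ok cE D0) (hG : CmGeo P lam q X Z Kg Lp) {Gam : ℝ} {J : Set ℝ} (hJ : MeasurableSet J) :
    Z.IsGroup q.al (Z.grp P q.al Gam J) := by
  refine ⟨?_, ?_, ?_⟩
  · exact (hJ.inter (cm_al_meas hc hP q hG.ct_sub hG.ct_meas)).union
      (MeasurableSet.biUnion (Set.to_countable _) (fun i _ => measurableSet_Ioo))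
  · rintro u (hu | hu)
    · exact Or.inr hu.2
    · obtain ⟨i, _, hi⟩ := Set.mem_iUnion₂.1 hu
      exact Or.inl (Set.mem_iUnion.2 ⟨i, hi⟩)
  · rintro i ⟨u, hui, hu⟩
    obtain ⟨j, hj, hij⟩ := cm_geo_grp_mem hc hP hG hui hu
    subst hij
    exact fun w hw => Or.inr (Set.mem_iUnion₂.2 ⟨j, hj, hw⟩)

/-- the caps of the ordinary group are ordinary caps meeting `J` -/
theorem cm_grp_cap (hc : 0 < cE) (hP : P.Ok cE D0) (hG : CmGeo P lam q X Z Kg Lp) {Gam : ℝ} {J : Set ℝ} {i : ℕ} (hi : Z.cL i < Z.cR i)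
    (hsub : Z.capM q.al i ⊆ Z.grp P q.al Gam J) : Z.Ord P q.al Gam i ∧ (Z.capM q.al i ∩ J).Nonempty := by
  have h1 : q.al (Z.cL i) < q.al (Z.cR i) :=
    cm_q_al_strictMono hc hP q (cm_g_cL_mem hG i) (cm_g_cR_mem hG i) hi
  have hm : (q.al (Z.cL i) + q.al (Z.cR i)) / 2 ∈ Z.capM q.al i := ⟨by linarith, by linarith⟩
  obtain ⟨j, hj, hij⟩ := cm_geo_grp_mem hc hP hG hm (hsub hm)
  subst hij
  exact hj

/-- location of the ordinary group of `J ⊆ [v1,v2]`, `v1 ≥ 2 Gam u_*` -/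
theorem cm_grp_band (hc : 0 < cE) (hP : P.Ok cE D0) (hG : CmGeo P lam q X Z Kg Lp) {Gam v1 v2 : ℝ} {J : Set ℝ} (hGam : 1 ≤ Gam)
    (h1 : 2 * Gam * P.us ≤ v1) (hJ : J ⊆ Icc v1 v2) : Z.grp P q.al Gam J ⊆ Icc (v1 / (2 * Gam)) (2 * Gam * v2) := by
  have hus := cm_us_pos hc hP
  have hG0 : 0 < Gam := by linarith
  have hv1 : 0 < v1 := lt_of_lt_of_le (by positivity) h1
  have hdiv : v1 / (2 * Gam) ≤ v1 := by
    rw [div_le_iff₀ (by positivity)]
    nlinarith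
  have husv : P.us ≤ v1 / (2 * Gam) := by
    rw [le_div_iff₀ (by positivity)]
    linarith
  rintro u (hu | hu)
  · have h := hJ hu.1
    refine ⟨hdiv.trans h.1, h.2.trans ?_⟩
    have : 0 < v2 := hv1.trans_le (h.1.trans h.2)
    nlinarith
  · obtain ⟨i, ⟨hO, w, hwi, hwJ⟩, hui⟩ := Set.mem_iUnion₂.1 hu
    have hw := hJ hwJ
    have hv2 : 0 < v2 := hv1.trans_le (hw.1.trans hw.2)
    have hr := hO.2.1
    have ha1 : q.al (Z.cL i) < u := hui.1
    have hb1 : u < q.al (Z.cR i) := hui.2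
    have ha2 : q.al (Z.cL i) < w := hwi.1
    have hb2 : w < q.al (Z.cR i) := hwi.2
    constructor
    · -- `a ≥ (b + us)/Gam - us`
      have h3 : v1 / Gam ≤ q.al (Z.cL i) + P.us := by
        rw [div_le_iff₀ hG0]
        linarith [hw.1]
      have h4 : v1 / Gam = 2 * (v1 / (2 * Gam)) := by field_simp
      linarith
    · have h5 : Gam * q.al (Z.cL i) ≤ Gam * v2 := mul_le_mul_of_nonneg_left (by linarith [hw.2]) hG0.le
      have h3 : q.al (Z.cR i) ≤ Gam * (v2 + P.us) := by linarith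
      have h4 : P.us ≤ v2 := husv.trans (hdiv.trans (hw.1.trans hw.2))
      nlinarith

theorem cm_geo_broad_window (hc : 0 < cE) (hP : P.Ok cE D0) {al : ℝ → ℝ} {Gam v1 v2 : ℝ} {i : ℕ} (hGam : 8 ≤ Gam) (h1 : 0 ≤ v1)
    (hB : Z.Broad P al Gam i) (hmeet : (Z.capM al i ∩ Icc v1 v2).Nonempty) :
    ∃ t, v1 / 2 ≤ t ∧ t ≤ v2 ∧ Ioo t (2 * t) ⊆ Z.capM al i := by
  have hus := cm_us_pos hc hP
  obtain ⟨u, hui, huv⟩ := hmeet
  have ha : al (Z.cL i) < u := hui.1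
  have hb : u < al (Z.cR i) := hui.2
  have hu0 : 0 ≤ u := h1.trans huv.1
  have hbr := hB.2
  by_cases hcase : al (Z.cL i) ≤ u / 2
  · refine ⟨u / 2, by linarith [huv.1], by linarith [huv.2], fun w hw => ⟨hcase.trans_lt hw.1, ?_⟩⟩
    have := hw.2
    linarith
  · push Not at hcase
    refine ⟨u, by linarith [huv.1], huv.2, fun w hw => ⟨ha.trans hw.1, hw.2.trans_le ?_⟩⟩
    have h8 : 8 * (al (Z.cL i) + P.us) ≤ Gam * (al (Z.cL i) + P.us) :=
      mul_le_mul_of_nonneg_right hGam (by linarith)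
    linarith

/-- a broad cap (`Gam ≥ 8`) meeting `[v1,v2]` contains an interval `(t, 2t)` with `v1/2 ≤ t ≤ v2`      (if `u` is a common point: `(u/2,u)` or `(u,2u)`) -/
theorem cm_broad_window (hc : 0 < cE) (hP : P.Ok cE D0) (hG : CmGeo P lam q X Z Kg Lp) {Gam v1 v2 : ℝ} {i : ℕ} (hGam : 8 ≤ Gam) (h1 : P.us ≤ v1)
    (hB : Z.Broad P q.al Gam i) (hmeet : (Z.capM q.al i ∩ Icc v1 v2).Nonempty) :
    ∃ t, v1 / 2 ≤ t ∧ t ≤ v2 ∧ Ioo t (2 * t) ⊆ Z.capM q.al i := by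
  exact cm_geo_broad_window hc hP hGam ((cm_us_pos hc hP).le.trans h1) hB hmeet

/-- there are at most `4 v2/v1` broad caps meeting `[v1,v2]` (disjoint, each contains an interval of length `≥ v1/2` inside `(v1/2, 2 v2)`) -/
theorem cm_broad_count (hc : 0 < cE) (hP : P.Ok cE D0) (hG : CmGeo P lam q X Z Kg Lp) {Gam v1 v2 : ℝ} (hGam : 8 ≤ Gam) (h1 : 0 < v1) (h12 : v1 ≤ v2) :
    {i | Z.Broad P q.al Gam i ∧ (Z.capM q.al i ∩ Icc v1 v2).Nonempty}.Finite ∧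
    ({i | Z.Broad P q.al Gam i ∧ (Z.capM q.al i ∩ Icc v1 v2).Nonempty}.ncard : ℝ) ≤ 4 * v2 / v1 := by
  set Sx : Set ℕ := {i | Z.Broad P q.al Gam i ∧ (Z.capM q.al i ∩ Icc v1 v2).Nonempty} with hSx
  have hwin : ∀ i ∈ Sx, ∃ t, v1 / 2 ≤ t ∧ t ≤ v2 ∧ Ioo t (2 * t) ⊆ Z.capM q.al i := fun i hi =>
    cm_geo_broad_window hc hP hGam h1.le hi.1 hi.2
  choose! t ht1 ht2 ht3 using hwin
  have hcard : ∀ F : Finset ℕ, (↑F : Set ℕ) ⊆ Sx → (F.card : ℝ) ≤ 4 * v2 / v1 := by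
    intro F hF
    have hdisj : Set.PairwiseDisjoint (↑F : Set ℕ) (fun i => Ioo (t i) (2 * t i)) := by
      intro i hi j hj hij
      exact (cm_capM_disj hc hP hG hij).mono (ht3 i (hF hi)) (ht3 j (hF hj))
    have hvol := measure_biUnion_finset (μ := (volume : Measure ℝ)) hdisj (fun i _ => measurableSet_Ioo)
    have hsub : (⋃ i ∈ F, Ioo (t i) (2 * t i)) ⊆ Ioo (v1 / 2) (2 * v2) := by
      intro w hw
      obtain ⟨i, hi, hwi⟩ := Set.mem_iUnion₂.1 hw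
      have hiS := hF (Finset.mem_coe.2 hi)
      exact ⟨(ht1 i hiS).trans_lt hwi.1, hwi.2.trans_le (by linarith [ht2 i hiS])⟩
    have hle := measure_mono (μ := (volume : Measure ℝ)) hsub
    rw [hvol, Real.volume_Ioo] at hle
    have hsum : ∑ i ∈ F, volume (Ioo (t i) (2 * t i)) = ENNReal.ofReal (∑ i ∈ F, t i) := by
      rw [ENNReal.ofReal_sum_of_nonneg (fun i hi => by linarith [ht1 i (hF (Finset.mem_coe.2 hi))])]
      refine Finset.sum_congr rfl (fun i _ => ?_)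
      rw [Real.volume_Ioo]
      congr 1
      ring
    rw [hsum, ENNReal.ofReal_le_ofReal_iff (by linarith)] at hle
    have hlow : (F.card : ℝ) * (v1 / 2) ≤ ∑ i ∈ F, t i := by
      have := Finset.card_nsmul_le_sum F t (v1 / 2) (fun i hi => ht1 i (hF (Finset.mem_coe.2 hi)))
      simpa [nsmul_eq_mul] using this
    rw [le_div_iff₀ h1]
    nlinarith
  have hfin : Sx.Finite := by
    by_contra hinf
    obtain ⟨n, hn⟩ := exists_nat_gt (4 * v2 / v1)
    obtain ⟨F, hF, hFc⟩ := Set.Infinite.exists_subset_card_eq hinf n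
    have := hcard F hF
    rw [hFc] at this
    linarith
  refine ⟨hfin, ?_⟩
  have := hcard hfin.toFinset (by simp)
  rwa [← Set.ncard_eq_toFinset_card Sx hfin] at this

/-- **covering**: up to a null set, a mass interval `J = [v1,v2] ⊆ [u0,1]` is covered by the floor, the ordinary group, the broad caps, and (at most) one initial cap of mass `< u_*` -/
theorem cm_cover_units (hc : 0 < cE) (hP : P.Ok cE D0) (hG : CmGeo P lam q X Z Kg Lp) {Gam v1 v2 : ℝ} (hGam : 1 ≤ Gam) (h1 : P.u0 ≤ v1) (h2 : v2 ≤ 1) :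
    volume (Icc v1 v2 \ (q.al '' Z.Fl ∪ Z.grp P q.al Gam (Icc v1 v2) ∪ (⋃ i ∈ {i | Z.Broad P q.al Gam i}, Z.capM q.al i) ∪ Ioo P.u0 (P.u0 + P.us))) = 0 := by
  refine measure_mono_null ?_ (cm_cover_mass hc hP hG)
  rintro u ⟨huv, hun⟩
  refine ⟨⟨h1.trans huv.1, huv.2.trans h2⟩, ?_⟩
  rintro ((hu | hu) | hu)
  · obtain ⟨i, hi⟩ := Set.mem_iUnion.1 hu
    have hlt : q.al (Z.cL i) < q.al (Z.cR i) := hi.1.trans hi.2
    have hcc : Z.cL i < Z.cR i := by
      rcases (hG.cap_le i).eq_or_lt with h | h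
      · rw [h] at hlt; exact absurd hlt (lt_irrefl _)
      · exact h
    by_cases hB : Z.Broad P q.al Gam i
    · exact hun (Or.inl (Or.inr (Set.mem_iUnion₂.2 ⟨i, hB, hi⟩)))
    · have hr : q.al (Z.cR i) + P.us ≤ Gam * (q.al (Z.cL i) + P.us) := by
        by_contra hcon
        push Not at hcon
        exact hB ⟨hcc, hcon⟩
      by_cases hw : Z.io P.rmin i = 0 ∨ P.us ≤ q.al (Z.cR i) - q.al (Z.cL i)
      · exact hun (Or.inl (Or.inl (Or.inr (Or.inr (Set.mem_iUnion₂.2 ⟨i, ⟨⟨hcc, hr, hw⟩, u, hi, huv⟩, hi⟩)))))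
      · push Not at hw
        have hcL : Z.cL i = P.rmin := by
          by_contra hne
          exact hw.1 (by simp [CmCaps.io, hne])
        have hu0 : q.al (Z.cL i) = P.u0 := by rw [hcL, q.al_min]
        refine hun (Or.inr ⟨?_, ?_⟩)
        · rw [← hu0]; exact hi.1
        · have := hi.2
          rw [← hu0]
          linarith [hw.2]
  · exact hun (Or.inl (Or.inl (Or.inl hu)))
  · exact hun (Or.inl (Or.inl (Or.inr (Or.inl ⟨huv, hu⟩))))

/-! ## 6. the constants and the standing hypotheses of the exits (moved here from `P6Out.lean`, so that `P6Out` can import the cuts `P6X18`, `P6CE`) -/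

/-- the constants fixed before `n` -/
structure CmK where
  mm : ℝ
  cE : ℝ
  D0 : ℝ
  c : ℝ
  C : ℝ
  C0 : ℝ
  ca : ℝ
  ce : ℝ
  Kg : ℝ
  CL : ℝ
  Cp : ℕ → ℝ

structure CmK.Ok (K : CmK) : Prop where
  mm0 : 0 < K.mm
  cE0 : 0 < K.cE
  D00 : 0 < K.D0
  c0 : 0 < K.c
  c1 : K.c ≤ 1
  C1 : 1 ≤ K.C
  C01 : 1 ≤ K.C0
  ca0 : 0 < K.ca
  ce0 : 0 < K.ce
  Kg1 : 1 ≤ K.Kg
  CL1 : 1 ≤ K.CL
  Cp1 : ∀ q, 1 ≤ K.Cp q

/-- call + strength + numbers + geometry -/
structure CmBase (K : CmK) (P : CmCall) (lam : ℝ) (q : CmQ P) (X : CmNum) (Z : CmCaps) (Lp : ℝ) : Prop where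
  ok : P.Ok K.cE K.D0
  m_eq : P.m = K.mm
  lam0 : 0 < lam
  lam1 : lam ≤ P.d ^ 2
  num : X.Ok
  geo : CmGeo P lam q X Z K.Kg Lp
  Lp_le : Lp ≤ K.CL * P.Lam

/-- `CmBase` + a scale `x`: `x ≳ a`, `e(x)x² ≳ nE²`, `u0 ≤ x`, outer regularity above `x`, raw moments at the scale `x` -/
structure CmStd (K : CmK) (P : CmCall) (lam : ℝ) (q : CmQ P) (X : CmNum) (Z : CmCaps) (Lp x : ℝ) : Prop where
  base : CmBase K P lam q X Z Lp
  x0 : 0 < x
  x1 : x ≤ 1
  xa : K.ca * P.a ≤ x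
  ex : K.ce * (P.N * P.E ^ 2) ≤ P.e lam x * x ^ 2
  u0x : P.u0 ≤ x
  reg : q.Reg K.c K.C K.C0 x
  raw : X.Raw x K.Cp

theorem cm_p6geo_eqns_cite : True := by
  have := @CmCaps.Ord.eq_1; have := @CmCaps.Broad.eq_1; have := @CmCaps.grp.eq_1
  trivial

end

end Claimed.Agent.R286
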