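import Claimed.Agent.R286.Cmp.P04Contract
import Claimed.Agent.R286.Cmp.P6Defs

/-!
# Row 286 (S0533), PE Section 3, package P04: THE BRIDGE `Cm4Geo ⟹ CmGeo`      (OWNER helper106; prefix `cm4c_`; 0 sorry)
source: PE comparisons.tex l.186-290 (Lemma 3.3).

`Cm4Geo P lam q S B H J` (`Cmp/P04Contract.lean`: potential `H`, `α' = M(α)` on `{H<0}`, `α' = k` on `{H>0}`) is turned into the CLOSED geometry `CmGeo` of `Cmp/P6Defs.lean` (294):
* `cm4c_enum`          a family of open intervals, two of which coincide as soon as they meet, is enumerated WITHOUT repetition by `ℕ` (unused indices = the degenerate interval `(z,z)`);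
* `cm4c_cap_unique`    two caps `CmCapI` which meet coincide;
* `tl_106_cov_restr`   restriction of the change of variables `Tl106Cov` to a subinterval;      `cm4c_floor_loc` = the floor mass in EVERY radius interval;
* **`cm4_geo_closed`** `Cm4Geo` + (numbers `X` with `X.S = S`, `X.D² = B - S²` on `[0,1]`) + `200 ≤ Kg` + `1/(1-p) ≤ Lp` on `[rmin,1]` + the clock inequality (field `clock`, = `exit_geo_clock`)
                       `⟹ ∃ Z, CmGeo P lam q X Z Kg Lp`, with caps of `Z` = the components of `{H<0}` (each `CmCapI` or degenerate `(rmin,rmin)`), `Z.Fl = {H>0}`, `Z.Ct ⊆ {H=0}`, and the two length bounds.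
-/

set_option autoImplicit false

namespace Claimed.Agent.R286

open MeasureTheory Set Filter Topology

noncomputable section

/-- restriction of the change of variables to a subinterval -/
theorem tl_106_cov_restr {α a : ℝ → ℝ} {r0 r1 s t : ℝ} (h : Tl106Cov α a r0 r1) (hs : r0 ≤ s) (hst : s ≤ t) (ht : t ≤ r1) :
    Tl106Cov α a s t where
  le := hst
  int := h.int.mono_set (by rw [uIcc_of_le hst, uIcc_of_le h.le]; exact Icc_subset_Icc hs ht)
  nn := by
    filter_upwards [h.nn] with x hx hm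
    exact hx ⟨hs.trans hm.1, hm.2.trans ht⟩
  prim := fun x y hx hxy hy => h.prim x y (hs.trans hx) hxy (hy.trans ht)
  mono := h.mono.mono (Icc_subset_Icc hs ht)

/-- **enumeration without repetition** of a family of open intervals two of which coincide as soon as they meet -/
theorem cm4c_enum {C : ℝ → ℝ → Prop} (z : ℝ) (hlt : ∀ a b, C a b → a < b)
    (hdis : ∀ a b a' b', C a b → C a' b' → (Ioo a b ∩ Ioo a' b').Nonempty → a = a' ∧ b = b') :
    ∃ cL cR : ℕ → ℝ, (∀ i, C (cL i) (cR i) ∨ (cL i = z ∧ cR i = z)) ∧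
      (Pairwise fun i j => Disjoint (Ioo (cL i) (cR i)) (Ioo (cL j) (cR j))) ∧ ∀ a b, C a b → ∃ i, cL i = a ∧ cR i = b := by
  classical
  set A : Set (ℝ × ℝ) := {p | C p.1 p.2} with hA
  have hpd : A.PairwiseDisjoint fun p : ℝ × ℝ => Ioo p.1 p.2 := by
    intro p hp p' hp' hne
    show Disjoint (Ioo p.1 p.2) (Ioo p'.1 p'.2)
    rw [Set.disjoint_iff_inter_eq_empty]
    by_contra hcon
    have := hdis _ _ _ _ hp hp' (Set.nonempty_iff_ne_empty.2 hcon)
    exact hne (Prod.ext this.1 this.2)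
  have hcount : A.Countable :=
    hpd.countable_of_isOpen (fun _ _ => isOpen_Ioo) fun p hp => nonempty_Ioo.2 (hlt _ _ hp)
  have : Encodable A := hcount.toEncodable
  refine ⟨fun i => (Encodable.decode₂ A i).elim z fun p => p.1.1, fun i => (Encodable.decode₂ A i).elim z fun p => p.1.2, ?_, ?_, ?_⟩
  · intro i
    dsimp only
    rcases h : Encodable.decode₂ A i with _ | p
    · right; exact ⟨rfl, rfl⟩
    · left; exact p.2
  · intro i j hij
    dsimp only
    rcases hi : Encodable.decode₂ A i with _ | p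
    · simp
    rcases hj : Encodable.decode₂ A j with _ | p'
    · simp
    have hne : p.1 ≠ p'.1 := by
      intro he
      have he' : p = p' := Subtype.ext he
      have h1 : Encodable.encode p = i := Encodable.mem_decode₂.1 hi
      have h2 : Encodable.encode p' = j := Encodable.mem_decode₂.1 hj
      exact hij (by rw [← h1, ← h2, he'])
    exact hpd p.2 p'.2 hne
  · intro a b hab
    refine ⟨Encodable.encode (⟨(a, b), hab⟩ : A), ?_, ?_⟩ <;> simp [Encodable.decode₂_encode]

variable {P : CmCall} {cE D0 lam : ℝ} {q : CmQ P} {S B H J : ℝ → ℝ}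

/-- two caps which meet coincide -/
theorem cm4c_cap_unique {a b a' b' : ℝ} (h : CmCapI P H a b) (h' : CmCapI P H a' b') (hne : (Ioo a b ∩ Ioo a' b').Nonempty) :
    a = a' ∧ b = b' := by
  obtain ⟨x, hx, hx'⟩ := hne
  obtain ⟨h1, h2, h3, h4, h5, h6⟩ := h
  obtain ⟨g1, g2, g3, g4, g5, g6⟩ := h'
  constructor
  · rcases lt_trichotomy a a' with hlt | heq | hlt
    · exfalso
      have := h4 a' ⟨hlt, hx'.1.trans hx.2⟩
      rcases g5 with g | g
      · linarith
      · linarith
    · exact heq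
    · exfalso
      have := g4 a ⟨hlt, hx.1.trans hx'.2⟩
      rcases h5 with g | g
      · linarith
      · linarith
  · rcases lt_trichotomy b b' with hlt | heq | hlt
    · exfalso
      have := g4 b ⟨hx'.1.trans hx.2, hlt⟩
      rcases h6 with g | g
      · linarith
      · linarith
    · exact heq
    · exfalso
      have := h4 b' ⟨hx.1.trans hx'.2, hlt⟩
      rcases g6 with g | g
      · linarith
      · linarith

/-- a point of `{H<0}` in the open interval `(rmin,1)` lies in the INTERIOR of its cap -/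
theorem cm4c_cap_ex (hc : 0 < cE) (hP : P.Ok cE D0) (g : Cm4Geo P lam q S B H J) {r : ℝ} (hr : r ∈ Ioo P.rmin 1) (hH : H r < 0) :
    ∃ rL rR, CmCapI P H rL rR ∧ r ∈ Ioo rL rR := by
  obtain ⟨rL, rR, hI, hm⟩ := cm4_cap_ex hc hP g ⟨hr.1.le, hr.2.le⟩ hH
  refine ⟨rL, rR, hI, ?_, ?_⟩
  · rcases lt_or_eq_of_le hm.1 with h1 | h1
    · exact h1
    · exfalso
      rcases hI.2.2.2.2.1 with h2 | h2
      · rw [h1] at h2; exact absurd h2 hr.1.ne'
      · rw [h1] at h2; linarith
  · rcases lt_or_eq_of_le hm.2 with h1 | h1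
    · exact h1
    · exfalso
      rcases hI.2.2.2.2.2 with h2 | h2
      · rw [← h1] at h2; exact absurd h2 hr.2.ne
      · rw [← h1] at h2; linarith

theorem cm4c_fl_meas (hc : 0 < cE) (hP : P.Ok cE D0) (g : Cm4Geo P lam q S B H J) : MeasurableSet {r | r ∈ Icc P.rmin 1 ∧ 0 < H r} := by
  obtain ⟨u, hu, hu2⟩ := (continuousOn_iff'.1 (cm4_H_cont hc hP g)) (Ioi 0) isOpen_Ioi
  have : {r | r ∈ Icc P.rmin 1 ∧ 0 < H r} = u ∩ Icc P.rmin 1 := by
    rw [← hu2]; ext r; simp only [mem_ofPred_eq, mem_inter_iff, mem_preimage, mem_Ioi]; tauto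
  rw [this]
  exact hu.measurableSet.inter measurableSet_Icc

theorem cm4c_zero_meas (hc : 0 < cE) (hP : P.Ok cE D0) (g : Cm4Geo P lam q S B H J) : MeasurableSet {r | r ∈ Icc P.rmin 1 ∧ H r = 0} := by
  have h := (cm4_H_cont hc hP g).preimage_isClosed_of_isClosed isClosed_Icc (isClosed_singleton (x := (0:ℝ)))
  have : {r | r ∈ Icc P.rmin 1 ∧ H r = 0} = Icc P.rmin 1 ∩ H ⁻¹' {0} := by
    ext r; simp only [mem_ofPred_eq, mem_inter_iff, mem_preimage, mem_singleton_iff]
  rw [this]
  exact h.measurableSet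

/-- **the floor mass in every radius interval** -/
theorem cm4c_floor_loc (hc : 0 < cE) (hP : P.Ok cE D0) (g : Cm4Geo P lam q S B H J) {s t : ℝ} (hs : P.rmin ≤ s) (hst : s ≤ t) (ht : t ≤ 1) :
    volume (q.al '' ({r | r ∈ Icc P.rmin 1 ∧ 0 < H r} ∩ Icc s t)) ≤ ENNReal.ofReal (∫ r in s..t, P.k r) := by
  have h : P.rmin ≤ 1 := hs.trans (hst.trans ht)
  have hk : IntervalIntegrable P.k volume s t := by
    apply ContinuousOn.intervalIntegrable
    rw [uIcc_of_le hst]
    exact (cm_k_cont hc hP).mono fun x hx => hP.r0.trans (hs.trans hx.1)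
  refine (tl_106_cov_restr (cm4g_al_cov hc hP q h) hs hst ht).volume_image_le ((cm4c_fl_meas hc hP g).inter measurableSet_Icc)
    (fun r hr => hr.2) hk (fun x hx => (cm_k_pos hc hP (hP.r0.trans (hs.trans hx.1))).le) ?_
  filter_upwards [g.floor] with x hx hm
  exact (hx hm.1.1 hm.1.2).deriv

/-- a measurable null set outside of which an a.e. property holds -/
theorem cm4c_null_set {p : ℝ → Prop} (h : ∀ᵐ r, p r) : ∃ Nb : Set ℝ, MeasurableSet Nb ∧ volume Nb = 0 ∧ ∀ r, r ∉ Nb → p r := by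
  refine ⟨toMeasurable volume {r | ¬ p r}, measurableSet_toMeasurable _ _, ?_, fun r hr => ?_⟩
  · rw [measure_toMeasurable]; exact ae_iff.1 h
  · by_contra hcon
    exact hr (subset_toMeasurable _ _ hcon)

/-- **PE Lemma 3.3, closed form**: the bridge from the potential to the closed geometry of P06 -/
theorem cm4_geo_closed (hc : 0 < cE) (hP : P.Ok cE D0) (hl : 0 < lam) (g : Cm4Geo P lam q S B H J) (X : CmNum)
    (hXS : ∀ u ∈ Icc (0:ℝ) 1, X.S u = S u) (hXD : ∀ u ∈ Icc (0:ℝ) 1, X.D u ^ 2 = B u - S u ^ 2) {Kg Lp : ℝ} (hKg : 200 ≤ Kg)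
    (hLp1 : 1 ≤ Lp) (hLp : ∀ r ∈ Icc P.rmin 1, 1 / (1 - P.pp lam r) ≤ Lp)
    (hclock : ∀ s t, P.rmin ≤ s → s ≤ t → t ≤ 1 →
      P.N / (Kg * Lp) * ∫ r in s..t, P.e lam r * X.TH (q.al r) ≤ X.S (q.al t) - X.S (q.al s)) :
    ∃ Z : CmCaps, CmGeo P lam q X Z Kg Lp ∧ (∀ i, CmCapI P H (Z.cL i) (Z.cR i) ∨ (Z.cL i = P.rmin ∧ Z.cR i = P.rmin)) ∧
      (∀ rL rR, CmCapI P H rL rR → ∃ i, Z.cL i = rL ∧ Z.cR i = rR) ∧
      Z.caps = {r | r ∈ Ioo P.rmin 1 ∧ H r < 0} ∧ Z.Fl = {r | r ∈ Icc P.rmin 1 ∧ 0 < H r} ∧ (∀ r ∈ Z.Ct, H r = 0) ∧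
      (∀ i, Z.len i ≤ P.N ^ (-P.dl) * P.L * Real.log ((q.al (Z.cR i) + P.us) / (q.al (Z.cL i) + P.us))) ∧
      (∀ i, q.al (Z.cL i) * Z.len i ≤ P.N ^ (-P.dl) * P.E / P.d ^ 3) := by
  have h01 : P.rmin ≤ 1 := by
    have := q.r_mem 1 ⟨by linarith [hP.u01], le_rfl⟩
    exact this.1.trans this.2
  have hLpos : 0 < Lp := by linarith
  have hKL1 : 1 ≤ Kg * Lp := by nlinarith
  have hmem : ∀ r ∈ Icc P.rmin 1, q.al r ∈ Icc (0:ℝ) 1 := fun r hr =>
    ⟨hP.u00.trans (cm_q_al_mem hc hP q hr).1, (cm_q_al_mem hc hP q hr).2⟩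
  have hS : ∀ r ∈ Icc P.rmin 1, X.S (q.al r) = S (q.al r) := fun r hr => hXS _ (hmem r hr)
  have hD : ∀ r ∈ Icc P.rmin 1, X.D (q.al r) ^ 2 = B (q.al r) - S (q.al r) ^ 2 := fun r hr => hXD _ (hmem r hr)
  obtain ⟨cL, cR, hcap, hdisj, hall⟩ := cm4c_enum (C := CmCapI P H) P.rmin (fun a b h => h.2.1)
    (fun a b a' b' h h' hne => cm4c_cap_unique h h' hne)
  have hne0 : ∀ᵐ x : ℝ, x ≠ 0 := by simp [ae_iff, measure_singleton]
  obtain ⟨Nb, hNbm, hNb0, hgood⟩ := cm4c_null_set (hne0.and (cm4_contact hc hP hl g))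
  have hsub : ∀ i, CmCapI P H (cL i) (cR i) → Icc (cL i) (cR i) ⊆ Icc P.rmin 1 := fun i h => Icc_subset_Icc h.1 h.2.2.1
  have hdeg : ∀ i r, cL i = P.rmin ∧ cR i = P.rmin → r ∉ Ioo (cL i) (cR i) := fun i r h hr => by
    rw [h.1, h.2] at hr; exact absurd (hr.1.trans hr.2) (lt_irrefl _)
  have hcapsEq : (⋃ i, Ioo (cL i) (cR i)) = {r | r ∈ Ioo P.rmin 1 ∧ H r < 0} := by
    ext r
    constructor
    · intro hr
      obtain ⟨i, hi⟩ := mem_iUnion.1 hr
      rcases hcap i with h | h
      · exact ⟨⟨lt_of_le_of_lt h.1 hi.1, lt_of_lt_of_le hi.2 h.2.2.1⟩, h.2.2.2.1 r hi⟩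
      · exact absurd hi (hdeg i r h)
    · rintro ⟨hr, hH⟩
      obtain ⟨rL, rR, hI, hm⟩ := cm4c_cap_ex hc hP g hr hH
      obtain ⟨i, h1, h2⟩ := hall rL rR hI
      exact mem_iUnion.2 ⟨i, by rw [h1, h2]; exact hm⟩
  refine ⟨⟨cL, cR, {r | r ∈ Icc P.rmin 1 ∧ 0 < H r}, {r | r ∈ Icc P.rmin 1 ∧ H r = 0} \ Nb⟩, ?_, hcap, hall, hcapsEq, rfl,
    fun r hr => hr.1.2, ?_, ?_⟩
  · exact
    { Kg1 := by linarith
      Lp1 := hLp1
      cap_le := fun i => by
        rcases hcap i with h | h
        · exact h.2.1.le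
        · show cL i ≤ cR i
          rw [h.1, h.2]
      cap_lo := fun i => by
        rcases hcap i with h | h
        · exact h.1
        · exact h.1.ge
      cap_hi := fun i => by
        rcases hcap i with h | h
        · exact h.2.2.1
        · show cR i ≤ 1
          rw [h.2]; exact h01
      cap_disj := hdisj
      cap_eq := fun i s t hs hst ht => by
        rcases hcap i with h | h
        · exact cm4_cap_flow hc hP g h hs hst ht
        · have hs' : P.rmin ≤ s := h.1 ▸ hs
          have ht' : t ≤ P.rmin := h.2 ▸ ht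
          have : s = t := le_antisymm hst (ht'.trans hs')
          subst this
          simp
      fl_meas := cm4c_fl_meas hc hP g
      fl_sub := fun r hr => hr.1
      fl_mass := fun s t hs hst ht => cm4c_floor_loc hc hP g hs hst ht
      ct_meas := (cm4c_zero_meas hc hP g).diff hNbm
      ct_sub := fun r hr => hr.1.1
      ct_disj := by
        rw [Set.disjoint_left]
        intro r hr hcaps
        have : r ∈ {r | r ∈ Ioo P.rmin 1 ∧ H r < 0} := hcapsEq ▸ hcaps
        have h1 : H r = 0 := hr.1.2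
        have h2 : H r < 0 := this.2
        linarith
      cover := by
        refine measure_mono_null (t := Nb ∪ ({P.rmin} ∪ {1})) ?_ ?_
        · rintro r ⟨hr, hnot⟩
          by_contra hcon
          simp only [mem_union, mem_singleton_iff, not_or] at hcon
          obtain ⟨hN, ha, hb⟩ := hcon
          apply hnot
          have hrI : r ∈ Ioo P.rmin 1 := ⟨lt_of_le_of_ne hr.1 (Ne.symm ha), lt_of_le_of_ne hr.2 hb⟩
          rcases lt_trichotomy (H r) 0 with h | h | h
          · left; left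
            show r ∈ ⋃ i, Ioo (cL i) (cR i)
            rw [hcapsEq]
            exact ⟨hrI, h⟩
          · right
            exact ⟨⟨hr, h⟩, hN⟩
          · left; right
            exact ⟨hr, h⟩
        · refine measure_union_null hNb0 (measure_union_null ?_ ?_) <;> simp
      ct_le := fun r hr => by
        rw [hS r hr.1.1]
        exact ((hgood r hr.2).2 hr.1.1 hr.1.2).2.1
      ct_mis := fun r hr => by
        rw [hS r hr.1.1, hD r hr.1.1]
        have h1 := ((hgood r hr.2).2 hr.1.1 hr.1.2).2.2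
        have h2 : 0 ≤ B (q.al r) - S (q.al r) ^ 2 := le_trans (sq_nonneg _) h1
        nlinarith
      ct_two := fun r1 hr1 r2 hr2 h12 h21 => by
        rw [hS r1 hr1.1.1, hS r2 hr2.1.1]
        have p1 : 0 < r1 := lt_of_le_of_ne (hP.r0.trans hr1.1.1.1) (Ne.symm (hgood r1 hr1.2).1)
        have G1 := ((hgood r1 hr1.2).2 hr1.1.1 hr1.1.2).1
        have G2 := ((hgood r2 hr2.2).2 hr2.1.1 hr2.1.2).1
        have h3 := cm4_contact_two hc hP hl g p1 hr1.1.1.1 h12.le hr2.1.1.2 G1.le G2.ge
        have a1 : 1 + r2 / r1 ≤ 3 := by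
          have : r2 / r1 ≤ 2 := by rw [div_le_iff₀ p1]; exact h21
          linarith
        have a0 : 0 ≤ 1 + r2 / r1 := by
          have : 0 ≤ r2 / r1 := div_nonneg (p1.le.trans h12.le) p1.le
          linarith
        have a2 : 1 / (1 - P.pp lam r2) ≤ Lp := hLp r2 hr2.1.1
        have a3 : 0 ≤ 1 / (1 - P.pp lam r2) := (one_div_pos.2 (cm_pp_gap_pos P lam r2)).le
        have a4 : 0 ≤ r2 - r1 := by linarith
        calc S (q.al r2) - S (q.al r1) ≤ (1 + r2 / r1) / (1 - P.pp lam r2) * (r2 - r1) := h3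
          _ = (1 + r2 / r1) * (1 / (1 - P.pp lam r2)) * (r2 - r1) := by ring
          _ ≤ 3 * Lp * (r2 - r1) := mul_le_mul_of_nonneg_right (mul_le_mul a1 a2 a3 (by norm_num)) a4
          _ ≤ Kg * Lp * (r2 - r1) :=
            mul_le_mul_of_nonneg_right (mul_le_mul_of_nonneg_right (by linarith) hLpos.le) a4
      cap_dS := fun i s t hs hst ht => by
        rcases hcap i with h | h
        · have hs' : s ∈ Icc P.rmin 1 := hsub i h ⟨le_of_lt hs, hst.trans (le_of_lt ht)⟩
          have ht' : t ∈ Icc P.rmin 1 := hsub i h ⟨(le_of_lt hs).trans hst, le_of_lt ht⟩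
          rw [hS s hs', hS t ht']
          show S (q.al t) - S (q.al s) ≤ Kg * Lp * ((cR i - cL i) + (if cL i = P.rmin then P.rmin else 0))
          have hlen : 0 ≤ cR i - cL i := sub_nonneg.2 h.2.1.le
          by_cases hi : cL i = P.rmin
          · rw [if_pos hi]
            have h3 := cm4_cap_dS_init hc hP hl g h hs hst ht
            have h4 : cR i - cL i + P.rmin = cR i := by rw [hi]; ring
            rw [h4]
            have h5 : 0 ≤ cR i := hP.r0.trans (h.1.trans h.2.1.le)
            nlinarith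
          · rw [if_neg hi, add_zero]
            have hni : P.rmin < cL i := lt_of_le_of_ne h.1 (Ne.symm hi)
            have h3 := cm4_cap_dS hc hP hl g h hni hs hst ht
            have a2 : 1 / (1 - P.pp lam (cR i)) ≤ Lp := hLp _ (hsub i h ⟨h.2.1.le, le_rfl⟩)
            calc S (q.al t) - S (q.al s) ≤ 3 / (1 - P.pp lam (cR i)) * (cR i - cL i) := h3
              _ = 3 * (1 / (1 - P.pp lam (cR i))) * (cR i - cL i) := by ring
              _ ≤ 3 * Lp * (cR i - cL i) := mul_le_mul_of_nonneg_right (mul_le_mul_of_nonneg_left a2 (by norm_num)) hlen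
              _ ≤ Kg * Lp * (cR i - cL i) :=
                mul_le_mul_of_nonneg_right (mul_le_mul_of_nonneg_right (by linarith) hLpos.le) hlen
        · exact absurd (⟨hs, lt_of_le_of_lt hst ht⟩ : s ∈ Ioo (cL i) (cR i)) (hdeg i s h)
      cap_Sle := fun i r hr => by
        rcases hcap i with h | h
        · rw [hS r (hsub i h ⟨hr.1.le, hr.2.le⟩)]
          have h3 := cm4_cap_S_le hc hP hl g h hr
          show S (q.al r) ≤ r + (cR i - cL i)
          have : cL i < r := hr.1
          linarith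
        · exact absurd hr (hdeg i r h)
      cap_mis := fun i r hr => by
        rcases hcap i with h | h
        · have hr' := hsub i h ⟨hr.1.le, hr.2.le⟩
          rw [hS r hr', hD r hr']
          show (S (q.al r) - r) ^ 2 ≤ Kg * Lp ^ 2 * (B (q.al r) - S (q.al r) ^ 2 + (cR i - cL i) ^ 2 + (if cL i = P.rmin then P.rmin else 0) ^ 2)
          have hD0 : 0 ≤ B (q.al r) - S (q.al r) ^ 2 := sub_nonneg.2 (g.S_sq _ (hmem r hr'))
          have hK2 : 200 ≤ Kg * Lp ^ 2 := by nlinarith
          by_cases hi : cL i = P.rmin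
          · rw [if_pos hi]
            have h' : CmCapI P H P.rmin (cR i) := hi ▸ h
            have hr2 : r ∈ Ioo P.rmin (cR i) := ⟨hi ▸ hr.1, hr.2⟩
            have h3 := cm4_cap_mis_init hc hP hl g h' hr2
            rw [hi]
            nlinarith [sq_nonneg (cR i - P.rmin), sq_nonneg P.rmin]
          · rw [if_neg hi]
            have hni : P.rmin < cL i := lt_of_le_of_ne h.1 (Ne.symm hi)
            have h3 := cm4_cap_mis hc hP hl g h hni hr
            nlinarith [sq_nonneg (cR i - cL i)]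
        · exact absurd hr (hdeg i r h)
      clock := hclock }
  · intro i
    show cR i - cL i ≤ P.N ^ (-P.dl) * P.L * Real.log ((q.al (cR i) + P.us) / (q.al (cL i) + P.us))
    rcases hcap i with h | h
    · exact cm4_cap_len hc hP g h
    · have hpos : 0 < q.al P.rmin + P.us := by
        have := (hmem P.rmin ⟨le_rfl, h01⟩).1
        have := cm_us_pos hc hP
        linarith
      rw [h.1, h.2, div_self hpos.ne', Real.log_one]
      simp
  · intro i
    show q.al (cL i) * (cR i - cL i) ≤ P.N ^ (-P.dl) * P.E / P.d ^ 3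
    have hc0 : 0 ≤ P.N ^ (-P.dl) * P.E / P.d ^ 3 := by
      have := cm_N_pos hP; have := cm_E_pos hc hP; have := hP.d0
      positivity
    rcases hcap i with h | h
    · rcases lt_or_eq_of_le (hmem (cL i) (hsub i h ⟨le_rfl, h.2.1.le⟩)).1 with h0 | h0
      · exact cm4_cap_len_band hc hP g h h0
      · rw [← h0, zero_mul]; exact hc0
    · rw [h.1, h.2, sub_self, mul_zero]; exact hc0

end

end Claimed.Agent.R286
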