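import Claimed.Agent.R286.Cmp.Num
import Claimed.Agent.R286.Cmp.Prof
import Claimed.Agent.R286.Cmp.P04Obj

/-!
# Row 286, PE Section 3 (package P04): the class (5) and the objective (6) as INSTANCES of the abstract theory      (OWNER helper165; prefix `cm4i_`)

`cmBox P : CmBox`, `cmObj P lam b0 h0 : CmObj`; `(cmBox P).Ok` for `n ≥ N0(cE)`; `q : CmQ P ↦ cm4iAl q ∈ (cmBox P).Q` (clamped), `α ∈ (cmBox P).Q ↦ cm4iQ hX hα : CmQ P`;
`cm4i_val` : the abstract value = the objective of PE (6);  `cm4i_grad` : `4 grad = e Br`.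
EXITS (verbatim bodies of `cm4_nonempty`, `cm4_min_attain`, `cm4_geo` of `Cmp/P04Contract.lean`, definitions unfolded): TEX[PE:comp:envelope] TEX[PE:comp:geometry]
`cm4i_nonempty`, `cm4i_min_attain`, `cm4i_geo` (with `cm4i_J_dist` = bounded distortion).   0 sorry in this file.
The thresholds `N0` are UNIFORM in the pressure model `Pr` (`∃ N0, ∀ P .., ∀ Pr, Pr.Ok → ..`: remark of 99); non-asymptotic forms `cm4i_min_attain_of`, `cm4i_geo_of` take `(cmBox P).Ok` (+ nonemptiness) as hypotheses.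
-/

set_option autoImplicit false

namespace Claimed.Agent.R286

open MeasureTheory Set Filter Topology
open scoped NNReal

noncomputable section

variable {P : CmCall} {cE D0 : ℝ}

/-! ### small tools -/

theorem cm4i_inv_cont {X : CmBox} {α : ℝ → ℝ} (hX : X.Ok) (hα : α ∈ X.Q) : Continuous (X.inv α) := by
  obtain ⟨c, hc0, hc⟩ := hX.k_lo
  have hL : LipschitzWith (Real.toNNReal (1 / c)) (X.inv α) := by
    refine LipschitzWith.of_dist_le_mul fun u v => ?_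
    rw [Real.dist_eq, Real.dist_eq, Real.coe_toNNReal _ (by positivity)]
    have := cm4_inv_lip hX hc0 hc hα u v
    calc |X.inv α u - X.inv α v| ≤ |u - v| / c := this
      _ = 1 / c * |u - v| := by ring
  exact hL.continuous

theorem cm4i_bdd_mul {c g : ℝ → ℝ} {a b : ℝ} (hc : Measurable c) (hcb : ∃ C, ∀ u, |c u| ≤ C)
    (hg : IntervalIntegrable g volume a b) : IntervalIntegrable (fun u => c u * g u) volume a b := by
  obtain ⟨C, hC⟩ := hcb
  rw [intervalIntegrable_iff] at hg ⊢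
  exact hg.bdd_mul hc.aestronglyMeasurable (Eventually.of_forall hC)

theorem cm4i_cont_of_deriv {F F' : ℝ → ℝ} (hF : ∀ r, HasDerivAt F (F' r) r) : Continuous F :=
  continuous_iff_continuousAt.2 fun r => (hF r).continuousAt

/-- the density box of the class (5) -/
def cmBox (P : CmCall) : CmBox where
  r0 := P.rmin
  r1 := 1
  u0 := P.u0
  u1 := 1
  k := P.k
  M := P.M
  M' := fun u => P.N ^ P.dl * (1 / P.L + P.d ^ 3 / P.E * (2 * (u + P.us)))

/-- for large `n` the wall radius is small -/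
theorem cm4i_rmin (hc : 0 < cE) : ∃ N0 : ℕ, ∀ P : CmCall, P.Ok cE D0 → N0 ≤ P.n → P.rmin ≤ 1 / 2 := by
  obtain ⟨N0, hN0⟩ := exists_nat_ge ((2 * cE⁻¹ ^ 2) ^ 6)
  refine ⟨N0, fun P hP hn => ?_⟩
  have hN := cm_N_pos hP
  have hN1 : 1 ≤ P.N := by linarith [cm_N_ge hP]
  have hL := cm_L_pos hc hP
  have h1 : P.rmin ≤ P.L := by
    refine (cm_rmin_le hc hP).trans ?_
    have : P.N ^ (-P.dl) ≤ 1 := Real.rpow_le_one_of_one_le_of_nonpos hN1 (by linarith [cm_dl_pos hP])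
    calc P.N ^ (-P.dl) * P.L ≤ 1 * P.L := mul_le_mul_of_nonneg_right this hL.le
      _ = P.L := one_mul _
  have h2 : P.N ^ (-(1 / 6 : ℝ) - 2 * P.m) ≤ P.N ^ (-(1 / 6 : ℝ)) :=
    Real.rpow_le_rpow_of_exponent_le hN1 (by linarith [hP.m0])
  have h3 : (2 * cE⁻¹ ^ 2) ^ 6 ≤ P.N := hN0.trans (by unfold CmCall.N; exact_mod_cast hn)
  have hpos : 0 < 2 * cE⁻¹ ^ 2 := by positivity
  have h4 : 2 * cE⁻¹ ^ 2 ≤ P.N ^ (1 / 6 : ℝ) := by
    have := Real.rpow_le_rpow (by positivity) h3 (by norm_num : (0:ℝ) ≤ 1 / 6)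
    rwa [← Real.rpow_natCast, ← Real.rpow_mul hpos.le, show ((6 : ℕ) : ℝ) * (1 / 6) = 1 by norm_num, Real.rpow_one] at this
  have h5 : cE⁻¹ ^ 2 * P.N ^ (-(1 / 6 : ℝ)) ≤ 1 / 2 := by
    rw [Real.rpow_neg hN.le, ← div_eq_mul_inv, div_le_iff₀ (by positivity)]
    linarith
  calc P.rmin ≤ P.us := h1.trans cm_L_le_us
    _ ≤ cE⁻¹ ^ 2 * P.N ^ (-(1 / 6 : ℝ) - 2 * P.m) := cm_us_le hc hP
    _ ≤ cE⁻¹ ^ 2 * P.N ^ (-(1 / 6 : ℝ)) := mul_le_mul_of_nonneg_left h2 (by positivity)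
    _ ≤ 1 / 2 := h5

/-- for large `n` the factor `n^δ` is at least `2` -/
theorem cm4i_pow {m0 : ℝ} (hm0 : 0 < m0) : ∃ N0 : ℕ, ∀ P : CmCall, P.Ok cE D0 → m0 ≤ P.m → N0 ≤ P.n → 2 ≤ P.N ^ P.dl := by
  obtain ⟨N0, hN0⟩ := exists_nat_ge ((2 : ℝ) ^ (10000 / m0))
  refine ⟨N0, fun P hP hm hn => ?_⟩
  have hN1 : 1 ≤ P.N := by linarith [cm_N_ge hP]
  have h3 : (2 : ℝ) ^ (10000 / m0) ≤ P.N := hN0.trans (by unfold CmCall.N; exact_mod_cast hn)
  have h4 : (2 : ℝ) ≤ P.N ^ (m0 / 10000) := by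
    have := Real.rpow_le_rpow (by positivity) h3 (by positivity : (0:ℝ) ≤ m0 / 10000)
    rwa [← Real.rpow_mul (by norm_num), show 10000 / m0 * (m0 / 10000) = 1 by field_simp, Real.rpow_one] at this
  exact h4.trans (Real.rpow_le_rpow_of_exponent_le hN1 (by unfold CmCall.dl; linarith))

theorem cm4i_k_meas (P : CmCall) : Measurable P.k := by
  unfold CmCall.k
  fun_prop

theorem cm4i_box_ok (hc : 0 < cE) (hP : P.Ok cE D0) (hr : P.rmin < 1) : (cmBox P).Ok where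
  hr := hr
  hu := by show P.u0 < 1; linarith [hP.u01]
  k_meas := cm4i_k_meas P
  k_lo := ⟨P.k 1, cm_k_pos hc hP zero_le_one, fun r hr' =>
    cm_k_anti hc hP (show (0:ℝ) ≤ r from hP.r0.trans hr'.1) (show (0:ℝ) ≤ 1 from zero_le_one) hr'.2⟩
  M_deriv := fun u => cm_M_hasDeriv u
  M'_cont := by show Continuous fun u => P.N ^ P.dl * (1 / P.L + P.d ^ 3 / P.E * (2 * (u + P.us))); fun_prop
  M_convex := by
    refine Monotone.convexOn_univ_of_deriv (fun u => (cm_M_hasDeriv u).differentiableAt) ?_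
    intro u v huv
    show deriv P.M u ≤ deriv P.M v
    rw [(cm_M_hasDeriv u).deriv, (cm_M_hasDeriv v).deriv]
    have hN := cm_N_pos hP
    have hE := cm_E_pos hc hP
    have hd := hP.d0
    gcongr
  gap := by
    have hN1 : 1 < P.N := by linarith [cm_N_ge hP]
    have hdl := cm_dl_pos hP
    have h1 : 1 < P.N ^ P.dl := Real.one_lt_rpow hN1 hdl
    have h2 : P.N ^ (-(3 * P.dl)) ≤ 1 := Real.rpow_le_one_of_one_le_of_nonpos hN1.le (by linarith)
    refine ⟨P.N ^ P.dl - 1, by linarith, fun r hr' u hu => ?_⟩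
    have a1 := cm_k_le hc hP (hP.r0.trans hr'.1)
    have a2 := cm_M_ge hc hP (hP.u00.trans hu.1)
    show P.k r + (P.N ^ P.dl - 1) ≤ P.M u
    linarith

/-- the clamped inverse quantile of a feasible quantile -/
def cm4iAl (q : CmQ P) : ℝ → ℝ := fun r => q.al (max P.rmin (min r 1))

theorem cm4i_al_eq (q : CmQ P) {r : ℝ} (hr : r ∈ Icc P.rmin 1) : cm4iAl q r = q.al r := by
  unfold cm4iAl
  rw [min_eq_left hr.2, max_eq_right hr.1]

theorem cm4i_al_mem (hr : P.rmin ≤ 1) (q : CmQ P) : cm4iAl q ∈ (cmBox P).Q := by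
  refine ⟨fun r h => ?_, fun r h => ?_, fun s t hs hst ht => ?_⟩
  · have h' : r ≤ P.rmin := h
    show q.al (max P.rmin (min r 1)) = P.u0
    rw [min_eq_left (h'.trans hr), max_eq_left h', q.al_min]
  · have h' : 1 ≤ r := h
    show q.al (max P.rmin (min r 1)) = 1
    rw [min_eq_right h', max_eq_right hr, q.al_one]
  · have hs' : P.rmin ≤ s := hs
    have ht' : t ≤ 1 := ht
    rw [cm4i_al_eq q ⟨hs'.trans hst, ht'⟩, cm4i_al_eq q ⟨hs', hst.trans ht'⟩]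
    refine ⟨q.lo s t hs' hst ht', (q.hi s t hs' hst ht').trans (le_of_eq ?_)⟩
    refine intervalIntegral.integral_congr fun x hx => ?_
    rw [uIcc_of_le hst] at hx
    show P.M (q.al x) = P.M (cm4iAl q x)
    rw [cm4i_al_eq q ⟨hs'.trans hx.1, hx.2.trans ht'⟩]

/-- a member of the abstract class is a feasible quantile -/
def cm4iQ (hX : (cmBox P).Ok) {α : ℝ → ℝ} (hα : α ∈ (cmBox P).Q) : CmQ P where
  al := α
  r := (cmBox P).inv α
  al_min := hα.1 _ le_rfl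
  al_one := hα.2.1 _ le_rfl
  lo := fun r1 r2 h1 h2 h3 => (hα.2.2 r1 r2 h1 h2 h3).1
  hi := fun r1 r2 h1 h2 h3 => (hα.2.2 r1 r2 h1 h2 h3).2
  r_mem := fun u _ => cm4_inv_mem hX hα u
  al_r := fun _ hu => cm4_inv_right hX hα hu
  r_al := fun _ ht => cm4_inv_left hX hα ht

theorem cm4i_eqns_cite : True := by
  have := @cmBox.eq_1; have := @cm4iAl.eq_1; have := @cm4iQ.eq_1
  trivial

/-- the forward quantile of the clamped map is the quantile -/
theorem cm4i_inv_eq (hX : (cmBox P).Ok) (q : CmQ P) {u : ℝ} (hu : u ∈ Icc P.u0 1) : (cmBox P).inv (cm4iAl q) u = q.r u := by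
  have hm := q.r_mem u hu
  have := cm4_inv_left hX (cm4i_al_mem hX.hr.le q) (r := q.r u) hm
  rwa [cm4i_al_eq q hm, q.al_r u hu] at this

/-- **the class (5) is nonempty** -/
theorem cm4i_nonempty (hc : 0 < cE) {m0 : ℝ} (hm0 : 0 < m0) :
    ∃ N0 : ℕ, ∀ P : CmCall, P.Ok cE D0 → m0 ≤ P.m → N0 ≤ P.n → (cmBox P).Ok ∧ (cmBox P).Q.Nonempty := by
  obtain ⟨N1, h1⟩ := cm4i_rmin (D0 := D0) hc
  obtain ⟨N2, h2⟩ := cm4i_pow (cE := cE) (D0 := D0) hm0
  refine ⟨max N1 N2, fun P hP hm hn => ?_⟩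
  have hr := h1 P hP ((le_max_left _ _).trans hn)
  have hp := h2 P hP hm ((le_max_right _ _).trans hn)
  have hX : (cmBox P).Ok := cm4i_box_ok hc hP (by linarith)
  refine ⟨hX, _, cm4_linear_mem hX ?_ ?_⟩
  · intro r hr'
    show P.k r ≤ (1 - P.u0) / (1 - P.rmin)
    have a1 := cm_k_le hc hP (hP.r0.trans hr'.1)
    have hN := cm_N_pos hP
    have a2 : P.N ^ (-(3 * P.dl)) ≤ 1 / 2 := by
      have e : P.N ^ (-(3 * P.dl)) = (P.N ^ P.dl)⁻¹ ^ 3 := by
        rw [Real.rpow_neg hN.le, mul_comm, Real.rpow_mul hN.le, inv_pow]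
        norm_cast
      rw [e]
      have b1 : (P.N ^ P.dl)⁻¹ ≤ 1 / 2 := by
        rw [inv_le_comm₀ (by positivity) (by norm_num)]; simpa using hp
      have b0 : 0 ≤ (P.N ^ P.dl)⁻¹ := by positivity
      calc (P.N ^ P.dl)⁻¹ ^ 3 ≤ (1 / 2 : ℝ) ^ 3 := pow_le_pow_left₀ b0 b1 3
        _ ≤ 1 / 2 := by norm_num
    have a3 : 1 / 2 ≤ (1 - P.u0) / (1 - P.rmin) := by
      rw [le_div_iff₀ (by linarith)]
      nlinarith [hP.u01, hP.r0]
    linarith
  · intro u hu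
    show (1 - P.u0) / (1 - P.rmin) ≤ P.M u
    have a2 := cm_M_ge hc hP (hP.u00.trans hu.1)
    have a3 : (1 - P.u0) / (1 - P.rmin) ≤ 2 := by
      rw [div_le_iff₀ (by linarith)]
      nlinarith [hP.u00, hr]
    linarith

/-! ### the objective (6) -/

/-- the objective (6) as an abstract objective -/
def cmObj (P : CmCall) (lam : ℝ) (b0 h0 : ℝ → ℝ) : CmObj where
  b0 := b0
  h0 := h0
  c := (Icc P.u0 1).indicator fun _ => 1
  Fb := fun r => P.e lam r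
  Fh := fun r => r * P.e lam r
  Fp := fun r => 1 / 4 * (r ^ 2 * P.e lam r)
  Fb' := fun r => -(P.pp lam r * P.e lam r / r)
  Fh' := fun r => (1 - P.pp lam r) * P.e lam r
  Fp' := fun r => 1 / 4 * ((2 - P.pp lam r) * r * P.e lam r)

theorem cm4i_obj_eqns_cite : True := by
  have := @cmObj.eq_1
  trivial

/-- `p f / t` is continuous -/
theorem cm4i_pf_cont : Continuous fun t => cmP t * cmF t / t := by
  have e : (fun t => cmP t * cmF t / t) = fun t => Real.log (max t 1) / max t 1 / max t 1 := by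
    funext t
    rcases le_total t 1 with h | h
    · rw [cm_p_of_le h, max_eq_right h]; simp
    · rw [cm_pf_of_ge h, max_eq_left h]
  rw [e]
  have hpos : ∀ t : ℝ, max t 1 ≠ 0 := fun t => (lt_of_lt_of_le one_pos (le_max_right t 1)).ne'
  have hm : Continuous fun t : ℝ => max t 1 := continuous_id.max continuous_const
  exact ((hm.log hpos).div hm hpos).div hm hpos

theorem cm4i_de_cont (P : CmCall) (lam : ℝ) : Continuous fun r => -(P.pp lam r * P.e lam r / r) := by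
  have e : (fun r => -(P.pp lam r * P.e lam r / r))
      = fun r => lam * (-(cmP (lam * r / P.d ^ 3) * cmF (lam * r / P.d ^ 3) / (lam * r / P.d ^ 3)) * (lam / P.d ^ 3)) := by
    funext r
    have h1 : HasDerivAt (fun s : ℝ => lam * s / P.d ^ 3) (lam / P.d ^ 3) r := by
      simpa using ((hasDerivAt_id' r).const_mul lam).div_const (P.d ^ 3)
    have h2 := ((cm_f_hasDerivAt (lam * r / P.d ^ 3)).comp r h1).const_mul lam
    exact (cm_e_hasDerivAt_r P lam r).unique h2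
  rw [e]
  have hc : Continuous fun r : ℝ => lam * r / P.d ^ 3 := by fun_prop
  exact continuous_const.mul (((cm4i_pf_cont.comp hc).neg).mul continuous_const)

theorem cm4i_obj_ok (hP : P.Ok cE D0) (lam : ℝ) (b0 h0 : ℝ → ℝ) : (cmObj P lam b0 h0).Ok (cmBox P) where
  hu0 := hP.u00
  hu1 := le_rfl
  c_meas := measurable_const.indicator measurableSet_Icc
  c_bdd := ⟨1, fun u => by
    show |(Icc P.u0 1).indicator (fun _ => (1:ℝ)) u| ≤ 1
    by_cases h : u ∈ Icc P.u0 1 <;> simp [h]⟩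
  c_supp := fun u hu => by
    show (Icc P.u0 1).indicator (fun _ => (1:ℝ)) u = 0
    exact indicator_of_notMem hu _
  dFb := fun r => cm_e_hasDerivAt_r P lam r
  dFh := fun r => cm_re_hasDerivAt P lam r
  dFp := fun r => (cm_rre_hasDerivAt P lam r).const_mul (1 / 4)
  cFb := cm4i_de_cont P lam
  cFh := (continuous_const.sub (cm_pp_cont P lam)).mul (cm_e_cont P lam)
  cFp := continuous_const.mul (((continuous_const.sub (cm_pp_cont P lam)).mul continuous_id).mul (cm_e_cont P lam))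

theorem cm4i_c_one (lam : ℝ) (b0 h0 : ℝ → ℝ) {u : ℝ} (hu : u ∈ Icc P.u0 1) : (cmObj P lam b0 h0).c u = 1 := by
  show (Icc P.u0 1).indicator (fun _ => (1:ℝ)) u = 1
  exact indicator_of_mem hu _

theorem cm4i_c_zero (lam : ℝ) (b0 h0 : ℝ → ℝ) {u : ℝ} (hu : u ∉ Icc P.u0 1) : (cmObj P lam b0 h0).c u = 0 := by
  show (Icc P.u0 1).indicator (fun _ => (1:ℝ)) u = 0
  exact indicator_of_notMem hu _

/-- the changed matrix clocks agree on `[0,1]` -/
theorem cm4i_clkB (hX : (cmBox P).Ok) (q : CmQ P) (lam : ℝ) (b0 h0 : ℝ → ℝ) {u : ℝ} (hu : u ∈ Icc (0:ℝ) 1) :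
    (cmObj P lam b0 h0).clkB (cmBox P) (cm4iAl q) u = q.bq lam b0 u := by
  unfold CmObj.clkB CmQ.bq
  by_cases h : P.u0 ≤ u
  · rw [if_pos h, cm4i_c_one lam b0 h0 ⟨h, hu.2⟩, cm4i_inv_eq hX q ⟨h, hu.2⟩, one_mul]
    rfl
  · rw [if_neg h, cm4i_c_zero lam b0 h0 (fun h' => h h'.1), zero_mul, sub_zero]
    rfl

/-- the changed field clocks agree on `[0,1]` -/
theorem cm4i_clkH (hX : (cmBox P).Ok) (q : CmQ P) (lam : ℝ) (b0 h0 : ℝ → ℝ) {u : ℝ} (hu : u ∈ Icc (0:ℝ) 1) :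
    (cmObj P lam b0 h0).clkH (cmBox P) (cm4iAl q) u = q.hq lam h0 u := by
  unfold CmObj.clkH CmQ.hq
  by_cases h : P.u0 ≤ u
  · rw [if_pos h, cm4i_c_one lam b0 h0 ⟨h, hu.2⟩, cm4i_inv_eq hX q ⟨h, hu.2⟩, one_mul]
    show h0 u + q.r u * P.e lam (q.r u) = _
    ring
  · rw [if_neg h, cm4i_c_zero lam b0 h0 (fun h' => h h'.1), zero_mul, add_zero]
    rfl

/-- the penalties agree -/
theorem cm4i_pen (hP : P.Ok cE D0) (hX : (cmBox P).Ok) (q : CmQ P) (lam : ℝ) (b0 h0 : ℝ → ℝ) :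
    ∫ u in (0:ℝ)..1, (cmObj P lam b0 h0).c u * (cmObj P lam b0 h0).Fp ((cmBox P).inv (cm4iAl q) u) = q.pen lam := by
  have hO := cm4i_obj_ok hP lam b0 h0
  have hα := cm4i_al_mem hX.hr.le q
  have hii : ∀ a b : ℝ, IntervalIntegrable
      (fun u => (cmObj P lam b0 h0).c u * (cmObj P lam b0 h0).Fp ((cmBox P).inv (cm4iAl q) u)) volume a b := fun a b => by
    obtain ⟨K, hK⟩ := cm4_comp_inv_lip hX hα hO.dFp hO.cFp
    obtain ⟨C, hC⟩ := hO.c_bdd
    have := cm4_ii_mul (hK.continuous.intervalIntegrable a b) hO.c_meas hC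
    simpa only [mul_comm] using this
  rw [← intervalIntegral.integral_add_adjacent_intervals (hii 0 P.u0) (hii P.u0 1)]
  have e1 : ∫ u in (0:ℝ)..P.u0, (cmObj P lam b0 h0).c u * (cmObj P lam b0 h0).Fp ((cmBox P).inv (cm4iAl q) u) = 0 := by
    refine intervalIntegral.integral_zero_ae ?_
    have hne : ∀ᵐ x : ℝ, x ≠ P.u0 := by simp [ae_iff, measure_singleton]
    filter_upwards [hne] with u hu hmem
    rw [uIoc_of_le hP.u00] at hmem
    rw [cm4i_c_zero lam b0 h0 (fun h' => hu (le_antisymm hmem.2 h'.1)), zero_mul]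
  rw [e1, zero_add]
  unfold CmQ.pen
  rw [← intervalIntegral.integral_const_mul]
  refine intervalIntegral.integral_congr fun u hu => ?_
  rw [uIcc_of_le (by linarith [hP.u01])] at hu
  show (cmObj P lam b0 h0).c u * (cmObj P lam b0 h0).Fp ((cmBox P).inv (cm4iAl q) u) = 1 / 4 * (P.e lam (q.r u) * q.r u ^ 2)
  rw [cm4i_c_one lam b0 h0 hu, cm4i_inv_eq hX q hu, one_mul]
  show 1 / 4 * (q.r u ^ 2 * P.e lam (q.r u)) = _
  ring

/-- **the two objectives agree** -/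
theorem cm4i_val (hP : P.Ok cE D0) (hX : (cmBox P).Ok) {Pr : CmPr} (hPr : Pr.Ok) (q : CmQ P) (lam : ℝ) (b0 h0 : ℝ → ℝ) :
    (cmObj P lam b0 h0).val Pr (cmBox P) (cm4iAl q) = Pr.f (q.bq lam b0) (q.hq lam h0) + q.pen lam := by
  unfold CmObj.val
  rw [cm4i_pen hP hX q lam b0 h0,
    (hPr.congr _ _ _ _ (fun u hu => cm4i_clkB hX q lam b0 h0 hu) (fun u hu => cm4i_clkH hX q lam b0 h0 hu)).2.1]

/-- clamping the inverse quantile of a member of the abstract class does nothing -/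
theorem cm4i_al_Q (hX : (cmBox P).Ok) {α : ℝ → ℝ} (hα : α ∈ (cmBox P).Q) : cm4iAl (cm4iQ hX hα) = α := by
  funext r
  exact cm4_proj_eq hX hα r

theorem cm4i_admAll (hX : (cmBox P).Ok) {Pr : CmPr} (hPr : Pr.Ok) {lam : ℝ} {b0 h0 : ℝ → ℝ}
    (hA : ∀ q : CmQ P, Pr.Adm (q.bq lam b0) (q.hq lam h0)) : (cmObj P lam b0 h0).AdmAll Pr (cmBox P) := by
  intro α hα
  have h := hA (cm4iQ hX hα)
  have hc := hPr.congr _ _ _ _ (fun u hu => (cm4i_clkB hX (cm4iQ hX hα) lam b0 h0 hu).symm)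
    (fun u hu => (cm4i_clkH hX (cm4iQ hX hα) lam b0 h0 hu).symm)
  rw [cm4i_al_Q hX hα] at hc
  exact hc.1 h

/-- **the minimum in (6) is attained** (non-asymptotic form) -/
theorem cm4i_min_attain_of (hP : P.Ok cE D0) (hX : (cmBox P).Ok) (hne : (cmBox P).Q.Nonempty) {Pr : CmPr} (hPr : Pr.Ok)
    (lam : ℝ) (b0 h0 : ℝ → ℝ) (hA : ∀ q : CmQ P, Pr.Adm (q.bq lam b0) (q.hq lam h0)) :
    ∃ q : CmQ P, (∀ q' : CmQ P, Pr.f (q.bq lam b0) (q.hq lam h0) + q.pen lam ≤ Pr.f (q'.bq lam b0) (q'.hq lam h0) + q'.pen lam) ∧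
      sInf (range fun q' : CmQ P => Pr.f (q'.bq lam b0) (q'.hq lam h0) + q'.pen lam)
        = Pr.f (q.bq lam b0) (q.hq lam h0) + q.pen lam := by
  obtain ⟨α, hα, hmin⟩ := cm4_val_attain hPr hX (cm4i_obj_ok hP lam b0 h0) (cm4i_admAll hX hPr hA) hne
  have key : ∀ q' : CmQ P, Pr.f ((cm4iQ hX hα).bq lam b0) ((cm4iQ hX hα).hq lam h0) + (cm4iQ hX hα).pen lam
      ≤ Pr.f (q'.bq lam b0) (q'.hq lam h0) + q'.pen lam := by
    intro q'
    rw [← cm4i_val hP hX hPr, ← cm4i_val hP hX hPr, cm4i_al_Q hX hα]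
    exact hmin _ (cm4i_al_mem hX.hr.le q')
  refine ⟨cm4iQ hX hα, key, ?_⟩
  refine IsLeast.csInf_eq ⟨⟨_, rfl⟩, ?_⟩
  rintro _ ⟨q', rfl⟩
  exact key q'

/-- **the minimum in (6) is attained**; the threshold `N0` does not depend on the pressure model -/
theorem cm4i_min_attain (hc : 0 < cE) {m0 : ℝ} (hm0 : 0 < m0) :
    ∃ N0 : ℕ, ∀ P : CmCall, P.Ok cE D0 → m0 ≤ P.m → N0 ≤ P.n → ∀ Pr : CmPr, Pr.Ok → ∀ (lam : ℝ) (b0 h0 : ℝ → ℝ),
      (∀ q : CmQ P, Pr.Adm (q.bq lam b0) (q.hq lam h0)) →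
      ∃ q : CmQ P, (∀ q' : CmQ P, Pr.f (q.bq lam b0) (q.hq lam h0) + q.pen lam ≤ Pr.f (q'.bq lam b0) (q'.hq lam h0) + q'.pen lam) ∧
        sInf (range fun q' : CmQ P => Pr.f (q'.bq lam b0) (q'.hq lam h0) + q'.pen lam)
          = Pr.f (q.bq lam b0) (q.hq lam h0) + q.pen lam := by
  obtain ⟨N0, h0⟩ := cm4i_nonempty (D0 := D0) hc hm0
  exact ⟨N0, fun P hP hm hn Pr hPr lam b0 h0' hA =>
    cm4i_min_attain_of hP (h0 P hP hm hn).1 (h0 P hP hm hn).2 hPr lam b0 h0' hA⟩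

/-! ### the geometry of a minimiser -/

theorem cm4i_log_lip {a b c : ℝ} (hc : 0 < c) (ha : c ≤ a) (hb : c ≤ b) : |Real.log a - Real.log b| ≤ |a - b| / c := by
  wlog hab : b ≤ a generalizing a b
  · rw [abs_sub_comm, abs_sub_comm a b]
    exact this hb ha (le_of_not_ge hab)
  have hb0 : 0 < b := lt_of_lt_of_le hc hb
  have ha0 : 0 < a := lt_of_lt_of_le hc ha
  rw [abs_of_nonneg (sub_nonneg.2 (Real.log_le_log hb0 hab)), abs_of_nonneg (sub_nonneg.2 hab), ← Real.log_div ha0.ne' hb0.ne']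
  calc Real.log (a / b) ≤ a / b - 1 := Real.log_le_sub_one_of_pos (div_pos ha0 hb0)
    _ = (a - b) / b := by field_simp
    _ ≤ (a - b) / c := div_le_div_of_nonneg_left (sub_nonneg.2 hab) hc hb

/-- bounded distortion of the integrating factor -/
theorem cm4i_J_dist (hc : 0 < cE) (hP : P.Ok cE D0) (hX : (cmBox P).Ok) {α : ℝ → ℝ} (hα : α ∈ (cmBox P).Q) {r1 r2 : ℝ}
    (h1 : P.rmin ≤ r1) (h12 : r1 ≤ r2) (h2 : r2 ≤ 1) :
    (cmBox P).J α r1 ≤ (cmBox P).J α r2 ∧ (cmBox P).J α r2 ≤ ((α r2 + P.us) / (α r1 + P.us)) ^ 2 * (cmBox P).J α r1 := by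
  have hus := cm_us_pos hc hP
  have hN := cm_N_pos hP
  have hL := cm_L_pos hc hP
  have hE := cm_E_pos hc hP
  have hd := hP.d0
  have hα0 : ∀ x, 0 ≤ α x := fun x => hP.u00.trans (cm4_mem hX hα x).1
  have hA : ∀ x, P.us ≤ α x + P.us := fun x => by linarith [hα0 x]
  have hJ1 := cm4_J_pos (cmBox P) α r1
  have hrat := cm4_J_ratio hX hα r1 r2
  rw [div_eq_iff hJ1.ne'] at hrat
  have hM' : ∀ x, 0 ≤ (cmBox P).M' (α x) := fun x => by
    show 0 ≤ P.N ^ P.dl * (1 / P.L + P.d ^ 3 / P.E * (2 * (α x + P.us)))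
    have := hα0 x
    positivity
  have hI0 : 0 ≤ ∫ x in r1..r2, (cmBox P).ctl α x * (cmBox P).M' (α x) :=
    intervalIntegral.integral_nonneg h12 fun x _ => mul_nonneg (cm4_ctl_mem _ α x).1 (hM' x)
  -- the logarithm of the mass
  obtain ⟨K, hK⟩ := cm4_lip hX
  have hlip : LipschitzWith (K * ⟨1 / P.us, (one_div_pos.2 hus).le⟩) fun x => Real.log (α x + P.us) := by
    refine LipschitzWith.of_dist_le_mul fun x y => ?_
    rw [Real.dist_eq, Real.dist_eq]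
    have a1 := cm4i_log_lip hus (hA x) (hA y)
    have a2 := (hK α hα).dist_le_mul x y
    rw [Real.dist_eq, Real.dist_eq] at a2
    have e : α x + P.us - (α y + P.us) = α x - α y := by ring
    rw [e] at a1
    show |Real.log (α x + P.us) - Real.log (α y + P.us)| ≤ (K : ℝ) * (1 / P.us) * |x - y|
    calc _ ≤ |α x - α y| / P.us := a1
      _ ≤ (K : ℝ) * |x - y| / P.us := div_le_div_of_nonneg_right a2 hus.le
      _ = _ := by ring
  have hac : AbsolutelyContinuousOnInterval (fun x => Real.log (α x + P.us)) r1 r2 :=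
    (hlip.lipschitzOnWith (s := uIcc r1 r2)).absolutelyContinuousOnInterval
  have hI1 : ∫ x in r1..r2, (cmBox P).ctl α x * (cmBox P).M' (α x)
      ≤ 2 * (Real.log (α r2 + P.us) - Real.log (α r1 + P.us)) := by
    rw [← hac.integral_deriv_eq_sub, ← intervalIntegral.integral_const_mul]
    refine intervalIntegral.integral_mono_ae_restrict h12 (cm4_rate_ii hX hα r1 r2) (hac.intervalIntegrable_deriv.const_mul 2) ?_
    refine (ae_restrict_iff' measurableSet_Icc).2 ?_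
    filter_upwards [(cm4_ac hX hα r1 r2).ae_differentiableAt, cm4_ctl_eq hX hα] with x hx hctl hmem
    have hmem' : x ∈ Icc (cmBox P).r0 (cmBox P).r1 := ⟨h1.trans hmem.1, hmem.2.trans h2⟩
    have hd1 := (hx (by rwa [uIcc_of_le h12])).hasDerivAt
    have hd2 : HasDerivAt (fun x => Real.log (α x + P.us)) (deriv α x / (α x + P.us)) x :=
      (hd1.add_const P.us).log (by linarith [hA x])
    rw [hd2.deriv]
    have hw := cm4_ctl_mem (cmBox P) α x
    have hk : 0 < P.k x := cm_k_pos hc hP (hP.r0.trans hmem'.1)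
    have e1 : deriv α x = P.k x + (cmBox P).ctl α x * (P.M (α x) - P.k x) := hctl hmem'
    have e2 : (cmBox P).ctl α x * P.M (α x) ≤ deriv α x := by
      rw [e1]
      nlinarith [mul_nonneg (sub_nonneg.2 hw.2) hk.le]
    have e3 : (cmBox P).M' (α x) ≤ 2 / (α x + P.us) * P.M (α x) := cm_M_logderiv hc hP (hα0 x)
    have hpos : 0 < α x + P.us := by linarith [hA x]
    calc (cmBox P).ctl α x * (cmBox P).M' (α x) ≤ (cmBox P).ctl α x * (2 / (α x + P.us) * P.M (α x)) :=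
          mul_le_mul_of_nonneg_left e3 hw.1
      _ = 2 / (α x + P.us) * ((cmBox P).ctl α x * P.M (α x)) := by ring
      _ ≤ 2 / (α x + P.us) * deriv α x := mul_le_mul_of_nonneg_left e2 (by positivity)
      _ = 2 * (deriv α x / (α x + P.us)) := by ring
  constructor
  · rw [hrat]
    calc (cmBox P).J α r1 = 1 * (cmBox P).J α r1 := (one_mul _).symm
      _ ≤ _ := mul_le_mul_of_nonneg_right (Real.one_le_exp hI0) hJ1.le
  · rw [hrat]
    refine mul_le_mul_of_nonneg_right ?_ hJ1.le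
    have p1 : 0 < α r1 + P.us := by linarith [hA r1]
    have p2 : 0 < α r2 + P.us := by linarith [hA r2]
    calc Real.exp (∫ x in r1..r2, (cmBox P).ctl α x * (cmBox P).M' (α x))
        ≤ Real.exp (2 * (Real.log (α r2 + P.us) - Real.log (α r1 + P.us))) := Real.exp_le_exp.2 hI1
      _ = ((α r2 + P.us) / (α r1 + P.us)) ^ 2 := by
        rw [← Real.log_div p2.ne' p1.ne', two_mul, Real.exp_add, Real.exp_log (div_pos p2 p1)]
        ring

/-- the density of the first variation is `e Br / 4` -/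
theorem cm4i_grad (hP : P.Ok cE D0) (hX : (cmBox P).Ok) {Pr : CmPr} (hPr : Pr.Ok) (q : CmQ P) (lam : ℝ) (b0 h0 : ℝ → ℝ)
    {x : ℝ} (hx : x ∈ Icc P.rmin 1) :
    4 * (cmObj P lam b0 h0).grad Pr (cmBox P) (cm4iAl q) x
      = P.e lam x * cmBr (P.pp lam x) x (Pr.S (q.bq lam b0) (q.hq lam h0) (q.al x)) (Pr.B (q.bq lam b0) (q.hq lam h0) (q.al x)) := by
  have hα := cm4i_al_mem hX.hr.le q
  have hm : cm4iAl q x ∈ Icc P.u0 1 := cm4_mem hX hα x
  have hm' : cm4iAl q x ∈ Icc (0:ℝ) 1 := ⟨hP.u00.trans hm.1, hm.2⟩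
  have hcg := (hPr.congr _ _ _ _ (fun u hu => cm4i_clkB hX q lam b0 h0 hu) (fun u hu => cm4i_clkH hX q lam b0 h0 hu)).2.2 _ hm'
  unfold CmObj.grad CmObj.mB CmObj.mS
  rw [hcg.1, hcg.2, cm4i_c_one lam b0 h0 hm, cm4i_al_eq q hx]
  show 4 * (1 * (1 / 4 * Pr.B (q.bq lam b0) (q.hq lam h0) (q.al x) * -(P.pp lam x * P.e lam x / x)
    - 1 / 2 * Pr.S (q.bq lam b0) (q.hq lam h0) (q.al x) * ((1 - P.pp lam x) * P.e lam x)
    + 1 / 4 * ((2 - P.pp lam x) * x * P.e lam x))) = _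
  unfold cmBr
  ring

/-- **PE Lemma 3.3, first part**, fields of the closed output (non-asymptotic form) -/
theorem cm4i_geo_of (hc : 0 < cE) (hP : P.Ok cE D0) (hX : (cmBox P).Ok) {Pr : CmPr} (hPr : Pr.Ok) (lam : ℝ) (b0 h0' : ℝ → ℝ)
    (hA : ∀ q : CmQ P, Pr.Adm (q.bq lam b0) (q.hq lam h0')) (q : CmQ P)
    (hmin : ∀ q' : CmQ P, Pr.f (q.bq lam b0) (q.hq lam h0') + q.pen lam ≤ Pr.f (q'.bq lam b0) (q'.hq lam h0') + q'.pen lam) :
    ∃ H J : ℝ → ℝ, (∀ r ∈ Icc P.rmin 1, 0 < J r) ∧ ContinuousOn J (Icc P.rmin 1) ∧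
      (∀ r1 r2 : ℝ, P.rmin ≤ r1 → r1 ≤ r2 → r2 ≤ 1 →
        J r1 ≤ J r2 ∧ J r2 ≤ ((q.al r2 + P.us) / (q.al r1 + P.us)) ^ 2 * J r1) ∧
      (∀ r1 ∈ Icc P.rmin 1, ∀ r2 ∈ Icc P.rmin 1, H r2 - H r1 = ∫ x in r1..r2, J x * (P.e lam x *
        cmBr (P.pp lam x) x (Pr.S (q.bq lam b0) (q.hq lam h0') (q.al x)) (Pr.B (q.bq lam b0) (q.hq lam h0') (q.al x)))) ∧
      (∀ᵐ r, r ∈ Icc P.rmin 1 → H r < 0 → HasDerivAt q.al (P.M (q.al r)) r) ∧
      (∀ᵐ r, r ∈ Icc P.rmin 1 → 0 < H r → HasDerivAt q.al (P.k r) r) := by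
  have hα := cm4i_al_mem hX.hr.le q
  have hO := cm4i_obj_ok hP lam b0 h0'
  have hAll := cm4i_admAll hX hPr hA
  have hmin' : ∀ β ∈ (cmBox P).Q, (cmObj P lam b0 h0').val Pr (cmBox P) (cm4iAl q) ≤ (cmObj P lam b0 h0').val Pr (cmBox P) β := by
    intro β hβ
    have := hmin (cm4iQ hX hβ)
    rwa [← cm4i_val hP hX hPr, ← cm4i_val hP hX hPr, cm4i_al_Q hX hβ] at this
  obtain ⟨c, hcap, hfloor⟩ := cm4_obj_mult hPr hX hO hAll hα hmin'
  have hloc : ∀ᵐ r, r ∈ Icc P.rmin 1 → HasDerivAt q.al (deriv (cm4iAl q) r) r := by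
    have h₁ : ∀ᵐ x : ℝ, x ≠ P.rmin := by simp [ae_iff, measure_singleton]
    have h₂ : ∀ᵐ x : ℝ, x ≠ 1 := by simp [ae_iff, measure_singleton]
    filter_upwards [(cm4_ac hX hα P.rmin 1).ae_differentiableAt, h₁, h₂] with r hr ha hb hmem
    have hle : P.rmin ≤ 1 := hX.hr.le
    have hd := (hr (by rwa [uIcc_of_le hle])).hasDerivAt
    refine hd.congr_of_eventuallyEq ?_
    filter_upwards [Icc_mem_nhds (lt_of_le_of_ne hmem.1 (Ne.symm ha)) (lt_of_le_of_ne hmem.2 hb)] with y hy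
    exact (cm4i_al_eq q hy).symm
  refine ⟨fun r => 4 * (cmBox P).pot (cm4iAl q) ((cmObj P lam b0 h0').grad Pr (cmBox P) (cm4iAl q)) c r, (cmBox P).J (cm4iAl q),
    fun r _ => cm4_J_pos _ _ r, (cm4_J_cont hX hα).continuousOn, ?_, ?_, ?_, ?_⟩
  · intro r1 r2 g1 g2 g3
    have := cm4i_J_dist hc hP hX hα g1 g2 g3
    rwa [cm4i_al_eq q ⟨g1, g2.trans g3⟩, cm4i_al_eq q ⟨g1.trans g2, g3⟩] at this
  · intro r1 g1 r2 g2
    have := cm4_pot_sub hX hα (cm4_grad_int hPr hX hO hAll hα) c g1 g2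
    rw [← mul_sub, this, ← intervalIntegral.integral_const_mul]
    refine intervalIntegral.integral_congr fun x hx => ?_
    have hx' : x ∈ Icc P.rmin 1 := by
      rcases le_total r1 r2 with h | h
      · rw [uIcc_of_le h] at hx; exact ⟨g1.1.trans hx.1, hx.2.trans g2.2⟩
      · rw [uIcc_of_ge h] at hx; exact ⟨g2.1.trans hx.1, hx.2.trans g1.2⟩
    show 4 * ((cmBox P).J (cm4iAl q) x * (cmObj P lam b0 h0').grad Pr (cmBox P) (cm4iAl q) x) = _
    rw [← cm4i_grad hP hX hPr q lam b0 h0' hx']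
    ring
  · filter_upwards [hcap, hloc] with r hr hl hmem hH
    have := hr hmem (by linarith)
    have h3 := hl hmem
    rw [this, cm4i_al_eq q hmem] at h3
    exact h3
  · filter_upwards [hfloor, hloc] with r hr hl hmem hH
    have := hr hmem (by linarith)
    have h3 := hl hmem
    rw [this] at h3
    exact h3

/-- **PE Lemma 3.3, first part**; the threshold `N0` does not depend on the pressure model -/
theorem cm4i_geo (hc : 0 < cE) {m0 : ℝ} (hm0 : 0 < m0) :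
    ∃ N0 : ℕ, ∀ P : CmCall, P.Ok cE D0 → m0 ≤ P.m → N0 ≤ P.n → ∀ Pr : CmPr, Pr.Ok → ∀ (lam : ℝ) (b0 h0 : ℝ → ℝ),
      (∀ q : CmQ P, Pr.Adm (q.bq lam b0) (q.hq lam h0)) → ∀ q : CmQ P,
      (∀ q' : CmQ P, Pr.f (q.bq lam b0) (q.hq lam h0) + q.pen lam ≤ Pr.f (q'.bq lam b0) (q'.hq lam h0) + q'.pen lam) →
      ∃ H J : ℝ → ℝ, (∀ r ∈ Icc P.rmin 1, 0 < J r) ∧ ContinuousOn J (Icc P.rmin 1) ∧
        (∀ r1 r2 : ℝ, P.rmin ≤ r1 → r1 ≤ r2 → r2 ≤ 1 →
          J r1 ≤ J r2 ∧ J r2 ≤ ((q.al r2 + P.us) / (q.al r1 + P.us)) ^ 2 * J r1) ∧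
        (∀ r1 ∈ Icc P.rmin 1, ∀ r2 ∈ Icc P.rmin 1, H r2 - H r1 = ∫ x in r1..r2, J x * (P.e lam x *
          cmBr (P.pp lam x) x (Pr.S (q.bq lam b0) (q.hq lam h0) (q.al x)) (Pr.B (q.bq lam b0) (q.hq lam h0) (q.al x)))) ∧
        (∀ᵐ r, r ∈ Icc P.rmin 1 → H r < 0 → HasDerivAt q.al (P.M (q.al r)) r) ∧
        (∀ᵐ r, r ∈ Icc P.rmin 1 → 0 < H r → HasDerivAt q.al (P.k r) r) := by
  obtain ⟨N0, h0⟩ := cm4i_nonempty (D0 := D0) hc hm0
  exact ⟨N0, fun P hP hm hn Pr hPr lam b0 h0' hA q hmin => cm4i_geo_of hc hP (h0 P hP hm hn).1 hPr lam b0 h0' hA q hmin⟩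

end

end Claimed.Agent.R286
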