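import Claimed.Agent.R286.Cmp.P5Ctr
import Claimed.Agent.R286.Cmp.P6Geo
import Claimed.Agent.R286.Cmp.InstNum
import Claimed.Agent.R286.Exit.CmpGeo

/-!
# Row 286 (S0533), PE Section 3, package P05: THE DETERMINISTIC PART OF THE INSTANCE CHAIN      (owner helper34; prefix `cm5c_`, types `Cm5Smp`)

Ruling of 247 (03:50Z): (A) 247 = bridge + finite dictionary (Cmp/P5L8), (C+D) 34 = THIS FILE, (B+E) 192 = limits + assembly of `exit_cmp_raw/res/split`.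
Everything here is real analysis on `(P, lam, q, h0)`; the path `M : CmPath n Ω` enters only through its field clock `M.H` and its numbers `M.S`.

* `Cm5Smp M h η`        `M` samples the field clock `h` at the resolution `η`: `h s ≤ M.H t` for `s + η ≤ t`, `M.H t ≤ h s` for `t + η ≤ s`      (debt of (B): chains which contain a grid of mesh `η`).
* `cm5cGam c C`, `cm5cC0 C0`, `cm5cUm c C`      the constants `Γ`, `C0'` (`x0 = C0' x`), `um = 1/(8Γ²)`.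
* `cm5cTh P lam Cl w = w e(w)/(2 Cl Λ)`,   `cm5cSg P lam Cl C u = e(4Cu)/(3 Cl Λ M(4u))`      the functions `th`, `sg` of `Cm5Clk`.
* `cm5cG P cG = √(cG n^κ/Λ)`      the margin `G` (the SAME at all scales),      `cm5cK P = ⌈Λ⌉`      the number of layers.
* `cm5c_clk`            **`Cm5Clk M x0 um Γ (3η) th sg`**.
* `cm5c_G_sg`, `cm5c_G_th`      `G² ≤ n sg(u) u⁴`, `G² ≤ n w³ th(w)`  (= PE (11), (14)).
* `cm5c_big`            `A Λ^j ≤ ε G^s…` beyond a threshold in `n`;      `cm5c_K`      `1 ≤ Γ^K x0`.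
* `cm5c_S_le`           **`S_t ≤ CS t` for `t ≥ x0`** from the closed geometry `CmGeo`;   `cm5c_S_sk` the same for `skCS` from `exit_cmp_pot`, `exit_cmp_geo`.
-/

set_option autoImplicit false

namespace Claimed.Agent.R286

open MeasureTheory Set

noncomputable section

/-! ## 0. the interface with the chains -/

/-- `M` samples the field clock `h` at the resolution `η` -/
structure Cm5Smp {n : ℕ} {Ω : Type} [MeasurableSpace Ω] (M : CmPath n Ω) (h : ℝ → ℝ) (η : ℝ) : Prop where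
  lo : ∀ s t : ℝ, 0 ≤ s → s + η ≤ t → t ≤ 1 → h s ≤ M.H t
  hi : ∀ s t : ℝ, 0 ≤ t → t + η ≤ s → s ≤ 1 → M.H t ≤ h s

/-- the ratio `Γ` of the dyadic layers -/
def cm5cGam (c C : ℝ) : ℝ := max 2 (1 + 4 * C / c)
/-- `x0 = C0' x` -/
def cm5cC0 (C0 : ℝ) : ℝ := max 1 C0
/-- the largest small scale -/
def cm5cUm (c C : ℝ) : ℝ := 1 / (8 * cm5cGam c C ^ 2)
/-- lower bound of the field clock of `[w, Γ w]` -/
def cm5cTh (P : CmCall) (lam Cl w : ℝ) : ℝ := w * P.e lam w / (2 * Cl * P.Lam)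
/-- lower slope of the field clock on `[u, 4u]` -/
def cm5cSg (P : CmCall) (lam Cl C u : ℝ) : ℝ := P.e lam (4 * C * u) / (3 * Cl * P.Lam * P.M (4 * u))
/-- the margin -/
def cm5cG (P : CmCall) (cG : ℝ) : ℝ := Real.sqrt (cG * P.N ^ P.kap / P.Lam)
/-- the number of layers -/
def cm5cK (P : CmCall) : ℕ := ⌈P.Lam⌉₊

variable {P : CmCall} {cE D0 : ℝ}

/-! ## 1. the field clock in the mass coordinate -/

/-- local Lipschitz bound of the inverse quantile: `s' - s ≤ (r(s') - r(s)) M(s')` -/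
theorem cm5c_al_loc (hc : 0 < cE) (h : P.Ok cE D0) (q : CmQ P) {s s' : ℝ} (h1 : P.u0 ≤ s) (h12 : s ≤ s') (h2 : s' ≤ 1) :
    s' - s ≤ (q.r s' - q.r s) * P.M s' := by
  have hs : s ∈ Icc P.u0 1 := ⟨h1, h12.trans h2⟩
  have hs' : s' ∈ Icc P.u0 1 := ⟨h1.trans h12, h2⟩
  have hm := (cm_q_r_strictMono hc h q).monotoneOn hs hs' h12
  have hr := q.r_mem s hs
  have hr' := q.r_mem s' hs'
  have h3 := q.hi (q.r s) (q.r s') hr.1 hm hr'.2
  rw [q.al_r s hs, q.al_r s' hs'] at h3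
  refine h3.trans ?_
  have hal : ∀ t ∈ Icc (q.r s) (q.r s'), q.al t ∈ Icc P.u0 s' := fun t ht => by
    have ht1 : t ∈ Icc P.rmin 1 := ⟨hr.1.trans ht.1, ht.2.trans hr'.2⟩
    refine ⟨(cm_q_al_mem hc h q ht1).1, ?_⟩
    have := (cm_q_al_strictMono hc h q).monotoneOn ht1 hr' ht.2
    rwa [q.al_r s' hs'] at this
  have hcont : ContinuousOn (fun t => P.M (q.al t)) (Icc (q.r s) (q.r s')) :=
    cm_M_cont.comp_continuousOn ((cm_q_al_cont hc h q).mono fun t ht => ⟨hr.1.trans ht.1, ht.2.trans hr'.2⟩)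
  have hle := intervalIntegral.integral_mono_on (μ := volume) hm (hcont.intervalIntegrable_of_Icc hm)
    (intervalIntegrable_const (c := P.M s'))
    (fun t ht => cm_M_mono hc h (mem_Ici.2 (h.u00.trans (hal t ht).1)) (mem_Ici.2 (h.u00.trans hs'.1)) (hal t ht).2)
  rw [intervalIntegral.integral_const, smul_eq_mul] at hle
  exact hle

/-- the increment of the changed field clock between two masses of the working interval -/
theorem cm5c_h_incr (hc : 0 < cE) : ∃ Cl : ℝ, 0 < Cl ∧ ∀ (P : CmCall), P.Ok cE D0 → ∀ (q : CmQ P) (lam : ℝ) (h0 : ℝ → ℝ), 0 ≤ lam → lam ≤ P.d ^ 2 →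
    MonotoneOn h0 (Icc P.u0 1) → ∀ s s' : ℝ, P.u0 ≤ s → s ≤ s' → s' ≤ 1 →
      (q.r s' - q.r s) * P.e lam (q.r s') ≤ Cl * P.Lam * (q.hq lam h0 s' - q.hq lam h0 s) := by
  obtain ⟨C, hC, H⟩ := cm_q_h_slope (cE := cE) (D0 := D0) hc
  refine ⟨C, hC, fun P h q lam h0 hl hl2 hh s s' h1 h12 h2 => ?_⟩
  have hs : s ∈ Icc P.u0 1 := ⟨h1, h12.trans h2⟩
  have hs' : s' ∈ Icc P.u0 1 := ⟨h1.trans h12, h2⟩
  have hm := (cm_q_r_strictMono hc h q).monotoneOn hs hs' h12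
  have hr := q.r_mem s hs
  have hr' := q.r_mem s' hs'
  have h3 := H P h q lam h0 hl hl2 hh (q.r s) (q.r s') hr.1 hm hr'.2
  rw [q.al_r s hs, q.al_r s' hs'] at h3
  refine le_trans ?_ h3
  have hle := intervalIntegral.integral_mono_on (μ := volume) hm (intervalIntegrable_const (c := P.e lam (q.r s')))
    ((cm_e_cont P lam).intervalIntegrable _ _) (fun t ht => cm_e_anti P h.d0 hl ht.2)
  rw [intervalIntegral.integral_const, smul_eq_mul] at hle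
  exact hle

/-- the constant of the slope of the field clock (`(1-p)⁻¹ ≤ Cl Λ`) -/
def cm5cCl (cE D0 : ℝ) : ℝ := if hc : 0 < cE then (cm5c_h_incr (cE := cE) (D0 := D0) hc).choose else 1

theorem cm5c_Cl_pos (cE D0 : ℝ) : 0 < cm5cCl cE D0 := by
  unfold cm5cCl
  split_ifs with hc
  · exact (cm5c_h_incr (cE := cE) (D0 := D0) hc).choose_spec.1
  · exact one_pos

theorem cm5c_Cl_spec (hc : 0 < cE) (h : P.Ok cE D0) (q : CmQ P) {lam : ℝ} {h0 : ℝ → ℝ} (hl : 0 ≤ lam) (hl2 : lam ≤ P.d ^ 2)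
    (hh : MonotoneOn h0 (Icc P.u0 1)) {s s' : ℝ} (h1 : P.u0 ≤ s) (h12 : s ≤ s') (h2 : s' ≤ 1) :
    (q.r s' - q.r s) * P.e lam (q.r s') ≤ cm5cCl cE D0 * P.Lam * (q.hq lam h0 s' - q.hq lam h0 s) := by
  unfold cm5cCl
  rw [dif_pos hc]
  exact (cm5c_h_incr (cE := cE) (D0 := D0) hc).choose_spec.2 P h q lam h0 hl hl2 hh s s' h1 h12 h2

/-! ## 2. the constants -/

theorem cm5c_Gam_ge (c C : ℝ) : 2 ≤ cm5cGam c C := le_max_left _ _

theorem cm5c_Gam_ge' {c C : ℝ} (h0 : 0 < c) : 4 * C ≤ c * (cm5cGam c C - 1) := by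
  have h1 : 1 + 4 * C / c ≤ cm5cGam c C := le_max_right _ _
  have h2 : 4 * C / c ≤ cm5cGam c C - 1 := by linarith
  calc 4 * C = c * (4 * C / c) := by field_simp
    _ ≤ c * (cm5cGam c C - 1) := mul_le_mul_of_nonneg_left h2 h0.le

theorem cm5c_C0_ge (C0 : ℝ) : 1 ≤ cm5cC0 C0 := le_max_left _ _

theorem cm5c_C0_ge' (C0 : ℝ) : C0 ≤ cm5cC0 C0 := le_max_right _ _

theorem cm5c_Um_pos (c C : ℝ) : 0 < cm5cUm c C := by
  have := cm5c_Gam_ge c C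
  unfold cm5cUm
  positivity

theorem cm5c_Um_eq (c C : ℝ) : 8 * cm5cGam c C ^ 2 * cm5cUm c C = 1 := by
  have := cm5c_Gam_ge c C
  unfold cm5cUm
  field_simp

theorem cm5c_Um_le (c C : ℝ) : cm5cUm c C ≤ 1 / 32 := by
  have h := cm5c_Gam_ge c C
  have h1 := cm5c_Um_eq c C
  have h2 := cm5c_Um_pos c C
  have h3 : (4:ℝ) ≤ cm5cGam c C ^ 2 := by nlinarith
  have h4 : 8 * 4 * cm5cUm c C ≤ 8 * cm5cGam c C ^ 2 * cm5cUm c C := by gcongr
  linarith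

/-- `c ≤ 1 ≤ C` as soon as the regular region is not empty -/
theorem cm5c_reg_cC (h : P.Ok cE D0) (q : CmQ P) {c C C0 x : ℝ} (hR : q.Reg c C C0 x) (hx : C0 * x ≤ 1) : c ≤ 1 ∧ 1 ≤ C := by
  have h1 := hR 1 hx le_rfl (by linarith [h.u01])
  rw [cm_q_r_one q (cm_g_rmin_le h q)] at h1
  constructor <;> linarith [h1.1, h1.2]

/-! ## 3. the clock hypotheses -/

/-- the field clock of `[2w, (Γ-1)w]` -/
theorem cm5c_dy (hc : 0 < cE) (hP : P.Ok cE D0) (q : CmQ P) {lam : ℝ} {h0 : ℝ → ℝ} (hl : 0 < lam) (hl2 : lam ≤ P.d ^ 2)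
    (hh : MonotoneOn h0 (Icc P.u0 1)) {c C C0 x w : ℝ} (h0c : 0 < c) (hc1 : c ≤ 1) (hC1 : 1 ≤ C) (hR : q.Reg c C C0 x) (hw0 : 0 < w) (hu0 : P.u0 ≤ w)
    (hC0 : C0 * x ≤ w) (hΓw : cm5cGam c C * w ≤ 1) :
    cm5cTh P lam (cm5cCl cE D0) w ≤ q.hq lam h0 ((cm5cGam c C - 1) * w) - q.hq lam h0 (2 * w) := by
  have hCl := cm5c_Cl_pos cE D0
  have hLam := cm_Lam_ge_one hP
  have hLam0 : 0 < P.Lam := by linarith
  have hΓ' := cm5c_Gam_ge' (C := C) h0c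
  set Γ := cm5cGam c C with hΓdef
  have hΓ5 : 5 ≤ Γ := by
    have h1 : c * (Γ - 1) ≤ 1 * (Γ - 1) := mul_le_mul_of_nonneg_right hc1 (by linarith [cm5c_Gam_ge c C])
    linarith
  have hd := hP.d0
  have e1 : 2 * w ≤ (Γ - 1) * w := mul_le_mul_of_nonneg_right (by linarith) hw0.le
  have e2 : (Γ - 1) * w ≤ 1 := by linarith
  have h3 := cm5c_Cl_spec hc hP q hl.le hl2 hh (s := 2 * w) (s' := (Γ - 1) * w) (by linarith) e1 e2
  have r1 := (hR (2 * w) (by linarith) (by linarith) (by linarith)).2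
  have r2 := (hR ((Γ - 1) * w) (by linarith) e2 (by linarith)).1
  set R := q.r ((Γ - 1) * w) with hRdef
  have r3 : 4 * C * w ≤ R := by
    calc 4 * C * w ≤ c * (Γ - 1) * w := mul_le_mul_of_nonneg_right hΓ' hw0.le
      _ = c * ((Γ - 1) * w) := by ring
      _ ≤ R := r2
  have hCw : w ≤ C * w := le_mul_of_one_le_left hw0.le hC1
  have hwR : w ≤ R := by linarith
  have hR0 : 0 < R := lt_of_lt_of_le hw0 hwR
  have he := cm_e_pos P hl R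
  have h4 : w * P.e lam w ≤ R * P.e lam R := cm_re_mono P hd hl.le (mem_Ici.2 hw0.le) (mem_Ici.2 hR0.le) hwR
  have h5 : R / 2 * P.e lam R ≤ (R - q.r (2 * w)) * P.e lam R :=
    mul_le_mul_of_nonneg_right (by linarith) he.le
  unfold cm5cTh
  rw [div_le_iff₀ (by positivity)]
  linarith

/-- the slope of the field clock on `[u, 4u]` -/
theorem cm5c_sh (hc : 0 < cE) (hP : P.Ok cE D0) (q : CmQ P) {lam : ℝ} {h0 : ℝ → ℝ} (hl : 0 < lam) (hl2 : lam ≤ P.d ^ 2)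
    (hh : MonotoneOn h0 (Icc P.u0 1)) {c C C0 x u s s' : ℝ} (hR : q.Reg c C C0 x) (hu0 : 0 < u) (hC0 : C0 * x ≤ 4 * u) (h4u : 4 * u ≤ 1)
    (hs0 : P.u0 ≤ s) (hss : s ≤ s') (hs4 : s' ≤ 4 * u) :
    cm5cSg P lam (cm5cCl cE D0) C u * (3 * (s' - s)) ≤ q.hq lam h0 s' - q.hq lam h0 s := by
  have hCl := cm5c_Cl_pos cE D0
  have hLam := cm_Lam_ge_one hP
  have hLam0 : 0 < P.Lam := by linarith
  have hd := hP.d0
  have hs1 : s' ≤ 1 := hs4.trans h4u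
  have h3 := cm5c_Cl_spec hc hP q hl.le hl2 hh hs0 hss hs1
  have h4 := cm5c_al_loc hc hP q hs0 hss hs1
  have hM4 := cm_M_pos hc hP (u := 4 * u) (by positivity)
  have h5 : P.M s' ≤ P.M (4 * u) :=
    cm_M_mono hc hP (mem_Ici.2 (hP.u00.trans (hs0.trans hss))) (mem_Ici.2 (by positivity)) hs4
  have hrm := (cm_q_r_strictMono hc hP q).monotoneOn (a := s) (b := s') ⟨hs0, hss.trans hs1⟩ ⟨hs0.trans hss, hs1⟩ hss
  have hrm4 := (cm_q_r_strictMono hc hP q).monotoneOn (a := s') (b := 4 * u) ⟨hs0.trans hss, hs1⟩ ⟨(hs0.trans hss).trans hs4, h4u⟩ hs4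
  have r4 := (hR (4 * u) hC0 h4u ((hs0.trans hss).trans hs4)).2
  have h6 : P.e lam (4 * C * u) ≤ P.e lam (q.r s') := cm_e_anti P hd hl.le (by linarith)
  have he := cm_e_pos P hl (4 * C * u)
  set dr := q.r s' - q.r s with hdr
  have hdr0 : 0 ≤ dr := by linarith
  have h7 : s' - s ≤ dr * P.M (4 * u) := h4.trans (mul_le_mul_of_nonneg_left h5 hdr0)
  have h8 : dr * P.e lam (4 * C * u) ≤ cm5cCl cE D0 * P.Lam * (q.hq lam h0 s' - q.hq lam h0 s) :=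
    (mul_le_mul_of_nonneg_left h6 hdr0).trans h3
  unfold cm5cSg
  rw [div_mul_eq_mul_div, div_le_iff₀ (by positivity)]
  have h9 : (s' - s) * P.e lam (4 * C * u) ≤ dr * P.M (4 * u) * P.e lam (4 * C * u) := mul_le_mul_of_nonneg_right h7 he.le
  have h10 : dr * P.e lam (4 * C * u) * P.M (4 * u) ≤ cm5cCl cE D0 * P.Lam * (q.hq lam h0 s' - q.hq lam h0 s) * P.M (4 * u) :=
    mul_le_mul_of_nonneg_right h8 hM4.le
  linarith

/-- `sg(u) u ≤ th(u)` -/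
theorem cm5c_sg_th (hc : 0 < cE) (hP : P.Ok cE D0) {lam C u : ℝ} (hl : 0 < lam) (hC1 : 1 ≤ C) (hu0 : 0 < u) :
    cm5cSg P lam (cm5cCl cE D0) C u * u ≤ cm5cTh P lam (cm5cCl cE D0) u := by
  have hCl := cm5c_Cl_pos cE D0
  have hLam := cm_Lam_ge_one hP
  have hLam0 : 0 < P.Lam := by linarith
  have hM4 : 1 ≤ P.M (4 * u) :=
    (Real.one_le_rpow (by linarith [cm_N_ge hP]) (cm_dl_pos hP).le).trans (cm_M_ge hc hP (by positivity))
  have hCu : u ≤ C * u := le_mul_of_one_le_left hu0.le hC1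
  have h6 : P.e lam (4 * C * u) ≤ P.e lam u := cm_e_anti P hP.d0 hl.le (by linarith)
  have he := cm_e_pos P hl (4 * C * u)
  have he' := cm_e_pos P hl u
  unfold cm5cSg cm5cTh
  rw [div_mul_eq_mul_div, div_le_div_iff₀ (by positivity) (by positivity)]
  have hA : 0 < cm5cCl cE D0 * P.Lam := by positivity
  have h7 : P.e lam (4 * C * u) * u ≤ u * P.e lam u * P.M (4 * u) := by
    calc P.e lam (4 * C * u) * u ≤ P.e lam u * u := mul_le_mul_of_nonneg_right h6 hu0.le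
      _ = u * P.e lam u * 1 := by ring
      _ ≤ u * P.e lam u * P.M (4 * u) := mul_le_mul_of_nonneg_left hM4 (by positivity)
  calc P.e lam (4 * C * u) * u * (2 * cm5cCl cE D0 * P.Lam) = (P.e lam (4 * C * u) * u) * (2 * (cm5cCl cE D0 * P.Lam)) := by ring
    _ ≤ (u * P.e lam u * P.M (4 * u)) * (3 * (cm5cCl cE D0 * P.Lam)) :=
        mul_le_mul h7 (by linarith) (by positivity) (by positivity)
    _ = u * P.e lam u * (3 * cm5cCl cE D0 * P.Lam * P.M (4 * u)) := by ring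

/-- **the clock hypotheses `Cm5Clk`** for every path which samples the changed field clock at a resolution `η ≤ x` -/
theorem cm5c_clk (hc : 0 < cE) (I : CmI) {Tm ca ce c C C0 x : ℝ} (h0c : 0 < c) (hS : I.Std cE D0 Tm) (hh : MonotoneOn I.h0 (Icc I.P.u0 1))
    (hux : I.P.u0 ≤ x) (hL : I.Loc ca ce c C C0 x) (hxs : cm5cC0 C0 * x ≤ cm5cUm c C)
    {Ω : Type} [MeasurableSpace Ω] (M : CmPath I.P.n Ω) {η : ℝ} (hη : 0 ≤ η) (hηx : η ≤ x) (hM : Cm5Smp M I.h η) :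
    Cm5Clk M (cm5cC0 C0 * x) (cm5cUm c C) (cm5cGam c C) (3 * η) (cm5cTh I.P I.lam (cm5cCl cE D0)) (cm5cSg I.P I.lam (cm5cCl cE D0) C) := by
  have hP := hS.ok
  have hl := hS.lam0
  have hx := hL.x0
  have hCl := cm5c_Cl_pos cE D0
  have hLam := cm_Lam_ge_one hP
  have hLam0 : 0 < I.P.Lam := by linarith
  have hΓ := cm5c_Gam_ge c C
  have hum := cm5c_Um_le c C
  have hxx0 : x ≤ cm5cC0 C0 * x := le_mul_of_one_le_left hx.le (cm5c_C0_ge C0)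
  have hCx0 : C0 * x ≤ cm5cC0 C0 * x := mul_le_mul_of_nonneg_right (cm5c_C0_ge' C0) hx.le
  obtain ⟨hc1, hC1⟩ := cm5c_reg_cC hP I.q hL.reg (by linarith)
  have hd := hP.d0
  have hx0 : 0 < cm5cC0 C0 * x := lt_of_lt_of_le hx hxx0
  refine ⟨hΓ, hx0, hxs, (cm5c_Um_eq c C).le, by positivity, ?_, ?_, ?_, ?_, ?_, ?_⟩
  · intro w hw
    have hw0 : 0 < w := lt_of_lt_of_le hx0 hw
    have := cm_e_pos I.P hl w
    unfold cm5cTh
    positivity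
  · intro w w' hw hww _
    have hw0 : 0 < w := lt_of_lt_of_le hx0 hw
    unfold cm5cTh
    exact div_le_div_of_nonneg_right (cm_re_mono I.P hd hl.le (mem_Ici.2 hw0.le) (mem_Ici.2 (hw0.le.trans hww)) hww) (by positivity)
  · intro w hw hΓw
    have hw0 : 0 < w := lt_of_lt_of_le hx0 hw
    have hηw : η ≤ w := hηx.trans (hxx0.trans hw)
    have e0 : 0 ≤ (cm5cGam c C - 1) * w := mul_nonneg (by linarith) hw0.le
    have e2 : 2 * w ≤ cm5cGam c C * w := mul_le_mul_of_nonneg_right hΓ hw0.le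
    have h1 := hM.lo ((cm5cGam c C - 1) * w) (cm5cGam c C * w) e0 (by linarith) hΓw
    have h2 := hM.hi (2 * w) w hw0.le (by linarith) (by linarith)
    have h3 := cm5c_dy hc hP I.q hl hS.lam1 hh h0c hc1 hC1 hL.reg hw0 (by linarith) (by linarith) hΓw
    have e3 : I.h = I.q.hq I.lam I.h0 := rfl
    rw [e3] at h1 h2
    linarith
  · intro u hu _
    have hu0 : 0 < u := lt_of_lt_of_le hx0 hu
    have := cm_e_pos I.P hl (4 * C * u)
    have := cm_M_pos hc hP (u := 4 * u) (by positivity)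
    unfold cm5cSg
    positivity
  · intro u hu huum t η' hut hη' htη
    have hu0 : 0 < u := lt_of_lt_of_le hx0 hu
    have h4u : 4 * u ≤ 1 := by linarith
    have h1 := hM.lo (t + η' - η) (t + η') (by linarith) (by linarith) (by linarith)
    have h2 := hM.hi (t + η) t (by linarith) le_rfl (by linarith)
    have h3 := cm5c_sh hc hP I.q hl hS.lam1 hh hL.reg hu0 (by linarith) h4u (s := t + η) (s' := t + η' - η) (by linarith) (by linarith) (by linarith)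
    have e3 : I.h = I.q.hq I.lam I.h0 := rfl
    rw [e3] at h1 h2
    have hsg : 0 ≤ cm5cSg I.P I.lam (cm5cCl cE D0) C u := by
      have := cm_e_pos I.P hl (4 * C * u)
      have := cm_M_pos hc hP (u := 4 * u) (by positivity)
      unfold cm5cSg
      positivity
    have h4 : cm5cSg I.P I.lam (cm5cCl cE D0) C u * η' ≤ cm5cSg I.P I.lam (cm5cCl cE D0) C u * (3 * (t + η' - η - (t + η))) :=
      mul_le_mul_of_nonneg_left (by linarith) hsg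
    linarith
  · intro u hu _
    exact cm5c_sg_th hc hP hl hC1 (lt_of_lt_of_le hx0 hu)

/-! ## 4. the margins: PE (11), (14) -/

/-- the constant of the first gain of (11) at `u ≤ 4 v`, `v ≥ ca a` -/
def cm5cCg (cE D0 ca : ℝ) : ℝ :=
  if h : 0 < cE ∧ 0 < ca then (cm_M_gain (cE := cE) (D0 := D0) h.1 (c1 := ca) (K := 4) h.2 (by norm_num)).choose else 1

theorem cm5c_Cg_pos (cE D0 ca : ℝ) : 0 < cm5cCg cE D0 ca := by
  unfold cm5cCg
  split_ifs with h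
  · exact (cm_M_gain (cE := cE) (D0 := D0) h.1 (c1 := ca) (K := 4) h.2 (by norm_num)).choose_spec.1
  · exact one_pos

theorem cm5c_Cg_spec (hc : 0 < cE) {ca : ℝ} (ha : 0 < ca) (h : P.Ok cE D0) {v : ℝ} (hv : ca * P.a ≤ v) (hv0 : 0 ≤ v) :
    P.M (4 * v) ≤ cm5cCg cE D0 ca * P.N ^ (-P.kap) * (P.N * P.E * v) ^ 2 := by
  unfold cm5cCg
  rw [dif_pos ⟨hc, ha⟩]
  exact (cm_M_gain (cE := cE) (D0 := D0) hc (c1 := ca) (K := 4) ha (by norm_num)).choose_spec.2 P h (4 * v) v hv (by positivity) le_rfl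

/-- the constant of the margin `G` -/
def cm5cCG (cE D0 ca ce C : ℝ) : ℝ := ce / (12 * C * cm5cCg cE D0 ca * cm5cCl cE D0)

theorem cm5c_CG_pos (cE D0 ca : ℝ) {ce C : ℝ} (he : 0 < ce) (hC : 0 < C) : 0 < cm5cCG cE D0 ca ce C := by
  have := cm5c_Cg_pos cE D0 ca
  have := cm5c_Cl_pos cE D0
  unfold cm5cCG
  positivity

/-- (11): `M(4v) n^κ ≤ Cg ce⁻¹ n e(v) v⁴` at every scale `v ≥ x` -/
theorem cm5c_gain (hc : 0 < cE) (h : P.Ok cE D0) {lam ca ce x v : ℝ} (hl : 0 ≤ lam) (ha : 0 < ca) (he : 0 < ce) (hx : 0 < x) (hxa : ca * P.a ≤ x)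
    (hxe : ce * (P.N * P.E ^ 2) ≤ P.e lam x * x ^ 2) (hxv : x ≤ v) :
    ce * (P.M (4 * v) * P.N ^ P.kap) ≤ cm5cCg cE D0 ca * (P.N * P.e lam v * v ^ 4) := by
  have hN := cm_N_pos h
  have hCg := cm5c_Cg_pos cE D0 ca
  have hv0 : 0 < v := lt_of_lt_of_le hx hxv
  have h1 := cm5c_Cg_spec hc ha h (hxa.trans hxv) hv0.le
  have h2 := cm_nEv_le hc h hl he hx hxv hxe
  have hk : 0 < P.N ^ P.kap := Real.rpow_pos_of_pos hN _
  have hk' : P.N ^ (-P.kap) * P.N ^ P.kap = 1 := by rw [← Real.rpow_add hN]; simp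
  have h3 : P.M (4 * v) * P.N ^ P.kap ≤ cm5cCg cE D0 ca * (P.N * P.E * v) ^ 2 := by
    calc P.M (4 * v) * P.N ^ P.kap ≤ cm5cCg cE D0 ca * P.N ^ (-P.kap) * (P.N * P.E * v) ^ 2 * P.N ^ P.kap := mul_le_mul_of_nonneg_right h1 hk.le
      _ = cm5cCg cE D0 ca * (P.N * P.E * v) ^ 2 * (P.N ^ (-P.kap) * P.N ^ P.kap) := by ring
      _ = cm5cCg cE D0 ca * (P.N * P.E * v) ^ 2 := by rw [hk', mul_one]
  have h4 : ce * (P.N * P.E * v) ^ 2 ≤ P.N * P.e lam v * v ^ 4 := by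
    have := mul_le_mul_of_nonneg_left h2 he.le
    rwa [← mul_assoc, mul_inv_cancel₀ he.ne', one_mul] at this
  calc ce * (P.M (4 * v) * P.N ^ P.kap) ≤ ce * (cm5cCg cE D0 ca * (P.N * P.E * v) ^ 2) := mul_le_mul_of_nonneg_left h3 he.le
    _ = cm5cCg cE D0 ca * (ce * (P.N * P.E * v) ^ 2) := by ring
    _ ≤ cm5cCg cE D0 ca * (P.N * P.e lam v * v ^ 4) := mul_le_mul_of_nonneg_left h4 hCg.le

theorem cm5c_G_sq (h : P.Ok cE D0) {cG : ℝ} (hG : 0 ≤ cG) : cm5cG P cG ^ 2 = cG * P.N ^ P.kap / P.Lam := by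
  have hN := cm_N_pos h
  have hLam := cm_Lam_ge_one h
  have hk : 0 < P.N ^ P.kap := Real.rpow_pos_of_pos hN _
  unfold cm5cG
  rw [Real.sq_sqrt]
  have : 0 < P.Lam := by linarith
  positivity

/-- **(14)**: `G² ≤ n sg(u) u⁴` at every scale `u ≥ x` -/
theorem cm5c_G_sg (hc : 0 < cE) (h : P.Ok cE D0) {lam ca ce C x u : ℝ} (hl : 0 < lam) (ha : 0 < ca) (he : 0 < ce) (hC : 1 ≤ C) (hx : 0 < x)
    (hxa : ca * P.a ≤ x) (hxe : ce * (P.N * P.E ^ 2) ≤ P.e lam x * x ^ 2) (hxu : x ≤ u) :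
    cm5cG P (cm5cCG cE D0 ca ce C) ^ 2 ≤ P.N * cm5cSg P lam (cm5cCl cE D0) C u * u ^ 4 := by
  have hC0 : 0 < C := by linarith
  rw [cm5c_G_sq h (cm5c_CG_pos cE D0 ca he hC0).le]
  have hN := cm_N_pos h
  have hCg := cm5c_Cg_pos cE D0 ca
  have hCl := cm5c_Cl_pos cE D0
  have hLam := cm_Lam_ge_one h
  have hLam0 : 0 < P.Lam := by linarith
  have hu0 : 0 < u := lt_of_lt_of_le hx hxu
  have hM4 := cm_M_pos hc h (u := 4 * u) (by positivity)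
  have hk : 0 < P.N ^ P.kap := Real.rpow_pos_of_pos hN _
  have h1 := cm5c_gain hc h hl.le ha he hx hxa hxe hxu
  have h2 : P.e lam u / (4 * C) ≤ P.e lam (4 * C * u) := cm_e_scale P h.d0 hl.le (by linarith) hu0.le
  have h2' : P.e lam u ≤ 4 * C * P.e lam (4 * C * u) := by
    rw [div_le_iff₀ (by positivity)] at h2; linarith
  unfold cm5cCG cm5cSg
  have e1 : P.N * (P.e lam (4 * C * u) / (3 * cm5cCl cE D0 * P.Lam * P.M (4 * u))) * u ^ 4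
      = (P.N * P.e lam (4 * C * u) * u ^ 4) / (3 * cm5cCl cE D0 * P.Lam * P.M (4 * u)) := by ring
  have e2 : ce / (12 * C * cm5cCg cE D0 ca * cm5cCl cE D0) * P.N ^ P.kap / P.Lam
      = (ce * P.N ^ P.kap) / (12 * C * cm5cCg cE D0 ca * cm5cCl cE D0 * P.Lam) := by
    field_simp
  rw [e1, e2, div_le_div_iff₀ (by positivity) (by positivity)]
  have h3 : P.N * P.e lam u * u ^ 4 ≤ 4 * C * (P.N * P.e lam (4 * C * u) * u ^ 4) := by
    calc P.N * P.e lam u * u ^ 4 = P.e lam u * (P.N * u ^ 4) := by ring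
      _ ≤ 4 * C * P.e lam (4 * C * u) * (P.N * u ^ 4) := mul_le_mul_of_nonneg_right h2' (by positivity)
      _ = _ := by ring
  have h4 : ce * (P.M (4 * u) * P.N ^ P.kap) ≤ cm5cCg cE D0 ca * (4 * C * (P.N * P.e lam (4 * C * u) * u ^ 4)) :=
    h1.trans (mul_le_mul_of_nonneg_left h3 hCg.le)
  calc ce * P.N ^ P.kap * (3 * cm5cCl cE D0 * P.Lam * P.M (4 * u)) = ce * (P.M (4 * u) * P.N ^ P.kap) * (3 * cm5cCl cE D0 * P.Lam) := by ring
    _ ≤ cm5cCg cE D0 ca * (4 * C * (P.N * P.e lam (4 * C * u) * u ^ 4)) * (3 * cm5cCl cE D0 * P.Lam) :=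
        mul_le_mul_of_nonneg_right h4 (by positivity)
    _ = P.N * P.e lam (4 * C * u) * u ^ 4 * (12 * C * cm5cCg cE D0 ca * cm5cCl cE D0 * P.Lam) := by ring

/-- `G² ≤ n w³ th(w)` at every scale `w ≥ x` -/
theorem cm5c_G_th (hc : 0 < cE) (h : P.Ok cE D0) {lam ca ce C x w : ℝ} (hl : 0 < lam) (ha : 0 < ca) (he : 0 < ce) (hC : 1 ≤ C) (hx : 0 < x)
    (hxa : ca * P.a ≤ x) (hxe : ce * (P.N * P.E ^ 2) ≤ P.e lam x * x ^ 2) (hxw : x ≤ w) :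
    cm5cG P (cm5cCG cE D0 ca ce C) ^ 2 ≤ P.N * w ^ 3 * cm5cTh P lam (cm5cCl cE D0) w := by
  have hC0 : 0 < C := by linarith
  rw [cm5c_G_sq h (cm5c_CG_pos cE D0 ca he hC0).le]
  have hN := cm_N_pos h
  have hCg := cm5c_Cg_pos cE D0 ca
  have hCl := cm5c_Cl_pos cE D0
  have hLam := cm_Lam_ge_one h
  have hLam0 : 0 < P.Lam := by linarith
  have hw0 : 0 < w := lt_of_lt_of_le hx hxw
  have hM4 : 1 ≤ P.M (4 * w) :=
    (Real.one_le_rpow (by linarith [cm_N_ge h]) (cm_dl_pos h).le).trans (cm_M_ge hc h (by positivity))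
  have hk : 0 < P.N ^ P.kap := Real.rpow_pos_of_pos hN _
  have h1 := cm5c_gain hc h hl.le ha he hx hxa hxe hxw
  have h2 : ce * P.N ^ P.kap ≤ cm5cCg cE D0 ca * (P.N * P.e lam w * w ^ 4) := by
    refine le_trans ?_ h1
    apply mul_le_mul_of_nonneg_left _ he.le
    exact le_mul_of_one_le_left hk.le hM4
  unfold cm5cCG cm5cTh
  have e1 : P.N * w ^ 3 * (w * P.e lam w / (2 * cm5cCl cE D0 * P.Lam)) = (P.N * P.e lam w * w ^ 4) / (2 * cm5cCl cE D0 * P.Lam) := by ring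
  have e2 : ce / (12 * C * cm5cCg cE D0 ca * cm5cCl cE D0) * P.N ^ P.kap / P.Lam
      = (ce * P.N ^ P.kap) / (12 * C * cm5cCg cE D0 ca * cm5cCl cE D0 * P.Lam) := by
    field_simp
  rw [e1, e2, div_le_div_iff₀ (by positivity) (by positivity)]
  have hT : 0 ≤ P.N * P.e lam w * w ^ 4 := by have := cm_e_pos P hl w; positivity
  calc ce * P.N ^ P.kap * (2 * cm5cCl cE D0 * P.Lam) ≤ cm5cCg cE D0 ca * (P.N * P.e lam w * w ^ 4) * (2 * cm5cCl cE D0 * P.Lam) :=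
        mul_le_mul_of_nonneg_right h2 (by positivity)
    _ = P.N * P.e lam w * w ^ 4 * (cm5cCg cE D0 ca * cm5cCl cE D0 * P.Lam) * 2 := by ring
    _ ≤ P.N * P.e lam w * w ^ 4 * (cm5cCg cE D0 ca * cm5cCl cE D0 * P.Lam) * (12 * C) :=
        mul_le_mul_of_nonneg_left (by linarith) (by positivity)
    _ = P.N * P.e lam w * w ^ 4 * (12 * C * cm5cCg cE D0 ca * cm5cCl cE D0 * P.Lam) := by ring

/-! ## 5. thresholds in `n` -/

/-- a power of `n` beats every constant -/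
theorem cm5c_thr (B : ℝ) {ε : ℝ} (hε : 0 < ε) : ∃ n0 : ℕ, ∀ n : ℕ, n0 ≤ n → B ≤ (n : ℝ) ^ ε := by
  refine ⟨⌈(max 1 B) ^ (1 / ε)⌉₊, fun n hn => ?_⟩
  have h1 : (max 1 B) ^ (1 / ε) ≤ (n : ℝ) := (Nat.le_ceil _).trans (by exact_mod_cast hn)
  have h0 : (0:ℝ) ≤ max 1 B := le_trans zero_le_one (le_max_left _ _)
  have h2 : ((max 1 B) ^ (1 / ε)) ^ ε ≤ (n : ℝ) ^ ε := Real.rpow_le_rpow (Real.rpow_nonneg h0 _) h1 hε.le
  rw [← Real.rpow_mul h0, one_div, inv_mul_cancel₀ hε.ne', Real.rpow_one] at h2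
  exact (le_max_right _ _).trans h2

/-- **the margin is a power of `n`**: `A Λ^j n^(5 mlo/4) ≤ G` beyond a threshold -/
theorem cm5c_big {mlo cG : ℝ} (hm : 0 < mlo) (hcG : 0 < cG) (A : ℝ) (j : ℕ) :
    ∃ n0 : ℕ, ∀ P : CmCall, P.Ok cE D0 → mlo ≤ P.m → n0 ≤ P.n → A * P.Lam ^ j * P.N ^ (5 / 4 * mlo) ≤ cm5cG P cG := by
  obtain ⟨Cj, hCj, hlog⟩ := cm_log_pow (2 * j + 1) (ε := mlo / 4) (by positivity)
  obtain ⟨n0, hn0⟩ := cm5c_thr (A ^ 2 * Cj / cG) (ε := mlo / 5) (by positivity)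
  refine ⟨n0, fun P h hmP hn => ?_⟩
  have hN := cm_N_pos h
  have hN1 : 1 ≤ P.N := by linarith [cm_N_ge h]
  have hLam := cm_Lam_ge_one h
  have hLam0 : 0 < P.Lam := by linarith
  have h1 : P.Lam ^ (2 * j + 1) ≤ Cj * P.N ^ (mlo / 4) := hlog P.N hN1
  have h2 : A ^ 2 * Cj / cG ≤ P.N ^ (mlo / 5) := hn0 P.n hn
  have h2' : A ^ 2 * Cj ≤ cG * P.N ^ (mlo / 5) := by rw [div_le_iff₀ hcG] at h2; linarith
  have h3 : P.N ^ (mlo / 5) * P.N ^ (mlo / 4) * P.N ^ (5 / 2 * mlo) ≤ P.N ^ P.kap := by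
    rw [← Real.rpow_add hN, ← Real.rpow_add hN]
    apply Real.rpow_le_rpow_of_exponent_le hN1
    unfold CmCall.kap CmCall.dl
    linarith
  have h4 : (P.N ^ (5 / 4 * mlo)) ^ 2 = P.N ^ (5 / 2 * mlo) := by
    rw [← Real.rpow_natCast, ← Real.rpow_mul hN.le]; congr 1; push_cast; ring
  have p1 : 0 < P.N ^ (mlo / 4) := Real.rpow_pos_of_pos hN _
  have p2 : 0 < P.N ^ (5 / 2 * mlo) := Real.rpow_pos_of_pos hN _
  have p3 : 0 < P.N ^ (mlo / 5) := Real.rpow_pos_of_pos hN _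
  unfold cm5cG
  apply Real.le_sqrt_of_sq_le
  rw [le_div_iff₀ hLam0]
  calc (A * P.Lam ^ j * P.N ^ (5 / 4 * mlo)) ^ 2 * P.Lam = A ^ 2 * P.Lam ^ (2 * j + 1) * P.N ^ (5 / 2 * mlo) := by
        rw [mul_pow, mul_pow, h4]; ring
    _ ≤ A ^ 2 * (Cj * P.N ^ (mlo / 4)) * P.N ^ (5 / 2 * mlo) := by gcongr
    _ = (A ^ 2 * Cj) * (P.N ^ (mlo / 4) * P.N ^ (5 / 2 * mlo)) := by ring
    _ ≤ (cG * P.N ^ (mlo / 5)) * (P.N ^ (mlo / 4) * P.N ^ (5 / 2 * mlo)) := mul_le_mul_of_nonneg_right h2' (by positivity)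
    _ = cG * (P.N ^ (mlo / 5) * P.N ^ (mlo / 4) * P.N ^ (5 / 2 * mlo)) := by ring
    _ ≤ cG * P.N ^ P.kap := mul_le_mul_of_nonneg_left h3 hcG.le

/-- the number of layers: `K ≤ 2Λ` -/
theorem cm5c_K_le (h : P.Ok cE D0) : (cm5cK P : ℝ) ≤ 2 * P.Lam := by
  have h1 := cm_Lam_ge_one h
  have h2 := Nat.ceil_lt_add_one (a := P.Lam) (by linarith)
  unfold cm5cK
  linarith

/-- the layers reach the mass `1` -/
theorem cm5c_K (hc : 0 < cE) {ca : ℝ} (ha : 0 < ca) : ∃ n0 : ℕ, ∀ P : CmCall, P.Ok cE D0 → n0 ≤ P.n → ∀ Γ x0 : ℝ, 2 ≤ Γ → ca * P.a ≤ x0 →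
    1 ≤ Γ ^ cm5cK P * x0 := by
  obtain ⟨n0, hn0⟩ := cm5c_thr (1 / (ca * cE)) (ε := 1 / 3) (by norm_num)
  refine ⟨n0, fun P h hn Γ x0 hΓ hx0 => ?_⟩
  have hN := cm_N_pos h
  have hN1 : 1 ≤ P.N := by linarith [cm_N_ge h]
  have hLam := cm_Lam_ge_one h
  have h1 : 1 / (ca * cE) ≤ P.N ^ (1 / 3 : ℝ) := hn0 P.n hn
  have h2 : cE * P.N ^ (-(1 / 6 : ℝ)) ≤ P.a := by
    refine le_trans ?_ (cm_a_ge hc h)
    apply mul_le_mul_of_nonneg_left _ hc.le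
    exact Real.rpow_le_rpow_of_exponent_le hN1 (by linarith [h.m0])
  have h3 : P.N ^ (1 / 2 : ℝ) ≤ Γ ^ cm5cK P := by
    calc P.N ^ (1 / 2 : ℝ) ≤ P.N ^ Real.log 2 := Real.rpow_le_rpow_of_exponent_le hN1 (by linarith [Real.log_two_gt_d9])
      _ = (2 : ℝ) ^ P.Lam := by
          rw [Real.rpow_def_of_pos hN, Real.rpow_def_of_pos (by norm_num : (0:ℝ) < 2)]
          unfold CmCall.Lam
          rw [mul_comm]
      _ ≤ (2 : ℝ) ^ ((cm5cK P : ℕ) : ℝ) := Real.rpow_le_rpow_of_exponent_le (by norm_num) (Nat.le_ceil _)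
      _ = (2 : ℝ) ^ cm5cK P := Real.rpow_natCast _ _
      _ ≤ Γ ^ cm5cK P := pow_le_pow_left₀ (by norm_num) hΓ _
  have p1 : 0 < P.N ^ (1 / 2 : ℝ) := Real.rpow_pos_of_pos hN _
  have p2 : 0 < P.N ^ (-(1 / 6 : ℝ)) := Real.rpow_pos_of_pos hN _
  have h4 : P.N ^ (1 / 2 : ℝ) * P.N ^ (-(1 / 6 : ℝ)) = P.N ^ (1 / 3 : ℝ) := by
    rw [← Real.rpow_add hN]; norm_num
  have h5 : ca * (cE * P.N ^ (-(1 / 6 : ℝ))) ≤ x0 := (mul_le_mul_of_nonneg_left h2 ha.le).trans hx0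
  have h6 : 1 ≤ ca * cE * P.N ^ (1 / 3 : ℝ) := by
    rw [div_le_iff₀ (by positivity)] at h1; linarith
  calc (1:ℝ) ≤ ca * cE * P.N ^ (1 / 3 : ℝ) := h6
    _ = P.N ^ (1 / 2 : ℝ) * (ca * (cE * P.N ^ (-(1 / 6 : ℝ)))) := by rw [← h4]; ring
    _ ≤ Γ ^ cm5cK P * x0 := mul_le_mul h3 h5 (by positivity) (by positivity)

/-- **the margins of `cm5_raw_pf`, `cm5_raw2_pf`** -/
theorem cm5c_margin {mlo cG : ℝ} (hm : 0 < mlo) (hcG : 0 < cG) {ε : ℝ} (hε : 0 < ε) (A : ℝ) :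
    ∃ n0 : ℕ, ∀ P : CmCall, P.Ok cE D0 → mlo ≤ P.m → n0 ≤ P.n → 1 ≤ cm5cG P cG ∧ ∀ Pi : ℝ, 0 ≤ Pi → Pi ≤ A * P.Lam ^ 2 →
      ((cm5cK P : ℝ) + 1) ^ 3 * Pi ^ 2 ≤ ε * cm5cG P cG ∧ ((cm5cK P : ℝ) + 2) ^ 4 * Pi ^ 2 ≤ cm5cG P cG ^ 2 := by
  obtain ⟨n1, h1⟩ := cm5c_big (cE := cE) (D0 := D0) hm hcG 1 0
  obtain ⟨n2, h2⟩ := cm5c_big (cE := cE) (D0 := D0) hm hcG (27 * A ^ 2 / ε) 7
  obtain ⟨n3, h3⟩ := cm5c_big (cE := cE) (D0 := D0) hm hcG (256 * A ^ 2) 8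
  refine ⟨max n1 (max n2 n3), fun P h hmP hn => ?_⟩
  have hN := cm_N_pos h
  have hN1 : 1 ≤ P.N := by linarith [cm_N_ge h]
  have hLam := cm_Lam_ge_one h
  have hLam0 : 0 < P.Lam := by linarith
  have hp : 1 ≤ P.N ^ (5 / 4 * mlo) := Real.one_le_rpow hN1 (by positivity)
  have g1 := h1 P h hmP ((le_max_left _ _).trans hn)
  have g2 := h2 P h hmP (((le_max_left _ _).trans (le_max_right _ _)).trans hn)
  have g3 := h3 P h hmP (((le_max_right _ _).trans (le_max_right _ _)).trans hn)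
  have hG1 : 1 ≤ cm5cG P cG := by
    simp only [pow_zero, mul_one, one_mul] at g1
    exact hp.trans g1
  refine ⟨hG1, fun Pi hPi0 hPi => ?_⟩
  have hK := cm5c_K_le h
  have hK0 : (0:ℝ) ≤ cm5cK P := Nat.cast_nonneg _
  have hPi2 : Pi ^ 2 ≤ A ^ 2 * P.Lam ^ 4 := by
    calc Pi ^ 2 ≤ (A * P.Lam ^ 2) ^ 2 := pow_le_pow_left₀ hPi0 hPi 2
      _ = A ^ 2 * P.Lam ^ 4 := by ring
  constructor
  · have a1 : ((cm5cK P : ℝ) + 1) ^ 3 ≤ (3 * P.Lam) ^ 3 := pow_le_pow_left₀ (by linarith) (by linarith) 3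
    have a2 : 27 * A ^ 2 / ε * P.Lam ^ 7 ≤ cm5cG P cG := by
      refine le_trans ?_ g2
      exact le_mul_of_one_le_right (by positivity) hp
    calc ((cm5cK P : ℝ) + 1) ^ 3 * Pi ^ 2 ≤ (3 * P.Lam) ^ 3 * (A ^ 2 * P.Lam ^ 4) := mul_le_mul a1 hPi2 (by positivity) (by positivity)
      _ = ε * (27 * A ^ 2 / ε * P.Lam ^ 7) := by field_simp; ring
      _ ≤ ε * cm5cG P cG := mul_le_mul_of_nonneg_left a2 hε.le
  · have a1 : ((cm5cK P : ℝ) + 2) ^ 4 ≤ (4 * P.Lam) ^ 4 := pow_le_pow_left₀ (by linarith) (by linarith) 4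
    have a2 : 256 * A ^ 2 * P.Lam ^ 8 ≤ cm5cG P cG := by
      refine le_trans ?_ g3
      exact le_mul_of_one_le_right (by positivity) hp
    calc ((cm5cK P : ℝ) + 2) ^ 4 * Pi ^ 2 ≤ (4 * P.Lam) ^ 4 * (A ^ 2 * P.Lam ^ 4) := mul_le_mul a1 hPi2 (by positivity) (by positivity)
      _ = 256 * A ^ 2 * P.Lam ^ 8 := by ring
      _ ≤ cm5cG P cG := a2
      _ ≤ cm5cG P cG ^ 2 := by nlinarith

/-- **the numerics of the good split** (right side of `cm5_split_pf`), `ϑ = n^(-c1)`, `c1 ≤ mlo/2`, `c2 = min(c1, mlo/8)/2` -/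
theorem cm5c_split_num {mlo cG c1 : ℝ} (hm : 0 < mlo) (hcG : 0 < cG) (hc1 : 0 < c1) (hc1' : c1 ≤ mlo / 2) (A K0 : ℝ) (hK0 : 0 ≤ K0) :
    ∃ n0 : ℕ, ∀ P : CmCall, P.Ok cE D0 → mlo ≤ P.m → n0 ≤ P.n → ∀ Pi ηS : ℝ, 0 ≤ Pi → Pi ≤ A * P.Lam ^ 2 → 0 ≤ ηS → ηS ≤ K0 * P.N ^ (-c1) →
      ((cm5cK P : ℝ) + 2) ^ 2 * Pi / (Real.sqrt (P.N ^ (-c1)) * cm5cG P cG)
          + Real.sqrt (ηS + ((cm5cK P : ℝ) + 1) ^ 2 * Pi / (P.N ^ (-c1) * Real.sqrt (cm5cG P cG)))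
          + (ηS + ((cm5cK P : ℝ) + 1) ^ 2 * Pi / (P.N ^ (-c1) * Real.sqrt (cm5cG P cG)))
        ≤ (3 + 2 * K0) * P.N ^ (-(min c1 (mlo / 8) / 2)) := by
  obtain ⟨n1, h1⟩ := cm5c_big (cE := cE) (D0 := D0) hm hcG 1 0
  obtain ⟨n2, h2⟩ := cm5c_big (cE := cE) (D0 := D0) hm hcG (16 * A) 4
  obtain ⟨n3, h3⟩ := cm5c_big (cE := cE) (D0 := D0) hm hcG (81 * A ^ 2) 8
  refine ⟨max n1 (max n2 n3), fun P h hmP hn Pi ηS hPi0 hPi hη0 hη => ?_⟩
  have hN := cm_N_pos h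
  have hN1 : 1 ≤ P.N := by linarith [cm_N_ge h]
  have hLam := cm_Lam_ge_one h
  have hLam0 : 0 < P.Lam := by linarith
  have hp : 1 ≤ P.N ^ (5 / 4 * mlo) := Real.one_le_rpow hN1 (by positivity)
  have g1 := h1 P h hmP ((le_max_left _ _).trans hn)
  have g2 := h2 P h hmP (((le_max_left _ _).trans (le_max_right _ _)).trans hn)
  have g3 := h3 P h hmP (((le_max_right _ _).trans (le_max_right _ _)).trans hn)
  have hG1 : 1 ≤ cm5cG P cG := by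
    simp only [pow_zero, mul_one, one_mul] at g1
    exact hp.trans g1
  set G := cm5cG P cG with hGdef
  have hG0 : 0 < G := by linarith
  have hK := cm5c_K_le h
  have hK0' : (0:ℝ) ≤ cm5cK P := Nat.cast_nonneg _
  set K : ℝ := (cm5cK P : ℝ) with hKdef
  set c3 := min c1 (mlo / 8) with hc3
  have hc3a : c3 ≤ c1 := min_le_left _ _
  have hc3b : c3 ≤ mlo / 8 := min_le_right _ _
  have hc30 : 0 < c3 := lt_min hc1 (by positivity)
  have hpos : ∀ y : ℝ, 0 < P.N ^ y := fun y => Real.rpow_pos_of_pos hN y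
  have hmono : ∀ y z : ℝ, y ≤ z → P.N ^ y ≤ P.N ^ z := fun y z hyz => Real.rpow_le_rpow_of_exponent_le hN1 hyz
  have hs : Real.sqrt (P.N ^ (-c1)) = P.N ^ (-c1 / 2) := by
    rw [Real.sqrt_eq_rpow, ← Real.rpow_mul hN.le]; congr 1; ring
  -- first term
  have T1 : (K + 2) ^ 2 * Pi / (Real.sqrt (P.N ^ (-c1)) * G) ≤ P.N ^ (-(c3 / 2)) := by
    rw [hs, div_le_iff₀ (mul_pos (hpos _) hG0)]
    have a1 : (K + 2) ^ 2 ≤ (4 * P.Lam) ^ 2 := pow_le_pow_left₀ (by linarith) (by linarith) 2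
    have a2 : (K + 2) ^ 2 * Pi ≤ 16 * A * P.Lam ^ 4 := by
      calc (K + 2) ^ 2 * Pi ≤ (4 * P.Lam) ^ 2 * (A * P.Lam ^ 2) := mul_le_mul a1 hPi hPi0 (by positivity)
        _ = 16 * A * P.Lam ^ 4 := by ring
    have a0 : 0 ≤ 16 * A * P.Lam ^ 4 := le_trans (by positivity) a2
    have a3 : 1 ≤ P.N ^ (-(c3 / 2)) * P.N ^ (-c1 / 2) * P.N ^ (5 / 4 * mlo) := by
      rw [← Real.rpow_add hN, ← Real.rpow_add hN]
      exact Real.one_le_rpow hN1 (by linarith)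
    calc (K + 2) ^ 2 * Pi ≤ 16 * A * P.Lam ^ 4 := a2
      _ ≤ 16 * A * P.Lam ^ 4 * (P.N ^ (-(c3 / 2)) * P.N ^ (-c1 / 2) * P.N ^ (5 / 4 * mlo)) := le_mul_of_one_le_right a0 a3
      _ = P.N ^ (-(c3 / 2)) * P.N ^ (-c1 / 2) * (16 * A * P.Lam ^ 4 * P.N ^ (5 / 4 * mlo)) := by ring
      _ ≤ P.N ^ (-(c3 / 2)) * P.N ^ (-c1 / 2) * G := mul_le_mul_of_nonneg_left g2 (mul_pos (hpos _) (hpos _)).le
      _ = P.N ^ (-(c3 / 2)) * (P.N ^ (-c1 / 2) * G) := by ring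
  -- second term
  have T2 : (K + 1) ^ 2 * Pi / (P.N ^ (-c1) * Real.sqrt G) ≤ P.N ^ (-c3) := by
    have hsG : 0 < Real.sqrt G := Real.sqrt_pos.2 hG0
    rw [div_le_iff₀ (mul_pos (hpos _) hsG)]
    have a1 : (K + 1) ^ 2 ≤ (3 * P.Lam) ^ 2 := pow_le_pow_left₀ (by linarith) (by linarith) 2
    have a2 : (K + 1) ^ 2 * Pi ≤ 9 * A * P.Lam ^ 4 := by
      calc (K + 1) ^ 2 * Pi ≤ (3 * P.Lam) ^ 2 * (A * P.Lam ^ 2) := mul_le_mul a1 hPi hPi0 (by positivity)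
        _ = 9 * A * P.Lam ^ 4 := by ring
    have a3 : 9 * A * P.Lam ^ 4 ≤ Real.sqrt (G * P.N ^ (-(5 / 4 * mlo))) := by
      apply Real.le_sqrt_of_sq_le
      have e : P.N ^ (5 / 4 * mlo) * P.N ^ (-(5 / 4 * mlo)) = 1 := by rw [← Real.rpow_add hN]; simp
      calc (9 * A * P.Lam ^ 4) ^ 2 = 81 * A ^ 2 * P.Lam ^ 8 * (P.N ^ (5 / 4 * mlo) * P.N ^ (-(5 / 4 * mlo))) := by rw [e]; ring
        _ = (81 * A ^ 2 * P.Lam ^ 8 * P.N ^ (5 / 4 * mlo)) * P.N ^ (-(5 / 4 * mlo)) := by ring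
        _ ≤ G * P.N ^ (-(5 / 4 * mlo)) := mul_le_mul_of_nonneg_right g3 (hpos _).le
    have a4 : Real.sqrt (G * P.N ^ (-(5 / 4 * mlo))) = Real.sqrt G * P.N ^ (-(5 / 8 * mlo)) := by
      rw [Real.sqrt_mul hG0.le, Real.sqrt_eq_rpow (P.N ^ (-(5 / 4 * mlo))), ← Real.rpow_mul hN.le]; congr 2; ring
    have a5 : P.N ^ (-(5 / 8 * mlo)) ≤ P.N ^ (-c3) * P.N ^ (-c1) := by
      rw [← Real.rpow_add hN]; exact hmono _ _ (by linarith)
    calc (K + 1) ^ 2 * Pi ≤ Real.sqrt G * P.N ^ (-(5 / 8 * mlo)) := a2.trans (a3.trans a4.le)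
      _ ≤ Real.sqrt G * (P.N ^ (-c3) * P.N ^ (-c1)) := mul_le_mul_of_nonneg_left a5 hsG.le
      _ = P.N ^ (-c3) * (P.N ^ (-c1) * Real.sqrt G) := by ring
  set T := (K + 1) ^ 2 * Pi / (P.N ^ (-c1) * Real.sqrt G) with hT
  have hT0 : 0 ≤ T := by
    have := hpos (-c1)
    have := Real.sqrt_nonneg G
    positivity
  have Y1 : ηS + T ≤ (K0 + 1) * P.N ^ (-c3) := by
    have : K0 * P.N ^ (-c1) ≤ K0 * P.N ^ (-c3) := mul_le_mul_of_nonneg_left (hmono _ _ (by linarith)) hK0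
    linarith
  have e2 : P.N ^ (-c3) = P.N ^ (-(c3 / 2)) * P.N ^ (-(c3 / 2)) := by rw [← Real.rpow_add hN]; congr 1; ring
  have hle1 : P.N ^ (-(c3 / 2)) ≤ 1 := Real.rpow_le_one_of_one_le_of_nonpos hN1 (by linarith)
  have Y2 : ηS + T ≤ (K0 + 1) * P.N ^ (-(c3 / 2)) := by
    refine Y1.trans (mul_le_mul_of_nonneg_left (hmono _ _ (by linarith)) (by linarith))
  have Y3 : Real.sqrt (ηS + T) ≤ (K0 + 1) * P.N ^ (-(c3 / 2)) := by
    apply Real.sqrt_le_iff.2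
    refine ⟨mul_nonneg (by linarith) (hpos _).le, Y1.trans ?_⟩
    rw [mul_pow, sq (P.N ^ (-(c3 / 2))), ← e2]
    apply mul_le_mul_of_nonneg_right _ (hpos _).le
    nlinarith
  have : (3 + 2 * K0) * P.N ^ (-(c3 / 2)) = P.N ^ (-(c3 / 2)) + (K0 + 1) * P.N ^ (-(c3 / 2)) + (K0 + 1) * P.N ^ (-(c3 / 2)) := by ring
  rw [this]
  exact add_le_add (add_le_add T1 Y3) Y2

/-! ## 6. `S_t ≤ CS t` on the regular region -/

/-- a point off the floor in every mass interval longer than the total floor mass -/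
theorem cm5c_nonfloor (hc : 0 < cE) (hP : P.Ok cE D0) {lam Kg Lp : ℝ} {q : CmQ P} {X : CmNum} {Z : CmCaps} (hG : CmGeo P lam q X Z Kg Lp)
    {t1 t2 : ℝ} (h1 : P.u0 ≤ t1) (h2 : t2 ≤ 1) (hlen : P.N ^ (-P.dl) * P.us < t2 - t1) :
    ∃ u ∈ Icc t1 t2, u ∈ (⋃ i, Z.capM q.al i) ∪ q.al '' Z.Ct := by
  by_contra hcon
  push Not at hcon
  have hsub : Icc t1 t2 ⊆ (Icc P.u0 1 \ ((⋃ i, Z.capM q.al i) ∪ q.al '' Z.Fl ∪ q.al '' Z.Ct)) ∪ q.al '' Z.Fl := by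
    intro u hu
    by_cases hf : u ∈ q.al '' Z.Fl
    · exact Or.inr hf
    · refine Or.inl ⟨⟨h1.trans hu.1, hu.2.trans h2⟩, ?_⟩
      rintro ((h | h) | h)
      · exact hcon u hu (Or.inl h)
      · exact hf h
      · exact hcon u hu (Or.inr h)
  have hv := (measure_mono (μ := volume) hsub).trans (measure_union_le _ _)
  rw [cm_cover_mass hc hP hG, zero_add, Real.volume_Icc] at hv
  have hv2 := hv.trans (cm_floor_mass hc hP hG)
  have hpos : 0 ≤ P.N ^ (-P.dl) * P.us := by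
    have := cm_us_pos hc hP
    have := Real.rpow_nonneg (cm_N_pos hP).le (-P.dl)
    positivity
  rw [ENNReal.ofReal_le_ofReal_iff hpos] at hv2
  linarith

/-- **(Geo) of P05**, model free: `S_t ≤ CS t` for `t ≥ C0' x`, from the closed geometry of Lemma 3.3 -/
theorem cm5c_S_le (hc : 0 < cE) (hD : 0 < D0) {mlo ca : ℝ} (hm : 0 < mlo) (ha : 0 < ca) : ∃ (Cs : ℝ) (n0 : ℕ), 0 < Cs ∧
    ∀ (P : CmCall) (lam : ℝ) (q : CmQ P) (X : CmNum) (Z : CmCaps) (Kg Lp c C C0 x : ℝ), P.Ok cE D0 → mlo ≤ P.m → n0 ≤ P.n → X.Ok →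
      CmGeo P lam q X Z Kg Lp → 0 < x → ca * P.a ≤ x → P.u0 ≤ x → 0 ≤ C → q.Reg c C C0 x →
      ∀ t : ℝ, cm5cC0 C0 * x ≤ t → t ≤ 1 → X.S t ≤ (2 * C + Cs) * t := by
  obtain ⟨Clog, hClog, hlog⟩ := cm_log_us (cE := cE) (D0 := D0) hc hD
  obtain ⟨C1, hC1, hpow⟩ := cm_log_pow 1 (ε := mlo) hm
  obtain ⟨n0, hn0⟩ := cm5c_thr (2 * cE⁻¹ ^ 3 / ca) (ε := 3 * mlo) (by positivity)
  have hcE' : 0 < cE⁻¹ := inv_pos.2 hc
  refine ⟨2 + cE⁻¹ ^ 3 * Clog * C1 / ca, n0, by positivity, ?_⟩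
  intro P lam q X Z Kg Lp c C C0 x hP hmP hn hX hG hx hxa hux hC hR t hxt ht1
  have hN := cm_N_pos hP
  have hN1 : 1 ≤ P.N := by linarith [cm_N_ge hP]
  have hLam := cm_Lam_ge_one hP
  have hus := cm_us_pos hc hP
  have hapos := cm_a_pos hc hP
  have hxx0 : x ≤ cm5cC0 C0 * x := le_mul_of_one_le_left hx.le (cm5c_C0_ge C0)
  have hCx0 : C0 * x ≤ cm5cC0 C0 * x := mul_le_mul_of_nonneg_right (cm5c_C0_ge' C0) hx.le
  have ht0 : 0 < t := by linarith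
  have hCl0 : 0 ≤ cE⁻¹ ^ 3 * Clog * C1 / ca := by positivity
  rcases lt_or_ge (1 / 2) t with hbig | hsmall
  · have h1 := hX.S_le t ⟨ht0.le, ht1⟩
    have h2 : 0 ≤ (2 * C + cE⁻¹ ^ 3 * Clog * C1 / ca) * t := by positivity
    nlinarith
  · -- the scale `u_*`
    have hax : P.a ≤ x / ca := by rw [le_div_iff₀ ha]; linarith
    have hus1 := cm_us_a hc hP
    have hd1 : P.N ^ (-P.dl) ≤ 1 := Real.rpow_le_one_of_one_le_of_nonpos hN1 (by linarith [cm_dl_pos hP])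
    have hd0 : 0 < P.N ^ (-P.dl) := Real.rpow_pos_of_pos hN _
    have hY0 : 0 < P.N ^ (-(3 * P.m)) := Real.rpow_pos_of_pos hN _
    -- floor mass `< t`
    have hfl : P.N ^ (-P.dl) * P.us < 2 * t - t := by
      have b1 : 2 * cE⁻¹ ^ 3 / ca ≤ P.N ^ (3 * mlo) := hn0 P.n hn
      have b2 : P.N ^ (3 * mlo) * P.N ^ (-(3 * P.m)) ≤ 1 := by
        rw [← Real.rpow_add hN]
        exact Real.rpow_le_one_of_one_le_of_nonpos hN1 (by linarith)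
      have b3 : 2 * cE⁻¹ ^ 3 / ca * P.N ^ (-(3 * P.m)) ≤ 1 := (mul_le_mul_of_nonneg_right b1 hY0.le).trans b2
      have b4 : P.us ≤ cE⁻¹ ^ 3 * P.N ^ (-(3 * P.m)) * (x / ca) := hus1.trans (mul_le_mul_of_nonneg_left hax (by positivity))
      have b5 : cE⁻¹ ^ 3 * P.N ^ (-(3 * P.m)) * (x / ca) = (2 * cE⁻¹ ^ 3 / ca * P.N ^ (-(3 * P.m))) * (x / 2) := by ring
      have b6 : P.us ≤ x / 2 := by
        rw [b5] at b4
        exact b4.trans (by nlinarith)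
      have b7 : P.N ^ (-P.dl) * P.us ≤ P.us := mul_le_of_le_one_left hus.le hd1
      linarith
    obtain ⟨u, hu, hU⟩ := cm5c_nonfloor hc hP hG (t1 := t) (t2 := 2 * t) (by linarith) (by linarith) hfl
    have hu1 : u ∈ Icc P.u0 1 := ⟨by linarith [hu.1], by linarith [hu.2]⟩
    have h2t : (2 * t) ∈ Icc P.u0 1 := ⟨by linarith, by linarith⟩
    have hSm : X.S t ≤ X.S u := hX.S_mono ⟨ht0.le, ht1⟩ ⟨by linarith [hu.1], hu1.2⟩ hu.1
    have hr2 : q.r u ≤ C * (2 * t) :=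
      ((cm_q_r_strictMono hc hP q).monotoneOn hu1 h2t hu.2).trans (hR (2 * t) (by linarith) h2t.2 h2t.1).2
    -- length of the caps
    have hlen : ∀ i, Z.len i ≤ cE⁻¹ ^ 3 * Clog * C1 / ca * x := by
      intro i
      have l1 := cm_cap_len hc hP hG i
      have mL := cm_q_al_mem hc hP q (cm_g_cL_mem hG i)
      have mR := cm_q_al_mem hc hP q (cm_g_cR_mem hG i)
      have mLR := (cm_q_al_strictMono hc hP q).monotoneOn (cm_g_cL_mem hG i) (cm_g_cR_mem hG i) (hG.cap_le i)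
      have l2 := hlog P hP (q.al (Z.cL i)) (q.al (Z.cR i)) (hP.u00.trans mL.1) mLR mR.2
      have l3 : P.Lam ≤ C1 * P.N ^ mlo := by simpa [CmCall.Lam] using hpow P.N hN1
      have l4 : P.N ^ (-P.dl) * P.L ≤ P.us := by
        calc P.N ^ (-P.dl) * P.L ≤ 1 * P.us := mul_le_mul hd1 cm_L_le_us (cm_L_pos hc hP).le zero_le_one
          _ = P.us := one_mul _
      have l5 : P.N ^ (-(3 * P.m)) * P.N ^ mlo ≤ 1 := by
        rw [← Real.rpow_add hN]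
        exact Real.rpow_le_one_of_one_le_of_nonpos hN1 (by linarith)
      have hp0 : 0 < P.N ^ mlo := Real.rpow_pos_of_pos hN _
      have l6 : 0 ≤ Clog * P.Lam := by positivity
      calc Z.len i ≤ P.N ^ (-P.dl) * P.L * Real.log ((q.al (Z.cR i) + P.us) / (q.al (Z.cL i) + P.us)) := l1
        _ ≤ P.N ^ (-P.dl) * P.L * (Clog * P.Lam) := mul_le_mul_of_nonneg_left l2 (by have := cm_L_pos hc hP; positivity)
        _ ≤ P.us * (Clog * P.Lam) := mul_le_mul_of_nonneg_right l4 l6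
        _ ≤ (cE⁻¹ ^ 3 * P.N ^ (-(3 * P.m)) * (x / ca)) * (Clog * (C1 * P.N ^ mlo)) := by
            apply mul_le_mul (hus1.trans (mul_le_mul_of_nonneg_left hax (by positivity))) _ l6 (by positivity)
            exact mul_le_mul_of_nonneg_left l3 hClog.le
        _ = cE⁻¹ ^ 3 * Clog * C1 / ca * x * (P.N ^ (-(3 * P.m)) * P.N ^ mlo) := by ring
        _ ≤ cE⁻¹ ^ 3 * Clog * C1 / ca * x * 1 := mul_le_mul_of_nonneg_left l5 (by positivity)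
        _ = cE⁻¹ ^ 3 * Clog * C1 / ca * x := mul_one _
    have hfin : X.S u ≤ q.r u + cE⁻¹ ^ 3 * Clog * C1 / ca * x := by
      rcases hU with hcap | hct
      · obtain ⟨i, hi⟩ := mem_iUnion.1 hcap
        rw [cm_capM_image hc hP hG i] at hi
        obtain ⟨r, hr, rfl⟩ := hi
        have hr1 : r ∈ Icc P.rmin 1 := cm_g_cap_sub hG i ⟨hr.1.le, hr.2.le⟩
        rw [q.r_al r hr1]
        linarith [hG.cap_Sle i r hr, hlen i]
      · obtain ⟨r, hr, rfl⟩ := hct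
        rw [q.r_al r (hG.ct_sub hr)]
        have : 0 ≤ cE⁻¹ ^ 3 * Clog * C1 / ca * x := by positivity
        linarith [hG.ct_le r hr]
    have hxt' : cE⁻¹ ^ 3 * Clog * C1 / ca * x ≤ cE⁻¹ ^ 3 * Clog * C1 / ca * t := mul_le_mul_of_nonneg_left (by linarith) hCl0
    nlinarith

/-- **(Geo) of P05** for the SK numbers of the changed path -/
theorem cm5c_S_sk {mlo Tm ca : ℝ} (hc : 0 < cE) (hD : 0 < D0) (hm : 0 < mlo) (ha : 0 < ca) : ∃ (Cs : ℝ) (n0 : ℕ), 0 < Cs ∧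
    ∀ (I : CmI) (ce c C C0 x : ℝ), mlo ≤ I.P.m → I.Std cE D0 Tm → MonotoneOn I.h0 (Icc I.P.u0 1) → I.P.u0 ≤ x → 0 ≤ C → I.Loc ca ce c C C0 x → n0 ≤ I.P.n →
      ∀ t : ℝ, cm5cC0 C0 * x ≤ t → t ≤ 1 → skCS I.P.n 1 I.b I.h (ghPosA t) ≤ (2 * C + Cs) * t := by
  obtain ⟨Cs, n1, hCs, H⟩ := cm5c_S_le (cE := cE) (D0 := D0) hc hD hm ha
  obtain ⟨n2, Hpot⟩ := exit_cmp_pot (cE := cE) (D0 := D0) (Tm := Tm) hm hc
  obtain ⟨Kg, n3, Hgeo⟩ := exit_cmp_geo (cE := cE) (D0 := D0) (Tm := Tm) hm hc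
  refine ⟨Cs, max n1 (max n2 n3), hCs, ?_⟩
  intro I ce c C C0 x hmP hS hh hux hC hL hn t hxt ht1
  obtain ⟨Hf, J, hpot⟩ := Hpot I hS hmP (((le_max_left _ _).trans (le_max_right _ _)).trans hn)
  obtain ⟨Z, hgeo, -⟩ := Hgeo I hS hh hmP (((le_max_right _ _).trans (le_max_right _ _)).trans hn) Hf J hpot
  have hn0 : 0 < I.P.n := by have := hS.ok.n3; omega
  have hX : I.num.Ok := cmk_num_ok I.P.n hn0 (hS.adm I.q)
  have h1 := H I.P I.lam I.q I.num Z Kg _ c C C0 x hS.ok hmP ((le_max_left _ _).trans hn) hX hgeo hL.x0 hL.xa hux hC hL.reg t hxt ht1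
  have ht0 : 0 ≤ t := by
    have := hL.x0
    have : 0 ≤ cm5cC0 C0 * x := mul_nonneg (by linarith [cm5c_C0_ge C0]) this.le
    linarith
  have e : I.num.S t = skCS I.P.n 1 I.b I.h (ghPosA t) := by
    show skCS I.P.n 1 I.b I.h (ghPosA (cmkCl t)) = _
    unfold cmkCl
    rw [min_eq_left ht1, max_eq_right ht0]
  rwa [e] at h1

end

end Claimed.Agent.R286
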