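import Claimed.Agent.R286.Cmp.P5Kit
import Claimed.Agent.R286.L08.SPI
import Claimed.Agent.R286.L08.SPC
import Claimed.Agent.R286.Fd.NuApiC
import Claimed.Agent.R286.Fd.TrB1
import Claimed.Agent.R286.Defs.Clk

/-!
owner helper247 (PART 1 + hck, S proved by helper179).   R286 / P05: INSTANCE of the path model `CmPath` of PE Sec. 3 (Cmp/P5Mod.lean).      prefix `cm5_l8_`, `cm5_cat_`, `cm5_sk_`
PART 1  BRIDGE from the abstract single path `L8P` of LL Sec. 8 (L08/SP.lean, helper75) : `cm5OfL8`, `cm5_l8_ok`, `cm5_l8_pin`, `cm5_l8_proj`.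
        Node `j` of `CmPath` = cut `j` of `L8P` (`j` revelations made; node `0` = nothing revealed, mass `0`); `mass j` = mass of the revelation which produces the node `j` = `v (j-1)`;
        the cell of the node `j` in mass integrals is `[v (j-1), v j)` = `dv j`.
PART 2  TREES ATTACHED TO ONE SPINE (Defs/Gh level): the label `a` follows a ghost path through `d a` revelations and is fresh afterwards: table `sh a b = min (d a) (d b)`.
        `cm5_cat_nu`: product tests factorise into conditional means along ONE planted path.      Star: `d = j`; two leaves: `(j,j)`; three leaves of PE Lemma 3.6: `(jv, jv, jf)`.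
PART 3  SK DICTIONARY for a step path `P` (`SkAdm 1 P`): `cm5Sk n P := cm5OfL8 (skSP n 1 P)` (SPI of helper257): `cm5_sk_ok/pin/proj`, `L, mass, hck, S`, and
        tree numbers = moments: `cm5_sk_star` (`E(|X_j|² - s)^r`), `cm5_sk_two` (`E F(R)` under `P2 j`), `cm5_sk_three` (PE (16)).
USERS: helper192 (limits along the chains + assembly of Exit/CmpRaw, CmpRes, CmpSplit), helper34 (Cmp/P5Clk.lean).
-/

set_option autoImplicit false

namespace Claimed.Agent.R286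

open MeasureTheory ProbabilityTheory

/-! ## PART 1 : the bridge -/

section bridge

variable {Ω : Type} [MeasurableSpace Ω] {m : ℕ}

/-- the `CmPath` of an `L8P` -/
noncomputable def cm5OfL8 (P : L8P Ω m) : CmPath m Ω where
  P := P.μ
  L := P.n
  mass := fun j => if j = 0 then 0 else P.v (j - 1)
  hck := fun j => P.hlen 0 j
  X := fun j ω => WithLp.toLp 2 (fun i => P.X j i ω)
  κ := P.κ

theorem cm5_l8_X_apply (P : L8P Ω m) (j : ℕ) (ω : Ω) (i : Fin m) : (cm5OfL8 P).X j ω i = P.X j i ω := rfl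

theorem cm5_l8_inner (x y : EuclideanSpace ℝ (Fin m)) : inner ℝ x y = ∑ i, x i * y i := by
  rw [PiLp.inner_apply]
  exact Finset.sum_congr rfl fun i _ => by simp [mul_comm]

theorem cm5_l8_norm_sq (P : L8P Ω m) (j : ℕ) (ω : Ω) : ‖(cm5OfL8 P).X j ω‖ ^ 2 = P.nX j ω := by
  rw [EuclideanSpace.real_norm_sq_eq]
  rfl

theorem cm5_l8_X_meas (P : L8P Ω m) (hP : P.Ok) (j : ℕ) : Measurable ((cm5OfL8 P).X j) :=
  (WithLp.measurable_toLp 2 _).comp (measurable_pi_lambda _ fun i => (P.l8s_X_bd hP j i).1)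

theorem cm5_l8_norm_le (P : L8P Ω m) (hP : P.Ok) (j : ℕ) (ω : Ω) : ‖(cm5OfL8 P).X j ω‖ ≤ 1 := by
  have h1 := cm5_l8_norm_sq P j ω
  have h2 := P.l8s_nX_le_one hP j ω
  have h3 := norm_nonneg ((cm5OfL8 P).X j ω)
  nlinarith

theorem cm5_l8_y_apply (P : L8P Ω m) (hP : P.Ok) (ω : Ω) (i : Fin m) : (cm5OfL8 P).y ω i = P.y i ω :=
  P.l8s_X_term hP (Nat.lt_succ_self _) i ω

theorem cm5_l8_mass_succ (P : L8P Ω m) (j : ℕ) : (cm5OfL8 P).mass (j + 1) = P.v j := by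
  simp [cm5OfL8]

theorem cm5_l8_mass_sub (P : L8P Ω m) (j : ℕ) : (cm5OfL8 P).mass (j + 1) - (cm5OfL8 P).mass j = P.dv j := by
  simp [cm5OfL8, L8P.dv]

/-- PLAN: `prob, markov` fields; `mass_*`: `v_nonneg, v_mono, v_term`; `hck_mono`: `dh_nonneg`; `meas`: `l8k_E_bd`; `norm_le`: `l8k_E_sq_le` + `y_sq`; `mean`: coordinates + `l8k_E_term`;
`pre`: `l8k_E_meas` + `ℱ.mono` + `l8k_ae_eq`; `tower`: `L8P.Ok.tower` + `Measure.bind_apply`; `symm`: rectangles + `l8k_integral_E_mul`. -/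
theorem cm5_l8_ok (P : L8P Ω m) (hP : P.Ok) (ha : P.a = 1) : (cm5OfL8 P).Ok where
  prob := hP.prob
  markov := hP.markov
  mass_mono := by
    intro i j hij
    simp only [cm5OfL8]
    split_ifs with h1 h2 h2
    · exact le_rfl
    · exact hP.v_nonneg _
    · omega
    · exact hP.v_mono (by omega)
  mass_zero := by simp [cm5OfL8]
  mass_top := by
    rw [cm5_l8_mass_succ]
    exact (hP.v_term _ le_rfl).trans ha
  hck_mono := by
    intro i j hij
    simp only [cm5OfL8, L8P.hlen]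
    exact Finset.sum_le_sum_of_subset_of_nonneg (Finset.Ico_subset_Ico le_rfl hij) fun k _ _ => hP.dh_nonneg k
  meas := cm5_l8_X_meas P hP
  norm_le := cm5_l8_norm_le P hP
  mean := by
    intro j _ ω
    have := hP.markov j
    have hint : Integrable ((cm5OfL8 P).X ((cm5OfL8 P).L + 1)) ((cm5OfL8 P).κ j ω) :=
      Integrable.of_bound (μ := P.κ j ω) (cm5_l8_X_meas P hP _).aestronglyMeasurable 1
        (Filter.Eventually.of_forall fun ω' => cm5_l8_norm_le P hP _ ω')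
    ext i
    have h1 := (EuclideanSpace.proj (𝕜 := ℝ) i).integral_comp_comm hint
    have h2 : (∫ ω', (cm5OfL8 P).X ((cm5OfL8 P).L + 1) ω' ∂((cm5OfL8 P).κ j ω)) i
        = ∫ ω', (cm5OfL8 P).X ((cm5OfL8 P).L + 1) ω' i ∂((cm5OfL8 P).κ j ω) := h1.symm
    rw [h2, cm5_l8_X_apply]
    have h3 : ∀ ω', (cm5OfL8 P).X ((cm5OfL8 P).L + 1) ω' i = P.y i ω' := fun ω' => cm5_l8_y_apply P hP ω' i
    simp only [h3]
    rfl
  pre := by
    intro i j hij f hf hb ω
    have hfb : L8Bd f := ⟨hf, hb⟩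
    exact P.l8s_proper_ae hP j ((P.l8s_E_sm hP i hfb).measurable.mono (P.ℱ.mono hij) le_rfl) ω
  tower := by
    intro i j hij ω
    ext s hs
    rw [Measure.bind_apply hs (Kernel.aemeasurable _)]
    exact hP.tower i j hij ω s hs
  symm := fun j => P.l8s_fork_swap hP j

theorem cm5_l8_Lf (P : L8P Ω m) (hP : P.Ok) (j : ℕ) (ω : Ω) : (cm5OfL8 P).Lf j ω = P.L j ω := by
  unfold CmPath.Lf L8P.L
  rw [cm5_l8_inner, cm5_l8_norm_sq]
  congr 1
  exact Finset.sum_congr rfl fun i _ => by rw [cm5_l8_y_apply P hP, cm5_l8_X_apply]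

theorem cm5_l8_W (P : L8P Ω m) (hP : P.Ok) (j : ℕ) (ω : Ω) : (cm5OfL8 P).W j ω = P.W j ω := by
  unfold L8P.W
  rw [P.l8s_H_quad hP j (fun i => P.R j i ω) ω]
  unfold CmPath.W L8P.E
  refine integral_congr_ae (Filter.Eventually.of_forall fun ω' => ?_)
  show ∑ ν ∈ Finset.Ioc j (P.n + 1), (cm5OfL8 P).mass ν *
      inner ℝ ((cm5OfL8 P).y ω - (cm5OfL8 P).X j ω) ((cm5OfL8 P).X ν ω' - (cm5OfL8 P).X (ν - 1) ω') ^ 2
    = ∑ l ∈ Finset.Ico j (P.n + 1), P.v l * (∑ i, P.R j i ω * P.dX l i ω') ^ 2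
  have e1 : Finset.Ioc j (P.n + 1) = Finset.Ico (j + 1) (P.n + 1 + 1) := by
    ext x; simp only [Finset.mem_Ioc, Finset.mem_Ico]; omega
  rw [e1, ← Finset.sum_Ico_add']
  refine Finset.sum_congr rfl fun l _ => ?_
  rw [cm5_l8_mass_succ, cm5_l8_inner, Nat.add_sub_cancel]
  congr 2
  refine Finset.sum_congr rfl fun i _ => ?_
  rw [PiLp.sub_apply, PiLp.sub_apply, cm5_l8_y_apply P hP, cm5_l8_X_apply, cm5_l8_X_apply, cm5_l8_X_apply]
  rfl

theorem cm5_l8_dv_nonneg (P : L8P Ω m) (hP : P.Ok) (k : ℕ) : 0 ≤ P.dv k := by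
  unfold L8P.dv
  split_ifs with h
  · simpa using hP.v_nonneg k
  · exact sub_nonneg.2 (hP.v_mono (Nat.sub_le _ _))

/-- PLAN: `Pin` of `L8P` at the polynomials `p k = X`; `dv k = mass (k+1) - mass k`; `L k = Lf k`; `W k = W k` (linearity of `E k`). -/
theorem cm5_l8_pin (P : L8P Ω m) (hP : P.Ok) (ha : P.a = 1) (r : ℕ) (hr : 1 ≤ r) (c : ℝ) (h : P.Pin r (c ^ r)) :
    (cm5OfL8 P).Pin r c := by
  intro k
  have h1 := h k (fun _ => Polynomial.X)
  simp only [Polynomial.eval_X, Polynomial.derivative_X, Polynomial.eval_one, one_pow, mul_one] at h1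
  simp only [cm5_l8_mass_sub, cm5_l8_Lf P hP, cm5_l8_W P hP]
  exact h1

theorem cm5_l8_hck_sub (P : L8P Ω m) {j1 j2 : ℕ} (h : j1 ≤ j2) : (cm5OfL8 P).hck j2 - (cm5OfL8 P).hck j1 = P.hlen j1 j2 := by
  show P.hlen 0 j2 - P.hlen 0 j1 = P.hlen j1 j2
  unfold L8P.hlen
  rw [← Finset.sum_Ico_consecutive _ (Nat.zero_le j1) h]
  ring

/-- from the projection bound started at the beginning of the clock interval, residual `y - X_(k₂)`, to the form with an earlier fork and a later projection.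
PLAN: `X i - X j2 = E_i (y - X j2)` for `j2 ≤ i`, conditional Jensen `l8k_E_pow_le`, tower from `j0 ≤ j1`. -/
theorem cm5_l8_proj (P : L8P Ω m) (hP : P.Ok) (ha : P.a = 1) (r : ℕ) (hr : 1 ≤ r) (c : ℝ)
    (h : ∀ vmin hmin : ℝ, 0 < vmin → 0 < hmin → P.Proj r c vmin hmin) :
    (cm5OfL8 P).Proj (2 * r) (max 1 c) := by
  intro j0 j1 j2 i h01 h12 h2i hiL hmass hh ω V
  have hiL' : i ≤ P.n + 1 := hiL
  have hf : L8Bd (fun ω'' => ∑ a, V a * P.R j2 a ω'') :=
    L8Bd.sum _ fun a _ => (P.l8sb_R_bd hP j2 a).const_mul (V a)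
  have hg : L8Bd (fun ω'' => |∑ a, V a * P.R j2 a ω''| ^ (2 * r)) := hf.abs.pow _
  -- step 1
  have s1 : ∀ ω', inner ℝ V ((cm5OfL8 P).X i ω' - (cm5OfL8 P).X j2 ω') = P.E i (fun ω'' => ∑ a, V a * P.R j2 a ω'') ω' := by
    intro ω'
    rw [cm5_l8_inner, P.l8s_E_sum hP i _ (fun a _ => (P.l8sb_R_bd hP j2 a).const_mul (V a))]
    refine Finset.sum_congr rfl fun a _ => ?_
    rw [P.l8s_E_const_mul, PiLp.sub_apply, cm5_l8_X_apply, cm5_l8_X_apply]
    congr 1
    have e1 : P.E i (P.R j2 a) ω' = P.E i (P.y a) ω' - P.E i (P.X j2 a) ω' :=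
      P.l8s_E_sub hP i (P.l8s_y_bd hP a) (P.l8s_X_bd hP j2 a) ω'
    rw [e1, P.l8s_E_self hP i ((P.l8s_X_sm hP j2 a).measurable.mono (P.ℱ.mono h2i) le_rfl) ω']
    rfl
  -- the bound at `j1`
  have hlen0 : 0 ≤ P.hlen j1 j2 := Finset.sum_nonneg fun k _ => hP.dh_nonneg k
  have hv0 : 0 < P.v j1 := by rw [← cm5_l8_mass_succ]; exact hmass
  have hl0 : 0 < P.hlen j1 j2 := by rw [← cm5_l8_hck_sub P h12.le]; exact sub_pos.2 hh
  have s3 : ∀ ω', P.E j1 (fun ω'' => |∑ a, V a * P.R j2 a ω''| ^ (2 * r)) ω'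
      ≤ c * (∑ a, V a ^ 2) ^ r / (P.v j1 ^ 2 * m * P.hlen j1 j2) ^ r := by
    intro ω'
    have h3 := h (P.v j1) (P.hlen j1 j2) hv0 hl0 j1 j2 h12 (h2i.trans hiL') le_rfl le_rfl ω' (fun a => V a)
    refine le_trans (le_of_eq ?_) h3
    unfold L8P.E
    refine integral_congr_ae (Filter.Eventually.of_forall fun ω'' => ?_)
    show |∑ a, V a * P.R j2 a ω''| ^ (2 * r) = (∑ a, V a * P.R j2 a ω'') ^ (2 * r)
    rw [pow_mul, pow_mul, sq_abs]
  have s4 : ∫ ω', inner ℝ V ((cm5OfL8 P).X i ω' - (cm5OfL8 P).X j2 ω') ^ (2 * r) ∂((cm5OfL8 P).κ j0 ω)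
      ≤ c * (∑ a, V a ^ 2) ^ r / (P.v j1 ^ 2 * m * P.hlen j1 j2) ^ r := by
    have e0 : ∫ ω', inner ℝ V ((cm5OfL8 P).X i ω' - (cm5OfL8 P).X j2 ω') ^ (2 * r) ∂((cm5OfL8 P).κ j0 ω)
        = P.E j0 (fun ω' => |P.E i (fun ω'' => ∑ a, V a * P.R j2 a ω'') ω'| ^ (2 * r)) ω := by
      refine integral_congr_ae (Filter.Eventually.of_forall fun ω' => ?_)
      show inner ℝ V ((cm5OfL8 P).X i ω' - (cm5OfL8 P).X j2 ω') ^ (2 * r)
        = |P.E i (fun ω'' => ∑ a, V a * P.R j2 a ω'') ω'| ^ (2 * r)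
      rw [s1 ω', pow_mul, pow_mul, sq_abs]
    rw [e0]
    calc P.E j0 (fun ω' => |P.E i (fun ω'' => ∑ a, V a * P.R j2 a ω'') ω'| ^ (2 * r)) ω
        ≤ P.E j0 (P.E i (fun ω'' => |∑ a, V a * P.R j2 a ω''| ^ (2 * r))) ω :=
          P.l8s_E_mono hP j0 ((P.l8s_E_bd hP i hf).abs.pow _) (P.l8s_E_bd hP i hg) (fun ω' => P.l8s_E_pow_le hP i hf _ ω') ω
      _ = P.E j0 (fun ω'' => |∑ a, V a * P.R j2 a ω''| ^ (2 * r)) ω := P.l8s_E_tower hP (h01.trans (h12.le.trans h2i)) hg ω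
      _ = P.E j0 (P.E j1 (fun ω'' => |∑ a, V a * P.R j2 a ω''| ^ (2 * r))) ω := (P.l8s_E_tower hP h01 hg ω).symm
      _ ≤ P.E j0 (fun _ => c * (∑ a, V a ^ 2) ^ r / (P.v j1 ^ 2 * m * P.hlen j1 j2) ^ r) ω :=
          P.l8s_E_mono hP j0 (P.l8s_E_bd hP j1 hg) (l8Bd_const _) s3 ω
      _ = _ := P.l8s_E_const hP j0 _ ω
  refine s4.trans ?_
  have e1 : (max 1 c * ‖V‖ / ((cm5OfL8 P).mass (j1 + 1) * Real.sqrt (m * ((cm5OfL8 P).hck j2 - (cm5OfL8 P).hck j1)))) ^ (2 * r)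
      = (max 1 c) ^ (2 * r) * ((∑ a, V a ^ 2) ^ r / (P.v j1 ^ 2 * m * P.hlen j1 j2) ^ r) := by
    rw [cm5_l8_mass_succ, cm5_l8_hck_sub P h12.le, div_pow, mul_pow (max 1 c), mul_pow (P.v j1), pow_mul ‖V‖, EuclideanSpace.real_norm_sq_eq,
      pow_mul (Real.sqrt _), Real.sq_sqrt (mul_nonneg (Nat.cast_nonneg _) hlen0), pow_mul (P.v j1), ← mul_pow, mul_assoc, mul_div_assoc]
  rw [e1, mul_div_assoc]
  refine mul_le_mul_of_nonneg_right ?_ (div_nonneg (pow_nonneg (Finset.sum_nonneg fun a _ => sq_nonneg _) _)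
    (pow_nonneg (mul_nonneg (mul_nonneg (sq_nonneg _) (Nat.cast_nonneg _)) hlen0) _))
  have h2 : (1 : ℝ) ≤ max 1 c := le_max_left _ _
  calc c ≤ max 1 c := le_max_right _ _
    _ = (max 1 c) ^ 1 := (pow_one _).symm
    _ ≤ (max 1 c) ^ (2 * r) := pow_le_pow_right₀ h2 (by omega)

end bridge

/-! ## PART 2 : trees attached to one spine -/

section cat

variable {S ι : Type} [Fintype S] [Fintype ι]

/-- the spine (label `0`) with `q` labels attached: the label `k + 1` follows the spine through `d k` revelations -/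
def cmCat (d : ℕ → ℕ) : (q : ℕ) → GhTree (q + 1)
  | 0 => ghTree1
  | q + 1 => (cmCat d q).att (d q) 0

/-- peeling the attached labels one by one (`gh_n_tree_att`, `gh_n_one`); NO measurability needed -/
theorem cm5_cat_spine (B : GhB S) (hB : B.Ok) (ls : List (GhLv S ι)) (hls : GhNn ls) (z : S → ℝ) (d : ℕ → ℕ) (q : ℕ)
    (hd : ∀ k, k < q → d k ≤ ls.length) (G : (ℕ → ι → ℝ) → S → ℝ) (f : ℕ → S → ℝ) :
    (cmCat d q).nu B ls z (fun η σ => G (fun t => η t 0) (σ 0) * ∏ k : Fin q, f k (σ k.succ))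
      = ghPath B ls z fun ξ s => G ξ s * ∏ k : Fin q, ghE B (ls.drop (d k)) (f k) (z + ghPre ls ξ (d k)) := by
  induction q generalizing G with
  | zero =>
    simp only [cmCat, GhTree.nu]
    rw [gh_n_one]
    simp
  | succ q ih =>
    have h1 := gh_n_tree_att B hB ls hls (cmCat d q) (d q) (hd q (Nat.lt_succ_self q)) 0 z
      (fun η σ => G (fun t => η t 0) (σ 0) * ∏ k : Fin q, f k (σ k.succ)) (f q)
    have e1 : (fun (η : ℕ → Fin (q + 1 + 1) → ι → ℝ) (σ : Fin (q + 1 + 1) → S) =>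
        G (fun t => η t 0) (σ 0) * ∏ k : Fin (q + 1), f k (σ k.succ))
        = fun η σ => ghOld (fun (η : ℕ → Fin (q + 1) → ι → ℝ) (σ : Fin (q + 1) → S) =>
            G (fun t => η t 0) (σ 0) * ∏ k : Fin q, f k (σ k.succ)) η σ * f q (σ (Fin.last (q + 1))) := by
      funext η σ
      rw [Fin.prod_univ_castSucc]
      simp only [ghOld, Fin.castSucc_zero, Fin.succ_castSucc, Fin.val_castSucc, Fin.val_last, Fin.succ_last]
      ring
    show ((cmCat d q).att (d q) 0).nu B ls z _ = _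
    rw [e1, h1]
    have h2 := ih (fun k hk => hd k (Nat.lt_succ_of_lt hk))
      (fun ξ s => G ξ s * ghE B (ls.drop (d q)) (f q) (z + ghPre ls ξ (d q)))
    have e2 : (fun (η : ℕ → Fin (q + 1) → ι → ℝ) (σ : Fin (q + 1) → S) =>
        (G (fun t => η t 0) (σ 0) * ∏ k : Fin q, f k (σ k.succ)) * ghE B (ls.drop (d q)) (f q) (z + ghPre ls (fun j => η j 0) (d q)))
        = fun η σ => G (fun t => η t 0) (σ 0) * ghE B (ls.drop (d q)) (f q) (z + ghPre ls (fun t => η t 0) (d q))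
            * ∏ k : Fin q, f k (σ k.succ) := by
      funext η σ; ring
    rw [e2, h2]
    congr 1
    funext ξ s
    rw [Fin.prod_univ_castSucc]
    simp only [Fin.val_castSucc, Fin.val_last]
    ring

theorem cm5_cat_sh0 (d : ℕ → ℕ) : ∀ (q : ℕ) (k : Fin q), (cmCat d q).sh 0 k.succ = d k
  | 0, k => k.elim0
  | q + 1, k => by
    show ((cmCat d q).att (d q) 0).sh 0 k.succ = d k
    induction k using Fin.lastCases with
    | last =>
      have := ghp_att_cl (cmCat d q) (d q) 0 0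
      simpa using this
    | cast k =>
      have := ghp_att_cc (cmCat d q) (d q) 0 0 k.succ
      rw [Fin.castSucc_zero, ← Fin.succ_castSucc] at this
      rw [this, cm5_cat_sh0 d q k]
      simp

theorem cm5_cat_sh (d : ℕ → ℕ) : ∀ (q : ℕ) (a b : Fin q), a ≠ b → (cmCat d q).sh a.succ b.succ = min (d a) (d b)
  | 0, a, _, _ => a.elim0
  | q + 1, a, b, hab => by
    show ((cmCat d q).att (d q) 0).sh a.succ b.succ = _
    induction a using Fin.lastCases with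
    | last =>
      induction b using Fin.lastCases with
      | last => exact absurd rfl hab
      | cast b =>
        have := ghp_att_lc (cmCat d q) (d q) 0 b.succ
        rw [if_neg (Fin.succ_ne_zero b), cm5_cat_sh0, ← Fin.succ_castSucc, ← Fin.succ_last] at this
        rw [this]; simp
    | cast a =>
      induction b using Fin.lastCases with
      | last =>
        have := ghp_att_cl (cmCat d q) (d q) 0 a.succ
        rw [if_neg (Fin.succ_ne_zero a), cm5_cat_sh0, ← Fin.succ_castSucc, ← Fin.succ_last] at this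
        rw [this, min_comm]; simp
      | cast b =>
        have := ghp_att_cc (cmCat d q) (d q) 0 a.succ b.succ
        rw [← Fin.succ_castSucc, ← Fin.succ_castSucc] at this
        rw [this, cm5_cat_sh d q a b (fun h => hab (by rw [h]))]
        simp

/-- the tree `sh a b = min (d a) (d b)` -/
def cmCatT (d : ℕ → ℕ) (q : ℕ) : GhTree q where
  sh := fun a b => min (d a) (d b)
  symm := fun _ _ => min_comm _ _
  ultra := fun _ _ _ _ => le_min ((min_le_left _ _).trans (min_le_left _ _)) ((min_le_right _ _).trans (min_le_right _ _))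

theorem cm5_cat_rep (d : ℕ → ℕ) (q : ℕ) (sh : ℕ → ℕ → ℕ) (hsh : ∀ x y, x < q → y < q → x ≠ y → sh x y = min (d x) (d y)) :
    ghRepN q sh = (cmCatT d q).rep := by
  funext t a
  unfold ghRepN GhTree.rep
  congr 1
  ext b
  simp only [Finset.mem_filter, Finset.mem_univ, true_and]
  by_cases hb : b = a
  · simp [hb]
  · have : sh a.1 b.1 = min (d a) (d b) := hsh a.1 b.1 a.2 b.2 (fun h => hb (Fin.ext h.symm))
    simp only [hb, false_or, this, cmCatT]

/-- **product tests on a tree attached to a ghost spine** -/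
theorem cm5_cat_nu (B : GhB S) (hB : B.Ok) (ls : List (GhLv S ι)) (hls : GhNn ls) (z : S → ℝ) (d : ℕ → ℕ) (q : ℕ)
    (hd : ∀ k, k < q → d k ≤ ls.length) (sh : ℕ → ℕ → ℕ) (hsh : ∀ x y, x < q → y < q → x ≠ y → sh x y = min (d x) (d y))
    (f : ℕ → S → ℝ) :
    ghNu B ls (ghRepN q sh) (fun _ => z) (fun _ σ => ∏ k : Fin q, f k (σ k))
      = ghPath B ls z fun ξ _ => ∏ k : Fin q, ghE B (ls.drop (d k)) (f k) (z + ghPre ls ξ (d k)) := by
  have h1 := cm5_cat_spine B hB ls hls z d q hd (fun _ _ => 1) f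
  simp only [one_mul] at h1
  rw [← h1, cm5_cat_rep d q sh hsh]
  have h2 := gh_n_tree_pull B hB ls hls (cmCat d q) (cmCatT d q) Fin.succ (fun t _ a b => by
    by_cases hb : b = a
    · simp [hb]
    · have : (cmCat d q).sh a.succ b.succ = min (d a) (d b) := cm5_cat_sh d q a b (fun h => hb h.symm)
      simp only [hb, false_or, this, cmCatT, Fin.succ_inj]) z (fun _ σ => ∏ k : Fin q, f k (σ k))
  exact h2.symm

end cat

/-! ## PART 3 : the SK dictionary -/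

section sk

/-- **the path model of an SK step path** (terminal mass `1`, zero root field) -/
noncomputable def cm5Sk (n : ℕ) (P : SkStp) : CmPath n (SkOm n) := cm5OfL8 (skSP n 1 P)

theorem cm5_sk_ok (n : ℕ) (hn : 1 ≤ n) (P : SkStp) (hP : SkAdm 1 P) : (cm5Sk n P).Ok :=
  cm5_l8_ok _ (l8i_ok n hn 1 one_pos P hP) rfl

theorem cm5_sk_pin (n : ℕ) (hn : 1 ≤ n) (P : SkStp) (hP : SkAdm 1 P) (l : ℕ) (hl : 1 ≤ l) :
    (cm5Sk n P).Pin l (1 + (2 * l : ℝ) ^ 2 / 3) :=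
  cm5_l8_pin _ (l8i_ok n hn 1 one_pos P hP) rfl l hl _ (l8i_pin n hn 1 one_pos P hP l hl)

theorem cm5_sk_proj (l : ℕ) (hl : 1 ≤ l) : ∃ Pi : ℝ, 1 ≤ Pi ∧ ∀ (n : ℕ) (P : SkStp), 1 ≤ n → SkAdm 1 P → (cm5Sk n P).Proj (2 * l) Pi := by
  obtain ⟨c, _, h⟩ := l8i_proj l hl
  exact ⟨max 1 c, le_max_left _ _, fun n P hn hP =>
    cm5_l8_proj _ (l8i_ok n hn 1 one_pos P hP) rfl l hl c fun vmin hmin hv hh => h n 1 P hn one_pos (by norm_num) hP vmin hmin hv hh⟩

theorem cm5_sk_L (n : ℕ) (P : SkStp) : (cm5Sk n P).L = P.length := rfl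

theorem cm5_sk_mass (n : ℕ) (P : SkStp) (j : ℕ) : (cm5Sk n P).mass j = if j = 0 then 0 else skMs 1 P (j - 1) := rfl

theorem cm5_sk_sum_getD (l : List ℝ) (j : ℕ) : ∑ k ∈ Finset.Ico 0 j, l.getD k 0 = (l.take j).sum := by
  induction j with
  | zero => simp
  | succ j ih =>
    rw [Finset.sum_Ico_succ_top (Nat.zero_le j), ih]
    by_cases hj : j < l.length
    · rw [List.sum_take_succ _ _ hj, List.getD_eq_getElem _ _ hj]
    · rw [List.getD_eq_default _ _ (not_lt.1 hj), add_zero, List.take_of_length_le (not_lt.1 hj),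
        List.take_of_length_le ((not_lt.1 hj).trans (Nat.le_succ _))]

theorem cm5_sk_hck (n : ℕ) (P : SkStp) (j : ℕ) : (cm5Sk n P).hck j = skCumH P j := by
  show ∑ k ∈ Finset.Ico 0 j, (P.map SkInc.dh).getD k 0 = ((P.take j).map SkInc.dh).sum
  rw [cm5_sk_sum_getD, List.map_take]

theorem cm5_sk_S (n : ℕ) (P : SkStp) (hP : SkAdm 1 P) (j : ℕ) (hj : j ≤ P.length) : (cm5Sk n P).S j = obS n 1 P 0 j := by
  rw [← l8i_S n 1 one_pos P hP j hj]
  unfold CmPath.S L8P.S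
  exact integral_congr_ae (Filter.Eventually.of_forall fun ω => cm5_l8_norm_sq (skSP n 1 P) j ω)

theorem cm5_sk_spin_meas {n : ℕ} (f : SkCfg n → ℝ) : Measurable fun ω : SkOm n => f ω.2 :=
  (Measurable.of_discrete (f := f)).comp measurable_snd

theorem cm5_sk_spin_bdd {n : ℕ} (f : SkCfg n → ℝ) : ∀ ω : SkOm n, |f ω.2| ≤ ∑ σ, |f σ| := fun ω =>
  Finset.single_le_sum (f := fun σ => |f σ|) (fun _ _ => abs_nonneg _) (Finset.mem_univ ω.2)

/-- conditional mean of a spin observable = `ghE` at the revealed field -/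
theorem cm5_sk_cE_spin (n : ℕ) (P : SkStp) (hP : SkAdm 1 P) (k : ℕ) (hk : k ≤ P.length) (f : SkCfg n → ℝ) (ω : SkOm n) :
    (cm5Sk n P).cE k (fun ω' => f ω'.2) ω = ghE (skBase n 1) ((skLvs n P).drop k) f (0 + ghPre (skLvs n P) ω.1 k) := by
  have h := l8i_E n 1 one_pos P hP k hk ω (fun ω' => f ω'.2) (cm5_sk_spin_meas f) _ (cm5_sk_spin_bdd f)
  have e : (cm5Sk n P).cE k (fun ω' => f ω'.2) ω = (skSP n 1 P).E k (fun ω' => f ω'.2) ω := rfl
  rw [e, h, obt_lvs_drop]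
  exact spi_path_spin _ _ _ f

/-- product tests, any tree attached to a ghost spine: conditional means along one path -/
theorem cm5_sk_prod (n : ℕ) (hn : 1 ≤ n) (P : SkStp) (hP : SkAdm 1 P) (d : ℕ → ℕ) (q : ℕ) (hd : ∀ k, k < q → d k ≤ P.length)
    (sh : ℕ → ℕ → ℕ) (hsh : ∀ x y, x < q → y < q → x ≠ y → sh x y = min (d x) (d y)) (f : ℕ → SkCfg n → ℝ) :
    ghNu (skBase n 1) (skLvs n P) (ghRepN q sh) (fun _ => 0) (fun _ σ => ∏ k : Fin q, f k (σ k))
      = ∫ ω, ∏ k : Fin q, (cm5Sk n P).cE (d k) (fun ω' => f k ω'.2) ω ∂(cm5Sk n P).P := by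
  have hM := cm5_sk_ok n hn P hP
  have hlen : (skLvs n P).length = P.length := by simp [skLvs]
  rw [cm5_cat_nu (skBase n 1) (obt_base_ok n one_pos) (skLvs n P) ((l8i_adm hP).ghNn le_rfl) 0 d q
    (fun k hk => by rw [hlen]; exact hd k hk) sh hsh f]
  have e : ∀ ω : SkOm n, ∏ k : Fin q, (cm5Sk n P).cE (d k) (fun ω' => f k ω'.2) ω
      = ∏ k : Fin q, ghE (skBase n 1) ((skLvs n P).drop (d k)) (f k) (0 + ghPre (skLvs n P) ω.1 (d k)) := fun ω =>
    Finset.prod_congr rfl fun k _ => cm5_sk_cE_spin n P hP (d k) (hd k k.2) (f k) ω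
  have hm : Measurable fun ω : SkOm n => ∏ k : Fin q, (cm5Sk n P).cE (d k) (fun ω' => f k ω'.2) ω :=
    Finset.measurable_prod _ fun k _ => CmPath.cE_meas hM (d k) (cm5_sk_spin_meas (f k))
  have hb : ∀ ω : SkOm n, |∏ k : Fin q, (cm5Sk n P).cE (d k) (fun ω' => f k ω'.2) ω| ≤ ∏ k : Fin q, ∑ σ, |f k σ| := fun ω => by
    rw [Finset.abs_prod]
    exact Finset.prod_le_prod (fun _ _ => abs_nonneg _) fun k _ => CmPath.cE_bound hM (d k) (cm5_sk_spin_bdd (f k)) ω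
  simp only [e] at hm hb ⊢
  exact (l8i_path n 1 one_pos P hP
    (fun ξ _ => ∏ k : Fin q, ghE (skBase n 1) ((skLvs n P).drop (d k)) (f k) (0 + ghPre (skLvs n P) ξ (d k))) hm _
    fun ξ σ => hb (ξ, σ)).symm

/-- product over `Fin (2 r)` by consecutive pairs -/
theorem cm5_prod_pair : ∀ (r : ℕ) (g : Fin (2 * r) → ℝ),
    ∏ k, g k = ∏ i : Fin r, g ⟨2 * i.1, by have := i.2; omega⟩ * g ⟨2 * i.1 + 1, by have := i.2; omega⟩
  | 0, g => by simp
  | r + 1, g => by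
    have h1 : ∏ k : Fin (2 * (r + 1)), g k = ∏ k : Fin (2 * r + 1 + 1), g k := rfl
    rw [h1, Fin.prod_univ_castSucc, Fin.prod_univ_castSucc, Fin.prod_univ_castSucc (n := r),
      cm5_prod_pair r (fun k => g k.castSucc.castSucc), mul_assoc]
    rfl

/-- factors of `skOv - s = ∑ κ, Phi κ ⊗ Psi κ` -/
noncomputable def cm5Phi {n : ℕ} (s : ℝ) : Option (Fin n) → SkCfg n → ℝ
  | none => fun _ => -s
  | some k => obY k

noncomputable def cm5Psi {n : ℕ} : Option (Fin n) → SkCfg n → ℝ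
  | none => fun _ => 1
  | some k => obY k

theorem cm5_ov_sub {n : ℕ} (hn : 0 < n) (s : ℝ) (σ τ : SkCfg n) :
    skOv σ τ - s = ∑ κ : Option (Fin n), cm5Phi s κ σ * cm5Psi κ τ := by
  rw [Fintype.sum_option, obt_ov hn]
  simp only [cm5Phi, cm5Psi]
  ring

/-- the single-label factors of one term of the expansion -/
noncomputable def cm5Fc {n r : ℕ} (s : ℝ) (c : Fin r → Option (Fin n)) (k : ℕ) : SkCfg n → ℝ :=
  if h : k / 2 < r then (if k % 2 = 0 then cm5Phi s (c ⟨k / 2, h⟩) else cm5Psi (c ⟨k / 2, h⟩)) else fun _ => 1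

theorem cm5_Fc_even {n r : ℕ} (s : ℝ) (c : Fin r → Option (Fin n)) (i : Fin r) : cm5Fc s c (2 * i.1) = cm5Phi s (c i) := by
  have h1 : 2 * i.1 / 2 = i.1 := by omega
  have h2 : 2 * i.1 % 2 = 0 := by omega
  unfold cm5Fc
  simp only [h1, h2, i.2, dif_pos, if_true, Fin.eta]

theorem cm5_Fc_odd {n r : ℕ} (s : ℝ) (c : Fin r → Option (Fin n)) (i : Fin r) : cm5Fc s c (2 * i.1 + 1) = cm5Psi (c i) := by
  have h1 : (2 * i.1 + 1) / 2 = i.1 := by omega
  have h2 : (2 * i.1 + 1) % 2 = 1 := by omega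
  unfold cm5Fc
  simp only [h1, h2, i.2, dif_pos, one_ne_zero, if_false, Fin.eta]

theorem cm5_sk_normsq (n : ℕ) (P : SkStp) (j : ℕ) (ω : SkOm n) :
    ‖(cm5Sk n P).X j ω‖ ^ 2 = ∑ i, (cm5Sk n P).cE j (fun ω' => obY i ω'.2) ω ^ 2 := by
  rw [EuclideanSpace.real_norm_sq_eq]
  rfl

/-- **the star**: `2 r` labels which share exactly the first `j` revelations.   `s = 0`: `E|X_j|^(2r)` (`cmkMX`); `s = S_p`, `r = 2 l`: `cmkMXc`. -/
theorem cm5_sk_star (n : ℕ) (hn : 1 ≤ n) (P : SkStp) (hP : SkAdm 1 P) (r j : ℕ) (hj : j ≤ P.length) (sh : ℕ → ℕ → ℕ)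
    (hsh : ∀ x y, x ≠ y → sh x y = j) (s : ℝ) :
    ghNu (skBase n 1) (skLvs n P) (ghRepN (2 * r) sh) (fun _ => 0) (fun _ σ =>
        ∏ i : Fin r, (skOv (σ ⟨2 * i.1, by have := i.2; omega⟩) (σ ⟨2 * i.1 + 1, by have := i.2; omega⟩) - s))
      = ∫ ω, (‖(cm5Sk n P).X j ω‖ ^ 2 - s) ^ r ∂(cm5Sk n P).P := by
  have hM := cm5_sk_ok n hn P hP
  have := hM.prob
  have := hM.markov j
  have e1 : (fun (_ : ℕ → Fin (2 * r) → SkDr n → ℝ) (σ : Fin (2 * r) → SkCfg n) =>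
        ∏ i : Fin r, (skOv (σ ⟨2 * i.1, by have := i.2; omega⟩) (σ ⟨2 * i.1 + 1, by have := i.2; omega⟩) - s))
      = fun _ σ => ∑ c ∈ (Finset.univ : Finset (Fin r → Option (Fin n))), 1 * ∏ k : Fin (2 * r), cm5Fc s c k (σ k) := by
    funext _ σ
    simp only [cm5_ov_sub hn, one_mul]
    rw [Finset.prod_univ_sum, Fintype.piFinset_univ]
    refine Finset.sum_congr rfl fun c _ => ?_
    rw [cm5_prod_pair]
    refine Finset.prod_congr rfl fun i _ => ?_
    simp only [cm5_Fc_even, cm5_Fc_odd]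
  rw [e1, tr_b1_nu_sum (obt_base_ok n one_pos) Finset.univ (fun _ => 1)
    (fun c σ => ∏ k : Fin (2 * r), cm5Fc s c k (σ k)) (skLvs n P) ((l8i_adm hP).ghNn le_rfl)]
  have e2 : ∀ c : Fin r → Option (Fin n),
      ghNu (skBase n 1) (skLvs n P) (ghRepN (2 * r) sh) (fun _ => 0) (fun _ σ => ∏ k : Fin (2 * r), cm5Fc s c k (σ k))
        = ∫ ω, ∏ i : Fin r, ((cm5Sk n P).cE j (fun ω' => cm5Phi s (c i) ω'.2) ω
            * (cm5Sk n P).cE j (fun ω' => cm5Psi (c i) ω'.2) ω) ∂(cm5Sk n P).P := by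
    intro c
    rw [cm5_sk_prod n hn P hP (fun _ => j) (2 * r) (fun _ _ => hj) sh (fun x y _ _ hxy => by simp [hsh x y hxy]) (cm5Fc s c)]
    refine integral_congr_ae (Filter.Eventually.of_forall fun ω => ?_)
    simp only
    rw [cm5_prod_pair]
    refine Finset.prod_congr rfl fun i _ => ?_
    simp only [cm5_Fc_even, cm5_Fc_odd]
  simp only [e2, one_mul]
  rw [← integral_finsetSum]
  · refine integral_congr_ae (Filter.Eventually.of_forall fun ω => ?_)
    simp only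
    have h3 := Finset.prod_univ_sum (fun _ : Fin r => (Finset.univ : Finset (Option (Fin n))))
      (fun (_ : Fin r) (κ : Option (Fin n)) => (cm5Sk n P).cE j (fun ω' => cm5Phi s κ ω'.2) ω
            * (cm5Sk n P).cE j (fun ω' => cm5Psi κ ω'.2) ω)
    rw [Fintype.piFinset_univ] at h3
    rw [← h3, Finset.prod_const, Finset.card_univ, Fintype.card_fin]
    congr 1
    rw [Fintype.sum_option, cm5_sk_normsq]
    simp only [cm5Phi, cm5Psi, CmPath.cE, integral_const, probReal_univ, smul_eq_mul, one_mul, mul_one]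
    rw [add_comm, sub_eq_add_neg]
    congr 1
    exact Finset.sum_congr rfl fun i _ => (sq _).symm
  · intro c _
    refine CmPath.cm5k_integrable _ (Finset.measurable_prod _ fun i _ =>
      (CmPath.cE_meas hM j (cm5_sk_spin_meas _)).mul (CmPath.cE_meas hM j (cm5_sk_spin_meas _))).aestronglyMeasurable
      (C := ∏ i : Fin r, ((∑ σ, |cm5Phi s (c i) σ|) * ∑ σ, |cm5Psi (c i) σ|)) fun ω => ?_
    rw [Real.norm_eq_abs, Finset.abs_prod]
    refine Finset.prod_le_prod (fun _ _ => abs_nonneg _) fun i _ => ?_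
    rw [abs_mul]
    exact mul_le_mul (CmPath.cE_bound hM j (cm5_sk_spin_bdd _) ω) (CmPath.cE_bound hM j (cm5_sk_spin_bdd _) ω) (abs_nonneg _)
      (Finset.sum_nonneg fun _ _ => abs_nonneg _)

/-- conditional law of the terminal spin given the prefix at the node `j` -/
noncomputable def cm5p (n : ℕ) (P : SkStp) (j : ℕ) (ω : SkOm n) (s : SkCfg n) : ℝ :=
  (cm5Sk n P).cE j (fun ω' => if ω'.2 = s then 1 else 0) ω

section
variable {n : ℕ} {P : SkStp}

theorem cm5p_ind_bdd (s : SkCfg n) (ω : SkOm n) : |(if ω.2 = s then (1 : ℝ) else 0)| ≤ 1 := by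
  split_ifs <;> simp

theorem cm5p_ind_meas (s : SkCfg n) : Measurable fun ω : SkOm n => (if ω.2 = s then (1 : ℝ) else 0) :=
  cm5_sk_spin_meas fun σ => if σ = s then 1 else 0

theorem cm5p_nonneg (j : ℕ) (ω : SkOm n) (s : SkCfg n) : 0 ≤ cm5p n P j ω s :=
  integral_nonneg fun ω' => by split_ifs <;> simp

theorem cm5p_meas (hM : (cm5Sk n P).Ok) (j : ℕ) (s : SkCfg n) : Measurable fun ω => cm5p n P j ω s :=
  CmPath.cE_meas hM j (cm5p_ind_meas s)

theorem cm5p_abs_le (hM : (cm5Sk n P).Ok) (j : ℕ) (ω : SkOm n) (s : SkCfg n) : |cm5p n P j ω s| ≤ 1 :=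
  CmPath.cE_bound hM j (cm5p_ind_bdd s) ω

theorem cm5p_pre (hM : (cm5Sk n P).Ok) {i j : ℕ} (hij : i ≤ j) (s : SkCfg n) : (cm5Sk n P).Pre j fun ω => cm5p n P i ω s :=
  CmPath.cE_pre hM hij (cm5p_ind_meas s) (cm5p_ind_bdd s)

/-- conditional mean of a spin observable as a finite sum -/
theorem cm5p_cE (hM : (cm5Sk n P).Ok) (j : ℕ) (g : SkCfg n → ℝ) (ω : SkOm n) :
    (cm5Sk n P).cE j (fun ω' => g ω'.2) ω = ∑ s, g s * cm5p n P j ω s := by
  have := hM.markov j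
  have e : (fun ω' : SkOm n => g ω'.2) = fun ω' => ∑ s, g s * (if ω'.2 = s then (1 : ℝ) else 0) := by
    funext ω'
    simp
  unfold cm5p CmPath.cE
  rw [e, integral_finsetSum]
  · exact Finset.sum_congr rfl fun s _ => integral_const_mul _ _
  · intro s _
    exact (CmPath.cm5k_intK hM j ω (cm5p_ind_meas s) (cm5p_ind_bdd s)).const_mul _

theorem cm5p_sum (hM : (cm5Sk n P).Ok) (j : ℕ) (ω : SkOm n) : ∑ s, cm5p n P j ω s = 1 := by
  have := hM.markov j
  have h := cm5p_cE hM j (fun _ => 1) ω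
  simp only [one_mul] at h
  rw [← h]
  simp [CmPath.cE]

end

/-- **any spin test** on a tree attached to a ghost spine -/
theorem cm5_sk_gen (n : ℕ) (hn : 1 ≤ n) (P : SkStp) (hP : SkAdm 1 P) (d : ℕ → ℕ) (q : ℕ) (hd : ∀ k, k < q → d k ≤ P.length)
    (sh : ℕ → ℕ → ℕ) (hsh : ∀ x y, x < q → y < q → x ≠ y → sh x y = min (d x) (d y)) (T : (Fin q → SkCfg n) → ℝ) :
    ghNu (skBase n 1) (skLvs n P) (ghRepN q sh) (fun _ => 0) (fun _ σ => T σ)
      = ∫ ω, ∑ τ : Fin q → SkCfg n, T τ * ∏ k : Fin q, cm5p n P (d k) ω (τ k) ∂(cm5Sk n P).P := by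
  have hM := cm5_sk_ok n hn P hP
  have := hM.prob
  have e1 : (fun (_ : ℕ → Fin q → SkDr n → ℝ) (σ : Fin q → SkCfg n) => T σ)
      = fun _ σ => ∑ τ ∈ (Finset.univ : Finset (Fin q → SkCfg n)), T τ * ∏ k : Fin q,
          (fun (k : ℕ) (s : SkCfg n) => if h : k < q then (if s = τ ⟨k, h⟩ then (1 : ℝ) else 0) else 1) k (σ k) := by
    funext _ σ
    rw [Finset.sum_eq_single σ]
    · simp
    · intro τ _ hne
      obtain ⟨k, hk⟩ : ∃ k, σ k ≠ τ k := by
        by_contra hcon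
        push Not at hcon
        exact hne (funext fun k => (hcon k).symm)
      rw [Finset.prod_eq_zero (Finset.mem_univ k), mul_zero]
      simp [hk]
    · intro h; exact absurd (Finset.mem_univ σ) h
  rw [e1, tr_b1_nu_sum (obt_base_ok n one_pos) Finset.univ T _ (skLvs n P) ((l8i_adm hP).ghNn le_rfl)]
  rw [integral_finsetSum]
  · refine Finset.sum_congr rfl fun τ _ => ?_
    rw [integral_const_mul]
    refine congrArg (T τ * ·) ((cm5_sk_prod n hn P hP d q hd sh hsh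
      (fun (k : ℕ) (s : SkCfg n) => if h : k < q then (if s = τ ⟨k, h⟩ then (1 : ℝ) else 0) else 1)).trans
      (integral_congr_ae (Filter.Eventually.of_forall fun ω => ?_)))
    refine Finset.prod_congr rfl fun k _ => ?_
    simp only [k.2, dif_pos, Fin.eta]
    rfl
  · intro τ _
    refine (CmPath.cm5k_integrable _ (f := fun ω => ∏ k : Fin q, cm5p n P (d k) ω (τ k))
      (Finset.measurable_prod _ fun (k : Fin q) _ => cm5p_meas hM (d k) (τ k)).aestronglyMeasurable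
      (C := 1) fun ω => ?_).const_mul _
    rw [Real.norm_eq_abs, Finset.abs_prod]
    exact Finset.prod_le_one (fun _ _ => abs_nonneg _) fun k _ => cm5p_abs_le hM (d k) ω (τ k)

/-- averaging a prefix-measurable family over the conditional law of the spin -/
theorem cm5_sk_avg (n : ℕ) (P : SkStp) (hM : (cm5Sk n P).Ok) (j : ℕ) (h : SkOm n → SkCfg n → ℝ) (hm : ∀ s, Measurable fun ω => h ω s)
    (hpre : ∀ s, (cm5Sk n P).Pre j fun ω => h ω s) (C : ℝ) (hC : ∀ ω s, |h ω s| ≤ C) :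
    ∫ ω, ∑ s, cm5p n P j ω s * h ω s ∂(cm5Sk n P).P = ∫ ω, h ω ω.2 ∂(cm5Sk n P).P := by
  have := hM.markov j
  have hmd : Measurable fun ω : SkOm n => h ω ω.2 := by
    have e : (fun ω : SkOm n => h ω ω.2) = fun ω => ∑ s, (if ω.2 = s then (1 : ℝ) else 0) * h ω s := by
      funext ω; simp
    rw [e]
    exact Finset.measurable_sum _ fun s _ => (cm5p_ind_meas s).mul (hm s)
  rw [← CmPath.int_cE hM j hmd (C := C) fun ω => hC ω ω.2]
  refine integral_congr_ae (Filter.Eventually.of_forall fun ω => ?_)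
  simp only
  have h1 : (cm5Sk n P).cE j (fun ω' => h ω' ω'.2) ω = (cm5Sk n P).cE j (fun ω' => h ω ω'.2) ω := by
    unfold CmPath.cE
    refine integral_congr_ae ?_
    have hall : ∀ᵐ ω' ∂((cm5Sk n P).κ j ω), ∀ s, h ω' s = h ω s := by
      rw [ae_all_iff]
      exact fun s => hpre s j le_rfl ω
    filter_upwards [hall] with ω' e
    exact e ω'.2
  rw [h1, cm5p_cE hM j (fun s => h ω s) ω]
  exact Finset.sum_congr rfl fun s _ => mul_comm _ _

/-- the normalised spin as a vector -/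
noncomputable def cm5Y {n : ℕ} (s : SkCfg n) : EuclideanSpace ℝ (Fin n) := WithLp.toLp 2 fun i => skY s i

theorem cm5_sk_y (n : ℕ) (P : SkStp) (ω : SkOm n) : (cm5Sk n P).X (P.length + 1) ω = cm5Y ω.2 := by
  have : (cm5Sk n P).X (P.length + 1) ω = WithLp.toLp 2 fun i => (skSP n 1 P).X (P.length + 1) i ω := rfl
  rw [this]
  unfold cm5Y
  congr 1
  funext i
  exact l8i_X_gt n 1 P _ (Nat.lt_succ_self _) i ω

theorem cm5_Y_inner {n : ℕ} (hn : 0 < n) (s t : SkCfg n) : inner ℝ (cm5Y s) (cm5Y t) = skOv s t := by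
  rw [obt_ov hn]
  simp only [cm5Y, PiLp.inner_apply, RCLike.inner_apply, conj_trivial, obY]
  exact Finset.sum_congr rfl fun i _ => mul_comm _ _

theorem cm5_Y_norm {n : ℕ} (hn : 1 ≤ n) (s : SkCfg n) : ‖cm5Y s‖ = 1 := by
  have h : ‖cm5Y s‖ ^ 2 = 1 := by
    rw [EuclideanSpace.real_norm_sq_eq]
    exact l8i_y_sq hn s
  have h0 := norm_nonneg (cm5Y s)
  nlinarith

theorem cm5_sk_R2 (n : ℕ) (hn : 0 < n) (P : SkStp) (z : SkOm n × SkOm n) : (cm5Sk n P).R2 z = skOv z.1.2 z.2.2 := by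
  have : (cm5Sk n P).R2 z = inner ℝ ((cm5Sk n P).X (P.length + 1) z.1) ((cm5Sk n P).X (P.length + 1) z.2) := rfl
  rw [this, cm5_sk_y, cm5_sk_y, cm5_Y_inner hn]

theorem cm5_sk_pair_meas {n : ℕ} (G : SkCfg n → SkCfg n → ℝ) : Measurable fun z : SkOm n × SkOm n => G z.1.2 z.2.2 :=
  (Measurable.of_discrete (f := fun p : SkCfg n × SkCfg n => G p.1 p.2)).comp
    ((measurable_snd.comp measurable_fst).prodMk (measurable_snd.comp measurable_snd))

/-- **two leaves** which share exactly the first `j` revelations (`cmkMR`, `cmkMRc`, `skCS`, `skCB`) -/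
theorem cm5_sk_two (n : ℕ) (hn : 1 ≤ n) (P : SkStp) (hP : SkAdm 1 P) (j : ℕ) (hj : j ≤ P.length) (sh : ℕ → ℕ → ℕ)
    (hsh : ∀ x y, x ≠ y → sh x y = j) (F : ℝ → ℝ) :
    ghNu (skBase n 1) (skLvs n P) (ghRepN 2 sh) (fun _ => 0) (fun _ σ => F (skOv (σ 0) (σ 1)))
      = ∫ z, F ((cm5Sk n P).R2 z) ∂(cm5Sk n P).P2 j := by
  have hM := cm5_sk_ok n hn P hP
  rw [cm5_sk_gen n hn P hP (fun _ => j) 2 (fun _ _ => hj) sh (fun x y _ _ hxy => by simp [hsh x y hxy])
    (fun σ => F (skOv (σ 0) (σ 1)))]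
  obtain ⟨C, hC⟩ : ∃ C : ℝ, ∀ s t : SkCfg n, |F (skOv s t)| ≤ C :=
    ⟨∑ s, ∑ t, |F (skOv s t)|, fun s t =>
      (Finset.single_le_sum (f := fun t => |F (skOv s t)|) (fun _ _ => abs_nonneg _) (Finset.mem_univ t)).trans
        (Finset.single_le_sum (f := fun s => ∑ t, |F (skOv s t)|) (fun _ _ => Finset.sum_nonneg fun _ _ => abs_nonneg _)
          (Finset.mem_univ s))⟩
  have e1 : ∀ ω : SkOm n, ∑ τ : Fin 2 → SkCfg n, F (skOv (τ 0) (τ 1)) * ∏ k : Fin 2, cm5p n P j ω (τ k)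
      = ∑ s, cm5p n P j ω s * (cm5Sk n P).cE j (fun ω' => F (skOv s ω'.2)) ω := by
    intro ω
    simp only [Fin.prod_univ_two]
    rw [obt_sum_fin2 (fun s t => F (skOv s t) * (cm5p n P j ω s * cm5p n P j ω t))]
    refine Finset.sum_congr rfl fun s _ => ?_
    rw [cm5p_cE hM j (fun t => F (skOv s t)) ω, Finset.mul_sum]
    exact Finset.sum_congr rfl fun t _ => by ring
  simp only [e1]
  rw [cm5_sk_avg n P hM j (fun ω s => (cm5Sk n P).cE j (fun ω' => F (skOv s ω'.2)) ω)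
    (fun s => CmPath.cE_meas hM j (cm5_sk_spin_meas fun t => F (skOv s t)))
    (fun s => CmPath.cE_pre hM le_rfl (cm5_sk_spin_meas fun t => F (skOv s t)) (C := C) fun ω => hC s ω.2) C
    (fun ω s => CmPath.cE_bound hM j (fun ω' => hC s ω'.2) ω)]
  simp only [cm5_sk_R2 n hn P]
  rw [CmPath.int_P2 hM j (cm5_sk_pair_meas fun s t => F (skOv s t)) (C := C) fun z => hC _ _]
  rfl

theorem cm5_sum_fin3 {S : Type} [Fintype S] (G : S → S → S → ℝ) :
    ∑ τ : Fin 3 → S, G (τ 0) (τ 1) (τ 2) = ∑ a, ∑ b, ∑ c, G a b c := by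
  rw [← (Fin.consEquiv fun _ : Fin 3 => S).sum_comp, Fintype.sum_prod_type]
  refine Finset.sum_congr rfl fun a _ => ?_
  exact obt_sum_fin2 (fun b c => G a b c)

theorem cm5_sub_pow_le (a b : ℝ) (l : ℕ) : (a - b) ^ (2 * l) ≤ 2 ^ (2 * l) * ((a ^ (2 * l) + b ^ (2 * l)) / 2) := by
  have hc := (Even.convexOn_pow (𝕜 := ℝ) (even_two_mul l)).2 (Set.mem_univ a) (Set.mem_univ (-b))
    (by norm_num : (0 : ℝ) ≤ 1 / 2) (by norm_num : (0 : ℝ) ≤ 1 / 2) (by norm_num)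
  simp only [smul_eq_mul, (even_two_mul l).neg_pow] at hc
  have e : a - b = 2 * (1 / 2 * a + 1 / 2 * -b) := by ring
  rw [e, mul_pow]
  refine mul_le_mul_of_nonneg_left ?_ (by positivity)
  linarith

/-- pointwise (in the prefix) bound of the three-leaf sum; `p, p'` probability vectors, `x` ANY vector -/
theorem cm5_three_pt {n : ℕ} (hn : 0 < n) (p p' : SkCfg n → ℝ) (hp : ∀ s, 0 ≤ p s) (hp' : ∀ s, 0 ≤ p' s) (hp1 : ∑ s, p s = 1)
    (x : EuclideanSpace ℝ (Fin n)) (l : ℕ) :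
    ∑ a, ∑ b, ∑ c, (skOv a c - skOv b c) ^ (2 * l) * (p a * p b * p' c)
      ≤ 2 ^ (2 * l) * ∑ s, p s * ∑ t, inner ℝ (cm5Y s - x) (cm5Y t) ^ (2 * l) * p' t := by
  set u : SkCfg n → SkCfg n → ℝ := fun s t => inner ℝ (cm5Y s - x) (cm5Y t) ^ (2 * l) with hu
  have h1 : ∀ a b c, (skOv a c - skOv b c) ^ (2 * l) * (p a * p b * p' c)
      ≤ 2 ^ (2 * l) / 2 * (p b * (p a * (u a c * p' c))) + 2 ^ (2 * l) / 2 * (p a * (p b * (u b c * p' c))) := by
    intro a b c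
    have e : skOv a c - skOv b c = inner ℝ (cm5Y a - x) (cm5Y c) - inner ℝ (cm5Y b - x) (cm5Y c) := by
      rw [← cm5_Y_inner hn, ← cm5_Y_inner hn, inner_sub_left, inner_sub_left]; ring
    have h2 := cm5_sub_pow_le (inner ℝ (cm5Y a - x) (cm5Y c)) (inner ℝ (cm5Y b - x) (cm5Y c)) l
    rw [← e] at h2
    have h3 : 0 ≤ p a * p b * p' c := mul_nonneg (mul_nonneg (hp a) (hp b)) (hp' c)
    calc (skOv a c - skOv b c) ^ (2 * l) * (p a * p b * p' c)
        ≤ 2 ^ (2 * l) * ((u a c + u b c) / 2) * (p a * p b * p' c) := mul_le_mul_of_nonneg_right h2 h3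
      _ = _ := by ring
  set K : SkCfg n → ℝ := fun s => p s * ∑ t, u s t * p' t with hK
  calc ∑ a, ∑ b, ∑ c, (skOv a c - skOv b c) ^ (2 * l) * (p a * p b * p' c)
      ≤ ∑ a, ∑ b, ∑ c, (2 ^ (2 * l) / 2 * (p b * (p a * (u a c * p' c))) + 2 ^ (2 * l) / 2 * (p a * (p b * (u b c * p' c)))) :=
        Finset.sum_le_sum fun a _ => Finset.sum_le_sum fun b _ => Finset.sum_le_sum fun c _ => h1 a b c
    _ = ∑ a, ∑ b, (2 ^ (2 * l) / 2 * (p b * K a) + 2 ^ (2 * l) / 2 * (p a * K b)) := by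
        refine Finset.sum_congr rfl fun a _ => Finset.sum_congr rfl fun b _ => ?_
        rw [Finset.sum_add_distrib, ← Finset.mul_sum, ← Finset.mul_sum, ← Finset.mul_sum, ← Finset.mul_sum, ← Finset.mul_sum,
          ← Finset.mul_sum]
    _ = 2 ^ (2 * l) / 2 * ((∑ b, p b) * ∑ a, K a) + 2 ^ (2 * l) / 2 * ((∑ a, p a) * ∑ b, K b) := by
        have e1 : ∑ a, ∑ b, p b * K a = (∑ b, p b) * ∑ a, K a := by
          rw [Finset.sum_mul_sum, Finset.sum_comm]
        have e2 : ∑ a, ∑ b, p a * K b = (∑ a, p a) * ∑ b, K b := by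
          rw [Finset.sum_mul_sum]
        calc ∑ a, ∑ b, (2 ^ (2 * l) / 2 * (p b * K a) + 2 ^ (2 * l) / 2 * (p a * K b))
            = 2 ^ (2 * l) / 2 * (∑ a, ∑ b, p b * K a) + 2 ^ (2 * l) / 2 * ∑ a, ∑ b, p a * K b := by
              simp only [Finset.sum_add_distrib, Finset.mul_sum]
          _ = _ := by rw [e1, e2]
    _ = 2 ^ (2 * l) * ∑ s, K s := by rw [hp1]; ring

/-- **three leaves of PE Lemma 3.6**: `0 = a`, `1 = a'` share `jv` revelations, `2 = b` leaves them after `jf ≤ jv` revelations -/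
theorem cm5_sk_three (n : ℕ) (hn : 1 ≤ n) (P : SkStp) (hP : SkAdm 1 P) (jf jv : ℕ) (hjf : jf ≤ jv) (hjv : jv ≤ P.length) (sh : ℕ → ℕ → ℕ)
    (h01 : sh 0 1 = jv) (h10 : sh 1 0 = jv) (h02 : sh 0 2 = jf) (h20 : sh 2 0 = jf) (h12 : sh 1 2 = jf) (h21 : sh 2 1 = jf)
    (l : ℕ) (hl : 1 ≤ l) :
    ghNu (skBase n 1) (skLvs n P) (ghRepN 3 sh) (fun _ => 0) (fun _ σ => (skOv (σ 0) (σ 2) - skOv (σ 1) (σ 2)) ^ (2 * l))
      ≤ (2 * cmN ((cm5Sk n P).P2 jf) (2 * l) (fun z : SkOm n × SkOm n =>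
          inner ℝ ((cm5Sk n P).X (P.length + 1) z.1 - (cm5Sk n P).X jv z.1) ((cm5Sk n P).X (P.length + 1) z.2))) ^ (2 * l) := by
  have hM := cm5_sk_ok n hn P hP
  have := hM.prob
  have hP2 := CmPath.P2_prob hM jf
  have hL : (cm5Sk n P).L = P.length := rfl
  rw [cm5_sk_gen n hn P hP (fun k => if k = 2 then jf else jv) 3
    (fun k _ => by split_ifs <;> omega) sh
    (fun x y hx hy hxy => by
      interval_cases x <;> interval_cases y <;> simp_all)
    (fun σ => (skOv (σ 0) (σ 2) - skOv (σ 1) (σ 2)) ^ (2 * l))]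
  obtain ⟨h, hh⟩ : ∃ h : SkOm n → SkCfg n → ℝ, h = fun ω s =>
      ∑ t, inner ℝ (cm5Y s - (cm5Sk n P).X jv ω) (cm5Y t) ^ (2 * l) * cm5p n P jf ω t := ⟨_, rfl⟩
  have hin : ∀ (ω : SkOm n) (s t : SkCfg n), |inner ℝ (cm5Y s - (cm5Sk n P).X jv ω) (cm5Y t)| ≤ 2 := by
    intro ω s t
    calc |inner ℝ (cm5Y s - (cm5Sk n P).X jv ω) (cm5Y t)| ≤ ‖cm5Y s - (cm5Sk n P).X jv ω‖ * ‖cm5Y t‖ := abs_real_inner_le_norm _ _
      _ ≤ (‖cm5Y s‖ + ‖(cm5Sk n P).X jv ω‖) * ‖cm5Y t‖ := mul_le_mul_of_nonneg_right (norm_sub_le _ _) (norm_nonneg _)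
      _ ≤ (1 + 1) * 1 := by
          rw [cm5_Y_norm hn, cm5_Y_norm hn]
          have := hM.norm_le jv ω
          linarith
      _ = 2 := by norm_num
  have hhm : ∀ s, Measurable fun ω => h ω s := by
    intro s
    rw [hh]
    exact Finset.measurable_sum _ fun t _ =>
      (((measurable_const.sub (hM.meas jv)).inner measurable_const).pow_const _).mul (cm5p_meas hM jf t)
  have hhpre : ∀ s, (cm5Sk n P).Pre jv fun ω => h ω s := by
    intro s
    rw [hh]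
    exact CmPath.Pre.sum _ fun t _ => CmPath.Pre.comp₂ (CmPath.X_pre hM le_rfl (hL ▸ hjv)) (cm5p_pre hM hjf t)
      (fun x p => inner ℝ (cm5Y s - x) (cm5Y t) ^ (2 * l) * p)
  have hhb : ∀ ω s, |h ω s| ≤ ∑ _t : SkCfg n, (2 : ℝ) ^ (2 * l) := by
    intro ω s
    rw [hh]
    refine (Finset.abs_sum_le_sum_abs _ _).trans (Finset.sum_le_sum fun t _ => ?_)
    rw [abs_mul, abs_pow]
    calc |inner ℝ (cm5Y s - (cm5Sk n P).X jv ω) (cm5Y t)| ^ (2 * l) * |cm5p n P jf ω t| ≤ 2 ^ (2 * l) * 1 :=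
          mul_le_mul (pow_le_pow_left₀ (abs_nonneg _) (hin ω s t) _) (cm5p_abs_le hM jf ω t) (abs_nonneg _) (by positivity)
      _ = 2 ^ (2 * l) := mul_one _
  have hpt : ∀ ω : SkOm n, ∑ τ : Fin 3 → SkCfg n, (skOv (τ 0) (τ 2) - skOv (τ 1) (τ 2)) ^ (2 * l)
        * ∏ k : Fin 3, cm5p n P (if (k : ℕ) = 2 then jf else jv) ω (τ k)
      ≤ 2 ^ (2 * l) * ∑ s, cm5p n P jv ω s * h ω s := by
    intro ω
    have e : ∀ τ : Fin 3 → SkCfg n, ∏ k : Fin 3, cm5p n P (if (k : ℕ) = 2 then jf else jv) ω (τ k)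
        = cm5p n P jv ω (τ 0) * cm5p n P jv ω (τ 1) * cm5p n P jf ω (τ 2) := by
      intro τ
      rw [Fin.prod_univ_three]
      simp
    simp only [e]
    rw [cm5_sum_fin3 (fun a b c => (skOv a c - skOv b c) ^ (2 * l) * (cm5p n P jv ω a * cm5p n P jv ω b * cm5p n P jf ω c)), hh]
    exact cm5_three_pt hn _ _ (cm5p_nonneg jv ω) (cm5p_nonneg jf ω) (cm5p_sum hM jv ω) _ l
  have hΦm : Measurable fun z : SkOm n × SkOm n =>
      inner ℝ ((cm5Sk n P).X (P.length + 1) z.1 - (cm5Sk n P).X jv z.1) ((cm5Sk n P).X (P.length + 1) z.2) :=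
    (((hM.meas _).comp measurable_fst).sub ((hM.meas _).comp measurable_fst)).inner ((hM.meas _).comp measurable_snd)
  have hΦb : ∀ z : SkOm n × SkOm n,
      |inner ℝ ((cm5Sk n P).X (P.length + 1) z.1 - (cm5Sk n P).X jv z.1) ((cm5Sk n P).X (P.length + 1) z.2)| ≤ 2 := by
    intro z
    rw [cm5_sk_y, cm5_sk_y]
    exact hin z.1 z.1.2 z.2.2
  calc ∫ ω, ∑ τ : Fin 3 → SkCfg n, (skOv (τ 0) (τ 2) - skOv (τ 1) (τ 2)) ^ (2 * l)
        * ∏ k : Fin 3, cm5p n P (if (k : ℕ) = 2 then jf else jv) ω (τ k) ∂(cm5Sk n P).P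
      ≤ ∫ ω, 2 ^ (2 * l) * ∑ s, cm5p n P jv ω s * h ω s ∂(cm5Sk n P).P := by
        refine integral_mono_of_nonneg (Filter.Eventually.of_forall fun ω => Finset.sum_nonneg fun τ _ =>
          mul_nonneg ((even_two_mul l).pow_nonneg _) (Finset.prod_nonneg fun k _ => cm5p_nonneg _ ω _)) ?_
          (Filter.Eventually.of_forall hpt)
        refine (CmPath.cm5k_integrable _ (f := fun ω => ∑ s, cm5p n P jv ω s * h ω s)
          (Finset.measurable_sum _ fun s _ => (cm5p_meas hM jv s).mul (hhm s)).aestronglyMeasurable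
          (C := ∑ _s : SkCfg n, 1 * ∑ _t : SkCfg n, (2 : ℝ) ^ (2 * l)) fun ω => ?_).const_mul _
        rw [Real.norm_eq_abs]
        refine (Finset.abs_sum_le_sum_abs _ _).trans (Finset.sum_le_sum fun s _ => ?_)
        rw [abs_mul]
        exact mul_le_mul (cm5p_abs_le hM jv ω s) (hhb ω s) (abs_nonneg _) zero_le_one
    _ = 2 ^ (2 * l) * ∫ ω, h ω ω.2 ∂(cm5Sk n P).P := by
        rw [integral_const_mul, cm5_sk_avg n P hM jv h hhm hhpre _ hhb]
    _ = 2 ^ (2 * l) * ∫ z, inner ℝ ((cm5Sk n P).X (P.length + 1) z.1 - (cm5Sk n P).X jv z.1)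
          ((cm5Sk n P).X (P.length + 1) z.2) ^ (2 * l) ∂(cm5Sk n P).P2 jf := by
        rw [CmPath.int_P2 hM jf (hΦm.pow_const (2 * l)) (C := 2 ^ (2 * l)) fun z => by
          rw [abs_pow]; exact pow_le_pow_left₀ (abs_nonneg _) (hΦb z) _]
        congr 1
        refine integral_congr_ae (Filter.Eventually.of_forall fun ω => ?_)
        simp only [cm5_sk_y]
        rw [hh]
        exact (cm5p_cE hM jf (fun t => inner ℝ (cm5Y ω.2 - (cm5Sk n P).X jv ω) (cm5Y t) ^ (2 * l)) ω).symm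
    _ = _ := by
        rw [mul_pow, cmN_pow_eq ⟨hΦm.aestronglyMeasurable, 2, fun z => by rw [Real.norm_eq_abs]; exact hΦb z⟩ (2 * l) (by omega)]
        congr 1
        refine integral_congr_ae (Filter.Eventually.of_forall fun z => ?_)
        simp only [Real.norm_eq_abs, (even_two_mul l).pow_abs]

end sk

end Claimed.Agent.R286
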