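import Claimed.Agent.R286.Cmp.P5Tbl
import Claimed.Agent.R286.Cmp.P5L8
import Claimed.Agent.R286.L08.SPI
import Claimed.Agent.R286.Cmp.InstNum
import Claimed.Agent.R286.Brg.Tab
import Claimed.Agent.R286.Brg.Osc
import Claimed.Agent.R286.Bud.Mom
import Claimed.Agent.R286.Cmp.P5Clk
import Claimed.Agent.R286.Exit.ClkLim

/-!
# Row 286 (S0533), P05 / LL07: THE SAMPLED PATH.   SK INSTANCE OF `CmPath` ON THE FINITE CHAINS OF GENERAL CLOCKS      (owner helper7; prefix `ckm_`, defs `ckM`, `ckmPos`, `CkmCh`)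

INSTANCE DEBT of `CmPath` (247), `Cm5Clk` (247), `BudRwReg` (109): every abstract one-path theorem (`cm5_raw_pf`, `cm5_raw2_pf`, `cm5_tbl_pf`, `cm5_split_pf`, `bud_rw_raw`, `bud_rw_c9`, `hp_proj`)
is applied to  `ckM n b h ps = cm5OfL8 (skSP n 1 (ckStp 1 b h ps))`,  the planted step path which reveals the admissible clocks `(b,h)` at the positions of a finite chain `ps`, for ALL SUFFICIENTLY FINE chains
(`BmEv 1`, the net of `ghLim`), and its conclusion is carried to the NUMBERS of the clocks (`skCNu`, `cmkMX`, `cmkMR`, `skCS`, `skCB`).   This file is that dictionary, once and for all.   `Q.hpM g ps` of Bud/HpFr is `ckM F.m (Q.bE g) (Q.hE g) ps` (rfl).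
USERS: `Bud/RawExit` (7: (C8),(C9)), `Bud/HpFr` (8/154: `bud_hp_adm`, `bud_hp_clk`, `bud_hp_mpr`), `Bud/StarLp` (190), `Exit/CmpRaw, CmpRes, CmpSplit` (247).

 A. structure      `ckm_L`, `ckm_mass`, `ckm_hck`: node `j ≥ 1` = the position `ckmPos ps j` (= `ps[j-1]`); `mass j` = its mass, `hck j` = the field clock at this position.
 B. nodes          `ckm_idx_pos`, `ckm_le_idx`, `ckm_idx_mass_le`, `ckm_nd`: `ghIdx ps p` = the node of the position `p`;  `nd t = ghIdx ps (ghPosA t)`.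
 C. validity       `ckm_ok`, `ckm_pin`, `ckm_proj`, `ckm_proj2`.
 D. mesh           `ckm_mesh`, `ckm_mesh_fun`: fine chains have a small mesh in mass, and in any continuous coordinate `r(mass)` (radius!).
 E. statistics     `ckm_S`, `ckm_S_close`.
 F. slopes         `ckm_at_slope`, `ckm_at_slope0`, `ckm_hck_slope`: a lower slope `φ` of the field clock (`h - φ` nondecreasing on `(0,1)`, `φ` continuous) is a lower slope of `hck` between nodes.
 G. transfer       `ckm_nu_le` (closed bounds pass to `skCNu`), `ckm_mx` (`Raw ⟹ cmkMX`), `ckm_mr` (two-leaf overlap `⟹ cmkMR`), `ckm_SB` (`⟹ skCS, skCB`).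
ALL PROVED (0 own sorry); rests on `cm5_sk_star`, `cm5_sk_two` (P5L8), `exit_clk_lim_stat`, `exit_clk_lim_nu`.   NEW: `ckm_smp` (`Cm5Smp` of P5Clk on fine chains), `ckm_mass_mono/_nonneg/_le_one/_top`.
-/

set_option autoImplicit false

namespace Claimed.Agent.R286

open MeasureTheory Set Filter Topology

noncomputable section

/-- **the sampled path**: the planted step path which reveals the clocks `(b,h)` at the positions of `ps`, as an abstract path of PE Sec. 3 -/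
def ckM (n : ℕ) (b h : ℝ → ℝ) (ps : List GhPos) : CmPath n (SkOm n) := cm5OfL8 (skSP n 1 (ckStp 1 b h ps))

/-- the position of the node `j ≥ 1` (= the revelation number `j - 1`); after the chain: the terminal position -/
def ckmPos (ps : List GhPos) (j : ℕ) : GhPos := ps.getD (j - 1) (ghPosA 1)

/-- a valid chain: strictly increasing valid positions -/
def CkmCh (ps : List GhPos) : Prop := ps.Pairwise (· < ·) ∧ ∀ p ∈ ps, p.Ok 1

theorem ckm_eqns_cite : True := by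
  have := @ckM.eq_1; have := @ckmPos.eq_1; have := @CkmCh.eq_1
  trivial

variable {n : ℕ} {b h : ℝ → ℝ} {ps : List GhPos}

/-! ## A. Structure -/

/-- the chains of the net are valid -/
theorem ckm_ch (F : Finset GhPos) : CkmCh (ghPs 1 F) := ⟨gh_os_ps_lt 1 F, fun p hp => (gh_os_ps_mem.1 hp).2⟩

theorem ckm_stp_len (a : ℝ) (b h : ℝ → ℝ) : ∀ (ps : List GhPos) (b0 h0 : ℝ), (skCStp a b h b0 h0 ps).length = ps.length
  | [], _, _ => rfl
  | p :: ps, _, _ => by simp [skCStp, ckm_stp_len a b h ps]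

theorem ckm_stp_m (a : ℝ) (b h : ℝ → ℝ) : ∀ (ps : List GhPos) (b0 h0 : ℝ), (skCStp a b h b0 h0 ps).map SkInc.m = ps.map GhPos.u
  | [], _, _ => rfl
  | p :: ps, _, _ => by simp [skCStp, ckm_stp_m a b h ps]

theorem ckm_stp_cum (a : ℝ) (b h : ℝ → ℝ) (d : GhPos) : ∀ (ps : List GhPos) (b0 h0 : ℝ) (j : ℕ), j ≤ ps.length →
    (((skCStp a b h b0 h0 ps).take j).map SkInc.dh).sum = if j = 0 then 0 else ghAt a h (ps.getD (j - 1) d) - h0
  | [], _, _, j, hj => by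
      have : j = 0 := by simpa using hj
      subst this; simp
  | p :: ps, b0, h0, 0, _ => by simp
  | p :: ps, b0, h0, j + 1, hj => by
      have hj' : j ≤ ps.length := by simpa using hj
      simp only [skCStp, List.take_succ_cons, List.map_cons, List.sum_cons]
      rw [ckm_stp_cum a b h d ps _ _ j hj']
      rcases Nat.eq_zero_or_pos j with h0' | h0'
      · subst h0'; simp
      · obtain ⟨k, rfl⟩ : ∃ k, j = k + 1 := ⟨j - 1, by omega⟩
        simp

theorem ckm_L (n : ℕ) (b h : ℝ → ℝ) (ps : List GhPos) : (ckM n b h ps).L = ps.length :=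
  (cm5_sk_L n _).trans (ckm_stp_len 1 b h ps 0 0)

theorem ckm_mass (n : ℕ) (b h : ℝ → ℝ) (ps : List GhPos) (j : ℕ) :
    (ckM n b h ps).mass j = if j = 0 then 0 else (ckmPos ps j).u := by
  have h1 : (ckM n b h ps).mass j = if j = 0 then 0 else skMs 1 (ckStp 1 b h ps) (j - 1) := cm5_sk_mass n _ j
  rw [h1]
  split_ifs with hj
  · rfl
  · unfold skMs ckStp ckmPos
    rw [ckm_stp_m]
    have : (1 : ℝ) = GhPos.u (ghPosA 1) := by simp [ghPosA, GhPos.u]
    rw [this, List.getD_map]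
    simp [ghPosA, GhPos.u]

theorem ckm_hck (n : ℕ) (b h : ℝ → ℝ) (ps : List GhPos) {j : ℕ} (hj : j ≤ ps.length) :
    (ckM n b h ps).hck j = if j = 0 then 0 else ghAt 1 h (ckmPos ps j) := by
  have h1 : (ckM n b h ps).hck j = skCumH (ckStp 1 b h ps) j := cm5_sk_hck n _ j
  rw [h1]
  unfold skCumH ckStp
  rw [ckm_stp_cum 1 b h (ghPosA 1) ps 0 0 j hj]
  simp [ckmPos]

theorem ckm_hck_top (n : ℕ) (b h : ℝ → ℝ) (ps : List GhPos) {j : ℕ} (hj : ps.length ≤ j) :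
    (ckM n b h ps).hck j = (ckM n b h ps).hck ps.length := by
  have h1 : ∀ j, (ckM n b h ps).hck j = skCumH (ckStp 1 b h ps) j := fun j => cm5_sk_hck n _ j
  rw [h1, h1]
  unfold skCumH
  have hl : (ckStp 1 b h ps).length = ps.length := ckm_stp_len 1 b h ps 0 0
  rw [List.take_of_length_le (by omega), List.take_of_length_le (by omega)]

/-! ## B. Nodes and positions -/

theorem ckm_pos_get {j : ℕ} (hj1 : 1 ≤ j) (hj : j ≤ ps.length) : ckmPos ps j = ps[j - 1]'(by omega) := by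
  unfold ckmPos
  rw [List.getD_eq_getElem _ _ (by omega)]

theorem ckm_pos_top {j : ℕ} (hj : ps.length < j) : ckmPos ps j = ghPosA 1 := by
  unfold ckmPos
  rw [List.getD_eq_default _ _ (by omega)]

theorem ckm_pos_mem {j : ℕ} (hj1 : 1 ≤ j) (hj : j ≤ ps.length) : ckmPos ps j ∈ ps := by
  rw [ckm_pos_get hj1 hj]
  exact List.getElem_mem _

theorem ckm_pos_ok (hc : CkmCh ps) (j : ℕ) : (ckmPos ps j).Ok 1 := by
  by_cases hj : j - 1 < ps.length
  · unfold ckmPos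
    rw [List.getD_eq_getElem _ _ hj]
    exact hc.2 _ (List.getElem_mem _)
  · unfold ckmPos
    rw [List.getD_eq_default _ _ (by omega)]
    exact gh_os_posA_ok zero_le_one le_rfl

theorem ckm_le_top {p : GhPos} (hp : p.Ok 1) : p ≤ ghPosA 1 := by
  rw [gh_os_pos_le_iff]
  have h1 : (ghPosA 1).u = 1 := by simp [ghPosA, GhPos.u]
  have h2 : (ghPosA 1).lam = 1 := by simp [ghPosA, GhPos.lam]
  rw [h1, h2]
  rcases hp.2.1.lt_or_eq with h | h
  · exact Or.inl h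
  · exact Or.inr ⟨h, hp.2.2.2⟩

theorem ckm_pos_lt (hc : CkmCh ps) {i j : ℕ} (hi : 1 ≤ i) (hij : i < j) (hj : j ≤ ps.length) : ckmPos ps i < ckmPos ps j := by
  rw [ckm_pos_get hi (by omega), ckm_pos_get (by omega) hj]
  exact List.pairwise_iff_getElem.1 hc.1 _ _ _ _ (by omega)

theorem ckm_pos_mono (hc : CkmCh ps) {i j : ℕ} (hi : 1 ≤ i) (hij : i ≤ j) : ckmPos ps i ≤ ckmPos ps j := by
  rcases hij.lt_or_eq with h | h
  · by_cases hj : j ≤ ps.length
    · exact (ckm_pos_lt hc hi h hj).le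
    · rw [ckm_pos_top (by omega : ps.length < j)]
      exact ckm_le_top (ckm_pos_ok hc i)
  · rw [h]

theorem ckm_exists_node {p : GhPos} (hp : p ∈ ps) : ∃ j, 1 ≤ j ∧ j ≤ ps.length ∧ ckmPos ps j = p := by
  obtain ⟨k, hk, rfl⟩ := List.mem_iff_getElem.1 hp
  refine ⟨k + 1, by omega, by omega, ?_⟩
  rw [ckm_pos_get (by omega) (by omega)]
  simp

theorem ckm_le_idx_aux (d : GhPos) : ∀ (ps : List GhPos), ps.Pairwise (· < ·) → ∀ (p : GhPos) (j : ℕ), j < ps.length →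
    (j + 1 ≤ (ps.filter fun x : GhPos => decide (x ≤ p)).length ↔ ps.getD j d ≤ p)
  | [], _, p, j, hj => by simp at hj
  | y :: ps, hs, p, j, hj => by
      have hs' := List.pairwise_cons.1 hs
      by_cases hy : y ≤ p
      · rw [List.filter_cons_of_pos (by simpa using hy), List.length_cons]
        rcases Nat.eq_zero_or_pos j with h0 | h0
        · subst h0
          simp [hy]
        · obtain ⟨k, rfl⟩ : ∃ k, j = k + 1 := ⟨j - 1, by omega⟩
          have hk : k < ps.length := by simpa using hj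
          have := ckm_le_idx_aux d ps hs'.2 p k hk
          rw [List.getD_cons_succ, ← this]
          omega
      · have hall : ∀ x ∈ ps, ¬ x ≤ p := fun x hx hxp => hy ((hs'.1 x hx).le.trans hxp)
        have hf : (List.filter (fun x : GhPos => decide (x ≤ p)) (y :: ps)) = [] := by
          rw [List.filter_eq_nil_iff]
          intro x hx
          rcases List.mem_cons.1 hx with rfl | hx
          · simpa using hy
          · simpa using hall x hx
        rw [hf]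
        constructor
        · intro h; simp at h
        · intro h
          exfalso
          rw [List.getD_eq_getElem _ _ hj] at h
          rcases List.mem_cons.1 (List.getElem_mem hj) with h' | h'
          · exact hy (h' ▸ h)
          · exact hall _ h' h

theorem ckm_le_idx (hc : CkmCh ps) {j : ℕ} (hj1 : 1 ≤ j) (hj : j ≤ ps.length) (p : GhPos) :
    j ≤ ghIdx ps (p : WithTop GhPos) ↔ ckmPos ps j ≤ p := by
  rw [brg_t_idx_coe]
  have := ckm_le_idx_aux (ghPosA 1) ps hc.1 p (j - 1) (by omega)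
  rw [show j - 1 + 1 = j by omega] at this
  exact this

theorem ckm_idx_pos (hc : CkmCh ps) {j : ℕ} (hj1 : 1 ≤ j) (hj : j ≤ ps.length) :
    ghIdx ps ((ckmPos ps j : GhPos) : WithTop GhPos) = j := by
  apply le_antisymm
  · by_contra hlt
    have h1 : j + 1 ≤ ghIdx ps ((ckmPos ps j : GhPos) : WithTop GhPos) := by omega
    have h2 := brg_t_idx_coe_le ps (ckmPos ps j)
    have h3 := (ckm_le_idx hc (by omega) (by omega) _).1 h1
    exact absurd (ckm_pos_lt hc hj1 (Nat.lt_succ_self j) (by omega)) (not_lt.2 h3)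
  · exact (ckm_le_idx hc hj1 hj _).2 le_rfl

theorem ckm_idx_mass_le0 (n : ℕ) (b h : ℝ → ℝ) (hc : CkmCh ps) {p : GhPos} (hp : 0 ≤ p.u) :
    (ckM n b h ps).mass (ghIdx ps (p : WithTop GhPos)) ≤ p.u := by
  rw [ckm_mass]
  split_ifs with h0
  · exact hp
  · exact sk_stp_pos_u_le ((ckm_le_idx hc (by omega) (brg_t_idx_coe_le ps p) p).1 le_rfl)

theorem ckm_idx_mass_le (n : ℕ) (b h : ℝ → ℝ) (hc : CkmCh ps) {p : GhPos} (hp : p.Ok 1) :
    (ckM n b h ps).mass (ghIdx ps (p : WithTop GhPos)) ≤ p.u := ckm_idx_mass_le0 n b h hc hp.1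

theorem ckm_idx_mass (n : ℕ) (b h : ℝ → ℝ) (hc : CkmCh ps) {p : GhPos} (hp : p ∈ ps) :
    (ckM n b h ps).mass (ghIdx ps (p : WithTop GhPos)) = p.u := by
  obtain ⟨j, hj1, hj, rfl⟩ := ckm_exists_node hp
  rw [ckm_idx_pos hc hj1 hj, ckm_mass, if_neg (by omega)]

theorem ckm_mass_mono (n : ℕ) (b h : ℝ → ℝ) (hc : CkmCh ps) : Monotone (ckM n b h ps).mass := by
  intro i j hij
  rw [ckm_mass, ckm_mass]
  by_cases hi : i = 0
  · rw [if_pos hi]
    split_ifs
    · exact le_rfl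
    · exact (ckm_pos_ok hc j).1
  · rw [if_neg hi, if_neg (by omega)]
    exact sk_stp_pos_u_le (ckm_pos_mono hc (by omega) hij)

theorem ckm_mass_nonneg (n : ℕ) (b h : ℝ → ℝ) (hc : CkmCh ps) (j : ℕ) : 0 ≤ (ckM n b h ps).mass j := by
  rw [ckm_mass]
  split_ifs
  · exact le_rfl
  · exact (ckm_pos_ok hc j).1

theorem ckm_mass_le_one (n : ℕ) (b h : ℝ → ℝ) (hc : CkmCh ps) (j : ℕ) : (ckM n b h ps).mass j ≤ 1 := by
  rw [ckm_mass]
  split_ifs
  · exact zero_le_one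
  · exact (ckm_pos_ok hc j).2.1

theorem ckm_mass_top (n : ℕ) (b h : ℝ → ℝ) {j : ℕ} (hj : ps.length < j) : (ckM n b h ps).mass j = 1 := by
  rw [ckm_mass, if_neg (by omega), ckm_pos_top hj]
  simp [ghPosA, GhPos.u]

theorem ckm_nd (n : ℕ) (b h : ℝ → ℝ) (hc : CkmCh ps) {t : ℝ} (ht : 0 ≤ t) :
    (ckM n b h ps).nd t = ghIdx ps ((ghPosA t : GhPos) : WithTop GhPos) := by
  classical
  have hu : (ghPosA t).u = t := by simp [ghPosA, GhPos.u]
  have hlam : (ghPosA t).lam = 1 := by simp [ghPosA, GhPos.lam]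
  have hL := ckm_L n b h ps
  apply le_antisymm
  · have h1 : (ckM n b h ps).mass ((ckM n b h ps).nd t) ≤ t := by
      unfold CmPath.nd
      exact Nat.findGreatest_spec (P := fun j => (ckM n b h ps).mass j ≤ t) (Nat.zero_le _) (by rw [ckm_mass]; simpa using ht)
    have h2 : (ckM n b h ps).nd t ≤ ps.length := hL ▸ CmPath.nd_le _ t
    rcases Nat.eq_zero_or_pos ((ckM n b h ps).nd t) with h0 | h0
    · rw [h0]; exact Nat.zero_le _
    · rw [ckm_le_idx hc h0 h2, gh_os_pos_le_iff, hu, hlam]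
      rw [ckm_mass, if_neg (by omega)] at h1
      rcases h1.lt_or_eq with h | h
      · exact Or.inl h
      · exact Or.inr ⟨h, (ckm_pos_ok hc _).2.2.2⟩
  · unfold CmPath.nd
    refine Nat.le_findGreatest (P := fun j => (ckM n b h ps).mass j ≤ t) (hL ▸ brg_t_idx_coe_le ps _) ?_
    have := ckm_idx_mass_le0 n b h hc (p := ghPosA t) (by rw [hu]; exact ht)
    rwa [hu] at this

/-! ## C. Validity and the analytic inputs -/

theorem ckm_adm (H : CkAdm 1 b h) (F : Finset GhPos) : SkAdm 1 (ckStp 1 b h (ghPs 1 F)) := cmk_chain_adm H F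

theorem ckm_ok (hn : 0 < n) (H : CkAdm 1 b h) (F : Finset GhPos) : (ckM n b h (ghPs 1 F)).Ok :=
  cm5_l8_ok _ (l8i_ok n hn 1 one_pos _ (cmk_chain_adm H F)) rfl

/-- PE (1), line 3 -/
theorem ckm_pin (hn : 0 < n) (H : CkAdm 1 b h) (F : Finset GhPos) (l : ℕ) (hl : 1 ≤ l) :
    (ckM n b h (ghPs 1 F)).Pin l (1 + (2 * l : ℝ) ^ 2 / 3) :=
  cm5_sk_pin n hn _ (cmk_chain_adm H F) l hl

/-- the projection bound is monotone in its constant -/
theorem ckm_proj_mono {Ω : Type} [MeasurableSpace Ω] {M : CmPath n Ω} {p : ℕ} {Pi Pi' : ℝ} (hPi : 0 ≤ Pi) (hPP : Pi ≤ Pi')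
    (h : M.Proj p Pi) : M.Proj p Pi' := by
  intro j0 j1 j2 i h01 h12 h2i hi hm hh ω V
  refine (h j0 j1 j2 i h01 h12 h2i hi hm hh ω V).trans ?_
  have hd : 0 < M.mass (j1 + 1) * Real.sqrt (n * (M.hck j2 - M.hck j1)) ∨ M.mass (j1 + 1) * Real.sqrt (n * (M.hck j2 - M.hck j1)) = 0 := by
    rcases (mul_nonneg hm.le (Real.sqrt_nonneg (n * (M.hck j2 - M.hck j1)))).lt_or_eq with h | h
    · exact Or.inl h
    · exact Or.inr h.symm
  rcases hd with hd | hd
  · refine pow_le_pow_left₀ (by positivity) ?_ p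
    exact div_le_div_of_nonneg_right (mul_le_mul_of_nonneg_right hPP (norm_nonneg _)) hd.le
  · rw [hd]; simp

/-- lower exponents -/
theorem ckm_raw_exp {Ω : Type} [MeasurableSpace Ω] {M : CmPath n Ω} (hM : M.Ok) {p q : ℕ} (hp : 1 ≤ p) (hpq : p ≤ q) {Q x : ℝ}
    (h : M.Raw q Q x) : M.Raw p Q x := by
  have := hM.prob
  intro j hj
  exact (cmN_exp_mono ⟨(hM.meas j).aestronglyMeasurable, 1, hM.norm_le j⟩ hp hpq).trans (h j hj)

/-- PE (13), log-free, pointwise in the prefix: the constant depends on the order only -/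
theorem ckm_proj (r : ℕ) (hr : 1 ≤ r) : ∃ Pi : ℝ, 1 ≤ Pi ∧ ∀ (n : ℕ) (b h : ℝ → ℝ) (F : Finset GhPos), 0 < n → CkAdm 1 b h →
    (ckM n b h (ghPs 1 F)).Proj (2 * r) Pi := by
  obtain ⟨Pi, h1, H⟩ := cm5_sk_proj r hr
  exact ⟨Pi, h1, fun n b h F hn Hb => H n _ hn (cmk_chain_adm Hb F)⟩

/-- two orders with one constant -/
theorem ckm_proj2 (r r' : ℕ) (hr : 1 ≤ r) (hr' : 1 ≤ r') : ∃ Pi : ℝ, 1 ≤ Pi ∧ ∀ (n : ℕ) (b h : ℝ → ℝ) (F : Finset GhPos), 0 < n → CkAdm 1 b h →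
    (ckM n b h (ghPs 1 F)).Proj (2 * r) Pi ∧ (ckM n b h (ghPs 1 F)).Proj (2 * r') Pi := by
  obtain ⟨P1, h1, H1⟩ := ckm_proj r hr
  obtain ⟨P2, h2, H2⟩ := ckm_proj r' hr'
  refine ⟨max P1 P2, h1.trans (le_max_left _ _), fun n b h F hn H => ?_⟩
  exact ⟨ckm_proj_mono (by linarith) (le_max_left _ _) (H1 n b h F hn H),
    ckm_proj_mono (by linarith) (le_max_right _ _) (H2 n b h F hn H)⟩

/-! ## D. Mesh of the fine chains -/

theorem ckm_contains (F0 : Finset GhPos) (h0 : ∀ p ∈ F0, p.Ok 1) : BmEv 1 fun ps => ∀ p ∈ F0, p ∈ ps :=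
  Filter.eventually_atTop.2 ⟨F0, fun F hF p hp => gh_os_ps_mem.2 ⟨hF hp, h0 p hp⟩⟩

theorem ckm_mesh (n : ℕ) (b h : ℝ → ℝ) {δ : ℝ} (hδ : 0 < δ) :
    BmEv 1 fun ps => ∀ j, (ckM n b h ps).mass (j + 1) - (ckM n b h ps).mass j ≤ δ := by
  classical
  obtain ⟨K, hK⟩ := exists_nat_gt (1 / δ)
  have hK0 : (0 : ℝ) < K := lt_trans (by positivity) hK
  have hKδ : 1 / (K : ℝ) ≤ δ := by
    rw [div_le_iff₀ hK0]
    rw [div_lt_iff₀ hδ] at hK
    linarith
  let F0 : Finset GhPos := (Finset.range (K + 1)).image fun i : ℕ => ghPosA ((i : ℝ) / K)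
  have hF0 : ∀ p ∈ F0, p.Ok 1 := by
    intro p hp
    obtain ⟨i, hi, rfl⟩ := Finset.mem_image.1 hp
    have hi' : (i : ℝ) ≤ K := by exact_mod_cast Nat.lt_succ_iff.1 (Finset.mem_range.1 hi)
    exact gh_os_posA_ok (by positivity) ((div_le_one hK0).2 hi')
  refine Filter.Eventually.mono (f := atTop) (ckm_contains F0 hF0) fun F hF => ?_
  have hc := ckm_ch F
  set ps := ghPs 1 F with hps
  intro j
  set t := (ckM n b h ps).mass j with ht
  have ht0 : 0 ≤ t := ckm_mass_nonneg n b h hc j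
  set i := ⌊t * K⌋₊ + 1 with hi
  have hi1 : t * K < i := by rw [hi]; push_cast; exact Nat.lt_floor_add_one _
  have hi2 : (i : ℝ) ≤ t * K + 1 := by rw [hi]; push_cast; linarith [Nat.floor_le (mul_nonneg ht0 hK0.le)]
  have hi3 : t < (i : ℝ) / K := by rw [lt_div_iff₀ hK0]; exact hi1
  have hi4 : (i : ℝ) / K ≤ t + 1 / K := by
    rw [div_le_iff₀ hK0, add_mul, one_div, inv_mul_cancel₀ hK0.ne']
    exact hi2
  by_cases hiK : i ≤ K
  · have hmem : ghPosA ((i : ℝ) / K) ∈ ps := hF _ (Finset.mem_image.2 ⟨i, Finset.mem_range.2 (by omega), rfl⟩)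
    obtain ⟨k, hk1, hk, hkp⟩ := ckm_exists_node hmem
    have hmk : (ckM n b h ps).mass k = (i : ℝ) / K := by
      rw [ckm_mass, if_neg (by omega), hkp]; simp [ghPosA, GhPos.u]
    have hjk : j + 1 ≤ k := by
      by_contra hlt
      have := ckm_mass_mono n b h hc (by omega : k ≤ j)
      rw [hmk] at this
      linarith
    have := ckm_mass_mono n b h hc hjk
    rw [hmk] at this
    linarith
  · have h1 : (K : ℝ) + 1 ≤ i := by exact_mod_cast (by omega : K + 1 ≤ i)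
    have h2 : 1 < (i : ℝ) / K := by rw [lt_div_iff₀ hK0]; linarith
    have := ckm_mass_le_one n b h hc (j + 1)
    linarith

theorem ckm_mesh_fun (n : ℕ) (b h : ℝ → ℝ) {r : ℝ → ℝ} (hr : ContinuousOn r (Icc 0 1)) {δ : ℝ} (hδ : 0 < δ) :
    BmEv 1 fun ps => ∀ j, |r ((ckM n b h ps).mass (j + 1)) - r ((ckM n b h ps).mass j)| ≤ δ := by
  have hu := isCompact_Icc.uniformContinuousOn_of_continuous hr
  obtain ⟨ε, hε, H⟩ := Metric.uniformContinuousOn_iff.1 hu δ hδ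
  refine Filter.Eventually.mono (f := atTop) (ckm_mesh n b h (half_pos hε)) fun F hF j => ?_
  have hc := ckm_ch F
  have h1 := H _ ⟨ckm_mass_nonneg n b h hc (j + 1), ckm_mass_le_one n b h hc (j + 1)⟩ _
    ⟨ckm_mass_nonneg n b h hc j, ckm_mass_le_one n b h hc j⟩ (by
      rw [Real.dist_eq, abs_of_nonneg (sub_nonneg.2 (ckm_mass_mono n b h hc (Nat.le_succ j)))]
      linarith [hF j])
  rw [Real.dist_eq] at h1
  exact h1.le

/-- statements on chains may use that the chain is valid -/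
theorem ckm_ev_ch {Φ : List GhPos → Prop} (h : ∀ F : Finset GhPos, CkmCh (ghPs 1 F) → Φ (ghPs 1 F)) : BmEv 1 Φ :=
  Filter.Eventually.of_forall fun F => h F (ckm_ch F)

/-! ## E. Statistics -/

theorem ckm_norm_sq (n : ℕ) (b h : ℝ → ℝ) (ps : List GhPos) (j : ℕ) (ω : SkOm n) :
    ‖(ckM n b h ps).X j ω‖ ^ 2 = (skSP n 1 (ckStp 1 b h ps)).nX j ω :=
  cm5_l8_norm_sq (skSP n 1 (ckStp 1 b h ps)) j ω

theorem ckm_S (H : CkAdm 1 b h) (F : Finset GhPos) {j : ℕ} (hj : j ≤ (ghPs 1 F).length) :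
    (ckM n b h (ghPs 1 F)).S j = obS n 1 (ckStp 1 b h (ghPs 1 F)) 0 j :=
  cm5_sk_S n _ (cmk_chain_adm H F) j (by rw [← cm5_sk_L n]; exact (ckm_L n b h _).symm ▸ hj)

theorem ckm_S_close (hn : 0 < n) (H : CkAdm 1 b h) {δ : ℝ} (hδ : 0 < δ) :
    BmEv 1 fun ps => ∀ j, 1 ≤ j → j ≤ ps.length → |(ckM n b h ps).S j - skCS n 1 b h (ckmPos ps j)| ≤ δ := by
  obtain ⟨F0, hF0⟩ := exit_clk_lim_stat hn one_pos H hδ
  refine Filter.eventually_atTop.2 ⟨F0, fun F hF j hj1 hj => ?_⟩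
  have hc := ckm_ch F
  have hm := gh_os_ps_mem.1 (ckm_pos_mem hj1 hj)
  have := (hF0 F hF _ hm.1 hm.2).1
  rw [ckm_idx_pos hc hj1 hj] at this
  rw [ckm_S H F hj]
  exact this

/-! ## F. Slopes of the field clock, sampling -/

theorem ckm_clamp_eq (h : ℝ → ℝ) {t : ℝ} (h0 : 0 ≤ t) (h1 : t ≤ 1) : ghClamp 1 h t = h t := by
  unfold ghClamp
  rw [if_neg (not_lt.2 h0), min_eq_left h1]

/-- limit form: between two masses -/
theorem ckm_slope_lim (hh : GhClk1 1 h) {φ : ℝ → ℝ} (hφ : ContinuousOn φ (Icc 0 1))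
    (hs : ∀ s t, 0 < s → s ≤ t → t < 1 → φ t - φ s ≤ h t - h s) {u₁ u₂ : ℝ} (h1 : 0 ≤ u₁) (h12 : u₁ < u₂) (h2 : u₂ ≤ 1) :
    φ u₂ - φ u₁ ≤ Function.leftLim (ghClamp 1 h) u₂ - Function.rightLim (ghClamp 1 h) u₁ := by
  have hm := gh_os_clamp_mono zero_le_one hh
  have hev : ∀ᶠ ε : ℝ in 𝓝[>] 0, ε ∈ Ioo (0 : ℝ) ((u₂ - u₁) / 2) := Ioo_mem_nhdsGT (by linarith)
  have t1 : Tendsto (fun ε : ℝ => u₂ - ε) (𝓝[>] 0) (𝓝[Icc 0 1] u₂) := by
    refine tendsto_nhdsWithin_iff.2 ⟨?_, hev.mono fun ε hε => ⟨by linarith [hε.1, hε.2], by linarith [hε.1]⟩⟩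
    have : Tendsto (fun ε : ℝ => u₂ - ε) (𝓝 0) (𝓝 (u₂ - 0)) := (continuous_const.sub continuous_id).tendsto 0
    rw [sub_zero] at this
    exact this.mono_left nhdsWithin_le_nhds
  have t2 : Tendsto (fun ε : ℝ => u₁ + ε) (𝓝[>] 0) (𝓝[Icc 0 1] u₁) := by
    refine tendsto_nhdsWithin_iff.2 ⟨?_, hev.mono fun ε hε => ⟨by linarith [hε.1], by linarith [hε.1, hε.2]⟩⟩
    have : Tendsto (fun ε : ℝ => u₁ + ε) (𝓝 0) (𝓝 (u₁ + 0)) := (continuous_const.add continuous_id).tendsto 0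
    rw [add_zero] at this
    exact this.mono_left nhdsWithin_le_nhds
  have l1 : Tendsto (fun ε : ℝ => φ (u₂ - ε)) (𝓝[>] 0) (𝓝 (φ u₂)) := (hφ u₂ ⟨by linarith, h2⟩).tendsto.comp t1
  have l2 : Tendsto (fun ε : ℝ => φ (u₁ + ε)) (𝓝[>] 0) (𝓝 (φ u₁)) := (hφ u₁ ⟨h1, by linarith⟩).tendsto.comp t2
  refine le_of_tendsto (l1.sub l2) (hev.mono fun ε hε => ?_)
  have a1 := hs (u₁ + ε) (u₂ - ε) (by linarith [hε.1]) (by linarith [hε.2]) (by linarith [hε.1])
  have a2 : ghClamp 1 h (u₂ - ε) ≤ Function.leftLim (ghClamp 1 h) u₂ := hm.le_leftLim (by linarith [hε.1])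
  have a3 : Function.rightLim (ghClamp 1 h) u₁ ≤ ghClamp 1 h (u₁ + ε) := hm.rightLim_le (by linarith [hε.1])
  rw [ckm_clamp_eq h (by linarith [hε.1, hε.2]) (by linarith [hε.1])] at a2
  rw [ckm_clamp_eq h (by linarith [hε.1]) (by linarith [hε.1, hε.2])] at a3
  linarith

theorem ckm_at_slope (hh : GhClk1 1 h) {φ : ℝ → ℝ} (hφ : ContinuousOn φ (Icc 0 1))
    (hs : ∀ s t, 0 < s → s ≤ t → t < 1 → φ t - φ s ≤ h t - h s) {p₁ p₂ : GhPos} (h1 : p₁.Ok 1) (h2 : p₂.Ok 1) (h12 : p₁ ≤ p₂) :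
    φ p₂.u - φ p₁.u ≤ ghAt 1 h p₂ - ghAt 1 h p₁ := by
  rcases (sk_stp_pos_u_le h12).lt_or_eq with hu | hu
  · have a1 := ckm_slope_lim hh hφ hs h1.1 hu h2.2.1
    have a2 := gh_os_at_le_right zero_le_one hh h1.2.2.2
    have a3 := gh_os_at_ge_left zero_le_one hh h2.2.2.1
    linarith
  · rw [hu, sub_self]
    exact sub_nonneg.2 (gh_os_at_mono zero_le_one hh h1.2.2.2 h2.2.2.1 h12)

theorem ckm_at_slope0 (hh : GhClk1 1 h) {φ : ℝ → ℝ} (hφ : ContinuousOn φ (Icc 0 1))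
    (hs : ∀ s t, 0 < s → s ≤ t → t < 1 → φ t - φ s ≤ h t - h s) {p : GhPos} (hp : p.Ok 1) :
    φ p.u - φ 0 ≤ ghAt 1 h p := by
  have hu : (ghPosB 0).u = 0 := by simp [ghPosB, GhPos.u]
  have hl : (ghPosB 0).lam = 0 := by simp [ghPosB, GhPos.lam]
  have hB : (ghPosB 0).Ok 1 := ⟨hu.ge, by rw [hu]; exact zero_le_one, hl.ge, by rw [hl]; exact zero_le_one⟩
  have hle : ghPosB 0 ≤ p := by
    rw [gh_os_pos_le_iff, hu, hl]
    rcases hp.1.lt_or_eq with h | h
    · exact Or.inl h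
    · exact Or.inr ⟨h, hp.2.2.1⟩
  have := ckm_at_slope hh hφ hs hB hp hle
  rw [hu, gh_os_at_posB, gh_os_left_zero 1 h le_rfl, sub_zero] at this
  exact this

theorem ckm_hck_slope (n : ℕ) (b : ℝ → ℝ) (hh : GhClk1 1 h) {φ : ℝ → ℝ} (hφ : ContinuousOn φ (Icc 0 1))
    (hs : ∀ s t, 0 < s → s ≤ t → t < 1 → φ t - φ s ≤ h t - h s) (hc : CkmCh ps) {i j : ℕ} (hij : i ≤ j) (hj : j ≤ ps.length) :
    φ ((ckM n b h ps).mass j) - φ ((ckM n b h ps).mass i) ≤ (ckM n b h ps).hck j - (ckM n b h ps).hck i := by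
  rw [ckm_mass, ckm_mass, ckm_hck n b h ps hj, ckm_hck n b h ps (hij.trans hj)]
  by_cases hi : i = 0
  · by_cases hj0 : j = 0
    · simp [hi, hj0]
    · rw [if_pos hi, if_neg hj0, if_pos hi, if_neg hj0, sub_zero]
      exact ckm_at_slope0 hh hφ hs (ckm_pos_ok hc j)
  · rw [if_neg hi, if_neg (by omega), if_neg hi, if_neg (by omega)]
    exact ckm_at_slope hh hφ hs (ckm_pos_ok hc i) (ckm_pos_ok hc j) (ckm_pos_mono hc (by omega) hij)

/-- **a chain of mass mesh `< η` samples the field clock at the resolution `η`** (interface `Cm5Smp` of Cmp/P5Clk) -/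
theorem ckm_smp_of_mesh (n : ℕ) (b : ℝ → ℝ) (hh : GhClk1 1 h) (hc : CkmCh ps) {η δ : ℝ} (hδ : δ < η) (hη : 0 < η)
    (hm : ∀ j, (ckM n b h ps).mass (j + 1) - (ckM n b h ps).mass j ≤ δ) : Cm5Smp (ckM n b h ps) h η := by
  classical
  have hmono := gh_os_clamp_mono zero_le_one hh
  have hL := ckm_L n b h ps
  have hnd : ∀ t, (ckM n b h ps).nd t ≤ ps.length := fun t => hL ▸ CmPath.nd_le _ t
  have hndm : ∀ t, 0 ≤ t → (ckM n b h ps).mass ((ckM n b h ps).nd t) ≤ t := fun t ht => by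
    unfold CmPath.nd
    exact Nat.findGreatest_spec (P := fun j => (ckM n b h ps).mass j ≤ t) (Nat.zero_le _) (by rw [ckm_mass]; simpa using ht)
  constructor
  · intro s t hs hst ht
    have ht0 : 0 ≤ t := by linarith
    have h1 : t ≤ (ckM n b h ps).mass ((ckM n b h ps).nd t + 1) := by
      rcases (hnd t).lt_or_eq with hlt | heq
      · by_contra hcon
        have h2 : (ckM n b h ps).nd t + 1 ≤ (ckM n b h ps).nd t := by
          conv_rhs => unfold CmPath.nd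
          exact Nat.le_findGreatest (P := fun j => (ckM n b h ps).mass j ≤ t) (hL ▸ hlt) (not_le.1 hcon).le
        omega
      · rw [ckm_mass_top n b h (by omega)]; exact ht
    have h2 : s < (ckM n b h ps).mass ((ckM n b h ps).nd t) := by linarith [hm ((ckM n b h ps).nd t)]
    have hj0 : (ckM n b h ps).nd t ≠ 0 := by
      intro h0
      rw [h0, ckm_mass, if_pos rfl] at h2
      linarith
    show h s ≤ (ckM n b h ps).hck ((ckM n b h ps).nd t)
    rw [ckm_hck n b h ps (hnd t), if_neg hj0]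
    rw [ckm_mass, if_neg hj0] at h2
    have a1 := gh_os_at_ge_left zero_le_one hh (ckm_pos_ok hc ((ckM n b h ps).nd t)).2.2.1
    have a2 : ghClamp 1 h s ≤ Function.leftLim (ghClamp 1 h) (ckmPos ps ((ckM n b h ps).nd t)).u := hmono.le_leftLim h2
    rw [ckm_clamp_eq h hs (by linarith)] at a2
    linarith
  · intro s t ht hts hs
    show (ckM n b h ps).hck ((ckM n b h ps).nd t) ≤ h s
    have hs0 : 0 ≤ h s := hh.2.trans (hh.1 ⟨le_rfl, zero_le_one⟩ ⟨by linarith, hs⟩ (by linarith))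
    rw [ckm_hck n b h ps (hnd t)]
    split_ifs with hj0
    · exact hs0
    · have h2 := hndm t ht
      rw [ckm_mass, if_neg hj0] at h2
      have a1 := gh_os_at_le_right zero_le_one hh (ckm_pos_ok hc ((ckM n b h ps).nd t)).2.2.2
      have a2 : Function.rightLim (ghClamp 1 h) (ckmPos ps ((ckM n b h ps).nd t)).u ≤ ghClamp 1 h s := hmono.rightLim_le (by linarith)
      rw [ckm_clamp_eq h (by linarith) hs] at a2
      linarith

/-- fine chains sample the field clock at any resolution -/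
theorem ckm_smp (n : ℕ) (b : ℝ → ℝ) (hh : GhClk1 1 h) {η : ℝ} (hη : 0 < η) : BmEv 1 fun ps => Cm5Smp (ckM n b h ps) h η :=
  Filter.Eventually.mono (f := atTop) (ckm_mesh n b h (half_pos hη)) fun F hF =>
    ckm_smp_of_mesh n b hh (ckm_ch F) (half_lt_self hη) hη hF

/-! ## G. Transfer to the numbers of the clocks -/

theorem ckm_nu_le (hn : 0 < n) (H : CkAdm 1 b h) {q : ℕ} {τ : ℕ → ℕ → WithTop GhPos} (hτ : GhIsRT 1 q τ) (T : (Fin q → SkCfg n) → ℝ)
    {B : ℝ} (hB : BmEv 1 fun ps => ckNuF n 1 b h q τ T ps ≤ B) : skCNu n 1 b h q τ T ≤ B := by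
  classical
  obtain ⟨K, hK⟩ : ∃ K : ℝ, ∀ σ, |T σ| ≤ K :=
    ⟨∑ σ, |T σ|, fun σ => Finset.single_le_sum (f := fun σ => |T σ|) (fun _ _ => abs_nonneg _) (Finset.mem_univ σ)⟩
  have hK0 : 0 ≤ K := by
    by_cases hne : Nonempty (Fin q → SkCfg n)
    · obtain ⟨σ⟩ := hne
      exact (abs_nonneg _).trans (hK σ)
    · exact absurd ⟨fun _ _ => true⟩ hne
  obtain ⟨F1, hF1⟩ := hB.exists_base
  refine le_of_forall_pos_le_add fun ε hε => ?_
  obtain ⟨F0, hF0⟩ := exit_clk_lim_nu hn one_pos H q (δ := ε / (K + 1)) (by positivity)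
  have h1 := hF0 (F0 ∪ F1 ∪ ghForks q τ) (Finset.subset_union_left.trans Finset.subset_union_left) τ hτ
    (fun x y p hx hy hp => Finset.mem_union_right _ (by
      unfold ghForks
      refine Finset.mem_image.2 ⟨(x, y), Finset.mem_product.2 ⟨Finset.mem_range.2 hx, Finset.mem_range.2 hy⟩, ?_⟩
      simp [hp])) T K hK
  have h2 := hF1 (F0 ∪ F1 ∪ ghForks q τ) (Finset.subset_union_right.trans Finset.subset_union_left)
  have h3 : ε / (K + 1) * K ≤ ε := by
    rw [div_mul_eq_mul_div, div_le_iff₀ (by positivity)]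
    nlinarith
  have h4 := (abs_le.1 h1).1
  linarith

theorem ckm_star_rt {p : GhPos} (hp : p.Ok 1) (q : ℕ) : GhIsRT 1 q (cmkStar p) where
  diag := fun x _ => by simp [cmkStar, ghR2]
  symm := fun x y _ _ => by simp [cmkStar, ghR2, eq_comm]
  ultra := fun x y z _ _ _ => by
    unfold cmkStar ghR2
    by_cases hxz : x = z
    · rw [if_pos hxz]; exact le_top
    · rw [if_neg hxz]
      by_cases hxy : x = y
      · have : y ≠ z := fun h => hxz (hxy.trans h)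
        rw [if_neg this]; exact min_le_right _ _
      · rw [if_neg hxy]; exact min_le_left _ _
  ok := fun x y _ _ p' h => by
    unfold cmkStar ghR2 at h
    split_ifs at h with hxy
    · exact absurd h WithTop.top_ne_coe
    · rw [← WithTop.coe_injective h]; exact hp

theorem ckm_disc_star (ps : List GhPos) (p : GhPos) (x y : ℕ) (hxy : x ≠ y) :
    ghDisc ps (cmkStar p) x y = ghIdx ps (p : WithTop GhPos) := by
  unfold ghDisc cmkStar ghR2
  rw [if_neg hxy]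

theorem ckm_star (hn : 0 < n) (H : CkAdm 1 b h) (F : Finset GhPos) (l : ℕ) (p : GhPos) :
    ckNuF n 1 b h (2 * l) (cmkStar p) (fun σ =>
        ∏ i : Fin l, skOv (σ ⟨2 * i.1, by have := i.2; omega⟩) (σ ⟨2 * i.1 + 1, by have := i.2; omega⟩)) (ghPs 1 F)
      = ∫ ω, ‖(ckM n b h (ghPs 1 F)).X (ghIdx (ghPs 1 F) (p : WithTop GhPos)) ω‖ ^ (2 * l) ∂(ckM n b h (ghPs 1 F)).P := by
  have hlen : (ckStp 1 b h (ghPs 1 F)).length = (ghPs 1 F).length := (cm5_sk_L n _).symm.trans (ckm_L n b h _)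
  have h1 := cm5_sk_star n hn (ckStp 1 b h (ghPs 1 F)) (cmk_chain_adm H F) l (ghIdx (ghPs 1 F) (p : WithTop GhPos))
    (hlen ▸ brg_t_idx_coe_le _ p) (ghDisc (ghPs 1 F) (cmkStar p)) (ckm_disc_star _ p) 0
  simp only [sub_zero] at h1
  unfold ckNuF
  rw [h1]
  refine integral_congr_ae (Filter.Eventually.of_forall fun ω => ?_)
  show (‖(ckM n b h (ghPs 1 F)).X _ ω‖ ^ 2) ^ l = _
  rw [← pow_mul]

theorem ckm_two (hn : 0 < n) (H : CkAdm 1 b h) (F : Finset GhPos) (f : ℝ → ℝ) (hf : Continuous f) (p : GhPos) :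
    ckNuF n 1 b h 2 (cmkStar p) (fun σ => f (skOv (σ 0) (σ 1))) (ghPs 1 F)
      = ∫ z, f ((ckM n b h (ghPs 1 F)).R2 z) ∂(ckM n b h (ghPs 1 F)).P2 (ghIdx (ghPs 1 F) (p : WithTop GhPos)) := by
  have hlen : (ckStp 1 b h (ghPs 1 F)).length = (ghPs 1 F).length := (cm5_sk_L n _).symm.trans (ckm_L n b h _)
  exact cm5_sk_two n hn (ckStp 1 b h (ghPs 1 F)) (cmk_chain_adm H F) (ghIdx (ghPs 1 F) (p : WithTop GhPos))
    (hlen ▸ brg_t_idx_coe_le _ p) (ghDisc (ghPs 1 F) (cmkStar p)) (ckm_disc_star _ p) f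

theorem ckm_mx (hn : 0 < n) (H : CkAdm 1 b h) {l : ℕ} (hl : 1 ≤ l) {Q x : ℝ} (hQ : 0 ≤ Q) (hx : 0 ≤ x)
    (hR : BmEv 1 fun ps => (ckM n b h ps).Raw (2 * l) Q x) {p : GhPos} (hp : p.Ok 1) :
    cmkMX n b h l p ≤ (Q ^ 2 * (x + p.u)) ^ l := by
  unfold cmkMX
  refine ckm_nu_le hn H (ckm_star_rt hp _) _ ?_
  refine Filter.Eventually.mono (f := atTop) hR fun F hF => ?_
  have hM := ckm_ok hn H F
  have := hM.prob
  have hc := ckm_ch F
  beta_reduce at hF ⊢
  rw [ckm_star hn H F l p]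
  set j := ghIdx (ghPs 1 F) (p : WithTop GhPos) with hj
  have hjL : j ≤ (ckM n b h (ghPs 1 F)).L + 1 := by
    rw [ckm_L]; exact (brg_t_idx_coe_le _ p).trans (Nat.le_succ _)
  have h1 := hF j hjL
  have hm : (ckM n b h (ghPs 1 F)).mass j ≤ p.u := ckm_idx_mass_le n b h hc hp
  have hm0 : 0 ≤ (ckM n b h (ghPs 1 F)).mass j := hM.mass_zero ▸ hM.mass_mono (Nat.zero_le j)
  rw [← cmN_pow_eq ⟨(hM.meas j).aestronglyMeasurable, 1, hM.norm_le j⟩ (2 * l) (by omega)]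
  calc cmN (ckM n b h (ghPs 1 F)).P (2 * l) ((ckM n b h (ghPs 1 F)).X j) ^ (2 * l)
      ≤ (Q * Real.sqrt (x + (ckM n b h (ghPs 1 F)).mass j)) ^ (2 * l) := pow_le_pow_left₀ (cmN_nonneg _ _ _) h1 _
    _ = (Q ^ 2 * (x + (ckM n b h (ghPs 1 F)).mass j)) ^ l := by
        rw [pow_mul, mul_pow, Real.sq_sqrt (by linarith)]
    _ ≤ (Q ^ 2 * (x + p.u)) ^ l := by
        refine pow_le_pow_left₀ (mul_nonneg (sq_nonneg _) (by linarith)) ?_ _
        exact mul_le_mul_of_nonneg_left (by linarith) (sq_nonneg _)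

theorem ckm_R2_bm (hM : (ckM n b h ps).Ok) (j : ℕ) : CmBM ((ckM n b h ps).P2 j) (ckM n b h ps).R2 := by
  refine ⟨?_, 1, fun z => ?_⟩
  · have h1 : Measurable (ckM n b h ps).y := hM.meas _
    exact (Measurable.inner (h1.comp measurable_fst) (h1.comp measurable_snd)).aestronglyMeasurable
  · have a1 := hM.norm_le ((ckM n b h ps).L + 1) z.1
    have a2 := hM.norm_le ((ckM n b h ps).L + 1) z.2
    calc ‖(ckM n b h ps).R2 z‖ ≤ ‖(ckM n b h ps).y z.1‖ * ‖(ckM n b h ps).y z.2‖ := norm_inner_le_norm _ _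
      _ ≤ 1 * 1 := mul_le_mul a1 a2 (norm_nonneg _) zero_le_one
      _ = 1 := one_mul 1

theorem ckm_mr (hn : 0 < n) (H : CkAdm 1 b h) {l : ℕ} (hl : 1 ≤ l) {A x : ℝ} (hA : 0 ≤ A) (hx : 0 ≤ x)
    (hR : BmEv 1 fun ps => ∀ j, j ≤ (ckM n b h ps).L → cmN ((ckM n b h ps).P2 j) (2 * l) (ckM n b h ps).R2 ≤ A * (x + (ckM n b h ps).mass j))
    {p : GhPos} (hp : p.Ok 1) : cmkMR n b h l p ≤ (A * (x + p.u)) ^ (2 * l) := by
  unfold cmkMR
  refine ckm_nu_le hn H (ckm_star_rt hp _) _ ?_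
  refine Filter.Eventually.mono (f := atTop) hR fun F hF => ?_
  have hM := ckm_ok hn H F
  have hc := ckm_ch F
  beta_reduce at hF ⊢
  rw [ckm_two hn H F (fun t => t ^ (2 * l)) (continuous_pow _) p]
  set j := ghIdx (ghPs 1 F) (p : WithTop GhPos) with hj
  have := CmPath.P2_prob hM j
  have hjL : j ≤ (ckM n b h (ghPs 1 F)).L := by rw [ckm_L]; exact brg_t_idx_coe_le _ p
  have h1 := hF j hjL
  have hm : (ckM n b h (ghPs 1 F)).mass j ≤ p.u := ckm_idx_mass_le n b h hc hp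
  have hm0 : 0 ≤ (ckM n b h (ghPs 1 F)).mass j := hM.mass_zero ▸ hM.mass_mono (Nat.zero_le j)
  have e1 : ∫ z, (ckM n b h (ghPs 1 F)).R2 z ^ (2 * l) ∂(ckM n b h (ghPs 1 F)).P2 j
      = cmN ((ckM n b h (ghPs 1 F)).P2 j) (2 * l) (ckM n b h (ghPs 1 F)).R2 ^ (2 * l) := by
    rw [cmN_pow_eq (ckm_R2_bm hM j) (2 * l) (by omega)]
    refine integral_congr_ae (Filter.Eventually.of_forall fun z => ?_)
    show (ckM n b h (ghPs 1 F)).R2 z ^ (2 * l) = ‖(ckM n b h (ghPs 1 F)).R2 z‖ ^ (2 * l)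
    rw [Real.norm_eq_abs, pow_mul, pow_mul, sq_abs]
  rw [e1]
  exact pow_le_pow_left₀ (cmN_nonneg _ _ _) (h1.trans (mul_le_mul_of_nonneg_left (by linarith) hA)) _

theorem ckm_SB (n : ℕ) (b h : ℝ → ℝ) (p : GhPos) : skCB n 1 b h p = cmkMR n b h 1 p ∧ skCS n 1 b h p = cmkMX n b h 1 p := by
  refine ⟨rfl, ?_⟩
  unfold cmkMX skCS cmkStar
  show skCNu n 1 b h 2 _ _ = skCNu n 1 b h 2 _ _
  congr 1
  funext σ
  simp

end

end Claimed.Agent.R286
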