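import Mathlib

/-!
# Row 286 (S0533), PE Section 3 "Optimized short comparisons": THE MODEL-FREE VOCABULARY      (helper192, deputy of helper295; prefix `cm_`, types `Cm*`)

ONE vocabulary for the packages P04 (255), P05 (247), P06 (294) and for the users (PE Sec. 4-7, LL).   Nothing here knows the spin system.
* `CmCall`             a comparison call: `n, m, E, d, u0, rmin`  (PE (3), (5));   the STRENGTH `lam` is a separate argument (it is varied in a sweep, the call is not).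
* `P.dl = m/10000`, `P.N = (n : ℝ)`, `P.a = √n E / d`, `P.us = 1/(nE)` (`u_*`), `P.L = min(u_*, a³/d²)`, `P.k r` (floor), `P.M u` (cap), `P.Al lam = n^δ √n E/√lam` (`A_λ`), `P.Lam = log n`.
* `P.Ok cE D0`         the hypotheses (3) + the wall condition of (5), with explicit constants.
* `cmF`, `cmP`         THE PROFILE `f` and its logarithmic slope `p = -t f'/f`: `f = 1` on `[0,1]`, `f = (1 + log t)/t` for `t ≥ 1`.      NEVER UNFOLD outside `Cmp/Prof.lean`: use the property lemmas `cm_f_*`, `cm_p_*`.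
* `P.e lam r = lam f(lam r/d³)`, `P.pp lam r = p(lam r/d³)`.
* `CmQ P`              a feasible quantile: inverse quantile `al : [rmin,1] → [u0,1]` and quantile `r : [u0,1] → [rmin,1]`, constraints (5) in INTEGRATED form (no a.e. derivative in the definition).
* `cmBr p r S B`       the bracket of the first variation, `G(r) = e(r) Br(p(r), r, S_r, B_r)`.
* `q.Reg c C C0 x`     outer regularity above `x` (Def. 3.2).
* `q.bq lam b0`, `q.hq lam h0`      the changed clocks of (6).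
-/

set_option autoImplicit false

namespace Claimed.Agent.R286

open MeasureTheory Set

noncomputable section

/-- a comparison call (PE (3), (5)); the strength is NOT part of the call -/
structure CmCall where
  n : ℕ
  m : ℝ
  E : ℝ
  d : ℝ
  u0 : ℝ
  rmin : ℝ

namespace CmCall

variable (P : CmCall)

/-- `n` as a real number -/
def N : ℝ := (P.n : ℝ)
/-- `δ = m/10000` -/
def dl : ℝ := P.m / 10000
/-- `κ = 3m - δ` -/
def kap : ℝ := 3 * P.m - P.dl
/-- `a = √n E / d` -/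
def a : ℝ := Real.sqrt P.N * P.E / P.d
/-- `u_* = 1/(nE)` -/
def us : ℝ := 1 / (P.N * P.E)
/-- `L = min(u_*, a³/d²)` -/
def L : ℝ := min P.us (P.a ^ 3 / P.d ^ 2)
/-- the floor `k(r)` of (5) -/
def k (r : ℝ) : ℝ := P.N ^ P.dl * P.us ^ 2 / (r + P.N ^ (2 * P.dl) * P.us) ^ 2
/-- the cap `M(u)` of (5) -/
def M (u : ℝ) : ℝ := P.N ^ P.dl * ((u + P.us) / P.L + P.d ^ 3 / P.E * (u + P.us) ^ 2)
/-- `A_λ = n^δ √n E / √λ` -/
def Al (lam : ℝ) : ℝ := P.N ^ P.dl * Real.sqrt P.N * P.E / Real.sqrt lam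
/-- `log n` -/
def Lam : ℝ := Real.log P.N

/-- **the hypotheses (3) and the wall condition of (5)**, with explicit constants `cE` (lower bound of `E`), `D0` (upper bound of `d`) -/
structure Ok (cE D0 : ℝ) : Prop where
  n3 : 3 ≤ P.n
  m0 : 0 < P.m
  m1 : P.m ≤ 1 / 100
  d0 : 0 < P.d
  d1 : P.d ≤ D0
  E1 : cE * P.N ^ (-(2 / 3 : ℝ) + P.m) * P.d ≤ P.E
  E2 : P.E ≤ P.N ^ (-(1 / 2 : ℝ)) * P.d ^ 2
  u00 : 0 ≤ P.u0
  u01 : P.u0 ≤ 1 / 2
  r0 : 0 ≤ P.rmin
  r1 : P.rmin ≤ P.us / P.M P.u0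
  r2 : P.u0 = 0 → P.rmin = 0

end CmCall

/-- **the profile** `f` -/
def cmF (t : ℝ) : ℝ := if t ≤ 1 then 1 else (1 + Real.log t) / t

/-- **its logarithmic slope** `p = -t f'/f` -/
def cmP (t : ℝ) : ℝ := if t ≤ 1 then 0 else 1 - 1 / (1 + Real.log t)

namespace CmCall

variable (P : CmCall)

/-- the removed covariance `e(r) = λ f(λ r/d³)` -/
def e (lam r : ℝ) : ℝ := lam * cmF (lam * r / P.d ^ 3)
/-- `p(r) = -r e'(r)/e(r)` -/
def pp (lam r : ℝ) : ℝ := cmP (lam * r / P.d ^ 3)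

end CmCall

/-- the bracket of the first variation: `G(r) = e(r) Br(p(r), r, S_r, B_r)` -/
def cmBr (p r S B : ℝ) : ℝ := (2 - p) * r - 2 * (1 - p) * S - p * B / r

/-- **a feasible quantile** of the class (5): `al` = inverse quantile on `[rmin,1]`, `r` = quantile on `[u0,1]` -/
structure CmQ (P : CmCall) where
  al : ℝ → ℝ
  r : ℝ → ℝ
  al_min : al P.rmin = P.u0
  al_one : al 1 = 1
  lo : ∀ r1 r2 : ℝ, P.rmin ≤ r1 → r1 ≤ r2 → r2 ≤ 1 → ∫ t in r1..r2, P.k t ≤ al r2 - al r1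
  hi : ∀ r1 r2 : ℝ, P.rmin ≤ r1 → r1 ≤ r2 → r2 ≤ 1 → al r2 - al r1 ≤ ∫ t in r1..r2, P.M (al t)
  r_mem : ∀ u ∈ Icc P.u0 1, r u ∈ Icc P.rmin 1
  al_r : ∀ u ∈ Icc P.u0 1, al (r u) = u
  r_al : ∀ t ∈ Icc P.rmin 1, r (al t) = t

namespace CmQ

variable {P : CmCall} (q : CmQ P)

/-- **outer regularity above `x`** (Def. 3.2) -/
def Reg (c C C0 x : ℝ) : Prop := ∀ u : ℝ, C0 * x ≤ u → u ≤ 1 → P.u0 ≤ u → c * u ≤ q.r u ∧ q.r u ≤ C * u

/-- the changed matrix clock of (6) -/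
def bq (lam : ℝ) (b0 : ℝ → ℝ) (u : ℝ) : ℝ := if P.u0 ≤ u then b0 u - P.e lam (q.r u) else b0 u
/-- the changed field clock of (6) -/
def hq (lam : ℝ) (h0 : ℝ → ℝ) (u : ℝ) : ℝ := if P.u0 ≤ u then h0 u + P.e lam (q.r u) * q.r u else h0 u
/-- the penalty of (6) -/
def pen (lam : ℝ) : ℝ := (1 / 4) * ∫ u in P.u0..1, P.e lam (q.r u) * q.r u ^ 2

end CmQ

theorem cm_defs_eqns_cite : True := by
  have := @CmCall.N.eq_1; have := @CmCall.dl.eq_1; have := @CmCall.kap.eq_1; have := @CmCall.a.eq_1; have := @CmCall.us.eq_1; have := @CmCall.L.eq_1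
  have := @CmCall.k.eq_1; have := @CmCall.M.eq_1; have := @CmCall.Al.eq_1; have := @CmCall.Lam.eq_1; have := @cmF.eq_1; have := @cmP.eq_1
  have := @CmCall.e.eq_1; have := @CmCall.pp.eq_1; have := @cmBr.eq_1; have := @CmQ.Reg.eq_1; have := @CmQ.bq.eq_1; have := @CmQ.hq.eq_1; have := @CmQ.pen.eq_1
  trivial

end

end Claimed.Agent.R286
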