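import Claimed.Agent.R286.Cmp.ProjK
import Claimed.Agent.R286.Gk.Split

/-!
# Row 286, C4 (PE Lemma 3.5), part S : REFINEMENT INVARIANCE (the mesh condition is removed)      (statements helper192; PROVED by helper172; prefix `cmj_`; sorry free, cites `cmj_K_append`, `cmj_K_bc` of ProjK)

Every level of the interval is cut into `r` levels of the same mass, factor `A/√r` (`ghsScale`), same direction `η`, scale `c/√r`.
From `Gk/Split.lean` (135): `ghs_F_merge`, `ghs_integral_merge`, `ghs_F_append_congr`.      Kernel form: `ghA B l ls g = ghA B l₁ (l₂ :: ls) (ghA B l₂ ls g)` if `l₁, l₂` have the mass of `l` and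
`l.cov = l₁.cov + l₂.cov`.
-/

set_option autoImplicit false
set_option linter.unusedSectionVars false

namespace Claimed.Agent.R286

open MeasureTheory ProbabilityTheory

variable {S ι : Type} [Fintype S] [Fintype ι]

/-- one of the `r` equal pieces of a level -/
noncomputable def CmjSt.ref (r : ℕ) (e : CmjSt S ι) : CmjSt S ι := ⟨ghsScale (Real.sqrt r)⁻¹ e.l, e.η, e.c * (Real.sqrt r)⁻¹⟩

/-- the `r`-fold refinement of an interval -/
noncomputable def cmjRef (r : ℕ) (Q : List (CmjSt S ι)) : List (CmjSt S ι) := Q.flatMap fun e => List.replicate r (e.ref r)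

theorem cmj_ref_eqns_cite : True := by
  have := @CmjSt.ref.eq_1
  have := @cmjRef.eq_1
  trivial

/-- the integrand of `ghA` as a function of the increment -/
theorem cmj_A_eq (B : GhB S) (l : GhLv S ι) (ls : List (GhLv S ι)) (g : (S → ℝ) → ℝ) (z : S → ℝ) :
    ghA B l ls g z = ∫ ξ, (fun x => Real.exp (l.m * (ghF B ls (z + x) - ghF B (l :: ls) z)) * g (z + x)) (l.inc ξ) ∂ghStd ι := rfl

theorem cmj_A_meas {B : GhB S} (hB : B.Ok) (ls : List (GhLv S ι)) {g : (S → ℝ) → ℝ} {M : ℝ} (hg : GhBC g M) (m c : ℝ) (z : S → ℝ) :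
    Measurable (fun x => Real.exp (m * (ghF B ls (z + x) - c)) * g (z + x)) := by
  have h1 : Measurable fun x : S → ℝ => ghF B ls (z + x) := (ghs_F_measurable hB ls).comp (measurable_const.add measurable_id)
  have h2 : Measurable fun x : S → ℝ => g (z + x) := hg.cont.measurable.comp (measurable_const.add measurable_id)
  exact (Real.measurable_exp.comp (measurable_const.mul (h1.sub measurable_const))).mul h2

theorem cmj_A_int {B : GhB S} (hB : B.Ok) (l : GhLv S ι) (ls : List (GhLv S ι)) {g : (S → ℝ) → ℝ} {M : ℝ} (hg : GhBC g M) (m c : ℝ)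
    (z : S → ℝ) :
    Integrable (fun ξ => (fun x => Real.exp (m * (ghF B ls (z + x) - c)) * g (z + x)) (l.inc ξ)) (ghStd ι) := by
  have h0 := ((ghs_nice hB ls).integrable_exp l m z).mul_const (Real.exp (-(m * c)) * M)
  refine h0.mono' ((cmj_A_meas hB ls hg m c z).comp (ghs_measurable_inc l)).aestronglyMeasurable
    (Filter.Eventually.of_forall fun ξ => ?_)
  simp only
  rw [norm_mul, Real.norm_eq_abs, Real.norm_eq_abs, abs_of_pos (Real.exp_pos _)]
  have e : Real.exp (m * (ghF B ls (z + l.inc ξ) - c)) = Real.exp (m * ghF B ls (z + l.inc ξ)) * Real.exp (-(m * c)) := by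
    rw [← Real.exp_add]; congr 1; ring
  rw [e, mul_assoc]
  exact mul_le_mul_of_nonneg_left (mul_le_mul_of_nonneg_left (hg.le _) (Real.exp_pos _).le) (Real.exp_pos _).le

/-- the planted average depends on the remaining levels through the continuation only -/
theorem cmj_A_congr_F (B : GhB S) (l : GhLv S ι) {ls ls' : List (GhLv S ι)} (h : ghF B ls = ghF B ls') (g : (S → ℝ) → ℝ) :
    ghA B l ls g = ghA B l ls' g := by
  have h2 : ghF B (l :: ls) = ghF B (l :: ls') := ghs_F_append_congr B [l] h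
  funext z
  unfold ghA ghD
  rw [h, h2]

/-- the planted average depends on the level through its mass and covariance increment only -/
theorem cmj_A_congr_cov {B : GhB S} (hB : B.Ok) (l l' : GhLv S ι) (ls : List (GhLv S ι)) (hm : l.m = l'.m)
    (hc : ∀ s t, l.cov s t = l'.cov s t) {g : (S → ℝ) → ℝ} {M : ℝ} (hg : GhBC g M) :
    ghA B l ls g = ghA B l' ls g := by
  funext z
  rw [cmj_A_eq, cmj_A_eq, ← ghs_F_congr hB l l' ls hm hc, ← hm]
  exact ghs_integral_congr l l' hc _ (cmj_A_meas hB ls hg _ _ z)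

/-- two revelations of the same mass merge: kernel form -/
theorem cmj_A_merge {B : GhB S} (hB : B.Ok) (l₁ l₂ l : GhLv S ι) (ls : List (GhLv S ι)) (h1 : l₁.m = l.m) (h2 : l₂.m = l.m)
    (hc : ∀ s t, l.cov s t = l₁.cov s t + l₂.cov s t) {g : (S → ℝ) → ℝ} {M : ℝ} (hg : GhBC g M) :
    ghA B l₁ (l₂ :: ls) (ghA B l₂ ls g) = ghA B l ls g := by
  funext z
  rw [cmj_A_eq B l ls g z, ← ghs_integral_merge l₁ l₂ l hc _ (cmj_A_meas hB ls hg _ _ z) (cmj_A_int hB l ls hg _ _ z)]
  unfold ghA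
  refine integral_congr_ae (Filter.Eventually.of_forall fun ξ => ?_)
  simp only
  rw [← integral_const_mul]
  refine integral_congr_ae (Filter.Eventually.of_forall fun ξ' => ?_)
  simp only [ghD]
  rw [← mul_assoc, ← Real.exp_add, h1, h2, ghs_F_merge hB l₁ l₂ l ls h1 h2 hc, add_assoc]
  congr 2
  ring

theorem cmj_ref_cons (r : ℕ) (e : CmjSt S ι) (Q : List (CmjSt S ι)) :
    cmjRef r (e :: Q) = List.replicate r (e.ref r) ++ cmjRef r Q := by
  simp [cmjRef, List.flatMap_cons]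

theorem cmj_ref_T {r : ℕ} (hr : 1 ≤ r) (Q : List (CmjSt S ι)) : cmjT (cmjRef r Q) = cmjT Q := by
  have hr0 : (0 : ℝ) < r := by exact_mod_cast hr
  induction Q with
  | nil => rfl
  | cons e Q ih =>
    unfold cmjT at ih ⊢
    rw [cmj_ref_cons, List.map_append, List.sum_append, ih, List.map_replicate, List.sum_replicate, List.map_cons, List.sum_cons]
    congr 1
    show r • (e.c * (Real.sqrt r)⁻¹) ^ 2 = e.c ^ 2
    rw [mul_pow, inv_pow, Real.sq_sqrt hr0.le, nsmul_eq_mul]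
    field_simp

/-- members of the refinement -/
theorem cmj_ref_mem {r : ℕ} {Q : List (CmjSt S ι)} {e : CmjSt S ι} (h : e ∈ cmjRef r Q) : ∃ e' ∈ Q, e = e'.ref r := by
  unfold cmjRef at h
  obtain ⟨e', he', h'⟩ := List.mem_flatMap.1 h
  exact ⟨e', he', List.eq_of_mem_replicate h'⟩

theorem cmj_ref_ok {r : ℕ} (hr : 1 ≤ r) {Q : List (CmjSt S ι)} {Φ : S → ℝ} {v : ℝ} (h : ∀ e ∈ Q, e.Ok Φ v) :
    ∀ e ∈ cmjRef r Q, e.Ok Φ v := by
  intro e he
  obtain ⟨e', he', rfl⟩ := cmj_ref_mem he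
  obtain ⟨h1, h2⟩ := h e' he'
  refine ⟨h1, fun s => ?_⟩
  show (ghsScale (Real.sqrt r)⁻¹ e'.l).inc e'.η s = e'.c * (Real.sqrt r)⁻¹ * Φ s
  rw [ghs_scale_inc, Pi.smul_apply, smul_eq_mul, h2 s]
  ring

theorem cmj_ref_adm {B : GhB S} {r : ℕ} {Q : List (CmjSt S ι)} {R : List (GhLv S ι)} {u : ℝ} (h : GhAdm B u (cmjLs Q ++ R)) :
    GhAdm B u (cmjLs (cmjRef r Q) ++ R) := by
  have hmem : ∀ Q : List (CmjSt S ι), ∀ l ∈ cmjLs (cmjRef r Q) ++ R, ∃ l' ∈ cmjLs Q ++ R, l.m = l'.m := by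
    intro Q l hl
    rcases List.mem_append.1 hl with h1 | h1
    · unfold cmjLs at h1
      obtain ⟨e, he, rfl⟩ := List.mem_map.1 h1
      obtain ⟨e', he', rfl⟩ := cmj_ref_mem he
      exact ⟨e'.l, List.mem_append_left _ (List.mem_map.2 ⟨e', he', rfl⟩), rfl⟩
    · exact ⟨l, List.mem_append_right _ h1, rfl⟩
  refine ⟨?_, fun l hl => ?_⟩
  · have hp := h.1
    clear h
    induction Q with
    | nil => exact hp
    | cons e Q ih =>
      have hp' : List.Pairwise (fun l l' : GhLv S ι => l.m ≤ l'.m) (e.l :: (cmjLs Q ++ R)) := hp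
      rw [List.pairwise_cons] at hp'
      have e1 : cmjLs (cmjRef r (e :: Q)) ++ R = List.replicate r (e.ref r).l ++ (cmjLs (cmjRef r Q) ++ R) := by
        rw [cmj_ref_cons]; simp [cmjLs]
      rw [e1, List.pairwise_append]
      refine ⟨?_, ih hp'.2, ?_⟩
      · rw [List.pairwise_replicate]
        exact Or.inr le_rfl
      · intro a ha b hb
        rw [List.eq_of_mem_replicate ha]
        obtain ⟨l', hl', hm⟩ := hmem Q b hb
        rw [hm]
        exact hp'.1 l' hl'
  · obtain ⟨l', hl', hm⟩ := hmem Q l hl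
    rw [hm]
    exact h.2 l' hl'

/-- `k + 1` equal pieces merge: continuation -/
theorem cmj_rep_F {B : GhB S} (hB : B.Ok) (x : GhLv S ι) (X : List (GhLv S ι)) (k : ℕ) :
    ∀ y : GhLv S ι, y.m = x.m → (∀ s t, y.cov s t = (k + 1 : ℝ) * x.cov s t) →
      ghF B (List.replicate (k + 1) x ++ X) = ghF B (y :: X) := by
  induction k with
  | zero =>
    intro y hm hc
    exact ghs_F_congr hB x y X hm.symm (fun s t => by rw [hc]; simp)
  | succ k ih =>
    intro y hm hc
    have h0 : (0 : ℝ) ≤ (k : ℝ) + 1 := by positivity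
    have hy' := ih (ghsScale (Real.sqrt ((k : ℝ) + 1)) x) rfl (fun s t => by rw [ghs_scale_cov, Real.sq_sqrt h0])
    have e1 : List.replicate (k + 1 + 1) x ++ X = [x] ++ (List.replicate (k + 1) x ++ X) := by
      rw [List.replicate_succ]; rfl
    rw [e1, ghs_F_append_congr B [x] hy']
    refine ghs_F_merge hB x (ghsScale (Real.sqrt ((k : ℝ) + 1)) x) y X hm.symm hm.symm (fun s t => ?_)
    rw [hc, ghs_scale_cov, Real.sq_sqrt h0]
    push_cast
    ring

/-- `k + 1` equal pieces merge: kernel -/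
theorem cmj_rep_K {B : GhB S} (hB : B.Ok) (x : GhLv S ι) (X : List (GhLv S ι)) {g : (S → ℝ) → ℝ} {M : ℝ} (hg : GhBC g M) (k : ℕ) :
    ∀ y : GhLv S ι, y.m = x.m → (∀ s t, y.cov s t = (k + 1 : ℝ) * x.cov s t) →
      cmjK B (List.replicate (k + 1) x) X g = ghA B y X g := by
  induction k with
  | zero =>
    intro y hm hc
    have : cmjK B (List.replicate (0 + 1) x) X g = ghA B x X g := rfl
    rw [this]
    exact cmj_A_congr_cov hB x y X hm.symm (fun s t => by rw [hc]; simp) hg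
  | succ k ih =>
    intro y hm hc
    have h0 : (0 : ℝ) ≤ (k : ℝ) + 1 := by positivity
    have hcov : ∀ s t, (ghsScale (Real.sqrt ((k : ℝ) + 1)) x).cov s t = ((k : ℝ) + 1) * x.cov s t := fun s t => by
      rw [ghs_scale_cov, Real.sq_sqrt h0]
    have hy' := ih (ghsScale (Real.sqrt ((k : ℝ) + 1)) x) rfl hcov
    have hF := cmj_rep_F hB x X k (ghsScale (Real.sqrt ((k : ℝ) + 1)) x) rfl hcov
    have e1 : cmjK B (List.replicate (k + 1 + 1) x) X g
        = ghA B x (List.replicate (k + 1) x ++ X) (cmjK B (List.replicate (k + 1) x) X g) := by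
      rw [List.replicate_succ]; rfl
    rw [e1, hy', cmj_A_congr_F B x hF]
    refine cmj_A_merge hB x (ghsScale (Real.sqrt ((k : ℝ) + 1)) x) y X hm.symm hm.symm (fun s t => ?_) hg
    rw [hc, hcov]
    push_cast
    ring

theorem cmj_ref_cov {r : ℕ} (hr : 1 ≤ r) (e : CmjSt S ι) (s t : S) :
    e.l.cov s t = (((r - 1 : ℕ) : ℝ) + 1) * (e.ref r).l.cov s t := by
  have hr0 : (0 : ℝ) < r := by exact_mod_cast hr
  have h1 : (((r - 1 : ℕ) : ℝ) + 1) = r := by
    have : ((r - 1 : ℕ) : ℝ) = (r : ℝ) - 1 := by rw [Nat.cast_sub hr]; simp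
    rw [this]; ring
  show e.l.cov s t = _ * (ghsScale (Real.sqrt r)⁻¹ e.l).cov s t
  rw [h1, ghs_scale_cov, inv_pow, Real.sq_sqrt hr0.le]
  field_simp

theorem cmj_ref_F {B : GhB S} (hB : B.Ok) {r : ℕ} (hr : 1 ≤ r) (Q : List (CmjSt S ι)) (R : List (GhLv S ι)) :
    ghF B (cmjLs (cmjRef r Q) ++ R) = ghF B (cmjLs Q ++ R) := by
  induction Q with
  | nil => rfl
  | cons e Q ih =>
    have e1 : cmjLs (cmjRef r (e :: Q)) ++ R = List.replicate r (e.ref r).l ++ (cmjLs (cmjRef r Q) ++ R) := by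
      rw [cmj_ref_cons]; simp [cmjLs]
    have e2 : cmjLs (e :: Q) ++ R = [e.l] ++ (cmjLs Q ++ R) := rfl
    rw [e1, e2, ← ghs_F_append_congr B [e.l] ih]
    have key := cmj_rep_F hB (e.ref r).l (cmjLs (cmjRef r Q) ++ R) (r - 1) e.l rfl (cmj_ref_cov hr e)
    rw [Nat.sub_add_cancel hr] at key
    exact key

/-- **refinement invariance of the kernel through the interval** -/
theorem cmj_ref_K {B : GhB S} (hB : B.Ok) {r : ℕ} (hr : 1 ≤ r) (Q : List (CmjSt S ι)) {R : List (GhLv S ι)}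
    (h : GhNn (cmjLs Q ++ R)) {g : (S → ℝ) → ℝ} {M : ℝ} (hg : GhBC g M) :
    cmjK B (cmjLs (cmjRef r Q)) R g = cmjK B (cmjLs Q) R g := by
  induction Q with
  | nil => rfl
  | cons e Q ih =>
    have hnn : GhNn (cmjLs Q ++ R) := GhNn.tail (l := e.l) h
    have e1 : cmjLs (cmjRef r (e :: Q)) = List.replicate r (e.ref r).l ++ cmjLs (cmjRef r Q) := by
      rw [cmj_ref_cons]; simp [cmjLs]
    have e2 : cmjK B (cmjLs (e :: Q)) R g = ghA B e.l (cmjLs Q ++ R) (cmjK B (cmjLs Q) R g) := rfl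
    rw [e1, e2, cmj_K_append, ih hnn, ← cmj_A_congr_F B e.l (cmj_ref_F hB hr Q R)]
    have key := cmj_rep_K hB (e.ref r).l (cmjLs (cmjRef r Q) ++ R) (cmj_K_bc hB hnn hg) (r - 1) e.l rfl (cmj_ref_cov hr e)
    rw [Nat.sub_add_cancel hr] at key
    exact key

end Claimed.Agent.R286
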