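import Claimed.Agent.R286.Cmp.ProjB
import Claimed.Agent.R286.Cmp.ProjS

/-!
# Row 286, C4 (PE Lemma 3.5), part X : ASSEMBLY      (owner helper192; prefix `cmj_`)

`cmj_fine` (fine mesh) + refinement invariance `cmj_ref_K` ⟹ `cmj_proj0` (no mesh) ⟹ prefix, later cuts, later projections ⟹ `cmj_proj` = the statement of `Exit/CmpProj.lean`.
-/

set_option autoImplicit false
set_option linter.unusedSectionVars false

namespace Claimed.Agent.R286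

open MeasureTheory ProbabilityTheory

variable {S ι : Type} [Fintype S] [Fintype ι]

theorem cmj_adm_nn {B : GhB S} {u : ℝ} {ls : List (GhLv S ι)} (h : GhAdm B u ls) (hu : 0 ≤ u) : GhNn ls :=
  fun l hl => hu.trans (h.2 l hl).1

theorem cmj_nn_append {l1 l2 : List (GhLv S ι)} (h1 : GhNn l1) (h2 : GhNn l2) : GhNn (l1 ++ l2) := by
  intro l hl
  rcases List.mem_append.1 hl with h | h
  · exact h1 l h
  · exact h2 l h

theorem cmj_nn_right {l1 l2 : List (GhLv S ι)} (h : GhNn (l1 ++ l2)) : GhNn l2 :=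
  fun l hl => h l (List.mem_append_right _ hl)

/-- a later cut costs a factor `2^p` -/
theorem cmj_contr_K {B : GhB S} (hB : B.Ok) {l1 l2 ls : List (GhLv S ι)} (h : GhNn (l1 ++ (l2 ++ ls))) {p : ℕ} (hp : Even p)
    {Φ : S → ℝ} {v : ℝ} (hΦ : ∀ s, |Φ s| ≤ v) (z : S → ℝ) :
    cmjA B (l1 ++ l2) ls Φ p z ≤ 2 ^ p * cmjA B l1 (l2 ++ ls) Φ p z := by
  have h2 : GhNn (l2 ++ ls) := cmj_nn_right h
  rw [cmj_A_append]
  unfold cmjA
  rw [← cmj_K_const_mul]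
  refine cmj_K_mono hB h (cmj_K_bc hB h2 (cmj_M_bc hB (cmj_nn_right h2) hΦ p))
    ((cmj_M_bc hB h2 hΦ p).const_mul (2 ^ p)) (fun y => ?_) z
  exact cmj_contr_M hB h2 hp Φ y

/-- a number of pieces which makes the mesh fine -/
theorem cmj_exists_r (B : GhB S) (Q : List (CmjSt S ι)) : ∃ r : ℕ, 1 ≤ r ∧ ∀ e ∈ Q, B.a * e.l.m * e.c ^ 2 ≤ r := by
  induction Q with
  | nil => exact ⟨1, le_rfl, fun e he => absurd he List.not_mem_nil⟩
  | cons e Q ih =>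
    obtain ⟨r, hr, h⟩ := ih
    obtain ⟨k, hk⟩ := exists_nat_ge (B.a * e.l.m * e.c ^ 2)
    refine ⟨max r k, le_max_of_le_left hr, fun e' he' => ?_⟩
    rcases List.mem_cons.1 he' with rfl | h'
    · exact hk.trans (by exact_mod_cast le_max_right r k)
    · exact (h e' h').trans (by exact_mod_cast le_max_left r k)

/-- **(13), log free, no mesh condition**, seen from the start of the interval -/
theorem cmj_proj0 (p : ℕ) (hp : Even p) (hp2 : 2 ≤ p) : ∃ C : ℝ, 0 < C ∧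
    ∀ (S ι : Type) [Fintype S] [Fintype ι] (B : GhB S) (Q : List (CmjSt S ι)) (R : List (GhLv S ι)) (Φ : S → ℝ) (v vm : ℝ) (z : S → ℝ),
      B.Ok → GhAdm B vm (cmjLs Q ++ R) → 0 < vm → (∀ s, |Φ s| ≤ v) → (∀ e ∈ Q, e.Ok Φ v) → 0 < cmjT Q →
      cmjA B (cmjLs Q) R Φ p z ≤ C * v ^ p / (vm ^ p * cmjT Q ^ (p / 2)) := by
  obtain ⟨C, hC, h⟩ := cmj_fine p hp hp2
  refine ⟨C, hC, ?_⟩
  intro S ι _ _ B Q R Φ v vm z hB hadm hvm hΦ hok hT
  obtain ⟨r, hr, hmesh⟩ := cmj_exists_r B Q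
  have hnn : GhNn (cmjLs Q ++ R) := cmj_adm_nn hadm hvm.le
  have hadm' : GhAdm B vm (cmjLs (cmjRef r Q) ++ R) := cmj_ref_adm hadm
  have hr0 : (0 : ℝ) < r := by exact_mod_cast hr
  have hfine : CmjFine B (cmjRef r Q) R Φ v :=
    { nn := cmj_adm_nn hadm' hvm.le
      le := fun l hl => (hadm'.2 l hl).2
      bd := hΦ
      ok := cmj_ref_ok hr hok
      mesh := by
        intro e he
        obtain ⟨e', he', rfl⟩ := cmj_ref_mem he
        have h1 := hmesh e' he'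
        have h2 : (e'.ref r).l.m = e'.l.m := rfl
        have h3 : (e'.ref r).c = e'.c * (Real.sqrt r)⁻¹ := rfl
        rw [h2, h3, mul_pow, inv_pow, Real.sq_sqrt hr0.le]
        rw [← mul_assoc, ← div_eq_mul_inv, div_le_one hr0]
        exact h1 }
  have hfin := h S ι B (cmjRef r Q) R Φ v vm z hB hfine hvm hadm' (by rw [cmj_ref_T hr]; exact hT)
  rw [cmj_ref_T hr] at hfin
  unfold cmjA at hfin ⊢
  rw [cmj_ref_K hB hr Q hnn (cmj_M_bc hB (cmj_nn_right hnn) hΦ p)] at hfin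
  exact hfin

/-- **the statement of `Exit/CmpProj.lean`** -/
theorem cmj_proj (p : ℕ) (hp : Even p) (hp2 : 2 ≤ p) : ∃ C : ℝ, 0 < C ∧
    ∀ (S ι : Type) [Fintype S] [Fintype ι] (B : GhB S) (lsA : List (GhLv S ι)) (Q : List (CmjSt S ι)) (R1 R2 R3 : List (GhLv S ι))
      (Φ : S → ℝ) (v vm : ℝ) (z : S → ℝ),
      B.Ok → GhNn lsA → GhAdm B vm (cmjLs Q ++ (R1 ++ (R2 ++ R3))) → 0 < vm → (∀ s, |Φ s| ≤ v) → (∀ e ∈ Q, e.Ok Φ v) → 0 < cmjT Q →
      cmjA B (lsA ++ (cmjLs Q ++ R1)) (R2 ++ R3) Φ p z ≤ C * v ^ p / (vm ^ p * cmjT Q ^ (p / 2)) ∧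
      cmjA2 B (lsA ++ (cmjLs Q ++ R1)) R2 R3 Φ p z ≤ C * v ^ p / (vm ^ p * cmjT Q ^ (p / 2)) := by
  obtain ⟨C, hC, h⟩ := cmj_proj0 p hp hp2
  refine ⟨2 ^ p * C, by positivity, ?_⟩
  intro S ι _ _ B lsA Q R1 R2 R3 Φ v vm z hB hA hadm hvm hΦ hok hT
  have hnn : GhNn (cmjLs Q ++ (R1 ++ (R2 ++ R3))) := cmj_adm_nn hadm hvm.le
  have hall : GhNn (lsA ++ (cmjLs Q ++ (R1 ++ (R2 ++ R3)))) := cmj_nn_append hA hnn
  have hnn' : GhNn ((cmjLs Q ++ R1) ++ (R2 ++ R3)) := by rw [List.append_assoc]; exact hnn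
  have hall' : GhNn ((lsA ++ (cmjLs Q ++ R1)) ++ (R2 ++ R3)) := by
    rw [List.append_assoc, List.append_assoc]; exact hall
  -- the bound from the start of the interval, uniformly in the field
  have key : ∀ y, cmjA B (cmjLs Q ++ R1) (R2 ++ R3) Φ p y ≤ 2 ^ p * C * v ^ p / (vm ^ p * cmjT Q ^ (p / 2)) := by
    intro y
    have h1 := cmj_contr_K hB hnn hp hΦ y
    have h2 := h S ι B Q (R1 ++ (R2 ++ R3)) Φ v vm y hB hadm hvm hΦ hok hT
    calc cmjA B (cmjLs Q ++ R1) (R2 ++ R3) Φ p y ≤ 2 ^ p * cmjA B (cmjLs Q) (R1 ++ (R2 ++ R3)) Φ p y := h1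
      _ ≤ 2 ^ p * (C * v ^ p / (vm ^ p * cmjT Q ^ (p / 2))) := by gcongr
      _ = 2 ^ p * C * v ^ p / (vm ^ p * cmjT Q ^ (p / 2)) := by ring
  have first : cmjA B (lsA ++ (cmjLs Q ++ R1)) (R2 ++ R3) Φ p z ≤ 2 ^ p * C * v ^ p / (vm ^ p * cmjT Q ^ (p / 2)) := by
    rw [cmj_A_append]
    have hall'' : GhNn (lsA ++ ((cmjLs Q ++ R1) ++ (R2 ++ R3))) := cmj_nn_append hA hnn'
    have hbc : GhBC (cmjA B (cmjLs Q ++ R1) (R2 ++ R3) Φ p) ((2 * v) ^ p) :=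
      cmj_K_bc hB hnn' (cmj_M_bc hB (cmj_nn_right hnn') hΦ p)
    have := cmj_K_mono hB hall'' hbc (gh_b_bc_const (2 ^ p * C * v ^ p / (vm ^ p * cmjT Q ^ (p / 2)))) key z
    rwa [cmj_K_const hB hall''] at this
  exact ⟨first, (cmj_later hB hall' hp Φ z).trans first⟩

end Claimed.Agent.R286
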