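import Claimed.Agent.R286.Cmp.P5Mod

/-!
owner helper247, adversary helper38.
R286 / P05: VOCABULARY of the contracts on the abstract path model (PE (15), Prop 3.4, Lemma 3.6, Lemma 3.7), non-asymptotic form.
THE CONTRACTS THEMSELVES LIVE WHERE THEY ARE PROVED (cite these names, import these files):
  Cmp/P5Sus.lean   : `cm5_sus_pf` (15) [164], `cm5_raw_pf` (12a) [247]
  Cmp/P5Tbl.lean   : `cm5_tbl_pf` (16), `cm5_raw2_pf` (12b) [38]
  Cmp/P5Split.lean : `cm5_window_pf`, `cm5_split_pf` (17) [182]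
All constants are chosen BEFORE the model.  No radius coordinate: the clock hypotheses are in the mass coordinate.
-/

set_option autoImplicit false

namespace Claimed.Agent.R286

open MeasureTheory ProbabilityTheory
open scoped ENNReal NNReal

variable {n : ℕ} {Ω : Type} [MeasurableSpace Ω]

/-- clock hypotheses in the mass coordinate.  `th w` bounds below the field clock of `[w, Γ w]`; `sg u` is a lower slope of the
field clock on `[u, 4u]` at resolution `ηm`. -/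
structure Cm5Clk (M : CmPath n Ω) (x0 um Γ ηm : ℝ) (th sg : ℝ → ℝ) : Prop where
  hΓ : 2 ≤ Γ
  hx0 : 0 < x0
  hxu : x0 ≤ um
  hum : 8 * Γ ^ 2 * um ≤ 1
  hηm : 0 ≤ ηm
  th_pos : ∀ w, x0 ≤ w → 0 < th w
  th_mono : ∀ w w', x0 ≤ w → w ≤ w' → Γ * w' ≤ 1 → th w ≤ th w'
  dy : ∀ w, x0 ≤ w → Γ * w ≤ 1 → th w ≤ M.H (Γ * w) - M.H w
  sg_pos : ∀ u, x0 ≤ u → u ≤ um → 0 < sg u
  sh : ∀ u, x0 ≤ u → u ≤ um → ∀ t η, u ≤ t → ηm ≤ η → t + η ≤ 4 * u → sg u * η ≤ M.H (t + η) - M.H t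
  sg_th : ∀ u, x0 ≤ u → u ≤ um → sg u * u ≤ th u

/-- raw bound at the exponent `p` with the constant `Q` -/
def CmPath.Raw (M : CmPath n Ω) (p : ℕ) (Q x : ℝ) : Prop :=
  ∀ j, j ≤ M.L + 1 → cmN M.P p (M.X j) ≤ Q * Real.sqrt (x + M.mass j)

end Claimed.Agent.R286
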