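import Claimed.Agent.R286.Cmp.P5Sus

/-!
R286 / P05.  owner helper38.   PROOFS of the contracts `cm5_tbl` (two-branch layer lemma, PE Lemma 3.6 / l.575-606) and `cm5_raw2`
(two-leaf overlap, PE Prop 3.4 second half) (statements typed by helper247): `cm5_tbl_pf`, `cm5_raw2_pf`.
Cites only leaves of Cmp/P5Kit.lean.   Tools: `CmPath.proj_snd`, `CmPath.proj_fst` = (13) with a RANDOM anchor on the other leaf.
`cm5_resid_pf` = residual after a SHORT clock (for the good split, PE l.706-722).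
Decomposition: `<A,B> = sum_k <A_k, B_(<=k)> + sum_k <A_(<k), B_k>` (Abel), 2K terms, each by one projection after the dyadic clock `[t_(k-1), t_k]`.
-/

set_option autoImplicit false

namespace Claimed.Agent.R286

open MeasureTheory ProbabilityTheory
open scoped ENNReal NNReal

variable {n : ℕ} {Ω : Type} [MeasurableSpace Ω]

/-! ### numerics -/

theorem cm5t_num (n : ℕ) {Pi Q c τ θ w0 θ0 γ : ℝ} (hPi : 0 ≤ Pi) (hQ : 0 ≤ Q) (hc : 0 ≤ c) (hw0 : 0 < w0) (hτ : w0 ≤ τ)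
    (hθ0 : 0 < θ0) (hθ : θ0 ≤ θ) (hγ : γ ≤ c * Q * Real.sqrt τ) :
    2 * Pi / (τ * Real.sqrt (n * θ)) * γ ≤ 2 * c * (Q * Pi / Real.sqrt (n * w0 * θ0)) := by
  rcases Nat.eq_zero_or_pos n with rfl | hn
  · simp
  have hn' : (0 : ℝ) < n := by exact_mod_cast hn
  have hτ0 : 0 < τ := hw0.trans_le hτ
  have hθp : 0 < θ := hθ0.trans_le hθ
  set s := Real.sqrt τ with hs
  have hs0 : 0 < s := Real.sqrt_pos.2 hτ0
  have hss : s * s = τ := Real.mul_self_sqrt hτ0.le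
  set r := Real.sqrt (n * θ) with hr
  have hr0 : 0 < r := Real.sqrt_pos.2 (by positivity)
  set r0 := Real.sqrt (n * w0 * θ0) with hr0'
  have hr00 : 0 < r0 := Real.sqrt_pos.2 (by positivity)
  have hle : r0 ≤ s * r := by
    rw [hs, hr, ← Real.sqrt_mul hτ0.le]
    apply Real.sqrt_le_sqrt
    have : w0 * θ0 ≤ τ * θ := mul_le_mul hτ hθ hθ0.le hτ0.le
    nlinarith
  have h1 : 2 * Pi / (τ * r) * γ ≤ 2 * Pi / (τ * r) * (c * Q * s) :=
    mul_le_mul_of_nonneg_left hγ (by positivity)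
  refine h1.trans ?_
  have h2 : 2 * Pi / (τ * r) * (c * Q * s) = 2 * c * (Q * Pi / (s * r)) := by
    rw [← hss]; field_simp
  rw [h2]
  apply mul_le_mul_of_nonneg_left _ (by positivity)
  exact div_le_div_of_nonneg_left (by positivity) hr00 hle

/-- Abel summation for a bilinear pairing -/
theorem cm5t_abel {E : Type} [NormedAddCommGroup E] [InnerProductSpace ℝ E] (a b : ℕ → E) (K : ℕ) :
    ∑ k ∈ Finset.range K, (inner ℝ (a (k + 1) - a k) (b (k + 1)) + inner ℝ (a k - a 0) (b (k + 1) - b k))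
      = inner ℝ (a K - a 0) (b K) := by
  induction K with
  | zero => simp
  | succ K ih =>
    rw [Finset.sum_range_succ, ih]
    simp only [inner_sub_left, inner_sub_right]
    ring

namespace CmPath
variable {M : CmPath n Ω}

theorem t_int (hM : M.Ok) (j : ℕ) (ω : Ω) {f : Ω → ℝ} (hf : Measurable f) {C : ℝ} (hC : ∀ ω, |f ω| ≤ C) :
    Integrable f (M.κ j ω) := by
  have := hM.markov j
  exact Integrable.of_bound hf.aestronglyMeasurable C (Filter.Eventually.of_forall fun ω => by simpa using hC ω)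

theorem t_bm2 (j : ℕ) {g1 g2 : Ω → EuclideanSpace ℝ (Fin n)} (h1 : Measurable g1) (h2 : Measurable g2) {C1 C2 : ℝ}
    (hC1 : ∀ ω, ‖g1 ω‖ ≤ C1) (hC2 : ∀ ω, ‖g2 ω‖ ≤ C2) :
    CmBM (M.P2 j) (fun z : Ω × Ω => inner ℝ (g1 z.1) (g2 z.2)) := by
  refine ⟨((h1.comp measurable_fst).inner (h2.comp measurable_snd)).aestronglyMeasurable, C1 * C2, fun z => ?_⟩
  rw [Real.norm_eq_abs]
  exact (abs_real_inner_le_norm _ _).trans
    (mul_le_mul (hC1 _) (hC2 _) (norm_nonneg _) ((norm_nonneg _).trans (hC1 z.1)))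

theorem t_Xsub_meas (hM : M.Ok) (a b : ℕ) : Measurable (fun ω => M.X a ω - M.X b ω) := (hM.meas a).sub (hM.meas b)

theorem t_Xsub_le (hM : M.Ok) (a b : ℕ) (ω : Ω) : ‖M.X a ω - M.X b ω‖ ≤ 2 := by
  have := norm_sub_le (M.X a ω) (M.X b ω)
  linarith [hM.norm_le a ω, hM.norm_le b ω]

/-- (13) with a random anchor on the first leaf: projection of the second leaf -/
theorem proj_snd (hM : M.Ok) {p : ℕ} (hp : Even p) (hp1 : 1 ≤ p) {Pi : ℝ} (hPi : M.Proj p Pi) (hPi0 : 0 ≤ Pi)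
    {j j1 j2 ia ib : ℕ} (hj : j ≤ j1) (h12 : j1 < j2) (ha : j2 ≤ ia) (ha' : ia ≤ M.L + 1) (hb : j2 ≤ ib) (hb' : ib ≤ M.L + 1)
    {τ θ : ℝ} (hτ : 0 < τ) (hτ' : τ ≤ M.mass (j1 + 1)) (hθ : 0 < θ) (hθ' : θ ≤ M.hck j2 - M.hck j1)
    {g : Ω → EuclideanSpace ℝ (Fin n)} (hg : Measurable g) {Cg : ℝ} (hgC : ∀ ω, ‖g ω‖ ≤ Cg) :
    cmN (M.P2 j) p (fun z => inner ℝ (g z.1) (M.X ib z.2 - M.X ia z.2))
      ≤ 2 * Pi / (τ * Real.sqrt (n * θ)) * cmN M.P p g := by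
  have hB : 0 ≤ 2 * Pi / (τ * Real.sqrt (n * θ)) := by positivity
  have hFm : Measurable (fun z : Ω × Ω => inner ℝ (g z.1) (M.X ib z.2 - M.X ia z.2)) :=
    (hg.comp measurable_fst).inner ((t_Xsub_meas hM ib ia).comp measurable_snd)
  have hFC : ∀ z : Ω × Ω, |inner ℝ (g z.1) (M.X ib z.2 - M.X ia z.2)| ≤ Cg * 2 := fun z =>
    (abs_real_inner_le_norm _ _).trans
      (mul_le_mul (hgC _) (t_Xsub_le hM _ _ _) (norm_nonneg _) ((norm_nonneg _).trans (hgC z.1)))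
  have key := cmN_P2_le hM j hFm hFC (g := fun ω => ‖g ω‖) hg.norm
    (fun ω => by
      rw [abs_of_nonneg (norm_nonneg _)]
      have := hgC ω
      have h0 := norm_nonneg (g ω)
      linarith)
    (fun ω => norm_nonneg _) p hp1 _ hB ?_
  · rwa [cmN_norm] at key
  intro ω
  set V := g ω with hV
  have hmass : 0 < M.mass (j1 + 1) := hτ.trans_le hτ'
  have hck : M.hck j1 < M.hck j2 := by linarith
  -- the two projections
  have hbd : ∀ i, j2 ≤ i → i ≤ M.L + 1 →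
      ∫ ω', inner ℝ V (M.X i ω' - M.X j2 ω') ^ p ∂(M.κ j ω) ≤ (Pi * ‖V‖ / (τ * Real.sqrt (n * θ))) ^ p := by
    intro i hi hi'
    refine (hPi j j1 j2 i hj h12 hi hi' hmass hck ω V).trans ?_
    rcases Nat.eq_zero_or_pos n with hn | hn
    · subst hn; simp
    have hn' : (0 : ℝ) < n := by exact_mod_cast hn
    apply pow_le_pow_left₀ (by positivity)
    apply div_le_div_of_nonneg_left (by positivity) (by positivity)
    apply mul_le_mul hτ' _ (by positivity) hmass.le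
    apply Real.sqrt_le_sqrt
    exact mul_le_mul_of_nonneg_left hθ' hn'.le
  have hmeas : ∀ i, Measurable (fun ω' => inner ℝ V (M.X i ω' - M.X j2 ω') ^ p) := fun i =>
    ((measurable_const.inner (t_Xsub_meas hM i j2))).pow_const p
  have hbound : ∀ i ω', |inner ℝ V (M.X i ω' - M.X j2 ω') ^ p| ≤ (‖V‖ * 2) ^ p := fun i ω' => by
    rw [abs_pow]
    exact pow_le_pow_left₀ (abs_nonneg _) ((abs_real_inner_le_norm _ _).trans
      (mul_le_mul_of_nonneg_left (t_Xsub_le hM _ _ _) (norm_nonneg _))) p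
  have hint : ∀ i, Integrable (fun ω' => inner ℝ V (M.X i ω' - M.X j2 ω') ^ p) (M.κ j ω) := fun i =>
    t_int hM j ω (hmeas i) (hbound i)
  have hpt : ∀ ω', |inner ℝ V (M.X ib ω' - M.X ia ω')| ^ p
      ≤ 2 ^ (p - 1) * (inner ℝ V (M.X ib ω' - M.X j2 ω') ^ p + inner ℝ V (M.X ia ω' - M.X j2 ω') ^ p) := by
    intro ω'
    have e : inner ℝ V (M.X ib ω' - M.X ia ω')
        = inner ℝ V (M.X ib ω' - M.X j2 ω') - inner ℝ V (M.X ia ω' - M.X j2 ω') := by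
      rw [← inner_sub_right]; congr 1; abel
    rw [e]
    have h1 := abs_sub (inner ℝ V (M.X ib ω' - M.X j2 ω')) (inner ℝ V (M.X ia ω' - M.X j2 ω'))
    have h2 := add_pow_le (abs_nonneg (inner ℝ V (M.X ib ω' - M.X j2 ω')))
      (abs_nonneg (inner ℝ V (M.X ia ω' - M.X j2 ω'))) p
    rw [hp.pow_abs, hp.pow_abs] at h2
    exact (pow_le_pow_left₀ (abs_nonneg _) h1 p).trans h2
  calc ∫ ω', |inner ℝ V (M.X ib ω' - M.X ia ω')| ^ p ∂(M.κ j ω)
      ≤ ∫ ω', 2 ^ (p - 1) * (inner ℝ V (M.X ib ω' - M.X j2 ω') ^ p + inner ℝ V (M.X ia ω' - M.X j2 ω') ^ p) ∂(M.κ j ω) := by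
        apply integral_mono_of_nonneg (Filter.Eventually.of_forall fun ω' => by positivity)
          (((hint ib).add (hint ia)).const_mul _) (Filter.Eventually.of_forall hpt)
    _ = 2 ^ (p - 1) * (∫ ω', inner ℝ V (M.X ib ω' - M.X j2 ω') ^ p ∂(M.κ j ω)
          + ∫ ω', inner ℝ V (M.X ia ω' - M.X j2 ω') ^ p ∂(M.κ j ω)) := by
        rw [integral_const_mul, integral_add (hint ib) (hint ia)]
    _ ≤ 2 ^ (p - 1) * ((Pi * ‖V‖ / (τ * Real.sqrt (n * θ))) ^ p + (Pi * ‖V‖ / (τ * Real.sqrt (n * θ))) ^ p) := by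
        apply mul_le_mul_of_nonneg_left (add_le_add (hbd ib hb hb') (hbd ia ha ha')) (by positivity)
    _ = (2 * Pi / (τ * Real.sqrt (n * θ)) * ‖V‖) ^ p := by
        obtain ⟨q, rfl⟩ : ∃ q, p = q + 1 := ⟨p - 1, by omega⟩
        simp only [Nat.add_sub_cancel]
        rw [show 2 * Pi / (τ * Real.sqrt (n * θ)) * ‖V‖ = 2 * (Pi * ‖V‖ / (τ * Real.sqrt (n * θ))) by ring, mul_pow, pow_succ 2 q]
        ring

/-- the same with the roles of the leaves exchanged -/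
theorem proj_fst (hM : M.Ok) {p : ℕ} (hp : Even p) (hp1 : 1 ≤ p) {Pi : ℝ} (hPi : M.Proj p Pi) (hPi0 : 0 ≤ Pi)
    {j j1 j2 ia ib : ℕ} (hj : j ≤ j1) (h12 : j1 < j2) (ha : j2 ≤ ia) (ha' : ia ≤ M.L + 1) (hb : j2 ≤ ib) (hb' : ib ≤ M.L + 1)
    {τ θ : ℝ} (hτ : 0 < τ) (hτ' : τ ≤ M.mass (j1 + 1)) (hθ : 0 < θ) (hθ' : θ ≤ M.hck j2 - M.hck j1)
    {g : Ω → EuclideanSpace ℝ (Fin n)} (hg : Measurable g) {Cg : ℝ} (hgC : ∀ ω, ‖g ω‖ ≤ Cg) :
    cmN (M.P2 j) p (fun z => inner ℝ (M.X ib z.1 - M.X ia z.1) (g z.2))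
      ≤ 2 * Pi / (τ * Real.sqrt (n * θ)) * cmN M.P p g := by
  have hFm : Measurable (fun z : Ω × Ω => inner ℝ (g z.1) (M.X ib z.2 - M.X ia z.2)) :=
    (hg.comp measurable_fst).inner ((t_Xsub_meas hM ib ia).comp measurable_snd)
  have h := cmN_P2_swap hM j hFm p
  have e : (fun z : Ω × Ω => inner ℝ (M.X ib z.1 - M.X ia z.1) (g z.2))
      = fun z : Ω × Ω => (fun z : Ω × Ω => inner ℝ (g z.1) (M.X ib z.2 - M.X ia z.2)) z.swap := by
    funext z; simp [real_inner_comm]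
  rw [e, h]
  exact proj_snd hM hp hp1 hPi hPi0 hj h12 ha ha' hb hb' hτ hτ' hθ hθ' hg hgC

theorem t_bmX (hM : M.Ok) (a : ℕ) : CmBM M.P (M.X a) := ⟨(hM.meas a).aestronglyMeasurable, 1, hM.norm_le a⟩

theorem t_cmN_zero {α : Type} [MeasurableSpace α] (μ : Measure α) (p : ℕ) : cmN μ p (fun _ : α => (0 : ℝ)) = 0 := by
  simp [cmN]

theorem t_cmN_zero' {α : Type} [MeasurableSpace α] (μ : Measure α) (p : ℕ) :
    cmN μ p (fun _ : α => (0 : EuclideanSpace ℝ (Fin n))) = 0 := by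
  simp [cmN]

theorem t_raw {p : ℕ} {Q x : ℝ} (hQ : 0 ≤ Q) (hR : M.Raw p Q x) {c : ℕ} (hc : c ≤ M.L + 1) {s : ℝ}
    (hs : M.mass c ≤ s) : cmN M.P p (M.X c) ≤ Q * Real.sqrt (x + s) :=
  (hR c hc).trans (mul_le_mul_of_nonneg_left (Real.sqrt_le_sqrt (by linarith)) hQ)

theorem t_sum_bound {α : Type} [MeasurableSpace α] {μ : Measure α} [IsFiniteMeasure μ] (K p : ℕ) (hp : 1 ≤ p)
    (f1 f2 : ℕ → α → ℝ) (h1 : ∀ k, CmBM μ (f1 k)) (h2 : ∀ k, CmBM μ (f2 k)) (b1 b2 : ℝ)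
    (hb1 : ∀ k, cmN μ p (f1 k) ≤ b1) (hb2 : ∀ k, cmN μ p (f2 k) ≤ b2) :
    cmN μ p (fun z => ∑ k ∈ Finset.range K, (f1 k z + f2 k z)) ≤ K * (b1 + b2) := by
  have hbm : ∀ k, CmBM μ (fun z => f1 k z + f2 k z) := by
    intro k
    obtain ⟨m1, C1, c1⟩ := h1 k
    obtain ⟨m2, C2, c2⟩ := h2 k
    exact ⟨m1.add m2, C1 + C2, fun z => (norm_add_le _ _).trans (add_le_add (c1 z) (c2 z))⟩
  refine (cmN_sum_le (Finset.range K) (fun k z => f1 k z + f2 k z) (fun k _ => hbm k) p hp).trans ?_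
  have hterm : ∀ k ∈ Finset.range K, cmN μ p (fun z => f1 k z + f2 k z) ≤ b1 + b2 := by
    intro k _
    have := cmN_add_le (h1 k) (h2 k) p hp
    linarith [hb1 k, hb2 k]
  refine (Finset.sum_le_sum hterm).trans ?_
  rw [Finset.sum_const, Finset.card_range, nsmul_eq_mul]

end CmPath

set_option maxHeartbeats 400000 in
open CmPath in
/-- two-branch layer lemma (PE l.575-606, Lemma 3.6) -/
theorem cm5_tbl_pf (p : ℕ) (hp : Even p) (hp2 : 2 ≤ p) (Γ : ℝ) : ∃ C : ℝ, 0 < C ∧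
    ∀ (n : ℕ) (Ω : Type) [MeasurableSpace Ω] (M : CmPath n Ω) (x0 um ηm : ℝ) (th sg : ℝ → ℝ) (Pi Q x : ℝ) (K : ℕ),
      M.Ok → Cm5Clk M x0 um Γ ηm th sg → M.Proj p Pi → 1 ≤ Pi → 1 ≤ Q → 0 < x → x ≤ x0 → M.Raw p Q x → 1 ≤ Γ ^ K * x0 →
      ∀ (j i1 i2 i' : ℕ) (w0 : ℝ), j ≤ M.L → x0 ≤ w0 → 2 * M.mass j ≤ w0 → Γ * w0 ≤ 1 →
        M.nd (Γ * w0) ≤ i1 → i1 ≤ i2 → i2 ≤ M.L + 1 → j ≤ i' → i' ≤ M.L + 1 →
        cmN (M.P2 j) p (fun z : Ω × Ω => inner ℝ (M.X i2 z.1 - M.X i1 z.1) (M.X i' z.2))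
          ≤ C * (K + 2) ^ 2 * Q * Pi / Real.sqrt (n * w0 * th w0) := by
  refine ⟨6 * Real.sqrt (1 + Γ ^ 2), by positivity, ?_⟩
  intro n Ω _ M x0 um ηm th sg Pi Q x K hM hClk hProj hPi hQ hx hxx0 hRaw hK j i1 i2 i' w0 hjL hw0 hmj hΓw hi1 hi12 hi2 hji' hi'
  have hp1 : 1 ≤ p := by omega
  have hΓ : 2 ≤ Γ := hClk.hΓ
  have hx0 : 0 < x0 := hClk.hx0
  have hw0p : 0 < w0 := hx0.trans_le hw0
  have hPi0 : 0 ≤ Pi := by linarith
  have hQ0 : 0 ≤ Q := by linarith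
  have := P2_prob hM j
  have := hM.prob
  set cΓ := Real.sqrt (1 + Γ ^ 2) with hcΓ
  have hcΓ0 : 0 ≤ cΓ := Real.sqrt_nonneg _
  set D0 := Q * Pi / Real.sqrt (n * w0 * th w0) with hD0
  have hD00 : 0 ≤ D0 := by positivity
  set t : ℕ → ℝ := fun k => Γ ^ k * w0 with ht
  have ht_succ : ∀ k, t (k + 1) = Γ * t k := fun k => by simp only [ht]; ring
  have ht_pos : ∀ k, 0 < t k := fun k => by simp only [ht]; positivity
  have ht_ge : ∀ k, w0 ≤ t k := fun k => by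
    simp only [ht]
    have : (1 : ℝ) ≤ Γ ^ k := one_le_pow₀ (by linarith)
    nlinarith
  have ht_mono : ∀ k, t k ≤ t (k + 1) := fun k => by rw [ht_succ]; nlinarith [ht_pos k]
  set Nn : ℕ → ℕ := fun k => if t k ≤ 1 then M.nd (t k) else M.L + 1 with hNn
  have hNn_le : ∀ k, Nn k ≤ M.L + 1 := fun k => by
    simp only [hNn]; split_ifs
    · exact (nd_le M _).trans (Nat.le_succ _)
    · exact le_rfl
  have hNn_mono : ∀ k, Nn k ≤ Nn (k + 1) := fun k => by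
    simp only [hNn]
    by_cases h1 : t (k + 1) ≤ 1
    · rw [if_pos h1, if_pos ((ht_mono k).trans h1)]
      exact nd_mono hM (ht_pos k).le (ht_mono k)
    · rw [if_neg h1]; exact hNn_le k
  have hNn_mass : ∀ k, M.mass (Nn k) ≤ t k := fun k => by
    simp only [hNn]
    by_cases h1 : t k ≤ 1
    · rw [if_pos h1]; exact mass_nd_le hM (ht_pos k).le
    · rw [if_neg h1, hM.mass_top]; linarith
  have ht1 : t 1 = Γ * w0 := by simp [ht]
  have hNn1 : Nn 1 = M.nd (Γ * w0) := by simp only [hNn]; rw [if_pos (by rw [ht1]; exact hΓw), ht1]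
  have htK : 1 < t (K + 1) := by
    have h1 : Γ ^ K * x0 ≤ t K := by
      simp only [ht]; exact mul_le_mul_of_nonneg_left hw0 (by positivity)
    rw [ht_succ]; nlinarith
  have hNnK : Nn (K + 1) = M.L + 1 := by simp only [hNn]; rw [if_neg (not_le.2 htK)]
  set α : ℕ → ℕ := fun k => min (max (Nn k) i1) i2 with hα
  set β : ℕ → ℕ := fun k => min (Nn k) i' with hβ
  have hα1 : α 1 = i1 := by simp only [hα]; rw [hNn1, max_eq_right hi1, min_eq_left hi12]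
  have hαK : α (K + 1) = i2 := by simp only [hα]; rw [hNnK]; omega
  have hβK : β (K + 1) = i' := by simp only [hβ]; rw [hNnK]; omega
  have hα_le : ∀ k, α k ≤ M.L + 1 := fun k => (min_le_right _ _).trans hi2
  have hβ_le : ∀ k, β k ≤ M.L + 1 := fun k => (min_le_right _ _).trans hi'
  have hmj0 : 0 ≤ M.mass j := (mass_mem hM (hjL.trans (Nat.le_succ _))).1
  -- the clock interval preceding the layer `k + 1`
  have hlay : ∀ k, t (k + 1) ≤ 1 → j ≤ M.nd (t k) ∧ M.nd (t k) < M.nd (t (k + 1)) ∧ t k ≤ M.mass (M.nd (t k) + 1) ∧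
      0 < th (t k) ∧ th (t k) ≤ M.hck (M.nd (t (k + 1))) - M.hck (M.nd (t k)) ∧ th w0 ≤ th (t k) := by
    intro k hk
    have hk' : Γ * t k ≤ 1 := by rw [← ht_succ]; exact hk
    have hx0k : x0 ≤ t k := hw0.trans (ht_ge k)
    have hpos := hClk.th_pos (t k) hx0k
    have hdy := hClk.dy (t k) hx0k hk'
    rw [← ht_succ] at hdy
    have hdy' : th (t k) ≤ M.hck (M.nd (t (k + 1))) - M.hck (M.nd (t k)) := hdy
    refine ⟨le_nd hM hjL (by linarith [ht_ge k]), ?_, ?_, hpos, hdy', hClk.th_mono w0 (t k) hw0 (ht_ge k) hk'⟩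
    · by_contra hcon
      have := hM.hck_mono (not_lt.1 hcon)
      linarith
    · exact (lt_mass_nd_succ hM (by nlinarith [ht_pos k])).le
  have hth0 : 0 < th w0 := hClk.th_pos w0 hw0
  have hsq : ∀ k s, s ≤ Γ ^ 2 * t k → Real.sqrt (x + s) ≤ cΓ * Real.sqrt (t k) := by
    intro k s hs
    rw [hcΓ, ← Real.sqrt_mul (by positivity)]
    apply Real.sqrt_le_sqrt
    have : x ≤ t k := hxx0.trans (hw0.trans (ht_ge k))
    nlinarith
  -- first family of terms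
  have T1 : ∀ k, cmN (M.P2 j) p (fun z : Ω × Ω => inner ℝ (M.X (α (k + 2)) z.1 - M.X (α (k + 1)) z.1) (M.X (β (k + 2)) z.2))
      ≤ 2 * cΓ * D0 := by
    intro k
    have hz : α (k + 2) = α (k + 1) → cmN (M.P2 j) p
        (fun z : Ω × Ω => inner ℝ (M.X (α (k + 2)) z.1 - M.X (α (k + 1)) z.1) (M.X (β (k + 2)) z.2)) ≤ 2 * cΓ * D0 := by
      intro e
      rw [e]
      simp only [sub_self, inner_zero_left]
      rw [t_cmN_zero]; positivity
    by_cases hk : t (k + 1) ≤ 1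
    · have hNk : Nn (k + 1) = M.nd (t (k + 1)) := by simp only [hNn]; rw [if_pos hk]
      by_cases h2 : Nn (k + 1) ≤ i2
      · obtain ⟨a1, a2, a3, a4, a5, a6⟩ := hlay k hk
        have hb1 : M.nd (t (k + 1)) ≤ α (k + 1) := by rw [← hNk]; simp only [hα]; omega
        have hb2 : M.nd (t (k + 1)) ≤ α (k + 2) := by
          rw [← hNk]; have h9 : Nn (k + 1) ≤ Nn (k + 2) := hNn_mono (k + 1); simp only [hα]; omega
        have h := proj_fst hM hp hp1 hProj hPi0 a1 a2 hb1 (hα_le _) hb2 (hα_le _) (ht_pos k) a3 a4 a5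
          (hM.meas (β (k + 2))) (hM.norm_le _)
        refine h.trans (cm5t_num n hPi0 hQ0 hcΓ0 hw0p (ht_ge k) hth0 a6 ?_)
        have hm : M.mass (β (k + 2)) ≤ t (k + 2) :=
          (hM.mass_mono (min_le_left _ _)).trans (hNn_mass (k + 2))
        have h3 := t_raw hQ0 hRaw (hβ_le (k + 2)) hm
        have h4 := hsq k (t (k + 2)) (by rw [ht_succ, ht_succ]; nlinarith)
        calc cmN M.P p (M.X (β (k + 2))) ≤ Q * Real.sqrt (x + t (k + 2)) := h3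
          _ ≤ Q * (cΓ * Real.sqrt (t k)) := mul_le_mul_of_nonneg_left h4 hQ0
          _ = cΓ * Q * Real.sqrt (t k) := by ring
      · apply hz
        have h9 : Nn (k + 1) ≤ Nn (k + 2) := hNn_mono (k + 1)
        simp only [hα]; omega
    · apply hz
      have h1 : Nn (k + 1) = M.L + 1 := by simp only [hNn]; rw [if_neg hk]
      have h2 : Nn (k + 2) = M.L + 1 := le_antisymm (hNn_le _) (by rw [← h1]; exact hNn_mono (k + 1))
      simp only [hα]; rw [h1, h2]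
  -- second family of terms
  have T2 : ∀ k, cmN (M.P2 j) p (fun z : Ω × Ω =>
      inner ℝ (M.X (α (k + 1)) z.1 - M.X (α 1) z.1) (M.X (β (k + 2)) z.2 - M.X (β (k + 1)) z.2)) ≤ 2 * (2 * cΓ) * D0 := by
    intro k
    have hz : β (k + 2) = β (k + 1) → cmN (M.P2 j) p (fun z : Ω × Ω =>
        inner ℝ (M.X (α (k + 1)) z.1 - M.X (α 1) z.1) (M.X (β (k + 2)) z.2 - M.X (β (k + 1)) z.2)) ≤ 2 * (2 * cΓ) * D0 := by
      intro e
      rw [e]
      simp only [sub_self, inner_zero_right]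
      rw [t_cmN_zero]; positivity
    by_cases hk : t (k + 1) ≤ 1
    · have hNk : Nn (k + 1) = M.nd (t (k + 1)) := by simp only [hNn]; rw [if_pos hk]
      by_cases h2 : Nn (k + 1) ≤ i'
      · obtain ⟨a1, a2, a3, a4, a5, a6⟩ := hlay k hk
        have hb1 : M.nd (t (k + 1)) ≤ β (k + 1) := by rw [← hNk]; simp only [hβ]; omega
        have hb2 : M.nd (t (k + 1)) ≤ β (k + 2) := by
          rw [← hNk]; have h9 : Nn (k + 1) ≤ Nn (k + 2) := hNn_mono (k + 1); simp only [hβ]; omega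
        have h := proj_snd hM hp hp1 hProj hPi0 a1 a2 hb1 (hβ_le _) hb2 (hβ_le _) (ht_pos k) a3 a4 a5
          (t_Xsub_meas hM (α (k + 1)) (α 1)) (t_Xsub_le hM _ _)
        refine h.trans (cm5t_num n hPi0 hQ0 (by positivity) hw0p (ht_ge k) hth0 a6 ?_)
        by_cases h3 : i1 ≤ Nn (k + 1)
        · have hm1 : M.mass (α (k + 1)) ≤ t (k + 1) := by
            refine (hM.mass_mono ?_).trans (hNn_mass (k + 1))
            simp only [hα]; omega
          have hm2 : M.mass (α 1) ≤ t (k + 1) := by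
            rw [hα1]; exact (hM.mass_mono h3).trans (hNn_mass (k + 1))
          have h4 := hsq k (t (k + 1)) (by
            rw [ht_succ]
            exact mul_le_mul_of_nonneg_right (by nlinarith) (ht_pos k).le)
          have h5 := t_raw hQ0 hRaw (hα_le (k + 1)) hm1
          have h6 := t_raw hQ0 hRaw (hα_le 1) hm2
          have h7 := cmN_sub_le (t_bmX hM (α (k + 1))) (t_bmX hM (α 1)) p hp1
          have h8 : Q * Real.sqrt (x + t (k + 1)) ≤ Q * (cΓ * Real.sqrt (t k)) := mul_le_mul_of_nonneg_left h4 hQ0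
          calc cmN M.P p (fun ω => M.X (α (k + 1)) ω - M.X (α 1) ω)
              ≤ cmN M.P p (M.X (α (k + 1))) + cmN M.P p (M.X (α 1)) := h7
            _ ≤ 2 * cΓ * Q * Real.sqrt (t k) := by linarith
        · have e : α (k + 1) = α 1 := by rw [hα1]; simp only [hα]; omega
          rw [e]
          simp only [sub_self]
          rw [t_cmN_zero']
          have := Real.sqrt_nonneg (t k)
          positivity
      · apply hz
        have h9 : Nn (k + 1) ≤ Nn (k + 2) := hNn_mono (k + 1)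
        simp only [hβ]; omega
    · apply hz
      have h1 : Nn (k + 1) = M.L + 1 := by simp only [hNn]; rw [if_neg hk]
      have h2 : Nn (k + 2) = M.L + 1 := le_antisymm (hNn_le _) (by rw [← h1]; exact hNn_mono (k + 1))
      simp only [hβ]; rw [h1, h2]
  -- assembly
  have hdec : ∀ z : Ω × Ω, inner ℝ (M.X i2 z.1 - M.X i1 z.1) (M.X i' z.2)
      = ∑ k ∈ Finset.range K,
        (inner ℝ (M.X (α (k + 2)) z.1 - M.X (α (k + 1)) z.1) (M.X (β (k + 2)) z.2)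
          + inner ℝ (M.X (α (k + 1)) z.1 - M.X (α 1) z.1) (M.X (β (k + 2)) z.2 - M.X (β (k + 1)) z.2)) := by
    intro z
    have h := cm5t_abel (fun k => M.X (α (k + 1)) z.1) (fun k => M.X (β (k + 1)) z.2) K
    rw [← hαK, ← hα1, ← hβK]
    exact h.symm
  have hbm1 : ∀ k, CmBM (M.P2 j) (fun z : Ω × Ω => inner ℝ (M.X (α (k + 2)) z.1 - M.X (α (k + 1)) z.1) (M.X (β (k + 2)) z.2)) :=
    fun k => t_bm2 (g1 := fun ω => M.X (α (k + 2)) ω - M.X (α (k + 1)) ω) (g2 := M.X (β (k + 2))) j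
      (t_Xsub_meas hM _ _) (hM.meas _) (t_Xsub_le hM _ _) (hM.norm_le _)
  have hbm2 : ∀ k, CmBM (M.P2 j) (fun z : Ω × Ω =>
      inner ℝ (M.X (α (k + 1)) z.1 - M.X (α 1) z.1) (M.X (β (k + 2)) z.2 - M.X (β (k + 1)) z.2)) :=
    fun k => t_bm2 (g1 := fun ω => M.X (α (k + 1)) ω - M.X (α 1) ω) (g2 := fun ω => M.X (β (k + 2)) ω - M.X (β (k + 1)) ω) j
      (t_Xsub_meas hM _ _) (t_Xsub_meas hM _ _) (t_Xsub_le hM _ _) (t_Xsub_le hM _ _)
  have hmain := t_sum_bound K p hp1 _ _ hbm1 hbm2 _ _ T1 T2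
  have e0 : (fun z : Ω × Ω => inner ℝ (M.X i2 z.1 - M.X i1 z.1) (M.X i' z.2)) = fun z : Ω × Ω => ∑ k ∈ Finset.range K,
        (inner ℝ (M.X (α (k + 2)) z.1 - M.X (α (k + 1)) z.1) (M.X (β (k + 2)) z.2)
          + inner ℝ (M.X (α (k + 1)) z.1 - M.X (α 1) z.1) (M.X (β (k + 2)) z.2 - M.X (β (k + 1)) z.2)) := funext hdec
  refine (le_of_eq (congrArg (cmN (M.P2 j) p) e0)).trans (hmain.trans ?_)
  have e : 6 * cΓ * (K + 2) ^ 2 * Q * Pi / Real.sqrt (n * w0 * th w0) = (K + 2 : ℝ) ^ 2 * (6 * cΓ * D0) := by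
    rw [hD0]; ring
  rw [e]
  have e2 : 2 * cΓ * D0 + 2 * (2 * cΓ) * D0 = 6 * cΓ * D0 := by ring
  rw [e2]
  apply mul_le_mul_of_nonneg_right _ (by positivity)
  have : (0 : ℝ) ≤ K := Nat.cast_nonneg K
  nlinarith

/-- `(K+2)^2 Pi / sqrt(n w th) ≤ w` from `(K+2)^4 Pi^2 ≤ n w^3 th` -/
theorem cm5t_num2 (n : ℕ) {A w θ : ℝ} (hA : 0 < A) (hw : 0 < w) (h : A ^ 2 ≤ n * w ^ 3 * θ) :
    A / Real.sqrt (n * w * θ) ≤ w := by
  have hpos : 0 < (n : ℝ) * w * θ := by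
    have h1 : 0 < (n : ℝ) * w ^ 3 * θ := lt_of_lt_of_le (by positivity) h
    have h2 : (n : ℝ) * w ^ 3 * θ = (n * w * θ) * w ^ 2 := by ring
    rw [h2] at h1
    exact (mul_pos_iff_of_pos_right (by positivity)).1 h1
  have hs : 0 < Real.sqrt (n * w * θ) := Real.sqrt_pos.2 hpos
  rw [div_le_iff₀ hs]
  apply le_of_sq_le_sq _ (by positivity)
  rw [mul_pow, Real.sq_sqrt hpos.le]
  calc A ^ 2 ≤ n * w ^ 3 * θ := h
    _ = w ^ 2 * (n * w * θ) := by ring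

open CmPath in
/-- PE Prop 3.4, second half: the two-leaf overlap. -/
theorem cm5_raw2_pf (p : ℕ) (hp : Even p) (hp2 : 2 ≤ p) (Γ C0 Q : ℝ) (hC0 : 1 ≤ C0) (hQ : 1 ≤ Q) : ∃ C : ℝ, 0 < C ∧
    ∀ (n : ℕ) (Ω : Type) [MeasurableSpace Ω] (M : CmPath n Ω) (x0 um ηm : ℝ) (th sg : ℝ → ℝ) (Pi x : ℝ) (K : ℕ),
      M.Ok → Cm5Clk M x0 um Γ ηm th sg → M.Proj p Pi → 1 ≤ Pi → 0 < x → x ≤ x0 → x0 ≤ C0 * x → M.Raw (2 * p) Q x →
      1 ≤ Γ ^ K * x0 →
      (∀ w, x0 ≤ w → Γ * w ≤ 1 → ((K : ℝ) + 2) ^ 4 * Pi ^ 2 ≤ n * w ^ 3 * th w) →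
      ∀ j, j ≤ M.L → cmN (M.P2 j) p M.R2 ≤ C * (x + M.mass j) := by
  obtain ⟨Ct, hCt, htbl⟩ := cm5_tbl_pf p hp hp2 Γ
  refine ⟨Q ^ 2 * (1 + 2 * |Γ| * C0) + 4 * Ct * Q * C0 + 2 * |Γ| * C0, by positivity, ?_⟩
  intro n Ω _ M x0 um ηm th sg Pi x K hM hClk hProj hPi hx hxx0 hx0C hRaw2 hK hbig j hjL
  have hp1 : 1 ≤ p := by omega
  have hΓ : 2 ≤ Γ := hClk.hΓ
  have hΓa : |Γ| = Γ := abs_of_nonneg (by linarith)
  rw [hΓa]
  have hx0 : 0 < x0 := hClk.hx0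
  have hQ0 : 0 ≤ Q := by linarith
  have := P2_prob hM j
  have := hM.prob
  have hmj0 : 0 ≤ M.mass j := (mass_mem hM (hjL.trans (Nat.le_succ _))).1
  set w0 := max x0 (2 * M.mass j) with hw0
  have hw0x : x0 ≤ w0 := le_max_left _ _
  have hw0m : 2 * M.mass j ≤ w0 := le_max_right _ _
  have hw0p : 0 < w0 := hx0.trans_le hw0x
  set s := x + M.mass j with hs
  have hs0 : 0 < s := by positivity
  have hw0s : w0 ≤ 2 * C0 * s := by
    apply max_le
    · nlinarith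
    · nlinarith
  have hRaw : M.Raw p Q x := fun i hi =>
    (cmN_exp_mono (t_bmX hM i) hp1 (by omega)).trans (hRaw2 i hi)
  by_cases hcase : Γ * w0 ≤ 1
  · set i := M.nd (Γ * w0) with hi
    have hiL : i ≤ M.L + 1 := (nd_le M _).trans (Nat.le_succ _)
    have hji : j ≤ i := le_nd hM hjL (by nlinarith)
    have hmi : M.mass i ≤ Γ * w0 := mass_nd_le hM (by positivity)
    have hD : ((K : ℝ) + 2) ^ 2 * Pi / Real.sqrt (n * w0 * th w0) ≤ w0 := by
      apply cm5t_num2 n (by positivity) hw0p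
      have := hbig w0 hw0x hcase
      calc (((K : ℝ) + 2) ^ 2 * Pi) ^ 2 = ((K : ℝ) + 2) ^ 4 * Pi ^ 2 := by ring
        _ ≤ _ := this
    have hD' : Ct * (K + 2) ^ 2 * Q * Pi / Real.sqrt (n * w0 * th w0) ≤ Ct * Q * w0 := by
      have e : Ct * (K + 2) ^ 2 * Q * Pi / Real.sqrt (n * w0 * th w0)
          = Ct * Q * (((K : ℝ) + 2) ^ 2 * Pi / Real.sqrt (n * w0 * th w0)) := by ring
      rw [e]
      exact mul_le_mul_of_nonneg_left hD (by positivity)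
    -- the three terms
    have hA : cmN (M.P2 j) p (fun z : Ω × Ω => inner ℝ (M.X i z.1) (M.X i z.2)) ≤ Q ^ 2 * (x + Γ * w0) := by
      have h1 := cmN_inner_le (μ := M.P2 j) (f := fun z : Ω × Ω => M.X i z.1) (g := fun z : Ω × Ω => M.X i z.2)
        ⟨((hM.meas i).comp measurable_fst).aestronglyMeasurable, 1, fun z => hM.norm_le i z.1⟩
        ⟨((hM.meas i).comp measurable_snd).aestronglyMeasurable, 1, fun z => hM.norm_le i z.2⟩ p hp1
      rw [cmN_P2_fst hM j (hM.meas i), cmN_P2_snd hM j (hM.meas i)] at h1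
      have h2 := t_raw hQ0 hRaw2 hiL hmi
      have h3 : 0 ≤ cmN M.P (2 * p) (M.X i) := cmN_nonneg _ _ _
      have h4 : 0 ≤ x + Γ * w0 := by positivity
      calc _ ≤ cmN M.P (2 * p) (M.X i) * cmN M.P (2 * p) (M.X i) := h1
        _ ≤ (Q * Real.sqrt (x + Γ * w0)) * (Q * Real.sqrt (x + Γ * w0)) := mul_le_mul h2 h2 h3 (h3.trans h2)
        _ = Q ^ 2 * (x + Γ * w0) := by
            have := Real.mul_self_sqrt h4
            calc _ = Q ^ 2 * (Real.sqrt (x + Γ * w0) * Real.sqrt (x + Γ * w0)) := by ring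
              _ = _ := by rw [this]
    have hB : cmN (M.P2 j) p (fun z : Ω × Ω => inner ℝ (M.X (M.L + 1) z.1 - M.X i z.1) (M.X i z.2)) ≤ Ct * Q * w0 :=
      (htbl n Ω M x0 um ηm th sg Pi Q x K hM hClk hProj hPi hQ hx hxx0 hRaw hK j i (M.L + 1) i w0 hjL hw0x hw0m hcase
        le_rfl hiL le_rfl hji hiL).trans hD'
    have hC' : cmN (M.P2 j) p (fun z : Ω × Ω => inner ℝ (M.X (M.L + 1) z.1 - M.X i z.1) (M.X (M.L + 1) z.2)) ≤ Ct * Q * w0 :=
      (htbl n Ω M x0 um ηm th sg Pi Q x K hM hClk hProj hPi hQ hx hxx0 hRaw hK j i (M.L + 1) (M.L + 1) w0 hjL hw0x hw0m hcase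
        le_rfl hiL le_rfl (hjL.trans (Nat.le_succ _)) le_rfl).trans hD'
    have hC : cmN (M.P2 j) p (fun z : Ω × Ω => inner ℝ (M.X (M.L + 1) z.1) (M.X (M.L + 1) z.2 - M.X i z.2)) ≤ Ct * Q * w0 := by
      have hm : Measurable (fun z : Ω × Ω => inner ℝ (M.X (M.L + 1) z.1 - M.X i z.1) (M.X (M.L + 1) z.2)) :=
        ((t_Xsub_meas hM _ _).comp measurable_fst).inner ((hM.meas _).comp measurable_snd)
      have h := cmN_P2_swap hM j hm p
      have e : (fun z : Ω × Ω => inner ℝ (M.X (M.L + 1) z.1) (M.X (M.L + 1) z.2 - M.X i z.2))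
          = fun z : Ω × Ω => (fun z : Ω × Ω => inner ℝ (M.X (M.L + 1) z.1 - M.X i z.1) (M.X (M.L + 1) z.2)) z.swap := by
        funext z; simp [real_inner_comm]
      rw [e, h]; exact hC'
    have bA : CmBM (M.P2 j) (fun z : Ω × Ω => inner ℝ (M.X i z.1) (M.X i z.2)) :=
      t_bm2 (g1 := M.X i) (g2 := M.X i) j (hM.meas _) (hM.meas _) (hM.norm_le _) (hM.norm_le _)
    have bB : CmBM (M.P2 j) (fun z : Ω × Ω => inner ℝ (M.X (M.L + 1) z.1 - M.X i z.1) (M.X i z.2)) :=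
      t_bm2 (g1 := fun ω => M.X (M.L + 1) ω - M.X i ω) (g2 := M.X i) j (t_Xsub_meas hM _ _) (hM.meas _)
        (t_Xsub_le hM _ _) (hM.norm_le _)
    have bC : CmBM (M.P2 j) (fun z : Ω × Ω => inner ℝ (M.X (M.L + 1) z.1) (M.X (M.L + 1) z.2 - M.X i z.2)) :=
      t_bm2 (g1 := M.X (M.L + 1)) (g2 := fun ω => M.X (M.L + 1) ω - M.X i ω) j (hM.meas _) (t_Xsub_meas hM _ _)
        (hM.norm_le _) (t_Xsub_le hM _ _)
    have bAB : CmBM (M.P2 j) (fun z : Ω × Ω => inner ℝ (M.X i z.1) (M.X i z.2)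
        + inner ℝ (M.X (M.L + 1) z.1 - M.X i z.1) (M.X i z.2)) := by
      obtain ⟨m1, C1, c1⟩ := bA
      obtain ⟨m2, C2, c2⟩ := bB
      exact ⟨m1.add m2, C1 + C2, fun z => (norm_add_le _ _).trans (add_le_add (c1 z) (c2 z))⟩
    have e : M.R2 = fun z : Ω × Ω => (inner ℝ (M.X i z.1) (M.X i z.2)
        + inner ℝ (M.X (M.L + 1) z.1 - M.X i z.1) (M.X i z.2))
        + inner ℝ (M.X (M.L + 1) z.1) (M.X (M.L + 1) z.2 - M.X i z.2) := by
      funext z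
      simp only [CmPath.R2, CmPath.y, inner_sub_left, inner_sub_right]
      ring
    rw [e]
    have h1 := cmN_add_le bAB bC p hp1
    have h2 := cmN_add_le bA bB p hp1
    have h3 : Q ^ 2 * (x + Γ * w0) ≤ Q ^ 2 * (1 + 2 * Γ * C0) * s := by
      have h4 : x + Γ * w0 ≤ (1 + 2 * Γ * C0) * s := by
        have : Γ * w0 ≤ Γ * (2 * C0 * s) := mul_le_mul_of_nonneg_left hw0s (by linarith)
        nlinarith
      calc _ ≤ Q ^ 2 * ((1 + 2 * Γ * C0) * s) := mul_le_mul_of_nonneg_left h4 (by positivity)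
        _ = _ := by ring
    have h5 : Ct * Q * w0 ≤ 2 * Ct * Q * C0 * s := by
      calc _ ≤ Ct * Q * (2 * C0 * s) := mul_le_mul_of_nonneg_left hw0s (by positivity)
        _ = _ := by ring
    have h6 : 0 ≤ 2 * Γ * C0 * s := by positivity
    nlinarith
  · -- macroscopic fork
    have h1 : cmN (M.P2 j) p M.R2 ≤ cmN (M.P2 j) p (fun _ : Ω × Ω => (1 : ℝ)) := by
      apply cmN_mono ⟨aestronglyMeasurable_const, 1, fun _ => by simp⟩ p
      refine Filter.Eventually.of_forall fun z => ?_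
      rw [Real.norm_eq_abs, norm_one]
      refine (abs_real_inner_le_norm _ _).trans ?_
      have a1 := hM.norm_le (M.L + 1) z.1
      have a2 := hM.norm_le (M.L + 1) z.2
      have a3 := norm_nonneg (M.X (M.L + 1) z.1)
      have a4 := norm_nonneg (M.X (M.L + 1) z.2)
      simp only [CmPath.y]
      nlinarith
    rw [cmN_const 1 p hp1, abs_one] at h1
    have h2 : 1 < Γ * w0 := not_le.1 hcase
    have h3 : Γ * w0 ≤ 2 * Γ * C0 * s := by
      calc _ ≤ Γ * (2 * C0 * s) := mul_le_mul_of_nonneg_left hw0s (by linarith)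
        _ = _ := by ring
    have h4 : 0 ≤ Q ^ 2 * (1 + 2 * Γ * C0) * s := by positivity
    have h5 : 0 ≤ 4 * Ct * Q * C0 * s := by positivity
    nlinarith

/-- replace a square root in a denominator by a lower bound -/
theorem cm5t_num3 {A X R : ℝ} (hA : 0 ≤ A) (hR : 0 < R) (h : R ^ 2 ≤ X) : A / Real.sqrt X ≤ A / R :=
  div_le_div_of_nonneg_left hA hR (Real.le_sqrt_of_sq_le h)

set_option maxHeartbeats 1000000 in
open CmPath in
/-- residual after a SHORT clock (PE Lemma 3.7, l.706-722): fork at `s` (mass in `[v,2v]`), projection at `t' = nd b1`,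
`b1 - mass s ≥ max (ηm, ϑ v/3)`; the other leaf at ANY later node `i'`. -/
theorem cm5_resid_pf (p : ℕ) (hp : Even p) (hp2 : 2 ≤ p) (Γ : ℝ) : ∃ C : ℝ, 0 < C ∧
    ∀ (n : ℕ) (Ω : Type) [MeasurableSpace Ω] (M : CmPath n Ω) (x0 um ηm : ℝ) (th sg : ℝ → ℝ) (Pi Q x : ℝ) (K : ℕ),
      M.Ok → Cm5Clk M x0 um Γ ηm th sg → M.Proj p Pi → 1 ≤ Pi → 1 ≤ Q → 0 < x → x ≤ x0 → M.Raw p Q x → 1 ≤ Γ ^ K * x0 →
      ∀ (v G ϑ b1 : ℝ) (s i' : ℕ), x0 ≤ v → v ≤ um → 0 < G → G ^ 2 ≤ n * sg v * v ^ 4 → 0 < ϑ → ϑ ≤ 1 →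
        s ≤ M.L → v ≤ M.mass s → ηm ≤ b1 - M.mass s → ϑ * v / 3 ≤ b1 - M.mass s → b1 ≤ 2 * v → s ≤ i' → i' ≤ M.L + 1 →
        cmN (M.P2 s) p (fun z : Ω × Ω => inner ℝ (M.X (M.L + 1) z.1 - M.X (M.nd b1) z.1) (M.X i' z.2))
          ≤ C * Q * v * ((K + 2) ^ 2 * Pi / (Real.sqrt ϑ * G)) := by
  obtain ⟨Ct, hCt, htbl⟩ := cm5_tbl_pf p hp hp2 Γ
  refine ⟨Ct + 6 * Real.sqrt (1 + 4 * Γ), by positivity, ?_⟩
  intro n Ω _ M x0 um ηm th sg Pi Q x K hM hClk hProj hPi hQ hx hxx0 hRaw hK v G ϑ b1 s i' hv hvu hG hG2 hϑ hϑ1 hsL hvs hη1 hη2 hb1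
    hsi' hi'
  have hp1 : 1 ≤ p := by omega
  have hΓ : 2 ≤ Γ := hClk.hΓ
  have hx0 : 0 < x0 := hClk.hx0
  have hv0 : 0 < v := hx0.trans_le hv
  have hPi0 : 0 ≤ Pi := by linarith
  have hQ0 : 0 ≤ Q := by linarith
  have := P2_prob hM s
  have := hM.prob
  set cΓ := Real.sqrt (1 + 4 * Γ) with hcΓ
  have hcΓ0 : 0 ≤ cΓ := Real.sqrt_nonneg _
  have hσ : 0 < sg v := hClk.sg_pos v hv hvu
  have hum := hClk.hum
  have hΓ4 : Γ * (4 * v) ≤ 1 := by nlinarith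
  have h4v1 : 4 * v < 1 := by nlinarith
  have hms : M.mass s ≤ 2 * v := by nlinarith [mul_pos hϑ hv0]
  have hb1pos : 0 ≤ b1 := by nlinarith [mul_pos hϑ hv0]
  set t' := M.nd b1 with ht'
  set is := M.nd (Γ * (4 * v)) with his
  have ht'L : t' ≤ M.L + 1 := (nd_le M _).trans (Nat.le_succ _)
  have hisL : is ≤ M.L + 1 := (nd_le M _).trans (Nat.le_succ _)
  have ht'is : t' ≤ is := nd_mono hM hb1pos (by nlinarith)
  have hmis : M.mass is ≤ Γ * (4 * v) := mass_nd_le hM (by positivity)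
  -- the reference denominator
  set sϑ := Real.sqrt ϑ with hsϑ
  have hsϑ0 : 0 < sϑ := Real.sqrt_pos.2 hϑ
  have hsϑ1 : sϑ ≤ 1 := by rw [hsϑ]; exact Real.sqrt_le_one.2 hϑ1
  have hsϑ2 : sϑ ^ 2 = ϑ := Real.sq_sqrt hϑ.le
  set R := sϑ * G / v with hR
  have hR0 : 0 < R := by positivity
  have hR2 : R ^ 2 * v ^ 2 = ϑ * G ^ 2 := by
    rw [hR, div_pow, mul_pow, hsϑ2]; field_simp
  have hR2' : R ^ 2 * v ^ 2 ≤ ϑ * (n * sg v * v ^ 4) := by rw [hR2]; exact mul_le_mul_of_nonneg_left hG2 hϑ.le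
  have hR2'' : R ^ 2 ≤ ϑ * (n * sg v * v ^ 2) := by
    have h1 : R ^ 2 * v ^ 2 ≤ (ϑ * (n * sg v * v ^ 2)) * v ^ 2 := by
      calc _ ≤ ϑ * (n * sg v * v ^ 4) := hR2'
        _ = _ := by ring
    exact le_of_mul_le_mul_right h1 (by positivity)
  have hnσ : 0 ≤ (n : ℝ) * sg v * v ^ 2 := by positivity
  have hth4 : sg v * v ≤ th (4 * v) :=
    (hClk.sg_th v hv hvu).trans (hClk.th_mono v (4 * v) hv (by linarith) hΓ4)
  have hth4pos : 0 < th (4 * v) := hClk.th_pos _ (by linarith)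
  have hden1 : R ^ 2 ≤ n * (4 * v) * th (4 * v) := by
    have h1 : (n : ℝ) * (4 * v) * (sg v * v) ≤ n * (4 * v) * th (4 * v) :=
      mul_le_mul_of_nonneg_left hth4 (by positivity)
    have h2 : ϑ * (n * sg v * v ^ 2) ≤ 1 * (n * sg v * v ^ 2) := mul_le_mul_of_nonneg_right hϑ1 hnσ
    nlinarith
  have hden2 : (R / 2) ^ 2 ≤ n * v * (sg v * (ϑ * v / 3)) := by
    have : (R / 2) ^ 2 = R ^ 2 / 4 := by ring
    rw [this]
    nlinarith
  have hsq : ∀ c : ℕ, c ≤ M.L + 1 → M.mass c ≤ Γ * (4 * v) → cmN M.P p (M.X c) ≤ cΓ * Q * Real.sqrt v := by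
    intro c hc hm
    have h1 := t_raw hQ0 hRaw hc hm
    have h2 : Real.sqrt (x + Γ * (4 * v)) ≤ cΓ * Real.sqrt v := by
      rw [hcΓ, ← Real.sqrt_mul (by positivity)]
      apply Real.sqrt_le_sqrt
      nlinarith
    calc _ ≤ Q * Real.sqrt (x + Γ * (4 * v)) := h1
      _ ≤ Q * (cΓ * Real.sqrt v) := mul_le_mul_of_nonneg_left h2 hQ0
      _ = _ := by ring
  set D := Q * Pi / R with hD
  have hD0 : 0 ≤ D := by positivity
  -- (α)
  have hα : cmN (M.P2 s) p (fun z : Ω × Ω => inner ℝ (M.X (M.L + 1) z.1 - M.X is z.1) (M.X i' z.2))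
      ≤ Ct * (K + 2) ^ 2 * D := by
    have h := htbl n Ω M x0 um ηm th sg Pi Q x K hM hClk hProj hPi hQ hx hxx0 hRaw hK s is (M.L + 1) i' (4 * v) hsL
      (by linarith) (by linarith) hΓ4 le_rfl hisL le_rfl hsi' hi'
    refine h.trans ?_
    have e : Ct * (K + 2) ^ 2 * Q * Pi / Real.sqrt (n * (4 * v) * th (4 * v))
        = Ct * (K + 2) ^ 2 * (Q * Pi / Real.sqrt (n * (4 * v) * th (4 * v))) := by ring
    rw [e]
    exact mul_le_mul_of_nonneg_left (cm5t_num3 (by positivity) hR0 hden1) (by positivity)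
  -- (β1)
  have hβ1 : cmN (M.P2 s) p (fun z : Ω × Ω => inner ℝ (M.X is z.1 - M.X t' z.1) (M.X (min i' is) z.2)) ≤ 4 * cΓ * D := by
    have hθ : 0 < sg v * (ϑ * v / 3) := by positivity
    have hsh := hClk.sh v hv hvu (M.mass s) (b1 - M.mass s) hvs hη1 (by linarith)
    rw [show M.mass s + (b1 - M.mass s) = b1 by ring] at hsh
    have hsh' : sg v * (ϑ * v / 3) ≤ M.hck t' - M.hck (M.nd (M.mass s)) :=
      (mul_le_mul_of_nonneg_left hη2 hσ.le).trans hsh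
    have h12 : M.nd (M.mass s) < t' := by
      by_contra hcon
      have := hM.hck_mono (not_lt.1 hcon)
      linarith
    have hτ : v ≤ M.mass (M.nd (M.mass s) + 1) :=
      hvs.trans (lt_mass_nd_succ hM (by linarith)).le
    have h := proj_fst hM hp hp1 hProj hPi0 (le_nd hM hsL le_rfl) h12 le_rfl ht'L ht'is hisL hv0 hτ hθ hsh'
      (hM.meas (min i' is)) (hM.norm_le _)
    have hγ := hsq (min i' is) ((min_le_right _ _).trans hisL) ((hM.mass_mono (min_le_right _ _)).trans hmis)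
    refine h.trans ((cm5t_num n hPi0 hQ0 hcΓ0 hv0 le_rfl hθ le_rfl hγ).trans ?_)
    have h3 := cm5t_num3 (A := Q * Pi) (by positivity) (by positivity : 0 < R / 2) hden2
    have e : Q * Pi / (R / 2) = 2 * D := by rw [hD]; field_simp
    rw [e] at h3
    calc 2 * cΓ * (Q * Pi / Real.sqrt (n * v * (sg v * (ϑ * v / 3)))) ≤ 2 * cΓ * (2 * D) :=
          mul_le_mul_of_nonneg_left h3 (by positivity)
      _ = _ := by ring
  -- (β2)
  have hβ2 : cmN (M.P2 s) p (fun z : Ω × Ω => inner ℝ (M.X is z.1 - M.X t' z.1) (M.X i' z.2 - M.X (min i' is) z.2))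
      ≤ 2 * cΓ * D := by
    by_cases hc : i' ≤ is
    · rw [min_eq_left hc]
      simp only [sub_self, inner_zero_right]
      rw [t_cmN_zero]; positivity
    · have hc' : is ≤ i' := (not_le.1 hc).le
      rw [min_eq_right hc']
      have hdy := hClk.dy (4 * v) (by linarith) hΓ4
      have hdy' : th (4 * v) ≤ M.hck is - M.hck (M.nd (4 * v)) := hdy
      have h12 : M.nd (4 * v) < is := by
        by_contra hcon
        have := hM.hck_mono (not_lt.1 hcon)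
        linarith
      have hτ : 4 * v ≤ M.mass (M.nd (4 * v) + 1) := (lt_mass_nd_succ hM h4v1).le
      have h := proj_snd hM hp hp1 hProj hPi0 (le_nd hM hsL (by linarith)) h12 le_rfl hisL hc' hi' (by positivity) hτ hth4pos hdy'
        (t_Xsub_meas hM is t') (t_Xsub_le hM _ _)
      have hγ : cmN M.P p (fun ω => M.X is ω - M.X t' ω) ≤ cΓ * Q * Real.sqrt (4 * v) := by
        have h1 := cmN_sub_le (t_bmX hM is) (t_bmX hM t') p hp1
        have h2 := hsq is hisL hmis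
        have h3 := hsq t' ht'L ((hM.mass_mono ht'is).trans hmis)
        have h4 : Real.sqrt (4 * v) = 2 * Real.sqrt v := by
          rw [Real.sqrt_mul (by norm_num), show (4 : ℝ) = 2 ^ 2 by norm_num, Real.sqrt_sq (by norm_num)]
        rw [h4]
        calc _ ≤ cmN M.P p (M.X is) + cmN M.P p (M.X t') := h1
          _ ≤ _ := by linarith
      refine h.trans ((cm5t_num n hPi0 hQ0 hcΓ0 (by positivity) le_rfl hth4pos le_rfl hγ).trans ?_)
      exact mul_le_mul_of_nonneg_left (cm5t_num3 (by positivity) hR0 hden1) (by positivity)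
  -- assembly
  have bα : CmBM (M.P2 s) (fun z : Ω × Ω => inner ℝ (M.X (M.L + 1) z.1 - M.X is z.1) (M.X i' z.2)) :=
    t_bm2 (g1 := fun ω => M.X (M.L + 1) ω - M.X is ω) (g2 := M.X i') s (t_Xsub_meas hM _ _) (hM.meas _)
      (t_Xsub_le hM _ _) (hM.norm_le _)
  have bβ1 : CmBM (M.P2 s) (fun z : Ω × Ω => inner ℝ (M.X is z.1 - M.X t' z.1) (M.X (min i' is) z.2)) :=
    t_bm2 (g1 := fun ω => M.X is ω - M.X t' ω) (g2 := M.X (min i' is)) s (t_Xsub_meas hM _ _) (hM.meas _)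
      (t_Xsub_le hM _ _) (hM.norm_le _)
  have bβ2 : CmBM (M.P2 s) (fun z : Ω × Ω => inner ℝ (M.X is z.1 - M.X t' z.1) (M.X i' z.2 - M.X (min i' is) z.2)) :=
    t_bm2 (g1 := fun ω => M.X is ω - M.X t' ω) (g2 := fun ω => M.X i' ω - M.X (min i' is) ω) s (t_Xsub_meas hM _ _)
      (t_Xsub_meas hM _ _) (t_Xsub_le hM _ _) (t_Xsub_le hM _ _)
  have bαβ : CmBM (M.P2 s) (fun z : Ω × Ω => inner ℝ (M.X (M.L + 1) z.1 - M.X is z.1) (M.X i' z.2)
      + inner ℝ (M.X is z.1 - M.X t' z.1) (M.X (min i' is) z.2)) := by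
    obtain ⟨m1, C1, c1⟩ := bα
    obtain ⟨m2, C2, c2⟩ := bβ1
    exact ⟨m1.add m2, C1 + C2, fun z => (norm_add_le _ _).trans (add_le_add (c1 z) (c2 z))⟩
  have e : (fun z : Ω × Ω => inner ℝ (M.X (M.L + 1) z.1 - M.X t' z.1) (M.X i' z.2))
      = fun z : Ω × Ω => (inner ℝ (M.X (M.L + 1) z.1 - M.X is z.1) (M.X i' z.2)
        + inner ℝ (M.X is z.1 - M.X t' z.1) (M.X (min i' is) z.2))
        + inner ℝ (M.X is z.1 - M.X t' z.1) (M.X i' z.2 - M.X (min i' is) z.2) := by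
    funext z
    simp only [inner_sub_left, inner_sub_right]
    ring
  rw [e]
  have h1 := cmN_add_le bαβ bβ2 p hp1
  have h2 := cmN_add_le bα bβ1 p hp1
  have e2 : (Ct + 6 * cΓ) * Q * v * ((K + 2) ^ 2 * Pi / (sϑ * G)) = (Ct + 6 * cΓ) * (K + 2) ^ 2 * D := by
    rw [hD, hR]; field_simp
  rw [e2]
  have hK2 : (1 : ℝ) ≤ (K + 2) ^ 2 := by
    have : (0 : ℝ) ≤ K := Nat.cast_nonneg K
    exact one_le_pow₀ (by linarith)
  have h3 : 6 * cΓ * D ≤ 6 * cΓ * D * (K + 2) ^ 2 := le_mul_of_one_le_right (by positivity) hK2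
  have e3 : (Ct + 6 * cΓ) * (K + 2) ^ 2 * D = Ct * (K + 2) ^ 2 * D + 6 * cΓ * D * (K + 2) ^ 2 := by ring
  rw [e3]
  linarith

end Claimed.Agent.R286
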