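import Claimed.Agent.R286.Cmp.P5Clk
import Claimed.Agent.R286.Cmp.P5Tbl
import Claimed.Agent.R286.Cmp.P5L8

/-!
# Row 286 (S0533), PE Section 3, package P05: CLOSED CHAIN-LEVEL FORMS + ASSEMBLY OF `exit_cmp_raw`, `exit_cmp_res`      (owner helper126; prefix `cm5r_`)

Instance chain of P05 (rulings 247 / 295): (A) Cmp/P5L8 (finite dictionary), (C+D) Cmp/P5Clk (deterministic part), abstract cores Cmp/P5Sus, P5Tbl.   THIS FILE = the rest for RAW and RES: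

* §1  `cm5r_raw`, `cm5r_raw2`, `cm5r_tbl`      the abstract cores with ALL clock hypotheses, margins and layer numbers discharged: valid for EVERY path `M` which samples the field clock `I.h`
                                               (`Cm5Smp M I.h η`), beyond a threshold in `n` and for `C0' x ≤ um`.
* §2  the chain dictionary (B): `cm5rM n b h F := cm5Sk n (ckStp 1 b h (ghPs 1 F))`;   `cm5r_nd` (`nd t` = `ghIdx` of the position after the jump at `t`), `cm5r_mass_le`, `cm5r_smp` (chains through a dyadic grid sample the clock),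
                                               `cm5r_S` (`S` at the node `nd t` ≤ `skCS (ghPosA t) + δ`, from 295's `cmk_unif_nu`), `cm5r_lim` (a bound on all fine chains passes to the tree number).
* §3  `cm5r_exit_raw` (= `exit_cmp_raw` verbatim), `cm5r_exit_res_u` (threshold `C3` BEFORE the moment order `l`: ask of 18), `cm5r_exit_res` (= `exit_cmp_res` verbatim).
-/

set_option autoImplicit false

namespace Claimed.Agent.R286

open MeasureTheory Set Filter Topology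

noncomputable section

/-! ## 1. the abstract cores on every sampled path -/

/-- **chain-level closed RAW** (PE Prop 3.4, first half) -/
theorem cm5r_raw {mlo cE D0 Tm ca ce c C C0 CS cp Pi : ℝ} (hm : 0 < mlo) (hcE : 0 < cE) (hca : 0 < ca) (hce : 0 < ce) (hc : 0 < c) (hC : 0 < C)
    (hCS : 0 < CS) (hcp : 0 < cp) (hPi : 1 ≤ Pi) (l : ℕ) (hl : 1 ≤ l) :
    ∃ (Cq : ℝ) (n0 : ℕ), 1 ≤ Cq ∧ ∀ (I : CmI) (x : ℝ), mlo ≤ I.P.m → I.Std cE D0 Tm → MonotoneOn I.h0 (Icc I.P.u0 1) → I.P.u0 ≤ x →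
      I.Loc ca ce c C C0 x → n0 ≤ I.P.n → cm5cC0 C0 * x ≤ cm5cUm c C →
      ∀ (Ω : Type) [MeasurableSpace Ω] (M : CmPath I.P.n Ω) (η : ℝ), M.Ok → M.Proj (2 * l) Pi → M.Pin l cp → 0 ≤ η →
        3 * η * cm5cG I.P (cm5cCG cE D0 ca ce C) ≤ x → Cm5Smp M I.h η →
        (∀ t, cm5cC0 C0 * x ≤ t → t ≤ 1 → M.S (M.nd t) ≤ CS * t) → M.Raw (4 * l) Cq x := by
  obtain ⟨ε, Cq, hε, hCq, H⟩ := cm5_raw_pf l hl (cm5cGam c C) (cm5cC0 C0) CS cp (cm5cUm c C) (cm5c_C0_ge C0) hCS hcp (cm5c_Um_pos c C)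
  obtain ⟨n1, h1⟩ := cm5c_margin (cE := cE) (D0 := D0) hm (cm5c_CG_pos cE D0 ca hce hC) hε Pi
  obtain ⟨n2, h2⟩ := cm5c_K (cE := cE) (D0 := D0) hcE hca
  refine ⟨Cq, max n1 n2, hCq, ?_⟩
  intro I x hmI hS hh hux hL hn hxs Ω _ M η hM hProj hPin hη hηG hSmp hSS
  have hP := hS.ok
  have hx := hL.x0
  obtain ⟨hG1, hmar⟩ := h1 I.P hP hmI (le_trans (le_max_left _ _) hn)
  have hLam := cm_Lam_ge_one hP
  have hPiL : Pi ≤ Pi * I.P.Lam ^ 2 := le_mul_of_one_le_right (by linarith) (one_le_pow₀ hLam)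
  obtain ⟨hm1, -⟩ := hmar Pi (by linarith) hPiL
  have hxx0 : x ≤ cm5cC0 C0 * x := le_mul_of_one_le_left hx.le (cm5c_C0_ge C0)
  have hηx : η ≤ x := by
    have : η * 1 ≤ η * cm5cG I.P (cm5cCG cE D0 ca ce C) := mul_le_mul_of_nonneg_left hG1 hη
    nlinarith
  have hClk := cm5c_clk hcE I hc hS hh hux hL hxs M hη hηx hSmp
  have hC0x : C0 * x ≤ 1 := by
    have := mul_le_mul_of_nonneg_right (cm5c_C0_ge' C0) hx.le
    have := cm5c_Um_le c C
    linarith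
  have hC1 : 1 ≤ C := (cm5c_reg_cC hP I.q hL.reg hC0x).2
  have hK := h2 I.P hP (le_trans (le_max_right _ _) hn) (cm5cGam c C) (cm5cC0 C0 * x) (cm5c_Gam_ge c C) (hL.xa.trans hxx0)
  refine H I.P.n Ω M _ _ _ _ _ Pi x (cm5cK I.P) hM hClk hProj hPin hPi hx hxx0 le_rfl le_rfl hK hSS ?_
  intro u hu _
  refine ⟨cm5cG I.P (cm5cCG cE D0 ca ce C), hG1, ?_, ?_, hm1⟩
  · exact cm5c_G_sg hcE hP hS.lam0 hca hce hC1 hx hL.xa hL.xe (hxx0.trans hu)
  · rw [le_div_iff₀ (by linarith)]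
    linarith [hxx0.trans hu]

/-- **chain-level closed RAW2** (PE Prop 3.4, second half) -/
theorem cm5r_raw2 {mlo cE D0 Tm ca ce c C C0 Pi Q : ℝ} (hm : 0 < mlo) (hcE : 0 < cE) (hca : 0 < ca) (hce : 0 < ce) (hc : 0 < c) (hC : 0 < C)
    (hPi : 1 ≤ Pi) (hQ : 1 ≤ Q) (p : ℕ) (hp : Even p) (hp2 : 2 ≤ p) :
    ∃ (C2 : ℝ) (n0 : ℕ), 0 < C2 ∧ ∀ (I : CmI) (x : ℝ), mlo ≤ I.P.m → I.Std cE D0 Tm → MonotoneOn I.h0 (Icc I.P.u0 1) → I.P.u0 ≤ x →
      I.Loc ca ce c C C0 x → n0 ≤ I.P.n → cm5cC0 C0 * x ≤ cm5cUm c C →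
      ∀ (Ω : Type) [MeasurableSpace Ω] (M : CmPath I.P.n Ω) (η : ℝ), M.Ok → M.Proj p Pi → 0 ≤ η → η ≤ x → Cm5Smp M I.h η → M.Raw (2 * p) Q x →
        ∀ j, j ≤ M.L → cmN (M.P2 j) p M.R2 ≤ C2 * (x + M.mass j) := by
  obtain ⟨C2, hC2, H⟩ := cm5_raw2_pf p hp hp2 (cm5cGam c C) (cm5cC0 C0) Q (cm5c_C0_ge C0) hQ
  obtain ⟨n1, h1⟩ := cm5c_margin (cE := cE) (D0 := D0) hm (cm5c_CG_pos cE D0 ca hce hC) one_pos Pi
  obtain ⟨n2, h2⟩ := cm5c_K (cE := cE) (D0 := D0) hcE hca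
  refine ⟨C2, max n1 n2, hC2, ?_⟩
  intro I x hmI hS hh hux hL hn hxs Ω _ M η hM hProj hη hηx hSmp hRaw
  have hP := hS.ok
  have hx := hL.x0
  obtain ⟨-, hmar⟩ := h1 I.P hP hmI (le_trans (le_max_left _ _) hn)
  have hLam := cm_Lam_ge_one hP
  have hPiL : Pi ≤ Pi * I.P.Lam ^ 2 := le_mul_of_one_le_right (by linarith) (one_le_pow₀ hLam)
  obtain ⟨-, hm2⟩ := hmar Pi (by linarith) hPiL
  have hxx0 : x ≤ cm5cC0 C0 * x := le_mul_of_one_le_left hx.le (cm5c_C0_ge C0)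
  have hClk := cm5c_clk hcE I hc hS hh hux hL hxs M hη hηx hSmp
  have hC0x : C0 * x ≤ 1 := by
    have := mul_le_mul_of_nonneg_right (cm5c_C0_ge' C0) hx.le
    have := cm5c_Um_le c C
    linarith
  have hC1 : 1 ≤ C := (cm5c_reg_cC hP I.q hL.reg hC0x).2
  have hK := h2 I.P hP (le_trans (le_max_right _ _) hn) (cm5cGam c C) (cm5cC0 C0 * x) (cm5c_Gam_ge c C) (hL.xa.trans hxx0)
  refine H I.P.n Ω M _ _ _ _ _ Pi x (cm5cK I.P) hM hClk hProj hPi hx hxx0 le_rfl hRaw hK ?_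
  intro w hw _
  exact hm2.trans (cm5c_G_th hcE hP hS.lam0 hca hce hC1 hx hL.xa hL.xe (hxx0.trans hw))

/-- **chain-level closed two-branch layer lemma** (PE Lemma 3.6) -/
theorem cm5r_tbl {cE D0 Tm ca ce c C C0 Pi Q : ℝ} (hcE : 0 < cE) (hca : 0 < ca) (hc : 0 < c)
    (hPi : 1 ≤ Pi) (hQ : 1 ≤ Q) (p : ℕ) (hp : Even p) (hp2 : 2 ≤ p) :
    ∃ (Ct : ℝ) (n0 : ℕ), 0 < Ct ∧ ∀ (I : CmI) (x : ℝ), I.Std cE D0 Tm → MonotoneOn I.h0 (Icc I.P.u0 1) → I.P.u0 ≤ x →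
      I.Loc ca ce c C C0 x → n0 ≤ I.P.n → cm5cC0 C0 * x ≤ cm5cUm c C →
      ∀ (Ω : Type) [MeasurableSpace Ω] (M : CmPath I.P.n Ω) (η : ℝ), M.Ok → M.Proj p Pi → 0 ≤ η → η ≤ x → Cm5Smp M I.h η → M.Raw p Q x →
        ∀ (j i1 i2 i' : ℕ) (w0 : ℝ), j ≤ M.L → cm5cC0 C0 * x ≤ w0 → 2 * M.mass j ≤ w0 → cm5cGam c C * w0 ≤ 1 →
          M.nd (cm5cGam c C * w0) ≤ i1 → i1 ≤ i2 → i2 ≤ M.L + 1 → j ≤ i' → i' ≤ M.L + 1 →
          cmN (M.P2 j) p (fun z : Ω × Ω => inner ℝ (M.X i2 z.1 - M.X i1 z.1) (M.X i' z.2))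
            ≤ Ct * I.P.Lam ^ 3 / Real.sqrt (I.P.N * I.P.e I.lam w0 * w0 ^ 2) := by
  obtain ⟨C1, hC1, H⟩ := cm5_tbl_pf p hp hp2 (cm5cGam c C)
  obtain ⟨n2, h2⟩ := cm5c_K (cE := cE) (D0 := D0) hcE hca
  have hCl := cm5c_Cl_pos cE D0
  refine ⟨16 * C1 * Q * Pi * Real.sqrt (2 * cm5cCl cE D0), n2, by positivity, ?_⟩
  intro I x hS hh hux hL hn hxs Ω _ M η hM hProj hη hηx hSmp hRaw j i1 i2 i' w0 hj hw0 hmj hΓ hi1 hi12 hi2 hji' hi'
  have hP := hS.ok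
  have hx := hL.x0
  have hLam := cm_Lam_ge_one hP
  have hxx0 : x ≤ cm5cC0 C0 * x := le_mul_of_one_le_left hx.le (cm5c_C0_ge C0)
  have hClk := cm5c_clk hcE I hc hS hh hux hL hxs M hη hηx hSmp
  have hK := h2 I.P hP hn (cm5cGam c C) (cm5cC0 C0 * x) (cm5c_Gam_ge c C) (hL.xa.trans hxx0)
  have h3 := H I.P.n Ω M _ _ _ _ _ Pi Q x (cm5cK I.P) hM hClk hProj hPi hQ hx hxx0 hRaw hK j i1 i2 i' w0 hj hw0 hmj hΓ hi1 hi12 hi2 hji' hi'
  refine h3.trans ?_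
  have hw : 0 < w0 := lt_of_lt_of_le (lt_of_lt_of_le hx hxx0) hw0
  have he := cm_e_pos I.P hS.lam0 w0
  have hN := cm_N_pos hP
  set A := I.P.N * I.P.e I.lam w0 * w0 ^ 2 with hA
  have hA0 : 0 < A := by positivity
  have e1 : (I.P.n : ℝ) * w0 * cm5cTh I.P I.lam (cm5cCl cE D0) w0 = A / (2 * cm5cCl cE D0 * I.P.Lam) := by
    unfold cm5cTh
    rw [hA]
    unfold CmCall.N
    ring
  rw [e1, Real.sqrt_div hA0.le, div_div_eq_mul_div]
  apply div_le_div_of_nonneg_right _ (Real.sqrt_nonneg A)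
  have hKle := cm5c_K_le hP
  have hK2 : ((cm5cK I.P : ℝ) + 2) ^ 2 ≤ 16 * I.P.Lam ^ 2 := by
    have h0 : (0:ℝ) ≤ (cm5cK I.P : ℝ) := Nat.cast_nonneg _
    nlinarith
  have hsq : Real.sqrt (2 * cm5cCl cE D0 * I.P.Lam) ≤ Real.sqrt (2 * cm5cCl cE D0) * I.P.Lam := by
    rw [Real.sqrt_mul (by positivity)]
    apply mul_le_mul_of_nonneg_left _ (Real.sqrt_nonneg _)
    rw [Real.sqrt_le_left (by linarith)]
    nlinarith
  calc C1 * ((cm5cK I.P : ℝ) + 2) ^ 2 * Q * Pi * Real.sqrt (2 * cm5cCl cE D0 * I.P.Lam)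
      ≤ C1 * (16 * I.P.Lam ^ 2) * Q * Pi * (Real.sqrt (2 * cm5cCl cE D0) * I.P.Lam) := by gcongr
    _ = 16 * C1 * Q * Pi * Real.sqrt (2 * cm5cCl cE D0) * I.P.Lam ^ 3 := by ring

/-! ## 2. the chain dictionary -/

/-- the path model of the chain of `(b,h)` through the positions of `F` -/
def cm5rM (n : ℕ) (b h : ℝ → ℝ) (F : Finset GhPos) : CmPath n (SkOm n) := cm5Sk n (ckStp 1 b h (ghPs 1 F))

theorem cm5r_eqns_cite : True := by
  have := @cm5rM.eq_1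
  trivial

/-- on a sorted step path the revelations of mass `≤ t` are a prefix -/
theorem cm5r_cnt (t : ℝ) : ∀ P : SkStp, P.Pairwise (fun e e' => e.m ≤ e'.m) → ∀ i, i < P.length →
    ((P.map SkInc.m).getD i 1 ≤ t ↔ i < cmkCut P t)
  | [], _, i, hi => by simp at hi
  | e :: P, hs, i, hi => by
    have hs' := List.pairwise_cons.1 hs
    unfold cmkCut
    rw [List.filter_cons]
    by_cases he : e.m ≤ t
    · simp only [he, decide_true, if_true, List.length_cons]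
      cases i with
      | zero => simp [he]
      | succ i =>
        have ih := cm5r_cnt t P hs'.2 i (by simpa using hi)
        unfold cmkCut at ih
        simp only [List.map_cons, List.getD_cons_succ]
        rw [ih]
        omega
    · have hnil : P.filter (fun e => decide (e.m ≤ t)) = [] := by
        rw [List.filter_eq_nil_iff]
        intro a ha
        simp only [decide_eq_true_eq]
        exact fun h => he ((hs'.1 a ha).trans h)
      simp only [he, decide_false, Bool.false_eq_true, if_false]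
      rw [hnil]
      simp only [List.length_nil, Nat.not_lt_zero, iff_false, not_le]
      cases i with
      | zero => simpa using he
      | succ i =>
        have hi' : i < P.length := by simpa using hi
        simp only [List.map_cons, List.getD_cons_succ]
        rw [List.getD_eq_getElem _ _ (by simpa using hi'), List.getElem_map]
        exact lt_of_lt_of_le (not_le.1 he) (hs'.1 _ (List.getElem_mem hi'))

/-- the node `nd t` of a step path = the cut at the mass `t` -/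
theorem cm5r_nd_cut (n : ℕ) (P : SkStp) (hP : SkAdm 1 P) (t : ℝ) : (cm5Sk n P).nd t = cmkCut P t := by
  classical
  have hle : cmkCut P t ≤ P.length := List.length_filter_le _ _
  unfold CmPath.nd
  rw [Nat.findGreatest_eq_iff]
  refine ⟨hle, fun h0 => ?_, fun j hj hjL => ?_⟩
  · rw [cm5_sk_mass, if_neg h0]
    exact (cm5r_cnt t P hP.1 (cmkCut P t - 1) (by omega)).2 (by omega)
  · have hjL' : j ≤ P.length := hjL
    rw [cm5_sk_mass, if_neg (by omega)]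
    intro hc
    have := (cm5r_cnt t P hP.1 (j - 1) (by omega)).1 hc
    omega

/-- **the node `nd t` of a chain** = number of positions up to the position after the jump at `t` -/
theorem cm5r_nd (n : ℕ) {b h : ℝ → ℝ} (H : CkAdm 1 b h) (F : Finset GhPos) (t : ℝ) :
    (cm5rM n b h F).nd t = ghIdx (ghPs 1 F) (ghPosA t) := by
  unfold cm5rM
  rw [cm5r_nd_cut n _ (cmk_chain_adm H F), cmk_cut_idx]

theorem cm5r_stp_length (b h : ℝ → ℝ) : ∀ (ps : List GhPos) (x y : ℝ), (skCStp 1 b h x y ps).length = ps.length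
  | [], _, _ => rfl
  | p :: ps, _, _ => by
    rw [skCStp, List.length_cons, List.length_cons, cm5r_stp_length b h ps]

theorem cm5r_L (n : ℕ) (b h : ℝ → ℝ) (F : Finset GhPos) : (cm5rM n b h F).L = (ghPs 1 F).length := by
  unfold cm5rM
  rw [cm5_sk_L]
  exact cm5r_stp_length b h _ 0 0

theorem cm5r_idx_le (n : ℕ) (b h : ℝ → ℝ) (F : Finset GhPos) (p : GhPos) : ghIdx (ghPs 1 F) p ≤ (cm5rM n b h F).L := by
  rw [cm5r_L]
  exact brg_t_idx_coe_le _ _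

theorem cm5r_ok (n : ℕ) (hn : 1 ≤ n) {b h : ℝ → ℝ} (H : CkAdm 1 b h) (F : Finset GhPos) : (cm5rM n b h F).Ok :=
  cm5_sk_ok n hn _ (cmk_chain_adm H F)

theorem cm5r_pos_le_A {p : GhPos} (hp : p.lam ≤ 1) : p ≤ ghPosA p.u :=
  (gh_os_pos_le_iff _ _).2 (Or.inr ⟨rfl, hp⟩)

/-- the node of a position has a mass `≤` the mass of the position -/
theorem cm5r_mass_le (n : ℕ) (hn : 1 ≤ n) {b h : ℝ → ℝ} (H : CkAdm 1 b h) (F : Finset GhPos) {p : GhPos} (hp : p.Ok 1) :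
    (cm5rM n b h F).mass (ghIdx (ghPs 1 F) p) ≤ p.u := by
  have hM := cm5r_ok n hn H F
  have h1 : ghIdx (ghPs 1 F) p ≤ (cm5rM n b h F).nd p.u := by
    rw [cm5r_nd n H]
    exact brg_t_idx_mono _ (WithTop.coe_le_coe.2 (cm5r_pos_le_A hp.2.2.2))
  exact (hM.mass_mono h1).trans (CmPath.mass_nd_le hM hp.1)

theorem cm5r_cumH_cons (e : SkInc) (P : SkStp) (k : ℕ) : skCumH (e :: P) (k + 1) = e.dh + skCumH P k := by
  simp [skCumH]

theorem cm5r_cumH_nonneg {P : SkStp} (hP : SkAdm 1 P) (k : ℕ) : 0 ≤ skCumH P k := by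
  unfold skCumH
  apply List.sum_nonneg
  intro x hx
  obtain ⟨e, he, rfl⟩ := List.mem_map.1 hx
  exact (hP.2 e (List.mem_of_mem_take he)).2.2.2

/-- the field clock revealed up to the position `p` is at most its value at `p` -/
theorem cm5r_cumH_le {b h : ℝ → ℝ} (hh : GhClk1 1 h) (p : GhPos) (hp : 0 ≤ p.lam) :
    ∀ (ps : List GhPos) (b0 h0 : ℝ), ps.Pairwise (· ≤ ·) → (∀ x ∈ ps, x.Ok 1) → h0 ≤ ghAt 1 h p →
      skCumH (skCStp 1 b h b0 h0 ps) (ps.filter fun x => decide (x ≤ p)).length ≤ ghAt 1 h p - h0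
  | [], _, _, _, _, h0p => by
    simp only [skCStp, skCumH, List.filter_nil, List.length_nil, List.take_nil, List.map_nil, List.sum_nil]
    linarith
  | x :: ps, b0, h0, hs, hok, h0p => by
    have hs' := List.pairwise_cons.1 hs
    rw [List.filter_cons]
    by_cases hx : x ≤ p
    · simp only [hx, decide_true, if_true, List.length_cons, skCStp]
      rw [cm5r_cumH_cons]
      have hxp := gh_os_at_mono zero_le_one hh (hok x List.mem_cons_self).2.2.2 hp hx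
      have ih := cm5r_cumH_le (b := b) hh p hp ps (ghAt 1 b x) (ghAt 1 h x) hs'.2 (fun y hy => hok y (List.mem_cons_of_mem _ hy)) hxp
      simp only
      linarith
    · have hnil : ps.filter (fun y => decide (y ≤ p)) = [] := by
        rw [List.filter_eq_nil_iff]
        intro y hy
        simp only [decide_eq_true_eq]
        exact fun h => hx ((hs'.1 y hy).trans h)
      simp only [hx, decide_false, Bool.false_eq_true, if_false]
      rw [hnil]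
      simp only [skCumH, List.length_nil, List.take_zero, List.map_nil, List.sum_nil]
      linarith

/-- the field clock revealed up to the position `p` is at least its value at every chain position `g ≤ p` -/
theorem cm5r_cumH_ge {b h : ℝ → ℝ} (H : CkAdm 1 b h) (p g : GhPos) (hgp : g ≤ p) :
    ∀ (ps : List GhPos) (b0 h0 : ℝ), ps.Pairwise (· ≤ ·) → (∀ x ∈ ps, x.Ok 1) → g ∈ ps →
      ghAt 1 h g - h0 ≤ skCumH (skCStp 1 b h b0 h0 ps) (ps.filter fun x => decide (x ≤ p)).length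
  | [], _, _, _, _, hg => by simp at hg
  | x :: ps, b0, h0, hs, hok, hg => by
    have hs' := List.pairwise_cons.1 hs
    have hokx := hok x List.mem_cons_self
    have hok' : ∀ y ∈ ps, y.Ok 1 := fun y hy => hok y (List.mem_cons_of_mem _ hy)
    have hxg : x ≤ g := by
      rcases List.mem_cons.1 hg with hgx | hgx
      · exact hgx.ge
      · exact hs'.1 g hgx
    have hx : x ≤ p := hxg.trans hgp
    rw [List.filter_cons]
    simp only [hx, decide_true, if_true, List.length_cons, skCStp]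
    rw [cm5r_cumH_cons]
    simp only
    rcases List.mem_cons.1 hg with hgx | hgx
    · subst hgx
      have hadm := sk_stp_chain_adm zero_le_one H.1 H.2 ps (ghAt 1 b g) (ghAt 1 h g) hs'.2 hok'
        (fun q hq => gh_os_at_mono zero_le_one H.1 hokx.2.2.2 (hok' q hq).2.2.1 (hs'.1 q hq))
        (fun q hq => gh_os_at_mono zero_le_one H.2 hokx.2.2.2 (hok' q hq).2.2.1 (hs'.1 q hq))
      have := cm5r_cumH_nonneg hadm (ps.filter fun x => decide (x ≤ p)).length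
      linarith
    · have ih := cm5r_cumH_ge H p g hgp ps (ghAt 1 b x) (ghAt 1 h x) hs'.2 hok' hgx
      linarith

/-- the field clock of a chain in the mass coordinate -/
theorem cm5r_H (n : ℕ) {b h : ℝ → ℝ} (H : CkAdm 1 b h) (F : Finset GhPos) (t : ℝ) :
    (cm5rM n b h F).H t = skCumH (skCStp 1 b h 0 0 (ghPs 1 F)) ((ghPs 1 F).filter fun x => decide (x ≤ ghPosA t)).length := by
  unfold CmPath.H
  rw [cm5r_nd n H, brg_t_idx_coe]
  exact cm5_sk_hck n _ _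

theorem cm5r_clamp {h : ℝ → ℝ} {s : ℝ} (h0 : 0 ≤ s) (h1 : s ≤ 1) : ghClamp 1 h s = h s := by
  unfold ghClamp
  rw [if_neg (not_lt.2 h0), min_eq_left h1]

/-- **chains through a dyadic grid sample the field clock** -/
theorem cm5r_smp (n : ℕ) {b h : ℝ → ℝ} (H : CkAdm 1 b h) (F : Finset GhPos) (k : ℕ) (hF : ghGrid 1 k ⊆ F) {η : ℝ} (hη : (1 / 2 : ℝ) ^ k ≤ η) :
    Cm5Smp (cm5rM n b h F) h η where
  lo := by
    intro s t hs hst ht
    have h2k : (0:ℝ) < 2 ^ k := by positivity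
    have hinv : (1 / 2 : ℝ) ^ k = 1 / 2 ^ k := by rw [one_div, inv_pow, one_div]
    set i : ℕ := ⌈s * 2 ^ k⌉₊ with hi
    have hi1 : s * 2 ^ k ≤ i := Nat.le_ceil _
    have hi2 : (i : ℝ) < s * 2 ^ k + 1 := Nat.ceil_lt_add_one (by positivity)
    have hg1 : s ≤ (i : ℝ) / 2 ^ k := by rw [le_div_iff₀ h2k]; exact hi1
    have hg2 : (i : ℝ) / 2 ^ k ≤ t := by
      have : (i : ℝ) / 2 ^ k < s + 1 / 2 ^ k := by
        rw [div_lt_iff₀ h2k, add_mul, one_div, inv_mul_cancel₀ h2k.ne']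
        exact hi2
      rw [hinv] at hη
      linarith
    have hi3 : i < 2 ^ k + 1 := by
      have : (i : ℝ) ≤ 2 ^ k := by
        have := hg2.trans ht
        rwa [div_le_one h2k] at this
      have : i ≤ 2 ^ k := by exact_mod_cast this
      omega
    have hmem : ghPosA ((i : ℝ) / 2 ^ k) ∈ ghPs 1 F := by
      refine gh_os_ps_mem.2 ⟨hF ?_, gh_os_posA_ok (hs.trans hg1) (hg2.trans ht)⟩
      unfold ghGrid
      exact Finset.mem_image.2 ⟨i, Finset.mem_range.2 hi3, by rw [one_mul]⟩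
    have hle : ghPosA ((i : ℝ) / 2 ^ k) ≤ ghPosA t := by
      rw [gh_os_pos_le_iff]
      rcases hg2.lt_or_eq with h' | h'
      · exact Or.inl h'
      · exact Or.inr ⟨h', le_rfl⟩
    have h1 := cm5r_cumH_ge H (ghPosA t) _ hle (ghPs 1 F) 0 0 (gh_os_ps_pairwise 1 F) (fun x hx => (gh_os_ps_mem.1 hx).2) hmem
    rw [← cm5r_H n H, sub_zero, gh_os_at_posA] at h1
    refine le_trans ?_ h1
    have hmono := gh_os_clamp_mono zero_le_one H.2
    calc h s = ghClamp 1 h s := (cm5r_clamp hs ((hg1.trans hg2).trans ht)).symm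
      _ ≤ ghClamp 1 h ((i : ℝ) / 2 ^ k) := hmono hg1
      _ ≤ Function.rightLim (ghClamp 1 h) ((i : ℝ) / 2 ^ k) := hmono.le_rightLim le_rfl
  hi := by
    intro s t ht hts hs
    have hpos : (0:ℝ) < (1 / 2 : ℝ) ^ k := by positivity
    have hlt : t < s := by linarith
    have h1 := cm5r_cumH_le (b := b) H.2 (ghPosA t) (by show (0:ℝ) ≤ 1; norm_num) (ghPs 1 F) 0 0 (gh_os_ps_pairwise 1 F)
      (fun x hx => (gh_os_ps_mem.1 hx).2) (gh_os_at_nonneg zero_le_one H.2 (by show (0:ℝ) ≤ 1; norm_num))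
    rw [← cm5r_H n H, sub_zero, gh_os_at_posA] at h1
    refine h1.trans ?_
    have hmono := gh_os_clamp_mono zero_le_one H.2
    calc Function.rightLim (ghClamp 1 h) t ≤ ghClamp 1 h s := hmono.rightLim_le hlt
      _ = h s := cm5r_clamp (ht.trans hlt.le) hs

/-- a bound on all fine chains passes to the tree number -/
theorem cm5r_lim (n : ℕ) {b h : ℝ → ℝ} (H : CkAdm 1 b h) {q : ℕ} {τ : ℕ → ℕ → WithTop GhPos} (hτ : GhIsRT 1 q τ) (T : (Fin q → SkCfg n) → ℝ)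
    (B : ℝ) (F0 : Finset GhPos) (hB : ∀ F, F0 ⊆ F → ckNuF n 1 b h q τ T (ghPs 1 F) ≤ B) : skCNu n 1 b h q τ T ≤ B := by
  have hBk : (skBase n 1).Ok := sk_stp_base_ok n one_pos
  have hτ' : GhIsRT (skBase n 1).a q τ := hτ
  have hex := gh_pt_ex_nu hBk (skPhi n) (cmk_clk_adm (n := n) H) 0 hτ' T
  rw [sk_c_nu_eq]
  refine le_of_tendsto hex ((eventually_ge_atTop F0).mono fun F hF => ?_)
  have := hB F hF
  rwa [cmk_nuF_eq] at this

/-- the trivial bound of a tree number -/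
theorem cm5r_abs (n : ℕ) {b h : ℝ → ℝ} (H : CkAdm 1 b h) {q : ℕ} {τ : ℕ → ℕ → WithTop GhPos} (hτ : GhIsRT 1 q τ) {T : (Fin q → SkCfg n) → ℝ}
    {K : ℝ} (hK : ∀ σ, |T σ| ≤ K) : |skCNu n 1 b h q τ T| ≤ K := by
  have hτ' : GhIsRT (skBase n 1).a q τ := hτ
  rw [sk_c_nu_eq]
  exact gh_pt_abs_le (sk_stp_base_ok n one_pos) (skPhi n) (cmk_clk_adm (n := n) H) 0 hτ' hK

/-- **`S` at the node `nd t` of a fine chain** -/
theorem cm5r_S (n : ℕ) (hn : 1 ≤ n) {b h : ℝ → ℝ} (H : CkAdm 1 b h) {δ : ℝ} (hδ : 0 < δ) :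
    ∃ F0 : Finset GhPos, ∀ F, F0 ⊆ F → ∀ t ∈ Icc (0:ℝ) 1, (cm5rM n b h F).S ((cm5rM n b h F).nd t) ≤ skCS n 1 b h (ghPosA t) + δ := by
  obtain ⟨F0, hF0⟩ := cmk_unif_nu n hn H 2 hδ
  refine ⟨F0, fun F hF t ht => ?_⟩
  have hok : (ghPosA t).Ok 1 := gh_os_posA_ok ht.1 ht.2
  have h1 := hF0 F hF (ghR2 (ghPosA t)) (gh_pt_star_rt 2 hok)
    (fun x y p _ _ hp => by
      unfold ghR2 at hp
      split_ifs at hp with hxy
      · exact absurd hp WithTop.top_ne_coe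
      · rw [← WithTop.coe_injective hp]; rfl)
    (fun σ => skOv (σ 0) (σ 1)) 1 (fun σ => gh_pk_ov_abs hn _ _)
  have h2 := cm5_sk_star n hn (ckStp 1 b h (ghPs 1 F)) (cmk_chain_adm H F) 1 (ghIdx (ghPs 1 F) (ghPosA t))
    (by rw [← cm5_sk_L n]; exact cm5r_idx_le n b h F _) (ghDisc (ghPs 1 F) (ghR2 (ghPosA t)))
    (fun x y hxy => by unfold ghDisc ghR2; rw [if_neg hxy]) 0
  have h3 : ckNuF n 1 b h 2 (ghR2 (ghPosA t)) (fun σ => skOv (σ 0) (σ 1)) (ghPs 1 F) = (cm5rM n b h F).S ((cm5rM n b h F).nd t) := by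
    rw [cm5r_nd n H]
    unfold CmPath.S cm5rM ckNuF
    simp only [Finset.univ_unique, Finset.prod_singleton, sub_zero, pow_one] at h2
    exact h2
  rw [h3, mul_one] at h1
  unfold skCS
  linarith [(abs_le.1 h1).2]

/-! ## 3. assembly of the exits -/

/-- **fine chains**: the sampling and `S_t ≤ CS t` hold on all chains through a suitable finite set -/
theorem cm5r_fine {mlo cE D0 Tm ca : ℝ} (hm : 0 < mlo) (hcE : 0 < cE) (hD0 : 0 < D0) (hca : 0 < ca) :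
    ∃ (Cs : ℝ) (n0 : ℕ), 0 < Cs ∧ ∀ (I : CmI) (ce c C C0 x : ℝ), mlo ≤ I.P.m → I.Std cE D0 Tm → MonotoneOn I.h0 (Icc I.P.u0 1) → I.P.u0 ≤ x → 0 ≤ C →
      I.Loc ca ce c C C0 x → n0 ≤ I.P.n → ∀ G : ℝ, 0 ≤ G → ∃ (F0 : Finset GhPos) (η : ℝ), 0 < η ∧ η ≤ x ∧ 3 * η * G ≤ x ∧ ∀ F, F0 ⊆ F →
        Cm5Smp (cm5rM I.P.n I.b I.h F) I.h η ∧
        ∀ t, cm5cC0 C0 * x ≤ t → t ≤ 1 → (cm5rM I.P.n I.b I.h F).S ((cm5rM I.P.n I.b I.h F).nd t) ≤ (2 * C + Cs + 1) * t := by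
  classical
  obtain ⟨Cs, n0, hCs, H⟩ := cm5c_S_sk (cE := cE) (D0 := D0) (mlo := mlo) (Tm := Tm) (ca := ca) hcE hD0 hm hca
  refine ⟨Cs, n0, hCs, ?_⟩
  intro I ce c C C0 x hmI hS hh hux hC hL hn G hG
  have hP := hS.ok
  have hn1 : 1 ≤ I.P.n := by have := hP.n3; omega
  have Hadm : CkAdm 1 I.b I.h := hS.adm I.q
  have hx := hL.x0
  have hx0 : 0 < cm5cC0 C0 * x := mul_pos (lt_of_lt_of_le one_pos (cm5c_C0_ge C0)) hx
  obtain ⟨F1, hF1⟩ := cm5r_S I.P.n hn1 Hadm hx0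
  have hη : 0 < x / (3 * (G + 1)) := by positivity
  obtain ⟨k, hk⟩ := exists_pow_lt_of_lt_one hη (by norm_num : (1 / 2 : ℝ) < 1)
  refine ⟨F1 ∪ ghGrid 1 k, x / (3 * (G + 1)), hη, ?_, ?_, fun F hF => ⟨?_, ?_⟩⟩
  · rw [div_le_iff₀ (by positivity)]
    nlinarith
  · have e : 3 * (x / (3 * (G + 1))) * G = x * (G / (G + 1)) := by field_simp
    rw [e]
    have : G / (G + 1) ≤ 1 := by rw [div_le_one (by positivity)]; linarith
    nlinarith
  · exact cm5r_smp I.P.n Hadm F k (Finset.union_subset_right hF) hk.le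
  · intro t ht ht1
    have h1 := hF1 F (Finset.union_subset_left hF) t ⟨hx0.le.trans ht, ht1⟩
    have h2 := H I ce c C C0 x hmI hS hh hux hC hL hn t ht ht1
    linarith

theorem cm5r_raw_mono {n : ℕ} {Ω : Type} [MeasurableSpace Ω] {M : CmPath n Ω} (hM : M.Ok) {p q : ℕ} (hp : 1 ≤ p) (hpq : p ≤ q) {Q x : ℝ}
    (h : M.Raw q Q x) : M.Raw p Q x := fun j hj => by
  have := hM.prob
  exact (cmN_exp_mono ⟨(hM.meas j).aestronglyMeasurable, 1, hM.norm_le j⟩ hp hpq).trans (h j hj)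

/-- moments of `|X_j|²` from the raw bound -/
theorem cm5r_mx_le {n : ℕ} {Ω : Type} [MeasurableSpace Ω] {M : CmPath n Ω} (hM : M.Ok) {l : ℕ} (hl : 1 ≤ l) {Q x : ℝ} (hx : 0 ≤ x)
    (hR : M.Raw (4 * l) Q x) {j : ℕ} (hj : j ≤ M.L + 1) : ∫ ω, (‖M.X j ω‖ ^ 2) ^ l ∂M.P ≤ (Q ^ 2 * (x + M.mass j)) ^ l := by
  have := hM.prob
  have hbm : CmBM M.P (M.X j) := ⟨(hM.meas j).aestronglyMeasurable, 1, hM.norm_le j⟩
  have hs : 0 ≤ x + M.mass j := by linarith [(CmPath.mass_mem hM hj).1]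
  have e1 : ∫ ω, (‖M.X j ω‖ ^ 2) ^ l ∂M.P = cmN M.P (2 * l) (M.X j) ^ (2 * l) := by
    rw [cmN_pow_eq hbm (2 * l) (by omega)]
    simp only [pow_mul]
  have e2 : (Q ^ 2 * (x + M.mass j)) ^ l = (Q * Real.sqrt (x + M.mass j)) ^ (2 * l) := by
    rw [pow_mul (Q * Real.sqrt (x + M.mass j)) 2 l, mul_pow Q, Real.sq_sqrt hs]
  rw [e1, e2]
  exact pow_le_pow_left₀ (cmN_nonneg _ _ _) ((cmN_exp_mono hbm (by omega) (by omega)).trans (hR j hj)) _

/-- moments of the overlap of two leaves -/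
theorem cm5r_mr_eq {n : ℕ} {Ω : Type} [MeasurableSpace Ω] {M : CmPath n Ω} (hM : M.Ok) {l : ℕ} (hl : 1 ≤ l) (j : ℕ) :
    ∫ z, M.R2 z ^ (2 * l) ∂M.P2 j = cmN (M.P2 j) (2 * l) M.R2 ^ (2 * l) := by
  have := CmPath.P2_prob hM j
  have hbm : CmBM (M.P2 j) M.R2 :=
    CmPath.t_bm2 (g1 := M.X (M.L + 1)) (g2 := M.X (M.L + 1)) j (hM.meas _) (hM.meas _) (hM.norm_le _) (hM.norm_le _)
  rw [cmN_pow_eq hbm (2 * l) (by omega)]
  refine integral_congr_ae (Eventually.of_forall fun z => ?_)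
  show M.R2 z ^ (2 * l) = ‖M.R2 z‖ ^ (2 * l)
  rw [Real.norm_eq_abs, pow_mul, pow_mul, sq_abs]

/-- lower bound of the scale `x` for bounded `n` -/
theorem cm5r_x_ge {cE D0 ca x : ℝ} {P : CmCall} (hcE : 0 < cE) (hca : 0 < ca) (hP : P.Ok cE D0) (hxa : ca * P.a ≤ x) {n0 : ℕ} (hn : P.n ≤ n0) :
    ca * cE / (n0 + 1) ≤ x := by
  have hN := cm_N_pos hP
  have hN1 : 1 ≤ P.N := by linarith [cm_N_ge hP]
  have h1 := cm_a_ge hcE hP
  have h2 : P.N ^ (-1 : ℝ) ≤ P.N ^ (-(1 / 6 : ℝ) + P.m) := Real.rpow_le_rpow_of_exponent_le hN1 (by linarith [hP.m0])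
  rw [Real.rpow_neg_one] at h2
  have h3 : ((n0 : ℝ) + 1)⁻¹ ≤ P.N⁻¹ := by
    apply inv_anti₀ hN
    have : P.N ≤ n0 := by unfold CmCall.N; exact_mod_cast hn
    linarith
  calc ca * cE / (n0 + 1) = ca * (cE * ((n0 : ℝ) + 1)⁻¹) := by rw [div_eq_mul_inv]; ring
    _ ≤ ca * P.a := by
        apply mul_le_mul_of_nonneg_left _ hca.le
        exact (mul_le_mul_of_nonneg_left (h3.trans h2) hcE.le).trans h1
    _ ≤ x := hxa

/-- **`exit_cmp_raw`** (PE Prop 3.4), verbatim -/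
theorem cm5r_exit_raw (mlo cE D0 Tm ca ce c C C0 : ℝ) (hm : 0 < mlo) (hcE : 0 < cE) (hD0 : 0 < D0) (_hTm : 0 < Tm) (hca : 0 < ca)
    (hce : 0 < ce) (hc : 0 < c) (hC : 0 < C) (_hC0 : 0 < C0) (l : ℕ) (hl : 1 ≤ l) :
    ∃ K : ℝ, 0 < K ∧ ∀ (I : CmI) (x : ℝ), mlo ≤ I.P.m → I.Std cE D0 Tm → MonotoneOn I.h0 (Set.Icc I.P.u0 1) → I.P.u0 ≤ x →
      I.Loc ca ce c C C0 x → ∀ p : GhPos, p.Ok 1 →
        cmkMX I.P.n I.b I.h l p ≤ (K * (p.u + x)) ^ l ∧ cmkMR I.P.n I.b I.h l p ≤ (K * (p.u + x)) ^ (2 * l) := by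
  obtain ⟨Cs, n1, hCs, hfine⟩ := cm5r_fine (Tm := Tm) hm hcE hD0 hca
  obtain ⟨Pi, hPi, hProj⟩ := cm5_sk_proj l hl
  have hcp : (0:ℝ) < 1 + (2 * l : ℝ) ^ 2 / 3 := by positivity
  obtain ⟨Cq, n2, hCq, hRaw⟩ := cm5r_raw (Tm := Tm) (D0 := D0) (C0 := C0) (CS := 2 * C + Cs + 1) hm hcE hca hce hc hC (by positivity) hcp hPi l hl
  obtain ⟨C2, n3, hC2, hRaw2⟩ := cm5r_raw2 (Tm := Tm) (D0 := D0) (C0 := C0) hm hcE hca hce hc hC hPi hCq (2 * l) (even_two_mul l) (by omega)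
  obtain ⟨n0, hn0⟩ : ∃ n0 : ℕ, n0 = max n1 (max n2 n3) := ⟨_, rfl⟩
  have hC0' : 0 < cm5cC0 C0 := lt_of_lt_of_le one_pos (cm5c_C0_ge C0)
  obtain ⟨xm, hxm⟩ : ∃ xm : ℝ, xm = min (cm5cUm c C / cm5cC0 C0) (ca * cE / (n0 + 1)) := ⟨_, rfl⟩
  have hxm0 : 0 < xm := by
    rw [hxm]
    exact lt_min (div_pos (cm5c_Um_pos c C) hC0') (by positivity)
  obtain ⟨K, hK⟩ : ∃ K : ℝ, K = max (max (Cq ^ 2) C2) (1 / xm) := ⟨_, rfl⟩
  have hK1 : Cq ^ 2 ≤ K := hK ▸ (le_max_left _ _).trans (le_max_left _ _)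
  have hK2 : C2 ≤ K := hK ▸ (le_max_right _ _).trans (le_max_left _ _)
  have hK3 : 1 / xm ≤ K := hK ▸ le_max_right _ _
  have hK0 : 0 < K := lt_of_lt_of_le (by positivity) hK3
  refine ⟨K, hK0, ?_⟩
  intro I x hmI hS hh hux hL p hp
  have hP := hS.ok
  have hn : 1 ≤ I.P.n := by have := hP.n3; omega
  have Hadm : CkAdm 1 I.b I.h := hS.adm I.q
  have hx := hL.x0
  by_cases hmain : n0 ≤ I.P.n ∧ cm5cC0 C0 * x ≤ cm5cUm c C
  · obtain ⟨hnn, hxs⟩ := hmain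
    have hnn1 : n1 ≤ I.P.n := le_trans (hn0 ▸ le_max_left _ _) hnn
    have hnn2 : n2 ≤ I.P.n := le_trans (hn0 ▸ (le_max_left _ _).trans (le_max_right _ _)) hnn
    have hnn3 : n3 ≤ I.P.n := le_trans (hn0 ▸ (le_max_right _ _).trans (le_max_right _ _)) hnn
    obtain ⟨F0, η, hη0, hηx, hηG, hF⟩ := hfine I ce c C C0 x hmI hS hh hux hC.le hL hnn1 (cm5cG I.P (cm5cCG cE D0 ca ce C)) (Real.sqrt_nonneg _)
    have key : ∀ F, F0 ⊆ F → (cm5rM I.P.n I.b I.h F).Raw (4 * l) Cq x := fun F hF' =>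
      hRaw I x hmI hS hh hux hL hnn2 hxs _ _ η (cm5r_ok _ hn Hadm F) (hProj _ _ hn (cmk_chain_adm Hadm F))
        (cm5_sk_pin _ hn _ (cmk_chain_adm Hadm F) l hl) hη0.le hηG (hF F hF').1 (hF F hF').2
    have hsum : ∀ F, x + (cm5rM I.P.n I.b I.h F).mass (ghIdx (ghPs 1 F) p) ≤ p.u + x := fun F => by
      linarith [cm5r_mass_le I.P.n hn Hadm F hp]
    have hsum0 : ∀ F, 0 ≤ x + (cm5rM I.P.n I.b I.h F).mass (ghIdx (ghPs 1 F) p) := fun F => by
      linarith [(CmPath.mass_mem (cm5r_ok _ hn Hadm F) ((cm5r_idx_le I.P.n I.b I.h F p).trans (Nat.le_succ _))).1]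
    constructor
    · unfold cmkMX
      refine cm5r_lim I.P.n Hadm (gh_pt_star_rt (2 * l) hp) _ _ F0 fun F hF' => ?_
      have h2 := cm5_sk_star I.P.n hn (ckStp 1 I.b I.h (ghPs 1 F)) (cmk_chain_adm Hadm F) l (ghIdx (ghPs 1 F) p)
        (by rw [← cm5_sk_L I.P.n]; exact cm5r_idx_le I.P.n I.b I.h F _) (ghDisc (ghPs 1 F) (cmkStar p))
        (fun x y hxy => by unfold ghDisc cmkStar ghR2; rw [if_neg hxy]) 0
      simp only [sub_zero] at h2
      refine le_trans (le_of_eq h2) ?_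
      refine (cm5r_mx_le (cm5r_ok _ hn Hadm F) hl hx.le (key F hF') ((cm5r_idx_le I.P.n I.b I.h F p).trans (Nat.le_succ _))).trans ?_
      exact pow_le_pow_left₀ (mul_nonneg (sq_nonneg _) (hsum0 F)) (mul_le_mul hK1 (hsum F) (hsum0 F) hK0.le) _
    · unfold cmkMR
      refine cm5r_lim I.P.n Hadm (gh_pt_star_rt 2 hp) _ _ F0 fun F hF' => ?_
      have h2 := cm5_sk_two I.P.n hn (ckStp 1 I.b I.h (ghPs 1 F)) (cmk_chain_adm Hadm F) (ghIdx (ghPs 1 F) p)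
        (by rw [← cm5_sk_L I.P.n]; exact cm5r_idx_le I.P.n I.b I.h F _) (ghDisc (ghPs 1 F) (cmkStar p))
        (fun x y hxy => by unfold ghDisc cmkStar ghR2; rw [if_neg hxy]) (fun r => r ^ (2 * l))
      refine le_trans (le_of_eq (h2.trans (cm5r_mr_eq (cm5r_ok I.P.n hn Hadm F) hl (ghIdx (ghPs 1 F) p)))) ?_
      have hR4 : (cm5rM I.P.n I.b I.h F).Raw (2 * (2 * l)) Cq x := by
        have e : 2 * (2 * l) = 4 * l := by ring
        rw [e]; exact key F hF'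
      have h4 := hRaw2 I x hmI hS hh hux hL hnn3 hxs _ _ η (cm5r_ok _ hn Hadm F) (hProj _ _ hn (cmk_chain_adm Hadm F)) hη0.le hηx
        (hF F hF').1 hR4 _ (cm5r_idx_le I.P.n I.b I.h F p)
      refine pow_le_pow_left₀ (cmN_nonneg _ _ _) (h4.trans ?_) _
      exact mul_le_mul hK2 (hsum F) (hsum0 F) hK0.le
  · -- the trivial cases
    have hxmx : xm ≤ x := by
      rw [hxm]
      by_cases hnn : n0 ≤ I.P.n
      · have hxs : cm5cUm c C < cm5cC0 C0 * x := not_le.1 fun h => hmain ⟨hnn, h⟩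
        refine (min_le_left _ _).trans ?_
        rw [div_le_iff₀ hC0']
        linarith
      · exact (min_le_right _ _).trans (cm5r_x_ge hcE hca hP hL.xa (not_le.1 hnn).le)
    have h1 : 1 ≤ K * (p.u + x) := by
      have h2 : 1 / xm * xm = 1 := by field_simp
      calc (1:ℝ) = 1 / xm * xm := h2.symm
        _ ≤ K * (p.u + x) := mul_le_mul hK3 (by linarith [hp.1]) hxm0.le hK0.le
    constructor
    · refine le_trans ?_ (one_le_pow₀ h1)
      unfold cmkMX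
      refine (abs_le.1 (cm5r_abs I.P.n Hadm (gh_pt_star_rt (2 * l) hp) (K := 1) fun σ => ?_)).2
      rw [Finset.abs_prod]
      exact Finset.prod_le_one (fun _ _ => abs_nonneg _) fun _ _ => gh_pk_ov_abs hn _ _
    · refine le_trans ?_ (one_le_pow₀ h1)
      unfold cmkMR
      refine (abs_le.1 (cm5r_abs I.P.n Hadm (gh_pt_star_rt 2 hp) (K := 1) fun σ => ?_)).2
      rw [abs_pow]
      exact pow_le_one₀ (abs_nonneg _) (gh_pk_ov_abs hn _ _)

/-- the real tree of PE Lemma 3.6 -/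
theorem cm5r_three_rt {pf pv : GhPos} (hf : pf.Ok 1) (hv : pv.Ok 1) (hle : pf ≤ pv) :
    GhIsRT 1 3 (fun y z => if y = z then ⊤ else if y = 2 ∨ z = 2 then (pf : WithTop GhPos) else (pv : WithTop GhPos)) where
  diag := fun x _ => by simp
  symm := fun x y _ _ => by
    by_cases hxy : x = y
    · simp [hxy]
    · simp only [hxy, Ne.symm hxy, if_false, or_comm]
  ultra := fun x y z hx hy hz => by
    have hle' : (pf : WithTop GhPos) ≤ (pv : WithTop GhPos) := WithTop.coe_le_coe.2 hle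
    interval_cases x <;> interval_cases y <;> interval_cases z <;> simp [hle']
  ok := fun x y _ _ p hp => by
    split_ifs at hp with h1 h2
    · exact absurd hp WithTop.top_ne_coe
    · rw [← WithTop.coe_injective hp]; exact hf
    · rw [← WithTop.coe_injective hp]; exact hv

set_option maxHeartbeats 1000000 in
/-- **`exit_cmp_res_u`** (PE Lemma 3.6, (16)), verbatim: the threshold `C3` is chosen before the moment order -/
theorem cm5r_exit_res_u (mlo cE D0 Tm ca ce c C C0 C1 : ℝ) (hm : 0 < mlo) (hcE : 0 < cE) (hD0 : 0 < D0) (_hTm : 0 < Tm) (hca : 0 < ca)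
    (hce : 0 < ce) (hc : 0 < c) (hC : 0 < C) (_hC0 : 0 < C0) (hC1 : 0 < C1) :
    ∃ C3 : ℝ, 0 < C3 ∧ ∀ l : ℕ, 1 ≤ l → ∃ K : ℝ, 0 < K ∧
      ∀ (I : CmI) (x x1 : ℝ), mlo ≤ I.P.m → I.Std cE D0 Tm → MonotoneOn I.h0 (Set.Icc I.P.u0 1) → I.P.u0 ≤ x →
      I.Loc ca ce c C C0 x → x ≤ x1 → ∀ pf pv : GhPos, pf.Ok 1 → pv.Ok 1 → pf.u ≤ C1 * x1 → C3 * x1 ≤ pv.u →
        skCNu I.P.n 1 I.b I.h 3
            (fun y z => if y = z then ⊤ else if y = 2 ∨ z = 2 then (pf : WithTop GhPos) else (pv : WithTop GhPos))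
            (fun σ => (skOv (σ 0) (σ 2) - skOv (σ 1) (σ 2)) ^ (2 * l))
          ≤ (K * I.P.Lam ^ 5 / Real.sqrt (I.P.N * I.P.e I.lam pv.u * pv.u ^ 2)) ^ (2 * l) := by
  have hΓ := cm5c_Gam_ge c C
  have hC0' : 0 < cm5cC0 C0 := lt_of_lt_of_le one_pos (cm5c_C0_ge C0)
  have hum := cm5c_Um_pos c C
  obtain ⟨Γ, hΓd⟩ : ∃ Γ : ℝ, Γ = cm5cGam c C := ⟨_, rfl⟩
  rw [← hΓd] at hΓ
  have hΓ0 : 0 < Γ := by linarith
  refine ⟨4 * Γ * C1 + 2 * Γ * cm5cC0 C0 + cm5cC0 C0 / cm5cUm c C, by positivity, ?_⟩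
  intro l hl
  obtain ⟨Cs, n1, hCs, hfine⟩ := cm5r_fine (Tm := Tm) hm hcE hD0 hca
  obtain ⟨Pi, hPi, hProj⟩ := cm5_sk_proj l hl
  have hcp : (0:ℝ) < 1 + (2 * l : ℝ) ^ 2 / 3 := by positivity
  obtain ⟨Cq, n2, hCq, hRaw⟩ := cm5r_raw (Tm := Tm) (D0 := D0) (C0 := C0) (CS := 2 * C + Cs + 1) hm hcE hca hce hc hC (by positivity) hcp hPi l hl
  obtain ⟨Ct, n3, hCt, hTbl⟩ := cm5r_tbl (Tm := Tm) (D0 := D0) (ce := ce) (C := C) (C0 := C0) hcE hca hc hPi hCq (2 * l) (even_two_mul l) (by omega)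
  obtain ⟨n0, hn0⟩ : ∃ n0 : ℕ, n0 = max n1 (max n2 n3) := ⟨_, rfl⟩
  obtain ⟨K, hK⟩ : ∃ K : ℝ, K = max (4 * Γ * Ct) (2 * Real.sqrt (n0 * D0 ^ 2) + 1) := ⟨_, rfl⟩
  have hK1 : 4 * Γ * Ct ≤ K := hK ▸ le_max_left _ _
  have hK2 : 2 * Real.sqrt (n0 * D0 ^ 2) + 1 ≤ K := hK ▸ le_max_right _ _
  have hK0 : 0 < K := lt_of_lt_of_le (by positivity) hK1
  refine ⟨K, hK0, ?_⟩
  intro I x x1 hmI hS hh hux hL hxx1 pf pv hpf hpv hpf1 hpv1
  have hP := hS.ok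
  have hn : 1 ≤ I.P.n := by have := hP.n3; omega
  have Hadm : CkAdm 1 I.b I.h := hS.adm I.q
  have hx := hL.x0
  have hx1 : 0 < x1 := lt_of_lt_of_le hx hxx1
  have hLam := cm_Lam_ge_one hP
  have hN := cm_N_pos hP
  obtain ⟨v, hv⟩ : ∃ v : ℝ, v = pv.u := ⟨_, rfl⟩
  rw [← hv] at hpv1 ⊢
  have hv1 : v ≤ 1 := hv ▸ hpv.2.1
  have hq0 : 0 ≤ cm5cC0 C0 / cm5cUm c C := by positivity
  have ha : 4 * Γ * C1 * x1 ≤ v := by
    have : 0 ≤ (2 * Γ * cm5cC0 C0 + cm5cC0 C0 / cm5cUm c C) * x1 := by positivity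
    linarith
  have hb : 2 * Γ * cm5cC0 C0 * x ≤ v := by
    have h1 : 0 ≤ (4 * Γ * C1 + cm5cC0 C0 / cm5cUm c C) * x1 := by positivity
    have h2 : 2 * Γ * cm5cC0 C0 * x ≤ 2 * Γ * cm5cC0 C0 * x1 := mul_le_mul_of_nonneg_left hxx1 (by positivity)
    linarith
  have hcc : cm5cC0 C0 / cm5cUm c C * x ≤ v := by
    have h1 : 0 ≤ (4 * Γ * C1 + 2 * Γ * cm5cC0 C0) * x1 := by positivity
    have h2 : cm5cC0 C0 / cm5cUm c C * x ≤ cm5cC0 C0 / cm5cUm c C * x1 := mul_le_mul_of_nonneg_left hxx1 hq0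
    linarith
  have hv0 : 0 < v := lt_of_lt_of_le (by positivity) ha
  have hxs : cm5cC0 C0 * x ≤ cm5cUm c C := by
    have h1 : cm5cC0 C0 / cm5cUm c C * x ≤ 1 := hcc.trans hv1
    rw [div_mul_eq_mul_div, div_le_one hum] at h1
    exact h1
  have hlt : pf.u < pv.u := by
    rw [← hv]
    have : C1 * x1 < 4 * Γ * C1 * x1 := by
      have h0 : 0 < C1 * x1 := by positivity
      have h1 : 1 * (C1 * x1) < 4 * Γ * (C1 * x1) := mul_lt_mul_of_pos_right (by linarith) h0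
      linarith
    linarith
  have hle : pf ≤ pv := (gh_os_pos_le_iff _ _).2 (Or.inl hlt)
  have hτ := cm5r_three_rt hpf hpv hle
  have hev := cm_e_pos I.P hS.lam0 v
  have hAv : 0 < I.P.N * I.P.e I.lam v * v ^ 2 := by positivity
  have hsAv : 0 < Real.sqrt (I.P.N * I.P.e I.lam v * v ^ 2) := Real.sqrt_pos.2 hAv
  by_cases hnn : n0 ≤ I.P.n
  · have hnn1 : n1 ≤ I.P.n := le_trans (hn0 ▸ le_max_left _ _) hnn
    have hnn2 : n2 ≤ I.P.n := le_trans (hn0 ▸ (le_max_left _ _).trans (le_max_right _ _)) hnn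
    have hnn3 : n3 ≤ I.P.n := le_trans (hn0 ▸ (le_max_right _ _).trans (le_max_right _ _)) hnn
    obtain ⟨F0, η, hη0, hηx, hηG, hF⟩ := hfine I ce c C C0 x hmI hS hh hux hC.le hL hnn1 (cm5cG I.P (cm5cCG cE D0 ca ce C)) (Real.sqrt_nonneg _)
    refine cm5r_lim I.P.n Hadm hτ _ _ F0 fun F hF' => ?_
    have hM := cm5r_ok I.P.n hn Hadm F
    have hadm := cmk_chain_adm Hadm F
    have hraw : (cm5rM I.P.n I.b I.h F).Raw (4 * l) Cq x :=
      hRaw I x hmI hS hh hux hL hnn2 hxs _ _ η hM (hProj _ _ hn hadm) (cm5_sk_pin _ hn _ hadm l hl) hη0.le hηG (hF F hF').1 (hF F hF').2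
    have hLen : (ckStp 1 I.b I.h (ghPs 1 F)).length = (cm5rM I.P.n I.b I.h F).L := rfl
    have h3 := cm5_sk_three I.P.n hn (ckStp 1 I.b I.h (ghPs 1 F)) hadm (ghIdx (ghPs 1 F) pf) (ghIdx (ghPs 1 F) pv)
      (brg_t_idx_mono _ (WithTop.coe_le_coe.2 hle)) (by rw [hLen]; exact cm5r_idx_le I.P.n I.b I.h F _)
      (ghDisc (ghPs 1 F) (fun y z => if y = z then ⊤ else if y = 2 ∨ z = 2 then (pf : WithTop GhPos) else (pv : WithTop GhPos)))
      (by simp [ghDisc]) (by simp [ghDisc]) (by simp [ghDisc]) (by simp [ghDisc]) (by simp [ghDisc]) (by simp [ghDisc]) l hl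
    refine le_trans h3 ?_
    have h4 := hTbl I x hS hh hux hL hnn3 hxs _ (cm5rM I.P.n I.b I.h F) η hM (hProj _ _ hn hadm) hη0.le hηx (hF F hF').1
      (cm5r_raw_mono hM (by omega) (by omega) hraw) (ghIdx (ghPs 1 F) pf) (ghIdx (ghPs 1 F) pv) ((cm5rM I.P.n I.b I.h F).L + 1)
      ((cm5rM I.P.n I.b I.h F).L + 1) (v / (2 * Γ)) (cm5r_idx_le I.P.n I.b I.h F _)
      (by rw [le_div_iff₀ (by positivity)]; linarith)
      (by
        have h5 := (cm5r_mass_le I.P.n hn Hadm F hpf).trans hpf1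
        have h6 := mul_le_mul_of_nonneg_left h5 (by positivity : (0:ℝ) ≤ 4 * Γ)
        rw [le_div_iff₀ (by positivity)]
        linarith)
      (by
        rw [← hΓd]
        have : Γ * (v / (2 * Γ)) = v / 2 := by field_simp
        rw [this]; linarith)
      (by
        rw [← hΓd]
        have : Γ * (v / (2 * Γ)) = v / 2 := by field_simp
        rw [this, cm5r_nd I.P.n Hadm]
        refine brg_t_idx_mono _ (WithTop.coe_le_coe.2 ((gh_os_pos_le_iff _ _).2 (Or.inl ?_)))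
        show v / 2 < pv.u
        rw [← hv]; linarith)
      ((cm5r_idx_le I.P.n I.b I.h F _).trans (Nat.le_succ _)) le_rfl
      ((cm5r_idx_le I.P.n I.b I.h F _).trans (Nat.le_succ _)) le_rfl
    refine pow_le_pow_left₀ (mul_nonneg zero_le_two (cmN_nonneg _ _ _)) ?_ _
    refine (mul_le_mul_of_nonneg_left h4 zero_le_two).trans ?_
    -- numerics
    have hw : 0 < v / (2 * Γ) := by positivity
    have hwv : v / (2 * Γ) ≤ v := by
      rw [div_le_iff₀ (by positivity)]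
      have := mul_le_mul_of_nonneg_left (by linarith : (1:ℝ) ≤ 2 * Γ) hv0.le
      linarith
    have he2 : I.P.e I.lam v ≤ I.P.e I.lam (v / (2 * Γ)) := cm_e_anti I.P hP.d0 hS.lam0.le hwv
    have hs : Real.sqrt (I.P.N * I.P.e I.lam v * v ^ 2) ≤ 2 * Γ * Real.sqrt (I.P.N * I.P.e I.lam (v / (2 * Γ)) * (v / (2 * Γ)) ^ 2) := by
      have e : (2 * Γ) ^ 2 * (I.P.N * I.P.e I.lam (v / (2 * Γ)) * (v / (2 * Γ)) ^ 2) = I.P.N * I.P.e I.lam (v / (2 * Γ)) * v ^ 2 := by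
        field_simp
      have e' : 2 * Γ * Real.sqrt (I.P.N * I.P.e I.lam (v / (2 * Γ)) * (v / (2 * Γ)) ^ 2)
          = Real.sqrt ((2 * Γ) ^ 2 * (I.P.N * I.P.e I.lam (v / (2 * Γ)) * (v / (2 * Γ)) ^ 2)) := by
        rw [Real.sqrt_mul (by positivity : (0:ℝ) ≤ (2 * Γ) ^ 2), Real.sqrt_sq (by positivity)]
      rw [e', e]
      apply Real.sqrt_le_sqrt
      gcongr
    have hs0 : 0 < Real.sqrt (I.P.N * I.P.e I.lam (v / (2 * Γ)) * (v / (2 * Γ)) ^ 2) := by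
      have := cm_e_pos I.P hS.lam0 (v / (2 * Γ))
      exact Real.sqrt_pos.2 (by positivity)
    rw [← mul_div_assoc, div_le_div_iff₀ hs0 hsAv]
    have hL35 : I.P.Lam ^ 3 ≤ I.P.Lam ^ 5 := pow_le_pow_right₀ hLam (by norm_num)
    calc 2 * (Ct * I.P.Lam ^ 3) * Real.sqrt (I.P.N * I.P.e I.lam v * v ^ 2)
        ≤ 2 * (Ct * I.P.Lam ^ 5) * (2 * Γ * Real.sqrt (I.P.N * I.P.e I.lam (v / (2 * Γ)) * (v / (2 * Γ)) ^ 2)) := by gcongr
      _ = 4 * Γ * Ct * I.P.Lam ^ 5 * Real.sqrt (I.P.N * I.P.e I.lam (v / (2 * Γ)) * (v / (2 * Γ)) ^ 2) := by ring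
      _ ≤ K * I.P.Lam ^ 5 * Real.sqrt (I.P.N * I.P.e I.lam (v / (2 * Γ)) * (v / (2 * Γ)) ^ 2) := by gcongr
  · -- bounded `n`
    have hnle : I.P.N ≤ n0 := by unfold CmCall.N; exact_mod_cast (not_le.1 hnn).le
    have h1 : (2:ℝ) ≤ K * I.P.Lam ^ 5 / Real.sqrt (I.P.N * I.P.e I.lam v * v ^ 2) := by
      rw [le_div_iff₀ hsAv]
      have h2 : Real.sqrt (I.P.N * I.P.e I.lam v * v ^ 2) ≤ Real.sqrt (n0 * D0 ^ 2) := by
        apply Real.sqrt_le_sqrt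
        have e1 : I.P.e I.lam v ≤ D0 ^ 2 :=
          (cm_e_le I.P hS.lam0.le v).trans (hS.lam1.trans (pow_le_pow_left₀ hP.d0.le hP.d1 2))
        have e2 : v ^ 2 ≤ 1 := pow_le_one₀ hv0.le hv1
        calc I.P.N * I.P.e I.lam v * v ^ 2 ≤ n0 * D0 ^ 2 * 1 := by gcongr
          _ = n0 * D0 ^ 2 := mul_one _
      have h3 : (1:ℝ) ≤ I.P.Lam ^ 5 := one_le_pow₀ hLam
      have h4 : K ≤ K * I.P.Lam ^ 5 := le_mul_of_one_le_right hK0.le h3
      linarith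
    refine le_trans ?_ (pow_le_pow_left₀ zero_le_two h1 _)
    refine (abs_le.1 (cm5r_abs I.P.n Hadm hτ (K := 2 ^ (2 * l)) fun σ => ?_)).2
    rw [abs_pow]
    refine pow_le_pow_left₀ (abs_nonneg _) ?_ _
    have a1 := abs_le.1 (gh_pk_ov_abs hn (σ 0) (σ 2))
    have a2 := abs_le.1 (gh_pk_ov_abs hn (σ 1) (σ 2))
    rw [abs_le]
    constructor <;> linarith [a1.1, a1.2, a2.1, a2.2]

end

end Claimed.Agent.R286
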