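import Claimed.Agent.R286.Cmp.Num
import Claimed.Agent.R286.Tool.Pot106

/-!
# Row 286, PE Section 3 (package P04): THE GEOMETRY OF A POTENTIAL (PE Lemma 3.3, second part)      (architect + OWNER helper106; prefix `cm4g_`)

ABSTRACT core of "contact, cap, floor", in RADIUS coordinates: `S`, `B` nondecreasing, `0 ≤ S`, `S² ≤ B`, slope `p` nondecreasing continuous in `[0,1)`,
`e, J > 0`, potential `H` with `H' = J e Br(p, r, S, B)` on `[ρ0,ρ1]`, `0 ≤ ρ0`, `S ≤ ρ1`, `B ≤ ρ1²`.      No minimiser, no class, no spin system.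
Serves PE (9), (10), LL (C6), and (with `p = 0`) PE l.623-635 of profile.tex and LL 06 l.191-207.

* `Cm4g ρ0 ρ1 S B p e J H`      the hypotheses;      `Cm4gCap ρ0 ρ1 H rL rR`      a maximal interval of `{H < 0}`.
* `cm4g_H_cont`, `cm4g_cap_ex`      continuity of `H`, the cap around a point of `{H < 0}`.
* `cm4g_cap_data`      THE KEY: the one-sided limits `SL, BL` (right limits at `rL`), `SR, BR` (left limits at `rR`) with the two endpoint signs.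
* `cm4g_cap_S_le`, `cm4g_cap_dS`, `cm4g_cap_dS_init`, `cm4g_cap_mis`, `cm4g_cap_mis_init`, `cm4g_cap_p0`      = (10).
* `cm4g_contact`, `cm4g_contact_deriv`      = (9).
Second part (feasible quantiles `q : CmQ P`): `cm4g_al_lip`, `cm4g_al_ftc`, `cm4g_al_cov` (change of variables mass/radius), `cm4g_flow`, `cm4g_len`, `cm4g_len_band`, `cm4g_floor`.
-/

set_option autoImplicit false

namespace Claimed.Agent.R286

open MeasureTheory Set Filter Topology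

/-- **the abstract hypotheses of the geometry**, radius coordinates -/
structure Cm4g (ρ0 ρ1 : ℝ) (S B p e J H : ℝ → ℝ) : Prop where
  h0 : 0 ≤ ρ0
  h01 : ρ0 < ρ1
  S_mono : MonotoneOn S (Icc ρ0 ρ1)
  B_mono : MonotoneOn B (Icc ρ0 ρ1)
  S_nonneg : ∀ r ∈ Icc ρ0 ρ1, 0 ≤ S r
  S_sq : ∀ r ∈ Icc ρ0 ρ1, S r ^ 2 ≤ B r
  S_le : ∀ r ∈ Icc ρ0 ρ1, S r ≤ ρ1
  B_le : ∀ r ∈ Icc ρ0 ρ1, B r ≤ ρ1 ^ 2
  p_mono : MonotoneOn p (Icc ρ0 ρ1)
  p_nonneg : ∀ r ∈ Icc ρ0 ρ1, 0 ≤ p r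
  p_lt : ∀ r ∈ Icc ρ0 ρ1, p r < 1
  p_cont : ContinuousOn p (Icc ρ0 ρ1)
  e_pos : ∀ r ∈ Icc ρ0 ρ1, 0 < e r
  J_pos : ∀ r ∈ Icc ρ0 ρ1, 0 < J r
  int : IntervalIntegrable (fun x => J x * (e x * cmBr (p x) x (S x) (B x))) volume ρ0 ρ1
  H_sub : ∀ r1 ∈ Icc ρ0 ρ1, ∀ r2 ∈ Icc ρ0 ρ1, H r2 - H r1 = ∫ x in r1..r2, J x * (e x * cmBr (p x) x (S x) (B x))

/-- a cap: a maximal interval of `{H < 0}` -/
def Cm4gCap (ρ0 ρ1 : ℝ) (H : ℝ → ℝ) (rL rR : ℝ) : Prop :=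
  ρ0 ≤ rL ∧ rL < rR ∧ rR ≤ ρ1 ∧ (∀ r ∈ Ioo rL rR, H r < 0) ∧ (rL = ρ0 ∨ H rL = 0) ∧ (rR = ρ1 ∨ H rR = 0)

theorem cm4g_eqns_cite : True := by
  have := @Cm4gCap.eq_1
  trivial

variable {ρ0 ρ1 : ℝ} {S B p e J H : ℝ → ℝ}

theorem cm4g_H_sub' (D : Cm4g ρ0 ρ1 S B p e J H) (s t : ℝ) (hs : ρ0 ≤ s) (hst : s ≤ t) (ht : t ≤ ρ1) :
    H t - H s = ∫ x in s..t, J x * (e x * cmBr (p x) x (S x) (B x)) :=
  D.H_sub s ⟨hs, hst.trans ht⟩ t ⟨hs.trans hst, ht⟩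

theorem cm4g_H_cont (D : Cm4g ρ0 ρ1 S B p e J H) : ContinuousOn H (Icc ρ0 ρ1) := by
  have h1 : ContinuousOn (fun t => H ρ0 + ∫ x in ρ0..t, J x * (e x * cmBr (p x) x (S x) (B x))) (Icc ρ0 ρ1) := by
    have := intervalIntegral.continuousOn_primitive_interval (μ := volume)
      (f := fun x => J x * (e x * cmBr (p x) x (S x) (B x))) (a := ρ0) (b := ρ1)
      (by rw [uIcc_of_le D.h01.le]; exact (intervalIntegrable_iff_integrableOn_Icc_of_le D.h01.le).1 D.int)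
    rw [uIcc_of_le D.h01.le] at this
    exact continuousOn_const.add this
  refine h1.congr ?_
  intro t ht
  have := D.H_sub ρ0 ⟨le_rfl, D.h01.le⟩ t ht
  simp only
  linarith

/-- every point of `{H < 0}` lies in a cap -/
theorem cm4g_cap_ex (D : Cm4g ρ0 ρ1 S B p e J H) {r : ℝ} (hr : r ∈ Icc ρ0 ρ1) (hH : H r < 0) :
    ∃ rL rR, Cm4gCap ρ0 ρ1 H rL rR ∧ r ∈ Icc rL rR := by
  obtain ⟨rL, rR, a1, a2, a3, a4, a5, a6, a7⟩ := tl_106_comp (cm4g_H_cont D) hr hH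
  refine ⟨rL, rR, ⟨a1, ?_, a4, fun t ht => a5 t ht.1 ht.2, ?_, ?_⟩, a2, a3⟩
  · rcases a6 with ⟨h1, -⟩ | ⟨h1, -⟩
    · exact lt_of_lt_of_le h1 a3
    · rcases a7 with ⟨h2, -⟩ | ⟨h2, -⟩
      · exact lt_of_le_of_lt a2 h2
      · rw [h1, h2]; exact D.h01
  · rcases a6 with ⟨-, h1⟩ | ⟨h1, -⟩
    · exact Or.inr h1
    · exact Or.inl h1
  · rcases a7 with ⟨-, h1⟩ | ⟨h1, -⟩
    · exact Or.inr h1
    · exact Or.inl h1

/-- continuity of the bracket -/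
theorem cm4g_br_tendsto {l : Filter ℝ} {p S B : ℝ → ℝ} {p0 r0 S0 B0 : ℝ} (hr0 : r0 ≠ 0) (hp : Tendsto p l (𝓝 p0))
    (hr : Tendsto (fun x : ℝ => x) l (𝓝 r0)) (hS : Tendsto S l (𝓝 S0)) (hB : Tendsto B l (𝓝 B0)) :
    Tendsto (fun x => cmBr (p x) x (S x) (B x)) l (𝓝 (cmBr p0 r0 S0 B0)) := by
  unfold cmBr
  exact (((tendsto_const_nhds.sub hp).mul hr).sub ((tendsto_const_nhds.mul (tendsto_const_nhds.sub hp)).mul hS)).sub ((hp.mul hB).div hr hr0)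

/-- the bracket is nonnegative when `S ≤ r`, `B ≤ r²` -/
theorem cm4g_br_end {p r S B : ℝ} (hr : 0 < r) (hp0 : 0 ≤ p) (hp1 : p < 1) (hS : S ≤ r) (hB : B ≤ r ^ 2) : 0 ≤ cmBr p r S B := by
  unfold cmBr
  have h1 : p * B / r ≤ p * r := by
    rw [div_le_iff₀ hr]
    nlinarith
  nlinarith

/-- **the one-sided limits at the ends of a cap and the two endpoint signs** -/
theorem cm4g_cap_data (D : Cm4g ρ0 ρ1 S B p e J H) {rL rR : ℝ} (hI : Cm4gCap ρ0 ρ1 H rL rR) :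
    ∃ SL SR BL BR : ℝ, (∀ s ∈ Ioo rL rR, SL ≤ S s ∧ S s ≤ SR ∧ BL ≤ B s ∧ B s ≤ BR) ∧ 0 ≤ SL ∧ SL ^ 2 ≤ BL ∧ SR ^ 2 ≤ BR ∧
      0 ≤ cmBr (p rR) rR SR BR ∧ (ρ0 < rL → cmBr (p rL) rL SL BL ≤ 0) := by
  obtain ⟨h1, h2, h3, h4, h5, h6⟩ := hI
  have hsub : Ioo rL rR ⊆ Icc ρ0 ρ1 := fun x hx => ⟨h1.trans hx.1.le, hx.2.le.trans h3⟩
  have hne : (Ioo rL rR).Nonempty := nonempty_Ioo.2 h2
  have hrR0 : 0 < rR := lt_of_le_of_lt (D.h0.trans h1) h2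
  have hL : rL ∈ Icc ρ0 ρ1 := ⟨h1, h2.le.trans h3⟩
  have hR : rR ∈ Icc ρ0 ρ1 := ⟨h1.trans h2.le, h3⟩
  have bS1 : BddBelow (S '' Ioo rL rR) := ⟨0, by rintro _ ⟨x, hx, rfl⟩; exact D.S_nonneg x (hsub hx)⟩
  have bS2 : BddAbove (S '' Ioo rL rR) := ⟨ρ1, by rintro _ ⟨x, hx, rfl⟩; exact D.S_le x (hsub hx)⟩
  have bB1 : BddBelow (B '' Ioo rL rR) := ⟨0, by
    rintro _ ⟨x, hx, rfl⟩; exact (sq_nonneg _).trans (D.S_sq x (hsub hx))⟩
  have bB2 : BddAbove (B '' Ioo rL rR) := ⟨ρ1 ^ 2, by rintro _ ⟨x, hx, rfl⟩; exact D.B_le x (hsub hx)⟩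
  have tSL := (D.S_mono.mono hsub).tendsto_nhdsWithin_Ioo_right hne bS1
  have tBL := (D.B_mono.mono hsub).tendsto_nhdsWithin_Ioo_right hne bB1
  have tSR := (D.S_mono.mono hsub).tendsto_nhdsWithin_Ioo_left hne bS2
  have tBR := (D.B_mono.mono hsub).tendsto_nhdsWithin_Ioo_left hne bB2
  have evL : ∀ᶠ x in 𝓝[>] rL, x ∈ Ioo rL rR := Ioo_mem_nhdsGT h2
  have evR : ∀ᶠ x in 𝓝[<] rR, x ∈ Ioo rL rR := Ioo_mem_nhdsLT h2
  have tpL : Tendsto p (𝓝[>] rL) (𝓝 (p rL)) := by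
    have : 𝓝[>] rL ≤ 𝓝[Icc ρ0 ρ1] rL := by
      rw [← nhdsWithin_Ioo_eq_nhdsGT h2]
      exact nhdsWithin_mono _ hsub
    exact (D.p_cont rL hL).mono_left this
  have tpR : Tendsto p (𝓝[<] rR) (𝓝 (p rR)) := by
    have : 𝓝[<] rR ≤ 𝓝[Icc ρ0 ρ1] rR := by
      rw [← nhdsWithin_Ioo_eq_nhdsLT h2]
      exact nhdsWithin_mono _ hsub
    exact (D.p_cont rR hR).mono_left this
  have hHs : ∀ s t : ℝ, rL ≤ s → s ≤ t → t ≤ rR → H t - H s = ∫ x in s..t, (J x * e x) * cmBr (p x) x (S x) (B x) := by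
    intro s t hs hst ht
    rw [cm4g_H_sub' D s t (h1.trans hs) hst (ht.trans h3)]
    simp only [mul_assoc]
  have hJe : ∀ x ∈ Ioo rL rR, 0 ≤ J x * e x := fun x hx => (mul_pos (D.J_pos x (hsub hx)) (D.e_pos x (hsub hx))).le
  refine ⟨sInf (S '' Ioo rL rR), sSup (S '' Ioo rL rR), sInf (B '' Ioo rL rR), sSup (B '' Ioo rL rR), ?_, ?_, ?_, ?_, ?_, ?_⟩
  · intro s hs
    exact ⟨csInf_le bS1 (mem_image_of_mem _ hs), le_csSup bS2 (mem_image_of_mem _ hs), csInf_le bB1 (mem_image_of_mem _ hs),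
      le_csSup bB2 (mem_image_of_mem _ hs)⟩
  · apply le_csInf (hne.image _)
    rintro _ ⟨x, hx, rfl⟩
    exact D.S_nonneg x (hsub hx)
  · refine le_of_tendsto_of_tendsto (tSL.pow 2) tBL ?_
    filter_upwards [evL] with x hx using D.S_sq x (hsub hx)
  · refine le_of_tendsto_of_tendsto (tSR.pow 2) tBR ?_
    filter_upwards [evR] with x hx using D.S_sq x (hsub hx)
  · rcases h6 with h6 | h6
    · apply cm4g_br_end hrR0 (D.p_nonneg rR hR) (D.p_lt rR hR)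
      · apply csSup_le (hne.image _)
        rintro _ ⟨x, hx, rfl⟩
        rw [h6]; exact D.S_le x (hsub hx)
      · apply csSup_le (hne.image _)
        rintro _ ⟨x, hx, rfl⟩
        rw [h6]; exact D.B_le x (hsub hx)
    · exact tl_106_sign_right h2 hHs hJe h6.ge (fun t a b => h4 t ⟨a, b⟩)
        (cm4g_br_tendsto hrR0.ne' tpR (tendsto_id.mono_left nhdsWithin_le_nhds) tSR tBR)
  · intro hni
    have hrL0 : 0 < rL := lt_of_le_of_lt D.h0 hni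
    have hHL : H rL = 0 := by
      rcases h5 with h5 | h5
      · exact absurd h5 hni.ne'
      · exact h5
    exact tl_106_sign_left h2 hHs hJe hHL.ge (fun t a b => h4 t ⟨a, b⟩)
      (cm4g_br_tendsto hrL0.ne' tpL (tendsto_id.mono_left nhdsWithin_le_nhds) tSL tBL)

/-! ### (10): caps -/

section cap

variable (D : Cm4g ρ0 ρ1 S B p e J H) {rL rR : ℝ} (hI : Cm4gCap ρ0 ρ1 H rL rR)
include D hI

theorem cm4g_cap_mem : rL ∈ Icc ρ0 ρ1 ∧ rR ∈ Icc ρ0 ρ1 ∧ 0 < rR ∧ Ioo rL rR ⊆ Icc ρ0 ρ1 :=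
  ⟨⟨hI.1, hI.2.1.le.trans hI.2.2.1⟩, ⟨hI.1.trans hI.2.1.le, hI.2.2.1⟩, lt_of_le_of_lt (D.h0.trans hI.1) hI.2.1,
    fun _ hx => ⟨hI.1.trans hx.1.le, hx.2.le.trans hI.2.2.1⟩⟩

/-- (10), second bound: `S ≤ r_R` -/
theorem cm4g_cap_S_le {r : ℝ} (hr : r ∈ Ioo rL rR) : S r ≤ rR := by
  obtain ⟨SL, SR, BL, BR, h1, h2, h3, h4, h5, -⟩ := cm4g_cap_data D hI
  obtain ⟨-, mR, hR0, -⟩ := cm4g_cap_mem D hI
  have hSR : 0 ≤ SR := h2.trans ((h1 r hr).1.trans (h1 r hr).2.1)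
  exact (h1 r hr).2.1.trans (cm_br_nonneg hR0 (D.p_nonneg rR mR) (D.p_lt rR mR) hSR h4 h5).1

/-- (10), first bound, any cap -/
theorem cm4g_cap_dS_init {s t : ℝ} (hs : rL < s) (hst : s ≤ t) (ht : t < rR) : S t - S s ≤ rR := by
  obtain ⟨-, -, -, hsub⟩ := cm4g_cap_mem D hI
  have h1 := cm4g_cap_S_le D hI (r := t) ⟨lt_of_lt_of_le hs hst, ht⟩
  have h2 := D.S_nonneg s (hsub ⟨hs, lt_of_le_of_lt hst ht⟩)
  linarith

/-- (10), first bound, noninitial cap -/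
theorem cm4g_cap_dS (hni : ρ0 < rL) {s t : ℝ} (hs : rL < s) (hst : s ≤ t) (ht : t < rR) :
    S t - S s ≤ 3 / (1 - p rR) * (rR - rL) := by
  obtain ⟨SL, SR, BL, BR, h1, h2, h3, h4, h5, h6⟩ := cm4g_cap_data D hI
  obtain ⟨mL, mR, hR0, hsub⟩ := cm4g_cap_mem D hI
  have hL0 : 0 < rL := lt_of_le_of_lt D.h0 hni
  have hlt : rL < rR := hI.2.1
  have ms : s ∈ Ioo rL rR := ⟨hs, lt_of_le_of_lt hst ht⟩
  have mt : t ∈ Ioo rL rR := ⟨lt_of_lt_of_le hs hst, ht⟩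
  have hq : 0 < 1 - p rR := by linarith [D.p_lt rR mR]
  have hq1 : 1 - p rR ≤ 1 := by linarith [D.p_nonneg rR mR]
  have hSLR : SL ≤ SR := (h1 s ms).1.trans (h1 s ms).2.1
  have hBLR : BL ≤ BR := (h1 s ms).2.2.1.trans (h1 s ms).2.2.2
  have hd : S t - S s ≤ SR - SL := by linarith [(h1 t mt).2.1, (h1 s ms).1]
  rw [div_mul_eq_mul_div, le_div_iff₀ hq]
  rcases le_total rR (2 * rL) with hc | hc
  · have key := cm_br_two hL0 hlt.le (D.p_nonneg rL mL) (D.p_mono mL mR hlt.le) (D.p_lt rR mR) h2 hSLR hBLR h3 h4 (h6 hni) h5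
    have hrat : rR / rL ≤ 2 := by rw [div_le_iff₀ hL0]; linarith
    have h7 : (2 + 2 * rR / rL) * (rR - rL) ≤ 6 * (rR - rL) := by
      apply mul_le_mul_of_nonneg_right _ (by linarith)
      have : 2 * rR / rL = 2 * (rR / rL) := by ring
      rw [this]; linarith
    have h8 : (S t - S s) * (1 - p rR) ≤ (SR - SL) * (1 - p rR) := mul_le_mul_of_nonneg_right hd hq.le
    nlinarith
  · have hSR : SR ≤ rR := (cm_br_nonneg hR0 (D.p_nonneg rR mR) (D.p_lt rR mR) (h2.trans hSLR) h4 h5).1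
    have h7 : S t - S s ≤ rR := by linarith
    have h9 : 0 ≤ S t - S s := by linarith [D.S_mono (hsub ms) (hsub mt) hst]
    have h8 : (S t - S s) * (1 - p rR) ≤ (S t - S s) * 1 := mul_le_mul_of_nonneg_left hq1 h9
    linarith

/-- (10), third bound, noninitial cap: absolute constants -/
theorem cm4g_cap_mis (hni : ρ0 < rL) {r : ℝ} (hr : r ∈ Ioo rL rR) : (S r - r) ^ 2 ≤ 200 * (rR - rL) ^ 2 + 2 * (B r - S r ^ 2) := by
  obtain ⟨SL, SR, BL, BR, h1, h2, h3, h4, h5, h6⟩ := cm4g_cap_data D hI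
  obtain ⟨mL, mR, hR0, hsub⟩ := cm4g_cap_mem D hI
  have hL0 : 0 < rL := lt_of_le_of_lt D.h0 hni
  have mr := hsub hr
  have hD : 0 ≤ B r - S r ^ 2 := by linarith [D.S_sq r mr]
  have e1 : (S r - r) ^ 2 = (r - S r) ^ 2 := by ring
  rw [e1]
  rcases le_total rR (2 * rL) with hc | hc
  · exact (cm_br_mismatch hL0 hr.1.le hr.2.le hc (D.p_nonneg rL mL) (D.p_mono mL mr hr.1.le) (D.p_mono mr mR hr.2.le) (D.p_lt rR mR) h2
      (h1 r hr).1 (h1 r hr).2.1 (h1 r hr).2.2.1 (h1 r hr).2.2.2 h3 (D.S_sq r mr) h4 (h6 hni) h5).2.2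
  · have := (cm_br_right (D.h0.trans mr.1) hr.2.le hR0 (D.p_nonneg rR mR) (D.p_lt rR mR) (D.S_nonneg r mr) (h1 r hr).2.1 h4 h5).2
    nlinarith

/-- (10), third bound, any cap -/
theorem cm4g_cap_mis_init {r : ℝ} (hr : r ∈ Ioo rL rR) : (S r - r) ^ 2 ≤ rR ^ 2 := by
  obtain ⟨SL, SR, BL, BR, h1, h2, h3, h4, h5, h6⟩ := cm4g_cap_data D hI
  obtain ⟨mL, mR, hR0, hsub⟩ := cm4g_cap_mem D hI
  have mr := hsub hr
  have e1 : (S r - r) ^ 2 = (r - S r) ^ 2 := by ring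
  rw [e1]
  exact (cm_br_right (D.h0.trans mr.1) hr.2.le hR0 (D.p_nonneg rR mR) (D.p_lt rR mR) (D.S_nonneg r mr) (h1 r hr).2.1 h4 h5).2

/-- a noninitial cap on which `p = 0` -/
theorem cm4g_cap_p0 (hni : ρ0 < rL) (hp : p rR = 0) {r : ℝ} (hr : r ∈ Ioo rL rR) : |S r - r| ≤ rR - rL := by
  obtain ⟨SL, SR, BL, BR, h1, h2, h3, h4, h5, h6⟩ := cm4g_cap_data D hI
  obtain ⟨mL, mR, hR0, hsub⟩ := cm4g_cap_mem D hI
  have hpL : p rL = 0 := le_antisymm (hp ▸ D.p_mono mL mR hI.2.1.le) (D.p_nonneg rL mL)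
  have a1 := h6 hni
  rw [hpL] at a1
  rw [hp] at h5
  exact cm_br_p0 hr.1.le hr.2.le (h1 r hr).1 (h1 r hr).2.1 a1 h5

end cap

/-! ### (9): contact -/

/-- (9): on the contact set, almost everywhere -/
theorem cm4g_contact (D : Cm4g ρ0 ρ1 S B p e J H) :
    ∀ᵐ r, r ∈ Icc ρ0 ρ1 → H r = 0 → cmBr (p r) r (S r) (B r) = 0 ∧ S r ≤ r ∧ (S r - r) ^ 2 ≤ B r - S r ^ 2 := by
  have h0 : ∀ᵐ x : ℝ, x ≠ 0 := by simp [ae_iff, measure_singleton]
  filter_upwards [tl_106_ae_zero_level D.int (cm4g_H_sub' D) 0, h0] with r hr hr0 hm hH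
  have h1 := hr hm hH
  have hbr : cmBr (p r) r (S r) (B r) = 0 := by
    rcases mul_eq_zero.1 h1 with h2 | h2
    · exact absurd h2 (D.J_pos r hm).ne'
    · rcases mul_eq_zero.1 h2 with h3 | h3
      · exact absurd h3 (D.e_pos r hm).ne'
      · exact h3
  have hpos : 0 < r := lt_of_le_of_ne (D.h0.trans hm.1) (Ne.symm hr0)
  have := cm_br_zero hpos (D.p_nonneg r hm) (D.p_lt r hm) (D.S_nonneg r hm) (D.S_sq r hm) hbr
  refine ⟨hbr, this.1, ?_⟩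
  have e1 : (S r - r) ^ 2 = (r - S r) ^ 2 := by ring
  rw [e1]; exact this.2

/-- the two-point inequality between two radii with `Br(r1) ≤ 0 ≤ Br(r2)` -/
theorem cm4g_two (D : Cm4g ρ0 ρ1 S B p e J H) {r1 r2 : ℝ} (h0 : 0 < r1) (h1 : r1 ∈ Icc ρ0 ρ1) (h2 : r2 ∈ Icc ρ0 ρ1) (h12 : r1 ≤ r2)
    (hG1 : cmBr (p r1) r1 (S r1) (B r1) ≤ 0) (hG2 : 0 ≤ cmBr (p r2) r2 (S r2) (B r2)) :
    S r2 - S r1 ≤ (1 + r2 / r1) / (1 - p r2) * (r2 - r1) := by
  have key := cm_br_two h0 h12 (D.p_nonneg r1 h1) (D.p_mono h1 h2 h12) (D.p_lt r2 h2) (D.S_nonneg r1 h1) (D.S_mono h1 h2 h12)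
    (D.B_mono h1 h2 h12) (D.S_sq r1 h1) (D.S_sq r2 h2) hG1 hG2
  have hq : 0 < 1 - p r2 := by linarith [D.p_lt r2 h2]
  rw [div_mul_eq_mul_div, le_div_iff₀ hq]
  have : 2 * r2 / r1 = 2 * (r2 / r1) := by ring
  rw [this] at key
  nlinarith

/-- (9): `S' ≤ 2/(1-p)` almost everywhere on the contact set -/
theorem cm4g_contact_deriv (D : Cm4g ρ0 ρ1 S B p e J H) :
    ∀ᵐ r, r ∈ Icc ρ0 ρ1 → H r = 0 → DifferentiableAt ℝ S r ∧ deriv S r ≤ 2 / (1 - p r) := by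
  set Z : Set ℝ := {r | r ∈ Ico ρ0 ρ1 ∧ 0 < r ∧ cmBr (p r) r (S r) (B r) = 0} with hZ
  have hZs : Z ⊆ Icc ρ0 ρ1 := fun r hr => ⟨hr.1.1, hr.1.2.le⟩
  have h2 : ∀ r1 ∈ Z, ∀ r2 ∈ Z, r1 < r2 → S r2 - S r1 ≤ (fun a b => (1 + b / a) / (1 - p b)) r1 r2 * (r2 - r1) := by
    intro r1 m1 r2 m2 h12
    exact cm4g_two D m1.2.1 (hZs m1) (hZs m2) h12.le m1.2.2.le m2.2.2.ge
  have hL : ∀ r ∈ Z, Tendsto ((fun a b => (1 + b / a) / (1 - p b)) r) (𝓝[>] r) (𝓝 (2 / (1 - p r))) := by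
    intro r hr
    have hq : (1 - p r) ≠ 0 := by linarith [D.p_lt r (hZs hr)]
    have tp : Tendsto p (𝓝[>] r) (𝓝 (p r)) := by
      have : 𝓝[>] r ≤ 𝓝[Icc ρ0 ρ1] r := by
        rw [← nhdsWithin_Ioo_eq_nhdsGT hr.1.2]
        exact nhdsWithin_mono _ fun x hx => ⟨hr.1.1.trans hx.1.le, hx.2.le⟩
      exact (D.p_cont r (hZs hr)).mono_left this
    have tid : Tendsto (fun b : ℝ => b) (𝓝[>] r) (𝓝 r) := tendsto_id.mono_left nhdsWithin_le_nhds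
    have t1 : Tendsto (fun b : ℝ => 1 + b / r) (𝓝[>] r) (𝓝 (1 + r / r)) := tendsto_const_nhds.add (tid.div_const r)
    have e2 : (1 : ℝ) + r / r = 2 := by rw [div_self hr.2.1.ne']; norm_num
    rw [e2] at t1
    exact t1.div (tendsto_const_nhds.sub tp) hq
  have h0 : ∀ᵐ x : ℝ, x ≠ 0 := by simp [ae_iff, measure_singleton]
  have h1 : ∀ᵐ x : ℝ, x ≠ ρ1 := by simp [ae_iff, measure_singleton]
  filter_upwards [tl_106_deriv_le D.S_mono hZs h2 hL, cm4g_contact D, h0, h1] with r hr hc hr0 hr1 hm hH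
  have hz : r ∈ Z := ⟨⟨hm.1, lt_of_le_of_ne hm.2 hr1⟩, lt_of_le_of_ne (D.h0.trans hm.1) (Ne.symm hr0), (hc hm hH).1⟩
  obtain ⟨S', hS', hle⟩ := hr hz
  exact ⟨hS'.differentiableAt, by rw [hS'.deriv]; exact hle⟩

/-! ### feasible quantiles: absolute continuity, flow on a cap, lengths, floor mass -/

section quant

variable {P : CmCall} {cE D0 : ℝ}

theorem cm4g_rmin_lt (hP : P.Ok cE D0) (q : CmQ P) (h : P.rmin ≤ 1) : P.rmin < 1 := by
  refine lt_of_le_of_ne h fun e => ?_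
  have h1 := q.al_min
  rw [e, q.al_one] at h1
  have := hP.u01
  linarith

theorem cm4g_al_lip (hc : 0 < cE) (hP : P.Ok cE D0) (q : CmQ P) : LipschitzOnWith (Real.toNNReal (P.M 1)) q.al (Icc P.rmin 1) := by
  have hM0 : 0 ≤ P.M 1 := (Real.rpow_nonneg (cm_N_pos hP).le _).trans (cm_M_ge hc hP (by norm_num))
  apply LipschitzOnWith.of_dist_le_mul
  intro x hx y hy
  have hm := (cm_q_al_strictMono hc hP q).monotoneOn
  rw [Real.dist_eq, Real.dist_eq, Real.coe_toNNReal _ hM0]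
  rcases le_total x y with hxy | hxy
  · rw [abs_sub_comm, abs_of_nonneg (sub_nonneg.2 (hm hx hy hxy)), abs_sub_comm, abs_of_nonneg (sub_nonneg.2 hxy)]
    exact cm_q_al_lip hc hP q hx.1 hxy hy.2
  · rw [abs_of_nonneg (sub_nonneg.2 (hm hy hx hxy)), abs_of_nonneg (sub_nonneg.2 hxy)]
    exact cm_q_al_lip hc hP q hy.1 hxy hx.2

theorem cm4g_al_ac (hc : 0 < cE) (hP : P.Ok cE D0) (q : CmQ P) {s t : ℝ} (hs : s ∈ Icc P.rmin 1) (ht : t ∈ Icc P.rmin 1) :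
    AbsolutelyContinuousOnInterval q.al s t :=
  ((cm4g_al_lip hc hP q).mono (uIcc_subset_Icc hs ht)).absolutelyContinuousOnInterval

/-- the fundamental theorem of calculus for the inverse quantile -/
theorem cm4g_al_ftc (hc : 0 < cE) (hP : P.Ok cE D0) (q : CmQ P) {s t : ℝ} (hs : s ∈ Icc P.rmin 1) (ht : t ∈ Icc P.rmin 1) :
    ∫ x in s..t, deriv q.al x = q.al t - q.al s :=
  (cm4g_al_ac hc hP q hs ht).integral_deriv_eq_sub

/-- **change of variables between mass and radius**: all the lemmas of `Tl106Cov` apply to `q.al` with the density `deriv q.al` -/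
theorem cm4g_al_cov (hc : 0 < cE) (hP : P.Ok cE D0) (q : CmQ P) (h : P.rmin ≤ 1) : Tl106Cov q.al (deriv q.al) P.rmin 1 where
  le := h
  int := (cm4g_al_ac hc hP q ⟨le_rfl, h⟩ ⟨h, le_rfl⟩).intervalIntegrable_deriv
  nn := by
    have ha : ∀ᵐ x : ℝ, x ≠ P.rmin := by simp [ae_iff, measure_singleton]
    have hb : ∀ᵐ x : ℝ, x ≠ 1 := by simp [ae_iff, measure_singleton]
    filter_upwards [ha, hb] with x hxa hxb hx
    have hI : Icc P.rmin 1 ∈ 𝓝 x := Icc_mem_nhds (lt_of_le_of_ne hx.1 (Ne.symm hxa)) (lt_of_le_of_ne hx.2 hxb)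
    rw [← derivWithin_of_mem_nhds hI]
    exact (cm_q_al_strictMono hc hP q).monotoneOn.derivWithin_nonneg
  prim := fun s t hs hst ht => (cm4g_al_ftc hc hP q ⟨hs, hst.trans ht⟩ ⟨hs.trans hst, ht⟩).symm
  mono := cm_q_al_strictMono hc hP q

variable {H : ℝ → ℝ}

/-- on an interval of `{H < 0}` the inverse quantile follows the cap flow -/
theorem cm4g_flow (hc : 0 < cE) (hP : P.Ok cE D0) (q : CmQ P)
    (hcap : ∀ᵐ r, r ∈ Icc P.rmin 1 → H r < 0 → HasDerivAt q.al (P.M (q.al r)) r) {rL rR : ℝ} (h1 : P.rmin ≤ rL) (h3 : rR ≤ 1)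
    (hneg : ∀ r ∈ Ioo rL rR, H r < 0) {s t : ℝ} (hs : rL ≤ s) (hst : s ≤ t) (ht : t ≤ rR) :
    q.al t - q.al s = ∫ x in s..t, P.M (q.al x) := by
  rw [← cm4g_al_ftc hc hP q ⟨h1.trans hs, (hst.trans ht).trans h3⟩ ⟨(h1.trans hs).trans hst, ht.trans h3⟩]
  apply intervalIntegral.integral_congr_ae
  have hb : ∀ᵐ x : ℝ, x ≠ rR := by simp [ae_iff, measure_singleton]
  filter_upwards [hcap, hb] with x hx hxR hm
  rw [uIoc_of_le hst] at hm
  have hxI : x ∈ Ioo rL rR := ⟨lt_of_le_of_lt hs hm.1, lt_of_le_of_ne (hm.2.trans ht) hxR⟩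
  exact (hx ⟨h1.trans hxI.1.le, hxI.2.le.trans h3⟩ (hneg x hxI)).deriv

/-- the length of an interval of `{H < 0}` is the travel time of the cap flow -/
theorem cm4g_time (hc : 0 < cE) (hP : P.Ok cE D0) (q : CmQ P)
    (hcap : ∀ᵐ r, r ∈ Icc P.rmin 1 → H r < 0 → HasDerivAt q.al (P.M (q.al r)) r) {rL rR : ℝ} (h1 : P.rmin ≤ rL) (h2 : rL ≤ rR) (h3 : rR ≤ 1)
    (hneg : ∀ r ∈ Ioo rL rR, H r < 0) : rR - rL = ∫ u in (q.al rL)..(q.al rR), (P.M u)⁻¹ := by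
  have hsub : Icc rL rR ⊆ Icc P.rmin 1 := Icc_subset_Icc h1 h3
  have h0 : 0 ≤ q.al rL := hP.u00.trans (cm_q_al_mem hc hP q ⟨h1, h2.trans h3⟩).1
  refine tl_106_cap_time h2 ((cm_q_al_cont hc hP q).mono hsub) ((cm_q_al_strictMono hc hP q).monotoneOn.mono hsub)
    cm_M_cont.continuousOn ?_ fun x y hx hxy hy => cm4g_flow hc hP q hcap h1 h3 hneg hx hxy hy
  intro u hu
  exact lt_of_lt_of_le (Real.rpow_pos_of_pos (cm_N_pos hP) _) (cm_M_ge hc hP (h0.trans hu.1))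

/-- first length bound -/
theorem cm4g_len (hc : 0 < cE) (hP : P.Ok cE D0) (q : CmQ P)
    (hcap : ∀ᵐ r, r ∈ Icc P.rmin 1 → H r < 0 → HasDerivAt q.al (P.M (q.al r)) r) {rL rR : ℝ} (h1 : P.rmin ≤ rL) (h2 : rL ≤ rR) (h3 : rR ≤ 1)
    (hneg : ∀ r ∈ Ioo rL rR, H r < 0) : rR - rL ≤ P.N ^ (-P.dl) * P.L * Real.log ((q.al rR + P.us) / (q.al rL + P.us)) := by
  rw [cm4g_time hc hP q hcap h1 h2 h3 hneg]
  exact cm_invM_integral hc hP (hP.u00.trans (cm_q_al_mem hc hP q ⟨h1, h2.trans h3⟩).1)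
    ((cm_q_al_strictMono hc hP q).monotoneOn ⟨h1, h2.trans h3⟩ ⟨h1.trans h2, h3⟩ h2)

/-- sharp form of the second travel time bound: `∫ du/M ≤ n^{-δ} (E/d³) (1/u₁ - 1/u₂)` -/
theorem cm4g_invM (hc : 0 < cE) (hP : P.Ok cE D0) {u1 u2 : ℝ} (h1 : 0 < u1) (h12 : u1 ≤ u2) :
    ∫ u in u1..u2, (P.M u)⁻¹ ≤ P.N ^ (-P.dl) * P.E / P.d ^ 3 * (1 / u1 - 1 / u2) := by
  have hN := cm_N_pos hP
  have hE := cm_E_pos hc hP
  have hus := cm_us_pos hc hP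
  have hL := cm_L_pos hc hP
  have hd := hP.d0
  set c : ℝ := P.N ^ (-P.dl) * P.E / P.d ^ 3 with hcdef
  have hc0 : 0 < c := by positivity
  have hpos : ∀ u ∈ Icc u1 u2, 0 < u := fun u hu => lt_of_lt_of_le h1 hu.1
  have hder : ∀ u ∈ uIcc u1 u2, HasDerivAt (fun u => -(c / u)) (c / u ^ 2) u := by
    intro u hu
    rw [uIcc_of_le h12] at hu
    have hu0 := (hpos u hu).ne'
    have h2 : HasDerivAt (fun y : ℝ => -(c * y⁻¹)) (-(c * (-(u ^ 2)⁻¹))) u := ((hasDerivAt_inv hu0).const_mul c).neg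
    have e1 : (fun u : ℝ => -(c / u)) = fun y : ℝ => -(c * y⁻¹) := by
      ext x; rw [div_eq_mul_inv]
    have e2 : c / u ^ 2 = -(c * (-(u ^ 2)⁻¹)) := by
      rw [div_eq_mul_inv]; ring
    rw [e1, e2]
    exact h2
  have hcont : ContinuousOn (fun u : ℝ => c / u ^ 2) (uIcc u1 u2) := by
    rw [uIcc_of_le h12]
    exact continuousOn_const.div (by fun_prop) fun u hu => pow_ne_zero 2 (hpos u hu).ne'
  have hint : ∫ u in u1..u2, c / u ^ 2 = c * (1 / u1 - 1 / u2) := by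
    rw [intervalIntegral.integral_eq_sub_of_hasDerivAt hder hcont.intervalIntegrable]
    ring
  rw [← hint]
  have hMpos : ∀ u ∈ Icc u1 u2, 0 < P.M u := fun u hu =>
    lt_of_lt_of_le (Real.rpow_pos_of_pos hN _) (cm_M_ge hc hP (hpos u hu).le)
  apply intervalIntegral.integral_mono_on h12
  · apply ContinuousOn.intervalIntegrable
    rw [uIcc_of_le h12]
    exact cm_M_cont.continuousOn.inv₀ fun u hu => (hMpos u hu).ne'
  · exact hcont.intervalIntegrable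
  · intro u hu
    have hu0 := hpos u hu
    have hlow : P.N ^ P.dl * (P.d ^ 3 / P.E * u ^ 2) ≤ P.M u := by
      unfold CmCall.M
      apply mul_le_mul_of_nonneg_left _ (Real.rpow_nonneg hN.le _)
      have a1 : 0 ≤ (u + P.us) / P.L := by positivity
      have a2 : P.d ^ 3 / P.E * u ^ 2 ≤ P.d ^ 3 / P.E * (u + P.us) ^ 2 := by
        apply mul_le_mul_of_nonneg_left _ (by positivity)
        nlinarith
      linarith
    have hlow0 : 0 < P.N ^ P.dl * (P.d ^ 3 / P.E * u ^ 2) := by positivity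
    calc (P.M u)⁻¹ ≤ (P.N ^ P.dl * (P.d ^ 3 / P.E * u ^ 2))⁻¹ := inv_anti₀ hlow0 hlow
      _ = c / u ^ 2 := by
        rw [hcdef, Real.rpow_neg hN.le]
        field_simp

/-- second length bound -/
theorem cm4g_len_band (hc : 0 < cE) (hP : P.Ok cE D0) (q : CmQ P)
    (hcap : ∀ᵐ r, r ∈ Icc P.rmin 1 → H r < 0 → HasDerivAt q.al (P.M (q.al r)) r) {rL rR : ℝ} (h1 : P.rmin ≤ rL) (h2 : rL ≤ rR) (h3 : rR ≤ 1)
    (hneg : ∀ r ∈ Ioo rL rR, H r < 0) (h0 : 0 < q.al rL) : q.al rL * (rR - rL) ≤ P.N ^ (-P.dl) * P.E / P.d ^ 3 := by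
  have hmono := (cm_q_al_strictMono hc hP q).monotoneOn ⟨h1, h2.trans h3⟩ ⟨h1.trans h2, h3⟩ h2
  have hb := cm4g_invM hc hP h0 hmono
  rw [← cm4g_time hc hP q hcap h1 h2 h3 hneg] at hb
  have hc0 : 0 ≤ P.N ^ (-P.dl) * P.E / P.d ^ 3 := by
    have := cm_N_pos hP; have := cm_E_pos hc hP; have := hP.d0
    positivity
  have hR0 : 0 < q.al rR := lt_of_lt_of_le h0 hmono
  have h5 : q.al rL * (1 / q.al rL - 1 / q.al rR) ≤ 1 := by
    have : q.al rL * (1 / q.al rL - 1 / q.al rR) = 1 - q.al rL / q.al rR := by field_simp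
    rw [this]
    have : 0 ≤ q.al rL / q.al rR := by positivity
    linarith
  calc q.al rL * (rR - rL) ≤ q.al rL * (P.N ^ (-P.dl) * P.E / P.d ^ 3 * (1 / q.al rL - 1 / q.al rR)) := mul_le_mul_of_nonneg_left hb h0.le
    _ = P.N ^ (-P.dl) * P.E / P.d ^ 3 * (q.al rL * (1 / q.al rL - 1 / q.al rR)) := by ring
    _ ≤ P.N ^ (-P.dl) * P.E / P.d ^ 3 * 1 := mul_le_mul_of_nonneg_left h5 hc0
    _ = _ := mul_one _

/-- the total floor mass -/
theorem cm4g_floor (hc : 0 < cE) (hP : P.Ok cE D0) (q : CmQ P) (hHc : ContinuousOn H (Icc P.rmin 1))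
    (hfl : ∀ᵐ r, r ∈ Icc P.rmin 1 → 0 < H r → HasDerivAt q.al (P.k r) r) :
    volume (q.al '' {r | r ∈ Icc P.rmin 1 ∧ 0 < H r}) ≤ ENNReal.ofReal (P.N ^ (-P.dl) * P.us) := by
  rcases lt_or_ge 1 P.rmin with h | h
  · have : {r | r ∈ Icc P.rmin 1 ∧ 0 < H r} = ∅ := by
      ext r
      simp only [mem_ofPred_eq, mem_Icc, mem_empty_iff_false, iff_false, not_and]
      intro h1
      linarith [h1.1, h1.2]
    rw [this]; simp
  · have hF : MeasurableSet {r | r ∈ Icc P.rmin 1 ∧ 0 < H r} := by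
      obtain ⟨u, hu, hu2⟩ := (continuousOn_iff'.1 hHc) (Ioi 0) isOpen_Ioi
      have : {r | r ∈ Icc P.rmin 1 ∧ 0 < H r} = u ∩ Icc P.rmin 1 := by
        rw [← hu2]; ext r; simp only [mem_ofPred_eq, mem_inter_iff, mem_preimage, mem_Ioi]; tauto
      rw [this]
      exact hu.measurableSet.inter measurableSet_Icc
    have hk : IntervalIntegrable P.k volume P.rmin 1 := by
      apply ContinuousOn.intervalIntegrable
      rw [uIcc_of_le h]
      exact (cm_k_cont hc hP).mono fun x hx => hP.r0.trans hx.1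
    refine ((cm4g_al_cov hc hP q h).volume_image_le hF (fun r hr => hr.1) hk
      (fun x hx => (cm_k_pos hc hP (hP.r0.trans hx.1)).le) ?_).trans (ENNReal.ofReal_le_ofReal (cm_k_integral hc hP hP.r0 h))
    filter_upwards [hfl] with x hx hm
    exact (hx hm.1 hm.2).deriv

end quant

/-! ### from a call to the abstract hypotheses -/

/-- integrability of `J e Br` -/
theorem cm4g_int {ρ0 ρ1 : ℝ} {S B p e J : ℝ → ℝ} (h01 : ρ0 ≤ ρ1) (hS : MonotoneOn S (Icc ρ0 ρ1)) (hB : MonotoneOn B (Icc ρ0 ρ1))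
    (hJ : ContinuousOn J (Icc ρ0 ρ1)) (he : ContinuousOn e (Icc ρ0 ρ1)) (hp : ContinuousOn p (Icc ρ0 ρ1))
    (hpx : ContinuousOn (fun x => p x / x) (Icc ρ0 ρ1)) :
    IntervalIntegrable (fun x => J x * (e x * cmBr (p x) x (S x) (B x))) volume ρ0 ρ1 := by
  have hu : uIcc ρ0 ρ1 = Icc ρ0 ρ1 := uIcc_of_le h01
  have e1 : (fun x => J x * (e x * cmBr (p x) x (S x) (B x)))
      = fun x => (J x * e x * ((2 - p x) * x)) - S x * (J x * e x * (2 * (1 - p x))) - B x * (J x * e x * (p x / x)) := by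
    ext x
    unfold cmBr
    ring
  rw [e1]
  have c1 : ContinuousOn (fun x => J x * e x * ((2 - p x) * x)) (uIcc ρ0 ρ1) := by
    rw [hu]; exact (hJ.mul he).mul ((continuousOn_const.sub hp).mul continuousOn_id)
  have c2 : ContinuousOn (fun x => J x * e x * (2 * (1 - p x))) (uIcc ρ0 ρ1) := by
    rw [hu]; exact (hJ.mul he).mul (continuousOn_const.mul (continuousOn_const.sub hp))
  have c3 : ContinuousOn (fun x => J x * e x * (p x / x)) (uIcc ρ0 ρ1) := by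
    rw [hu]; exact (hJ.mul he).mul hpx
  have iS : IntervalIntegrable S volume ρ0 ρ1 := MonotoneOn.intervalIntegrable (by rw [hu]; exact hS)
  have iB : IntervalIntegrable B volume ρ0 ρ1 := MonotoneOn.intervalIntegrable (by rw [hu]; exact hB)
  exact (c1.intervalIntegrable.sub (iS.mul_continuousOn c2)).sub (iB.mul_continuousOn c3)

/-- `p(r)/r` is continuous (it vanishes near `0`) -/
theorem cm4g_ppx_cont (P : CmCall) (hd : 0 < P.d) {lam : ℝ} (hl : 0 < lam) : Continuous fun x => P.pp lam x / x := by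
  rw [continuous_iff_continuousAt]
  intro x
  rcases lt_or_ge 0 x with hx | hx
  · exact (cm_pp_cont P lam).continuousAt.div continuousAt_id hx.ne'
  · have hpos : 0 < P.d ^ 3 / lam := by positivity
    have hev : (fun y => P.pp lam y / y) =ᶠ[𝓝 x] fun _ => (0 : ℝ) := by
      filter_upwards [Iio_mem_nhds (lt_of_le_of_lt hx hpos)] with y hy
      have hy' : y < P.d ^ 3 / lam := hy
      have : lam * y / P.d ^ 3 ≤ 1 := by
        rw [div_le_one (by positivity)]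
        rw [lt_div_iff₀ hl] at hy'
        linarith
      rw [cm_pp_of_le P this, zero_div]
    exact continuousAt_const.congr hev.symm

/-- **the hypotheses `Cm4g` for a call**: `S`, `B` functions of the MASS, read at the mass `α(r)` -/
theorem cm4g_of_call {P : CmCall} {cE D0 lam : ℝ} (hc : 0 < cE) (hP : P.Ok cE D0) (hl : 0 < lam) (q : CmQ P) (h : P.rmin ≤ 1) {S B H J : ℝ → ℝ}
    (S_mono : MonotoneOn S (Icc 0 1)) (B_mono : MonotoneOn B (Icc 0 1)) (S_nonneg : ∀ u ∈ Icc (0:ℝ) 1, 0 ≤ S u)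
    (S_sq : ∀ u ∈ Icc (0:ℝ) 1, S u ^ 2 ≤ B u) (B_le : ∀ u ∈ Icc (0:ℝ) 1, B u ≤ 1) (J_pos : ∀ r ∈ Icc P.rmin 1, 0 < J r)
    (J_cont : ContinuousOn J (Icc P.rmin 1))
    (H_sub : ∀ r1 ∈ Icc P.rmin 1, ∀ r2 ∈ Icc P.rmin 1,
      H r2 - H r1 = ∫ x in r1..r2, J x * (P.e lam x * cmBr (P.pp lam x) x (S (q.al x)) (B (q.al x)))) :
    Cm4g P.rmin 1 (fun x => S (q.al x)) (fun x => B (q.al x)) (P.pp lam) (P.e lam) J H := by
  have hmem : ∀ r ∈ Icc P.rmin 1, q.al r ∈ Icc (0:ℝ) 1 := fun r hr =>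
    ⟨hP.u00.trans (cm_q_al_mem hc hP q hr).1, (cm_q_al_mem hc hP q hr).2⟩
  have hal := (cm_q_al_strictMono hc hP q).monotoneOn
  have mS : MonotoneOn (fun x => S (q.al x)) (Icc P.rmin 1) := fun a ha b hb hab => S_mono (hmem a ha) (hmem b hb) (hal ha hb hab)
  have mB : MonotoneOn (fun x => B (q.al x)) (Icc P.rmin 1) := fun a ha b hb hab => B_mono (hmem a ha) (hmem b hb) (hal ha hb hab)
  exact
  { h0 := hP.r0
    h01 := cm4g_rmin_lt hP q h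
    S_mono := mS
    B_mono := mB
    S_nonneg := fun r hr => S_nonneg _ (hmem r hr)
    S_sq := fun r hr => S_sq _ (hmem r hr)
    S_le := fun r hr => by
      have h1 := S_sq _ (hmem r hr)
      have h2 := B_le _ (hmem r hr)
      have h3 := S_nonneg _ (hmem r hr)
      show S (q.al r) ≤ 1
      nlinarith
    B_le := fun r hr => by
      have h2 := B_le _ (hmem r hr)
      show B (q.al r) ≤ 1 ^ 2
      linarith
    p_mono := (cm_pp_mono P hP.d0 hl.le).monotoneOn _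
    p_nonneg := fun r _ => cm_pp_nonneg P lam r
    p_lt := fun r _ => cm_pp_lt_one P lam r
    p_cont := (cm_pp_cont P lam).continuousOn
    e_pos := fun r _ => cm_e_pos P hl r
    J_pos := J_pos
    int := cm4g_int h mS mB J_cont (cm_e_cont P lam).continuousOn (cm_pp_cont P lam).continuousOn (cm4g_ppx_cont P hP.d0 hl).continuousOn
    H_sub := H_sub }

end Claimed.Agent.R286
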