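import Claimed.Agent.R286.Cmp.Num
import Claimed.Agent.R286.Cmp.Prof
import Claimed.Agent.R286.Cmp.P04Obj
import Claimed.Agent.R286.Cmp.P04Geo
import Claimed.Agent.R286.Cmp.P04Inst
import Claimed.Agent.R286.Tool.Danskin

/-!
# Row 286 (S0533), PE Section 3, package P04 (comparisons.tex l.1-331): CONTRACT      (head helper255, ADV helper106; section head helper295)

## IMPORTS (what P04 needs from others)
* **P01/P03 (118, 42; ledger 142 (G1),(G3),(G5))**: ONE hypothesis `Pr.Ok` for the pressure model `Pr : CmPr` (`Cmp/P04Obj.lean`):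
  `Adm` convex; `0 ≤ S`, `S² ≤ B ≤ 1`, `S`, `B` nondecreasing in the mass; first line of PE (1) along segments in MEAN VALUE form;
  only the values of the clocks on `[0,1]` matter; `L¹(du)`-continuity of `S`, `B` under uniform convergence of the clocks (fixed `n`).
  Nothing else of the spin system is used.   `(4)` of PE is NOT used.   Admissibility of the changed clocks (`cmAdm`) is a HYPOTHESIS of every exit.
* `Cmp/Defs`, `Cmp/Num`, `Cmp/Prof` (192, 179): vocabulary, N1-N7, A1-A5, profile.      `Tool/Danskin` (12): envelope.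
* `Cmp/P04Cls` (165), `Cmp/P04Mult` (295), `Cmp/P04Geo` (106), `Cmp/P04Obj` (255): the abstract theorems (any density box with measurable floor and convex cap,
  any objective `f(b0 - c Fb(r), h0 + c Fh(r)) + ∫ c Fp(r)`): LL (G), LL (C5)-(C6), PE l.611-630 instantiate THESE (`cm4_obj_mult`, `cm4_val_attain`), not the exits below.

## EXITS
* ENV = PE Lemma 3.1: `cm4_nonempty`, `cm4_min_attain`, `cm4_obj_mono`, `cm4_min_zero`, `cm4_min_mono`, `cm4_min_lip`, `cm4_min_dini`, `cm4_min_int`, `cm4_min_total`.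
* GEO = PE Lemma 3.3: `cm4_geo` (minimiser ⟹ `∃ H J, Cm4Geo`), and the consequences of `Cm4Geo` (they do not mention the minimiser: LL may feed its own `Cm4Geo`):
  `cm4_cap_ex`, `cm4_cap_flow`, `cm4_cap_len`, `cm4_cap_len_band`, `cm4_cap_dS`, `cm4_cap_dS_init`, `cm4_cap_S_le`, `cm4_cap_mis`, `cm4_cap_mis_init`, `cm4_cap_p0`,
  `cm4_contact`, `cm4_contact_two`, `cm4_contact_deriv`, `cm4_floor_mass`, `cm4_nonfloor_S_le`, `cm4_h_incr`, `cm4_reg_swap`.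
  Every `n^{o(1)}` of (9), (10) is the explicit factor `1/(1 - p(r_R))` (ask A1 of 24); `cm_pp_log` (Num) bounds it by `C log n`.
  Increments of `S` "through the interior of a cap" are typed as `∀ s ≤ t` in the open interval (equivalent to one-sided limits; ask A7 of 294).
-/

set_option autoImplicit false

namespace Claimed.Agent.R286

open MeasureTheory Set Filter Topology

noncomputable section

variable {P : CmCall} {cE D0 : ℝ}

namespace CmQ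

/-- the objective `F_λ(r)` of PE (6) -/
def obj (q : CmQ P) (Pr : CmPr) (lam : ℝ) (b0 h0 : ℝ → ℝ) : ℝ := Pr.f (q.bq lam b0) (q.hq lam h0) + q.pen lam

/-- `S_u` for the changed clocks of (6) -/
def mS (q : CmQ P) (Pr : CmPr) (lam : ℝ) (b0 h0 : ℝ → ℝ) (u : ℝ) : ℝ := Pr.S (q.bq lam b0) (q.hq lam h0) u

/-- `B_u` for the changed clocks of (6) -/
def mB (q : CmQ P) (Pr : CmPr) (lam : ℝ) (b0 h0 : ℝ → ℝ) (u : ℝ) : ℝ := Pr.B (q.bq lam b0) (q.hq lam h0) u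

/-- the integral (7) -/
def env (q : CmQ P) (Pr : CmPr) (lam : ℝ) (b0 h0 : ℝ → ℝ) : ℝ :=
  (1 / 4) * ∫ u in P.u0..1, P.e lam (q.r u) * ((q.mB Pr lam b0 h0 u - q.mS Pr lam b0 h0 u ^ 2) + (q.mS Pr lam b0 h0 u - q.r u) ^ 2)

/-- a minimiser of (6) -/
def IsMin (q : CmQ P) (Pr : CmPr) (lam : ℝ) (b0 h0 : ℝ → ℝ) : Prop := ∀ q' : CmQ P, q.obj Pr lam b0 h0 ≤ q'.obj Pr lam b0 h0

end CmQ

/-- an admissible call at the strength `lam` (PE l.100-103) -/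
def cmAdm (Pr : CmPr) (P : CmCall) (lam : ℝ) (b0 h0 : ℝ → ℝ) : Prop := ∀ q : CmQ P, Pr.Adm (q.bq lam b0) (q.hq lam h0)

/-- the optimised value `M_λ` of (6) -/
def cmVal (Pr : CmPr) (P : CmCall) (b0 h0 : ℝ → ℝ) (lam : ℝ) : ℝ := sInf (range fun q : CmQ P => q.obj Pr lam b0 h0)

/-! ## ENV : PE Lemma 3.1 -/

/-- the class (5) is nonempty (the linear map is feasible) -/
theorem cm4_nonempty (hc : 0 < cE) {m0 : ℝ} (hm0 : 0 < m0) :
    ∃ N0 : ℕ, ∀ P : CmCall, P.Ok cE D0 → m0 ≤ P.m → N0 ≤ P.n → Nonempty (CmQ P) := by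
  obtain ⟨N0, h⟩ := cm4i_nonempty (D0 := D0) hc hm0
  refine ⟨N0, fun P hP hm hn => ?_⟩
  obtain ⟨hX, α, hα⟩ := h P hP hm hn
  exact ⟨cm4iQ hX hα⟩

/-- the minimum in (6) is attained -/
theorem cm4_min_attain (hc : 0 < cE) {m0 : ℝ} (hm0 : 0 < m0) :
    ∃ N0 : ℕ, ∀ P : CmCall, P.Ok cE D0 → m0 ≤ P.m → N0 ≤ P.n → ∀ Pr : CmPr, Pr.Ok → ∀ (lam : ℝ) (b0 h0 : ℝ → ℝ), 0 ≤ lam →
      cmAdm Pr P lam b0 h0 → ∃ q : CmQ P, q.IsMin Pr lam b0 h0 ∧ cmVal Pr P b0 h0 lam = q.obj Pr lam b0 h0 := by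
  obtain ⟨N0, h⟩ := cm4i_min_attain (D0 := D0) hc hm0
  exact ⟨N0, fun P hP hm hn Pr hPr lam b0 h0 _ hA => h P hP hm hn Pr hPr lam b0 h0 hA⟩

/-! ### proofs of the envelope exits (helper34; prefix `cm4e_`) -/

/-- an integral over `[0,1]` of a function vanishing below `u0` -/
theorem cm4e_restrict (hP : P.Ok cE D0) {g : ℝ → ℝ} (hg : ∀ u, u < P.u0 → g u = 0) :
    ∫ u in (0:ℝ)..1, g u = ∫ u in P.u0..1, g u := by
  have hu1 : P.u0 ≤ 1 := by linarith [hP.u01]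
  rw [intervalIntegral.integral_of_le zero_le_one, intervalIntegral.integral_of_le hu1,
    ← integral_Icc_eq_integral_Ioc, ← integral_Icc_eq_integral_Ioc]
  refine setIntegral_eq_of_subset_of_forall_sdiff_eq_zero measurableSet_Icc (Icc_subset_Icc hP.u00 le_rfl) (fun u hu => ?_)
  refine hg u ?_
  by_contra hcon
  exact hu.2 ⟨not_lt.1 hcon, hu.1.2⟩

/-- the bracket `B - 2 r S + r²` -/
theorem cm4e_brk {S B r : ℝ} (hS0 : 0 ≤ S) (hSB : S ^ 2 ≤ B) (hB : B ≤ 1) (hr0 : 0 ≤ r) (hr1 : r ≤ 1) :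
    0 ≤ B - 2 * r * S + r ^ 2 ∧ B - 2 * r * S + r ^ 2 ≤ 2 := by
  constructor
  · nlinarith [sq_nonneg (S - r)]
  · nlinarith [mul_nonneg hr0 hS0]

/-- **exact formula** for a change of the strength at a fixed quantile (mean value form) -/
theorem cm4e_obj_sub {Pr : CmPr} (hPr : Pr.Ok) (hc : 0 < cE) (hP : P.Ok cE D0) {b0 h0 : ℝ → ℝ} {lam lam' : ℝ}
    (hA : cmAdm Pr P lam b0 h0) (hA' : cmAdm Pr P lam' b0 h0) (q : CmQ P) :
    ∃ θ ∈ Icc (0:ℝ) 1, q.obj Pr lam' b0 h0 - q.obj Pr lam b0 h0 = (1 / 4) * ∫ u in P.u0..1, (P.e lam' (q.r u) - P.e lam (q.r u)) *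
      (Pr.B (cmSeg θ (q.bq lam b0) (q.bq lam' b0)) (cmSeg θ (q.hq lam h0) (q.hq lam' h0)) u
        - 2 * q.r u * Pr.S (cmSeg θ (q.bq lam b0) (q.bq lam' b0)) (cmSeg θ (q.hq lam h0) (q.hq lam' h0)) u + q.r u ^ 2) := by
  obtain ⟨θ, hθ, hseg⟩ := hPr.seg _ _ _ _ (hA q) (hA' q)
  refine ⟨θ, hθ, ?_⟩
  have hadm := hPr.adm_seg _ _ _ _ (hA q) (hA' q) θ hθ
  obtain ⟨Bt, hBt⟩ : ∃ Bt, Bt = Pr.B (cmSeg θ (q.bq lam b0) (q.bq lam' b0)) (cmSeg θ (q.hq lam h0) (q.hq lam' h0)) := ⟨_, rfl⟩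
  obtain ⟨St, hSt⟩ : ∃ St, St = Pr.S (cmSeg θ (q.bq lam b0) (q.bq lam' b0)) (cmSeg θ (q.hq lam h0) (q.hq lam' h0)) := ⟨_, rfl⟩
  have hu1 : P.u0 ≤ 1 := by linarith [hP.u01]
  have hsub : uIcc P.u0 1 ⊆ uIcc (0:ℝ) 1 := by
    rw [uIcc_of_le hu1, uIcc_of_le zero_le_one]; exact Icc_subset_Icc hP.u00 le_rfl
  have iB : IntervalIntegrable Bt volume P.u0 1 := by rw [hBt]; exact (cm4_B_ii hPr hadm).mono_set hsub
  have iS : IntervalIntegrable St volume P.u0 1 := by rw [hSt]; exact (cm4_S_ii hPr hadm).mono_set hsub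
  rw [← hBt, ← hSt] at hseg ⊢
  have hrc : ContinuousOn q.r (uIcc P.u0 1) := by rw [uIcc_of_le hu1]; exact cm_q_r_cont hc hP q
  have hec : ∀ l : ℝ, ContinuousOn (fun u => P.e l (q.r u)) (uIcc P.u0 1) := fun l => (cm_e_cont P l).comp_continuousOn hrc
  have hde : ContinuousOn (fun u => P.e lam' (q.r u) - P.e lam (q.r u)) (uIcc P.u0 1) := (hec lam').sub (hec lam)
  have e1 : (∫ u in (0:ℝ)..1, Bt u * (q.bq lam' b0 u - q.bq lam b0 u)) = -∫ u in P.u0..1, Bt u * (P.e lam' (q.r u) - P.e lam (q.r u)) := by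
    rw [cm4e_restrict hP (fun u hu => by simp [CmQ.bq, not_le.2 hu]), ← intervalIntegral.integral_neg]
    refine intervalIntegral.integral_congr (fun u hu => ?_)
    rw [uIcc_of_le hu1] at hu
    simp only [CmQ.bq, hu.1, if_true]; ring
  have e2 : (∫ u in (0:ℝ)..1, St u * (q.hq lam' h0 u - q.hq lam h0 u)) = ∫ u in P.u0..1, St u * ((P.e lam' (q.r u) - P.e lam (q.r u)) * q.r u) := by
    rw [cm4e_restrict hP (fun u hu => by simp [CmQ.hq, not_le.2 hu])]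
    refine intervalIntegral.integral_congr (fun u hu => ?_)
    rw [uIcc_of_le hu1] at hu
    simp only [CmQ.hq, hu.1, if_true]; ring
  have i1 : IntervalIntegrable (fun u => Bt u * (P.e lam' (q.r u) - P.e lam (q.r u))) volume P.u0 1 := iB.mul_continuousOn hde
  have i2 : IntervalIntegrable (fun u => St u * ((P.e lam' (q.r u) - P.e lam (q.r u)) * q.r u)) volume P.u0 1 :=
    iS.mul_continuousOn (hde.mul hrc)
  have i3 : ∀ l : ℝ, IntervalIntegrable (fun u => P.e l (q.r u) * q.r u ^ 2) volume P.u0 1 :=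
    fun l => ((hec l).mul (hrc.pow 2)).intervalIntegrable
  have e3 : (∫ u in P.u0..1, (P.e lam' (q.r u) - P.e lam (q.r u)) * (Bt u - 2 * q.r u * St u + q.r u ^ 2))
      = (∫ u in P.u0..1, Bt u * (P.e lam' (q.r u) - P.e lam (q.r u))) - 2 * (∫ u in P.u0..1, St u * ((P.e lam' (q.r u) - P.e lam (q.r u)) * q.r u))
        + ((∫ u in P.u0..1, P.e lam' (q.r u) * q.r u ^ 2) - ∫ u in P.u0..1, P.e lam (q.r u) * q.r u ^ 2) := by
    rw [← intervalIntegral.integral_const_mul, ← intervalIntegral.integral_sub i1 (i2.const_mul _), ← intervalIntegral.integral_sub (i3 lam') (i3 lam),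
      ← intervalIntegral.integral_add (i1.sub (i2.const_mul _)) ((i3 lam').sub (i3 lam))]
    congr 1; funext u; ring
  rw [e3]
  unfold CmQ.obj CmQ.pen
  rw [e1, e2] at hseg
  linarith

theorem cm4e_r_mem01 (hP : P.Ok cE D0) (q : CmQ P) {u : ℝ} (hu : u ∈ Icc P.u0 1) : 0 ≤ q.r u ∧ q.r u ≤ 1 :=
  ⟨hP.r0.trans (q.r_mem u hu).1, (q.r_mem u hu).2⟩

/-- for a fixed quantile the objective is nondecreasing and `1/2`-Lipschitz in the strength -/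
theorem cm4e_obj_mono {Pr : CmPr} (hPr : Pr.Ok) (hc : 0 < cE) (hP : P.Ok cE D0) {b0 h0 : ℝ → ℝ} {lam lam' : ℝ}
    (h0l : 0 ≤ lam) (hll : lam ≤ lam') (hA : cmAdm Pr P lam b0 h0) (hA' : cmAdm Pr P lam' b0 h0) (q : CmQ P) :
    q.obj Pr lam b0 h0 ≤ q.obj Pr lam' b0 h0 ∧ q.obj Pr lam' b0 h0 ≤ q.obj Pr lam b0 h0 + (lam' - lam) / 2 := by
  obtain ⟨θ, hθ, hsub⟩ := cm4e_obj_sub hPr hc hP hA hA' q
  have hadm := hPr.adm_seg _ _ _ _ (hA q) (hA' q) θ hθ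
  have hu1 : P.u0 ≤ 1 := by linarith [hP.u01]
  obtain ⟨Bt, hBt⟩ : ∃ Bt, Bt = Pr.B (cmSeg θ (q.bq lam b0) (q.bq lam' b0)) (cmSeg θ (q.hq lam h0) (q.hq lam' h0)) := ⟨_, rfl⟩
  obtain ⟨St, hSt⟩ : ∃ St, St = Pr.S (cmSeg θ (q.bq lam b0) (q.bq lam' b0)) (cmSeg θ (q.hq lam h0) (q.hq lam' h0)) := ⟨_, rfl⟩
  have hpt : ∀ u ∈ Icc P.u0 1, 0 ≤ (P.e lam' (q.r u) - P.e lam (q.r u)) * (Bt u - 2 * q.r u * St u + q.r u ^ 2) ∧
      (P.e lam' (q.r u) - P.e lam (q.r u)) * (Bt u - 2 * q.r u * St u + q.r u ^ 2) ≤ 2 * (lam' - lam) := by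
    intro u hu
    have hu' : u ∈ Icc (0:ℝ) 1 := ⟨hP.u00.trans hu.1, hu.2⟩
    obtain ⟨hr0, hr1⟩ := cm4e_r_mem01 hP q hu
    obtain ⟨k0, k2⟩ := cm4e_brk (hSt ▸ hPr.S_nonneg _ _ hadm u hu') (by rw [hSt, hBt]; exact hPr.S_sq _ _ hadm u hu')
      (hBt ▸ hPr.B_le _ _ hadm u hu') hr0 hr1
    obtain ⟨m1, m2⟩ := cm_e_lam_mono P hP.d0 h0l hll hr0
    constructor
    · exact mul_nonneg (by linarith) k0
    · calc _ ≤ (lam' - lam) * 2 := mul_le_mul m2 k2 k0 (by linarith)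
        _ = _ := by ring
  rw [← hBt, ← hSt] at hsub
  have hlo : 0 ≤ ∫ u in P.u0..1, (P.e lam' (q.r u) - P.e lam (q.r u)) * (Bt u - 2 * q.r u * St u + q.r u ^ 2) :=
    intervalIntegral.integral_nonneg hu1 (fun u hu => (hpt u hu).1)
  have hhi : (∫ u in P.u0..1, (P.e lam' (q.r u) - P.e lam (q.r u)) * (Bt u - 2 * q.r u * St u + q.r u ^ 2)) ≤ 2 * (lam' - lam) := by
    have h1 := intervalIntegral.norm_integral_le_of_norm_le_const (a := P.u0) (b := 1) (C := 2 * (lam' - lam))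
      (f := fun u => (P.e lam' (q.r u) - P.e lam (q.r u)) * (Bt u - 2 * q.r u * St u + q.r u ^ 2)) (fun u hu => by
        rw [uIoc_of_le hu1] at hu
        have := hpt u ⟨hu.1.le, hu.2⟩
        rw [Real.norm_eq_abs, abs_of_nonneg this.1]; exact this.2)
    rw [Real.norm_eq_abs, abs_of_nonneg hlo, abs_of_nonneg (by linarith)] at h1
    have h2 : 2 * (lam' - lam) * (1 - P.u0) ≤ 2 * (lam' - lam) * 1 :=
      mul_le_mul_of_nonneg_left (by linarith [hP.u00]) (by linarith)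
    linarith
  constructor <;> linarith

theorem cm4e_obj_zero (Pr : CmPr) (b0 h0 : ℝ → ℝ) (q : CmQ P) : q.obj Pr 0 b0 h0 = Pr.f b0 h0 := by
  have e1 : q.bq 0 b0 = b0 := by funext u; simp [CmQ.bq, cm_e_zero]
  have e2 : q.hq 0 h0 = h0 := by funext u; simp [CmQ.hq, cm_e_zero]
  have e3 : q.pen 0 = 0 := by simp [CmQ.pen, cm_e_zero]
  unfold CmQ.obj
  rw [e1, e2, e3, add_zero]

/-- `M_0` is the endpoint pressure -/
theorem cm4e_min_zero (Pr : CmPr) (b0 h0 : ℝ → ℝ) (hne : Nonempty (CmQ P)) : cmVal Pr P b0 h0 0 = Pr.f b0 h0 := by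
  unfold cmVal
  have : (range fun q : CmQ P => q.obj Pr 0 b0 h0) = {Pr.f b0 h0} := by
    ext x
    simp only [mem_range, cm4e_obj_zero, exists_const, mem_singleton_iff]
    exact eq_comm
  rw [this, csInf_singleton]

theorem cm4e_val_le {Pr : CmPr} {b0 h0 : ℝ → ℝ} {lam : ℝ} {q0 : CmQ P} (hq0 : q0.IsMin Pr lam b0 h0) (q : CmQ P) :
    cmVal Pr P b0 h0 lam ≤ q.obj Pr lam b0 h0 :=
  csInf_le ⟨q0.obj Pr lam b0 h0, by rintro x ⟨q', rfl⟩; exact hq0 q'⟩ ⟨q, rfl⟩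

theorem cm4e_val_eq {Pr : CmPr} {b0 h0 : ℝ → ℝ} {lam : ℝ} {q0 : CmQ P} (hq0 : q0.IsMin Pr lam b0 h0) :
    cmVal Pr P b0 h0 lam = q0.obj Pr lam b0 h0 :=
  le_antisymm (cm4e_val_le hq0 q0) (le_csInf ⟨_, ⟨q0, rfl⟩⟩ (by rintro x ⟨q', rfl⟩; exact hq0 q'))

/-- monotone + Lipschitz, given minimisers at both strengths -/
theorem cm4e_val_mono_lip {Pr : CmPr} (hPr : Pr.Ok) (hc : 0 < cE) (hP : P.Ok cE D0) {b0 h0 : ℝ → ℝ} {lam lam' : ℝ}
    (h0l : 0 ≤ lam) (hll : lam ≤ lam') (hA : cmAdm Pr P lam b0 h0) (hA' : cmAdm Pr P lam' b0 h0)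
    {q q' : CmQ P} (hq : q.IsMin Pr lam b0 h0) (hq' : q'.IsMin Pr lam' b0 h0) :
    cmVal Pr P b0 h0 lam ≤ cmVal Pr P b0 h0 lam' ∧ cmVal Pr P b0 h0 lam' ≤ cmVal Pr P b0 h0 lam + (lam' - lam) / 2 := by
  constructor
  · rw [cm4e_val_eq hq']
    exact (cm4e_val_le hq q').trans (cm4e_obj_mono hPr hc hP h0l hll hA hA' q').1
  · rw [cm4e_val_eq hq]
    exact (cm4e_val_le hq' q).trans (cm4e_obj_mono hPr hc hP h0l hll hA hA' q).2

/-- increment of `e` in the strength: `e(l,r) - e(lam,r) ≤ (l/lam) (log l - log lam) e(lam,r)` -/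
theorem cm4e_de_le (hd : 0 < P.d) {lam l r : ℝ} (hl : 0 < lam) (hll : lam ≤ l) (hr : 0 ≤ r) :
    P.e l r - P.e lam r ≤ l / lam * (Real.log l - Real.log lam) * P.e lam r := by
  have h1 : P.e l r - P.e lam r ≤ cmF (lam * r / P.d ^ 3) * (l - lam) := by
    refine (convex_Icc lam l).image_sub_le_mul_sub_of_deriv_le (f := fun x => P.e x r)
      (fun x _ => (cm_e_hasDerivAt_lam P x r).continuousAt.continuousWithinAt)
      (fun x _ => (cm_e_hasDerivAt_lam P x r).differentiableAt.differentiableWithinAt) (fun x hx => ?_) lam ⟨le_rfl, hll⟩ l ⟨hll, le_rfl⟩ hll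
    rw [interior_Icc] at hx
    rw [(cm_e_hasDerivAt_lam P x r).deriv]
    have a1 := cm_pp_gap_le_one P x r
    have a2 := (cm_f_pos (x * r / P.d ^ 3)).le
    have a3 : cmF (x * r / P.d ^ 3) ≤ cmF (lam * r / P.d ^ 3) := by
      apply cm_f_anti
      have : 0 < P.d ^ 3 := by positivity
      gcongr
      exact hx.1.le
    calc (1 - P.pp x r) * cmF (x * r / P.d ^ 3) ≤ 1 * cmF (x * r / P.d ^ 3) := mul_le_mul_of_nonneg_right a1 a2
      _ ≤ _ := by rw [one_mul]; exact a3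
  have hl' : 0 < l := lt_of_lt_of_le hl hll
  have h2 : l - lam ≤ l * (Real.log l - Real.log lam) := by
    have := Real.one_sub_inv_le_log_of_pos (div_pos hl' hl)
    rw [Real.log_div hl'.ne' hl.ne', inv_div] at this
    have h3 := mul_le_mul_of_nonneg_left this hl'.le
    have h4 : l * (1 - lam / l) = l - lam := by field_simp
    linarith
  have hf0 := (cm_f_pos (lam * r / P.d ^ 3)).le
  calc P.e l r - P.e lam r ≤ cmF (lam * r / P.d ^ 3) * (l - lam) := h1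
    _ ≤ cmF (lam * r / P.d ^ 3) * (l * (Real.log l - Real.log lam)) := mul_le_mul_of_nonneg_left h2 hf0
    _ = l / lam * (Real.log l - Real.log lam) * P.e lam r := by
      unfold CmCall.e; field_simp

/-- the slope of the objective per unit `log λ`, at a fixed quantile -/
theorem cm4e_obj_slope {Pr : CmPr} (hPr : Pr.Ok) (hc : 0 < cE) (hP : P.Ok cE D0) {b0 h0 : ℝ → ℝ} {lam lam1 : ℝ} (hl : 0 < lam) (hl1 : lam < lam1)
    (hA : ∀ l ∈ Icc lam lam1, cmAdm Pr P l b0 h0) (q : CmQ P) {ε : ℝ} (hε : 0 < ε) :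
    ∀ᶠ l in 𝓝[>] lam, q.obj Pr l b0 h0 - q.obj Pr lam b0 h0 ≤ (q.env Pr lam b0 h0 + ε) * (Real.log l - Real.log lam) := by
  have hA0 := hA lam ⟨le_rfl, hl1.le⟩
  have hu1 : P.u0 ≤ 1 := by linarith [hP.u01]
  have hsub : uIcc P.u0 1 ⊆ uIcc (0:ℝ) 1 := by
    rw [uIcc_of_le hu1, uIcc_of_le zero_le_one]; exact Icc_subset_Icc hP.u00 le_rfl
  obtain ⟨δ, hδ, hcont⟩ := hPr.cont _ _ (hA0 q) (ε / (3 * lam)) (by positivity)
  set env := q.env Pr lam b0 h0 with henv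
  have ev1 : ∀ᶠ l in 𝓝[>] lam, l / lam * (env + ε / 4) < env + ε := by
    have : Tendsto (fun l : ℝ => l / lam * (env + ε / 4)) (𝓝[>] lam) (𝓝 (lam / lam * (env + ε / 4))) :=
      ((tendsto_id.div_const lam).mul_const _).mono_left nhdsWithin_le_nhds
    rw [div_self hl.ne', one_mul] at this
    exact this.eventually (gt_mem_nhds (by linarith))
  have ev2 : ∀ᶠ l in 𝓝[>] lam, l < min lam1 (lam + δ) :=
    nhdsWithin_le_nhds (Iio_mem_nhds (lt_min hl1 (by linarith)))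
  filter_upwards [ev1, ev2, self_mem_nhdsWithin] with l h1 h2 h3
  have hll : lam < l := h3
  have hl1' : l ≤ lam1 := (h2.trans_le (min_le_left _ _)).le
  have hlδ : l - lam ≤ δ := by have := h2.trans_le (min_le_right _ _); linarith
  have hAl := hA l ⟨hll.le, hl1'⟩
  obtain ⟨θ, hθ, hsubf⟩ := cm4e_obj_sub hPr hc hP hA0 hAl q
  have hadm := hPr.adm_seg _ _ _ _ (hA0 q) (hAl q) θ hθ
  have hL : 0 < Real.log l - Real.log lam := sub_pos.2 (Real.log_lt_log hl hll)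
  have hθa : |θ| ≤ 1 := by rw [abs_of_nonneg hθ.1]; exact hθ.2
  have hclose : ∀ u ∈ Icc (0:ℝ) 1, |cmSeg θ (q.bq lam b0) (q.bq l b0) u - q.bq lam b0 u| ≤ δ ∧
      |cmSeg θ (q.hq lam h0) (q.hq l h0) u - q.hq lam h0 u| ≤ δ := by
    intro u hu
    by_cases hu0 : P.u0 ≤ u
    · obtain ⟨hr0, hr1⟩ := cm4e_r_mem01 hP q ⟨hu0, hu.2⟩
      obtain ⟨m1, m2⟩ := cm_e_lam_mono P hP.d0 hl.le hll.le hr0
      have hde : |P.e l (q.r u) - P.e lam (q.r u)| ≤ δ := by rw [abs_of_nonneg (by linarith)]; linarith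
      constructor
      · have e : cmSeg θ (q.bq lam b0) (q.bq l b0) u - q.bq lam b0 u = θ * (-(P.e l (q.r u) - P.e lam (q.r u))) := by
          simp only [cmSeg, CmQ.bq, hu0, if_true]; ring
        rw [e, abs_mul, abs_neg]
        calc |θ| * |P.e l (q.r u) - P.e lam (q.r u)| ≤ 1 * δ := mul_le_mul hθa hde (abs_nonneg _) zero_le_one
          _ = δ := one_mul _
      · have e : cmSeg θ (q.hq lam h0) (q.hq l h0) u - q.hq lam h0 u = θ * ((P.e l (q.r u) - P.e lam (q.r u)) * q.r u) := by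
          simp only [cmSeg, CmQ.hq, hu0, if_true]; ring
        rw [e, abs_mul, abs_mul, abs_of_nonneg hr0]
        calc |θ| * (|P.e l (q.r u) - P.e lam (q.r u)| * q.r u) ≤ 1 * (δ * 1) :=
              mul_le_mul hθa (mul_le_mul hde hr1 hr0 hδ.le) (mul_nonneg (abs_nonneg _) hr0) zero_le_one
          _ = δ := by ring
    · constructor
      · simp [cmSeg, CmQ.bq, hu0, hδ.le]
      · simp [cmSeg, CmQ.hq, hu0, hδ.le]
  obtain ⟨hSc, hBc⟩ := hcont _ _ hadm hclose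
  obtain ⟨Bt, hBt⟩ : ∃ Bt, Bt = Pr.B (cmSeg θ (q.bq lam b0) (q.bq l b0)) (cmSeg θ (q.hq lam h0) (q.hq l h0)) := ⟨_, rfl⟩
  obtain ⟨St, hSt⟩ : ∃ St, St = Pr.S (cmSeg θ (q.bq lam b0) (q.bq l b0)) (cmSeg θ (q.hq lam h0) (q.hq l h0)) := ⟨_, rfl⟩
  rw [← hBt, ← hSt] at hsubf
  rw [← hSt] at hSc
  rw [← hBt] at hBc
  change (∫ u in (0:ℝ)..1, |St u - q.mS Pr lam b0 h0 u|) ≤ ε / (3 * lam) at hSc
  change (∫ u in (0:ℝ)..1, |Bt u - q.mB Pr lam b0 h0 u|) ≤ ε / (3 * lam) at hBc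
  have iBt0 : IntervalIntegrable Bt volume 0 1 := by rw [hBt]; exact cm4_B_ii hPr hadm
  have iSt0 : IntervalIntegrable St volume 0 1 := by rw [hSt]; exact cm4_S_ii hPr hadm
  have iB0 : IntervalIntegrable (q.mB Pr lam b0 h0) volume 0 1 := cm4_B_ii hPr (hA0 q)
  have iS0 : IntervalIntegrable (q.mS Pr lam b0 h0) volume 0 1 := cm4_S_ii hPr (hA0 q)
  have iaB0 : IntervalIntegrable (fun u => |Bt u - q.mB Pr lam b0 h0 u|) volume 0 1 := (iBt0.sub iB0).abs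
  have iaS0 : IntervalIntegrable (fun u => |St u - q.mS Pr lam b0 h0 u|) volume 0 1 := (iSt0.sub iS0).abs
  have hBc' : (∫ u in P.u0..1, |Bt u - q.mB Pr lam b0 h0 u|) ≤ ε / (3 * lam) :=
    (intervalIntegral.integral_mono_interval hP.u00 hu1 le_rfl (Eventually.of_forall fun u => abs_nonneg _) iaB0).trans hBc
  have hSc' : (∫ u in P.u0..1, |St u - q.mS Pr lam b0 h0 u|) ≤ ε / (3 * lam) :=
    (intervalIntegral.integral_mono_interval hP.u00 hu1 le_rfl (Eventually.of_forall fun u => abs_nonneg _) iaS0).trans hSc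
  have hrc : ContinuousOn q.r (uIcc P.u0 1) := by rw [uIcc_of_le hu1]; exact cm_q_r_cont hc hP q
  have hec : ∀ l : ℝ, ContinuousOn (fun u => P.e l (q.r u)) (uIcc P.u0 1) := fun l => (cm_e_cont P l).comp_continuousOn hrc
  have mkI : ∀ (b s : ℝ → ℝ), IntervalIntegrable b volume 0 1 → IntervalIntegrable s volume 0 1 →
      IntervalIntegrable (fun u => b u - 2 * q.r u * s u + q.r u ^ 2) volume P.u0 1 := by
    intro b s ib is
    have h2 : IntervalIntegrable (fun u => s u * (2 * q.r u)) volume P.u0 1 :=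
      (is.mono_set hsub).mul_continuousOn (continuousOn_const.mul hrc)
    refine (((ib.mono_set hsub).sub h2).add ((hrc.pow 2).intervalIntegrable)).congr ?_
    intro u _; simp only [Pi.pow_apply]; ring
  have I1 : IntervalIntegrable (fun u => (P.e l (q.r u) - P.e lam (q.r u)) * (Bt u - 2 * q.r u * St u + q.r u ^ 2)) volume P.u0 1 := by
    have := (mkI Bt St iBt0 iSt0).mul_continuousOn ((hec l).sub (hec lam))
    refine this.congr ?_
    intro u _; simp only [Pi.sub_apply]; ring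
  have I2 : IntervalIntegrable (fun u => P.e lam (q.r u) * (q.mB Pr lam b0 h0 u - 2 * q.r u * q.mS Pr lam b0 h0 u + q.r u ^ 2)) volume P.u0 1 := by
    have := (mkI _ _ iB0 iS0).mul_continuousOn (hec lam)
    refine this.congr ?_
    intro u _; ring
  have henv' : env = (1 / 4) * ∫ u in P.u0..1, P.e lam (q.r u) * (q.mB Pr lam b0 h0 u - 2 * q.r u * q.mS Pr lam b0 h0 u + q.r u ^ 2) := by
    rw [henv]; unfold CmQ.env
    congr 1
    refine intervalIntegral.integral_congr (fun u _ => ?_)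
    ring
  set c0 : ℝ := l / lam * (Real.log l - Real.log lam) with hc0
  have hc00 : 0 ≤ c0 := mul_nonneg (div_nonneg (hl.le.trans hll.le) hl.le) hL.le
  have hmono : (∫ u in P.u0..1, (P.e l (q.r u) - P.e lam (q.r u)) * (Bt u - 2 * q.r u * St u + q.r u ^ 2))
      ≤ ∫ u in P.u0..1, c0 * (P.e lam (q.r u) * (q.mB Pr lam b0 h0 u - 2 * q.r u * q.mS Pr lam b0 h0 u + q.r u ^ 2)
          + lam * (|Bt u - q.mB Pr lam b0 h0 u| + 2 * |St u - q.mS Pr lam b0 h0 u|)) := by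
    refine intervalIntegral.integral_mono_on hu1 I1
      ((I2.add (((iaB0.mono_set hsub).add ((iaS0.mono_set hsub).const_mul 2)).const_mul lam)).const_mul c0) (fun u hu => ?_)
    have hu' : u ∈ Icc (0:ℝ) 1 := ⟨hP.u00.trans hu.1, hu.2⟩
    obtain ⟨hr0, hr1⟩ := cm4e_r_mem01 hP q hu
    obtain ⟨k0, _⟩ := cm4e_brk (hSt ▸ hPr.S_nonneg _ _ hadm u hu') (by rw [hSt, hBt]; exact hPr.S_sq _ _ hadm u hu')
      (hBt ▸ hPr.B_le _ _ hadm u hu') hr0 hr1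
    have hde := cm4e_de_le (P := P) hP.d0 hl hll.le hr0
    have he0 := cm_e_nonneg P hl.le (q.r u)
    have he1 := cm_e_le P hl.le (q.r u)
    have a1 := le_abs_self (Bt u - q.mB Pr lam b0 h0 u)
    have a2 := neg_abs_le (St u - q.mS Pr lam b0 h0 u)
    have a3 := abs_nonneg (St u - q.mS Pr lam b0 h0 u)
    have a4 := abs_nonneg (Bt u - q.mB Pr lam b0 h0 u)
    have hdb : (Bt u - 2 * q.r u * St u + q.r u ^ 2) - (q.mB Pr lam b0 h0 u - 2 * q.r u * q.mS Pr lam b0 h0 u + q.r u ^ 2)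
        ≤ |Bt u - q.mB Pr lam b0 h0 u| + 2 * |St u - q.mS Pr lam b0 h0 u| := by
      nlinarith
    calc (P.e l (q.r u) - P.e lam (q.r u)) * (Bt u - 2 * q.r u * St u + q.r u ^ 2)
        ≤ (c0 * P.e lam (q.r u)) * (Bt u - 2 * q.r u * St u + q.r u ^ 2) := mul_le_mul_of_nonneg_right hde k0
      _ = c0 * (P.e lam (q.r u) * (q.mB Pr lam b0 h0 u - 2 * q.r u * q.mS Pr lam b0 h0 u + q.r u ^ 2)
            + P.e lam (q.r u) * ((Bt u - 2 * q.r u * St u + q.r u ^ 2) - (q.mB Pr lam b0 h0 u - 2 * q.r u * q.mS Pr lam b0 h0 u + q.r u ^ 2))) := by ring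
      _ ≤ _ := by
        apply mul_le_mul_of_nonneg_left _ hc00
        apply add_le_add le_rfl
        calc _ ≤ P.e lam (q.r u) * (|Bt u - q.mB Pr lam b0 h0 u| + 2 * |St u - q.mS Pr lam b0 h0 u|) := mul_le_mul_of_nonneg_left hdb he0
          _ ≤ _ := mul_le_mul_of_nonneg_right he1 (by positivity)
  rw [intervalIntegral.integral_const_mul,
    intervalIntegral.integral_add I2 (((iaB0.mono_set hsub).add ((iaS0.mono_set hsub).const_mul 2)).const_mul lam),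
    intervalIntegral.integral_const_mul, intervalIntegral.integral_add (iaB0.mono_set hsub) ((iaS0.mono_set hsub).const_mul 2),
    intervalIntegral.integral_const_mul] at hmono
  rw [hsubf]
  have hfin : lam * ((∫ u in P.u0..1, |Bt u - q.mB Pr lam b0 h0 u|) + 2 * ∫ u in P.u0..1, |St u - q.mS Pr lam b0 h0 u|) ≤ ε := by
    calc _ ≤ lam * (ε / (3 * lam) + 2 * (ε / (3 * lam))) := by gcongr
      _ = ε := by field_simp; ring
  calc (1 / 4) * ∫ u in P.u0..1, (P.e l (q.r u) - P.e lam (q.r u)) * (Bt u - 2 * q.r u * St u + q.r u ^ 2)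
      ≤ (1 / 4) * (c0 * ((∫ u in P.u0..1, P.e lam (q.r u) * (q.mB Pr lam b0 h0 u - 2 * q.r u * q.mS Pr lam b0 h0 u + q.r u ^ 2)) + ε)) := by
        have := mul_le_mul_of_nonneg_left (add_le_add_right hfin
          (∫ u in P.u0..1, P.e lam (q.r u) * (q.mB Pr lam b0 h0 u - 2 * q.r u * q.mS Pr lam b0 h0 u + q.r u ^ 2))) hc00
        linarith
    _ = (l / lam * (env + ε / 4)) * (Real.log l - Real.log lam) := by rw [henv', hc0]; ring
    _ ≤ (env + ε) * (Real.log l - Real.log lam) := mul_le_mul_of_nonneg_right h1.le hL.le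

/-- (7), core form -/
theorem cm4e_dini {Pr : CmPr} (hPr : Pr.Ok) (hc : 0 < cE) (hP : P.Ok cE D0) {b0 h0 : ℝ → ℝ} {lam lam1 : ℝ} (hl : 0 < lam) (hl1 : lam < lam1)
    (hA : ∀ l ∈ Icc lam lam1, cmAdm Pr P l b0 h0) (hatt : ∀ l ∈ Icc lam lam1, ∃ q : CmQ P, q.IsMin Pr l b0 h0)
    (q : CmQ P) (hq : q.IsMin Pr lam b0 h0) {ε : ℝ} (hε : 0 < ε) :
    ∀ᶠ l in 𝓝[>] lam, cmVal Pr P b0 h0 l - cmVal Pr P b0 h0 lam ≤ (q.env Pr lam b0 h0 + ε) * (Real.log l - Real.log lam) := by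
  have ev2 : ∀ᶠ l in 𝓝[>] lam, l < lam1 := nhdsWithin_le_nhds (Iio_mem_nhds hl1)
  filter_upwards [cm4e_obj_slope hPr hc hP hl hl1 hA q hε, ev2, self_mem_nhdsWithin] with l h1 h2 h3
  obtain ⟨q', hq'⟩ := hatt l ⟨le_of_lt h3, h2.le⟩
  have := cm4e_val_le hq' q
  rw [cm4e_val_eq hq]
  linarith

/-- the integrated form, core -/
theorem cm4e_int {Pr : CmPr} (hPr : Pr.Ok) (hc : 0 < cE) (hP : P.Ok cE D0) {b0 h0 : ℝ → ℝ} {lam0 lam1 K : ℝ} (hl0 : 0 < lam0) (hl01 : lam0 ≤ lam1)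
    (hA : ∀ l ∈ Icc lam0 lam1, cmAdm Pr P l b0 h0) (hatt : ∀ l ∈ Icc lam0 lam1, ∃ q : CmQ P, q.IsMin Pr l b0 h0)
    (hK : ∀ l ∈ Ico lam0 lam1, ∃ q : CmQ P, q.IsMin Pr l b0 h0 ∧ q.env Pr l b0 h0 ≤ K) :
    cmVal Pr P b0 h0 lam1 - cmVal Pr P b0 h0 lam0 ≤ K * Real.log (lam1 / lam0) := by
  have hl1 : 0 < lam1 := lt_of_lt_of_le hl0 hl01
  have hlog : 0 ≤ Real.log (lam1 / lam0) := Real.log_nonneg (by rw [le_div_iff₀ hl0]; linarith)
  have hval : Tl12Value (fun l (q : CmQ P) => q.obj Pr l b0 h0) univ (cmVal Pr P b0 h0) (Icc lam0 lam1) := by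
    constructor
    · intro l hl q _
      obtain ⟨q', hq'⟩ := hatt l hl
      exact cm4e_val_le hq' q
    · intro l hl
      obtain ⟨q', hq'⟩ := hatt l hl
      exact ⟨q', mem_univ _, (cm4e_val_eq hq').symm⟩
  have hLip : LipschitzOnWith (1 / 2 : NNReal) (cmVal Pr P b0 h0) (Icc lam0 lam1) := by
    refine LipschitzOnWith.of_le_add_mul _ (fun x hx y hy => ?_)
    obtain ⟨qx, hqx⟩ := hatt x hx
    obtain ⟨qy, hqy⟩ := hatt y hy
    have hd0 : 0 ≤ dist x y := dist_nonneg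
    rcases le_total x y with hxy | hxy
    · have := (cm4e_val_mono_lip hPr hc hP (hl0.le.trans hx.1) hxy (hA x hx) (hA y hy) hqx hqy).1
      have h2 : (0:ℝ) ≤ ((1 / 2 : NNReal) : ℝ) * dist x y := by positivity
      linarith
    · have := (cm4e_val_mono_lip hPr hc hP (hl0.le.trans hy.1) hxy (hA y hy) (hA x hx) hqy hqx).2
      rw [Real.dist_eq, abs_of_nonneg (by linarith)]
      push_cast
      linarith
  have main : ∀ ε : ℝ, 0 < ε → cmVal Pr P b0 h0 lam1 - cmVal Pr P b0 h0 lam0 ≤ (K + ε) * Real.log (lam1 / lam0) := by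
    intro ε hε
    have := tl_12_integrated_log (g := fun _ => K + ε) hl0 hl01 hval hLip intervalIntegrable_const (fun lam hlam => by
      obtain ⟨q, hq, hqK⟩ := hK lam ⟨hlam.1.le, hlam.2⟩
      refine ⟨q, mem_univ _, (cm4e_val_eq hq).symm, ?_⟩
      have hsl := cm4e_obj_slope hPr hc hP (hl0.trans hlam.1) hlam.2
        (fun l hl => hA l ⟨hlam.1.le.trans hl.1, hl.2⟩) q hε
      have hlam0 : 0 < lam := hl0.trans hlam.1
      have ht : Tendsto (fun δ : ℝ => lam * Real.exp δ) (𝓝[>] 0) (𝓝[>] lam) := by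
        refine tendsto_nhdsWithin_iff.2 ⟨?_, ?_⟩
        · have : Tendsto (fun δ : ℝ => lam * Real.exp δ) (𝓝 0) (𝓝 (lam * Real.exp 0)) :=
            (Real.continuous_exp.tendsto 0).const_mul lam
          rw [Real.exp_zero, mul_one] at this
          exact this.mono_left nhdsWithin_le_nhds
        · filter_upwards [self_mem_nhdsWithin] with δ hδ
          have : 1 < Real.exp δ := Real.one_lt_exp_iff.2 hδ
          show lam < lam * Real.exp δ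
          nlinarith
      refine ((ht.eventually hsl).and self_mem_nhdsWithin).frequently.mono (fun δ hδ => ?_)
      obtain ⟨h1, h2⟩ := hδ
      have h2' : (0:ℝ) < δ := h2
      rw [Real.log_mul hlam0.ne' (Real.exp_pos δ).ne', Real.log_exp, add_sub_cancel_left] at h1
      calc _ ≤ (q.env Pr lam b0 h0 + ε) * δ := h1
        _ ≤ (K + ε) * δ := by gcongr)
    rw [intervalIntegral.integral_const, smul_eq_mul, ← Real.log_div hl1.ne' hl0.ne'] at this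
    linarith
  by_contra hcon
  rw [not_le] at hcon
  set x := cmVal Pr P b0 h0 lam1 - cmVal Pr P b0 h0 lam0 - K * Real.log (lam1 / lam0) with hx
  have hx0 : 0 < x := by rw [hx]; linarith
  have := main (x / (2 * (Real.log (lam1 / lam0) + 1))) (by positivity)
  have h3 : x / (2 * (Real.log (lam1 / lam0) + 1)) * Real.log (lam1 / lam0) ≤ x / 2 := by
    rw [div_mul_eq_mul_div, div_le_div_iff₀ (by positivity) (by norm_num)]
    nlinarith
  nlinarith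

/-- the whole sweep, core -/
theorem cm4e_total {Pr : CmPr} (hPr : Pr.Ok) (hc : 0 < cE) (hP : P.Ok cE D0) {b0 h0 : ℝ → ℝ} {lam0 lam1 K : ℝ} (hl0 : 0 < lam0) (hl01 : lam0 ≤ lam1)
    (hA : ∀ l ∈ Icc 0 lam1, cmAdm Pr P l b0 h0) (hatt : ∀ l ∈ Icc 0 lam1, ∃ q : CmQ P, q.IsMin Pr l b0 h0)
    (hK : ∀ l ∈ Ico lam0 lam1, ∃ q : CmQ P, q.IsMin Pr l b0 h0 ∧ q.env Pr l b0 h0 ≤ K) :
    Pr.f b0 h0 ≤ cmVal Pr P b0 h0 lam1 ∧ cmVal Pr P b0 h0 lam1 ≤ Pr.f b0 h0 + K * Real.log (lam1 / lam0) + lam0 / 2 := by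
  have hl1 : 0 ≤ lam1 := hl0.le.trans hl01
  obtain ⟨q0, hq0⟩ := hatt 0 ⟨le_rfl, hl1⟩
  obtain ⟨q1, hq1⟩ := hatt lam1 ⟨hl1, le_rfl⟩
  obtain ⟨q2, hq2⟩ := hatt lam0 ⟨hl0.le, hl01⟩
  have hz := cm4e_min_zero (P := P) Pr b0 h0 ⟨q0⟩
  have h1 := (cm4e_val_mono_lip hPr hc hP le_rfl hl1 (hA 0 ⟨le_rfl, hl1⟩) (hA lam1 ⟨hl1, le_rfl⟩) hq0 hq1).1
  have h2 := (cm4e_val_mono_lip hPr hc hP le_rfl hl0.le (hA 0 ⟨le_rfl, hl1⟩) (hA lam0 ⟨hl0.le, hl01⟩) hq0 hq2).2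
  have h3 := cm4e_int hPr hc hP hl0 hl01 (fun l hl => hA l ⟨hl0.le.trans hl.1, hl.2⟩) (fun l hl => hatt l ⟨hl0.le.trans hl.1, hl.2⟩) hK
  rw [hz] at h1 h2
  constructor
  · exact h1
  · linarith

/-- for a fixed quantile the objective is nondecreasing and `1/2`-Lipschitz in the strength -/
theorem cm4_obj_mono {Pr : CmPr} (hPr : Pr.Ok) (hc : 0 < cE) (hP : P.Ok cE D0) {b0 h0 : ℝ → ℝ} {lam lam' : ℝ}
    (h0l : 0 ≤ lam) (hll : lam ≤ lam') (hA : cmAdm Pr P lam b0 h0) (hA' : cmAdm Pr P lam' b0 h0) (q : CmQ P) :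
    q.obj Pr lam b0 h0 ≤ q.obj Pr lam' b0 h0 ∧ q.obj Pr lam' b0 h0 ≤ q.obj Pr lam b0 h0 + (lam' - lam) / 2 :=
  cm4e_obj_mono hPr hc hP h0l hll hA hA' q

/-- `M_0` is the endpoint pressure -/
theorem cm4_min_zero (Pr : CmPr) (b0 h0 : ℝ → ℝ) (hne : Nonempty (CmQ P)) : cmVal Pr P b0 h0 0 = Pr.f b0 h0 :=
  cm4e_min_zero Pr b0 h0 hne

/-- `M_λ` is nondecreasing along an admissible sweep -/
theorem cm4_min_mono (hc : 0 < cE) {m0 : ℝ} (hm0 : 0 < m0) :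
    ∃ N0 : ℕ, ∀ P : CmCall, P.Ok cE D0 → m0 ≤ P.m → N0 ≤ P.n → ∀ Pr : CmPr, Pr.Ok → ∀ (b0 h0 : ℝ → ℝ) (lam lam' : ℝ), 0 ≤ lam → lam ≤ lam' →
      cmAdm Pr P lam b0 h0 → cmAdm Pr P lam' b0 h0 → cmVal Pr P b0 h0 lam ≤ cmVal Pr P b0 h0 lam' := by
  obtain ⟨N0, h⟩ := cm4_min_attain (D0 := D0) hc hm0
  refine ⟨N0, fun P hP hm hn Pr hPr b0 h0 lam lam' h0l hll hA hA' => ?_⟩
  obtain ⟨q, hq, _⟩ := h P hP hm hn Pr hPr lam b0 h0 h0l hA
  obtain ⟨q', hq', _⟩ := h P hP hm hn Pr hPr lam' b0 h0 (h0l.trans hll) hA'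
  exact (cm4e_val_mono_lip hPr hc hP h0l hll hA hA' hq hq').1

/-- `M_λ` is `1/2`-Lipschitz along an admissible sweep -/
theorem cm4_min_lip (hc : 0 < cE) {m0 : ℝ} (hm0 : 0 < m0) :
    ∃ N0 : ℕ, ∀ P : CmCall, P.Ok cE D0 → m0 ≤ P.m → N0 ≤ P.n → ∀ Pr : CmPr, Pr.Ok → ∀ (b0 h0 : ℝ → ℝ) (lam lam' : ℝ), 0 ≤ lam → lam ≤ lam' →
      cmAdm Pr P lam b0 h0 → cmAdm Pr P lam' b0 h0 → cmVal Pr P b0 h0 lam' ≤ cmVal Pr P b0 h0 lam + (lam' - lam) / 2 := by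
  obtain ⟨N0, h⟩ := cm4_min_attain (D0 := D0) hc hm0
  refine ⟨N0, fun P hP hm hn Pr hPr b0 h0 lam lam' h0l hll hA hA' => ?_⟩
  obtain ⟨q, hq, _⟩ := h P hP hm hn Pr hPr lam b0 h0 h0l hA
  obtain ⟨q', hq', _⟩ := h P hP hm hn Pr hPr lam' b0 h0 (h0l.trans hll) hA'
  exact (cm4e_val_mono_lip hPr hc hP h0l hll hA hA' hq hq').2

/-- (7): at EVERY positive strength, the upper right derivative per unit `log λ` is at most (7) at ANY minimiser -/
theorem cm4_min_dini (hc : 0 < cE) {m0 : ℝ} (hm0 : 0 < m0) :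
    ∃ N0 : ℕ, ∀ P : CmCall, P.Ok cE D0 → m0 ≤ P.m → N0 ≤ P.n → ∀ Pr : CmPr, Pr.Ok → ∀ (b0 h0 : ℝ → ℝ) (lam lam1 : ℝ), 0 < lam → lam < lam1 →
      (∀ l ∈ Icc lam lam1, cmAdm Pr P l b0 h0) → ∀ q : CmQ P, q.IsMin Pr lam b0 h0 → ∀ ε > 0,
      ∀ᶠ l in 𝓝[>] lam, cmVal Pr P b0 h0 l - cmVal Pr P b0 h0 lam ≤ (q.env Pr lam b0 h0 + ε) * (Real.log l - Real.log lam) := by
  obtain ⟨N0, h⟩ := cm4_min_attain (D0 := D0) hc hm0
  refine ⟨N0, fun P hP hm hn Pr hPr b0 h0 lam lam1 hl hl1 hA q hq ε hε => ?_⟩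
  refine cm4e_dini hPr hc hP hl hl1 hA (fun l hl' => ?_) q hq hε
  obtain ⟨q', hq', _⟩ := h P hP hm hn Pr hPr l b0 h0 (hl.le.trans hl'.1) (hA l hl')
  exact ⟨q', hq'⟩

/-- the integrated form (the only one used: PE l.795-806, 1080-83, propagation l.25, 596, fluctuations l.410) -/
theorem cm4_min_int (hc : 0 < cE) {m0 : ℝ} (hm0 : 0 < m0) :
    ∃ N0 : ℕ, ∀ P : CmCall, P.Ok cE D0 → m0 ≤ P.m → N0 ≤ P.n → ∀ Pr : CmPr, Pr.Ok → ∀ (b0 h0 : ℝ → ℝ) (lam0 lam1 K : ℝ), 0 < lam0 → lam0 ≤ lam1 →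
      (∀ l ∈ Icc lam0 lam1, cmAdm Pr P l b0 h0) →
      (∀ l ∈ Ico lam0 lam1, ∃ q : CmQ P, q.IsMin Pr l b0 h0 ∧ q.env Pr l b0 h0 ≤ K) →
      cmVal Pr P b0 h0 lam1 - cmVal Pr P b0 h0 lam0 ≤ K * Real.log (lam1 / lam0) := by
  obtain ⟨N0, h⟩ := cm4_min_attain (D0 := D0) hc hm0
  refine ⟨N0, fun P hP hm hn Pr hPr b0 h0 lam0 lam1 K hl0 hl01 hA hK => ?_⟩
  refine cm4e_int hPr hc hP hl0 hl01 hA (fun l hl' => ?_) hK
  obtain ⟨q', hq', _⟩ := h P hP hm hn Pr hPr l b0 h0 (hl0.le.trans hl'.1) (hA l hl')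
  exact ⟨q', hq'⟩

/-- the whole sweep from `0` -/
theorem cm4_min_total (hc : 0 < cE) {m0 : ℝ} (hm0 : 0 < m0) :
    ∃ N0 : ℕ, ∀ P : CmCall, P.Ok cE D0 → m0 ≤ P.m → N0 ≤ P.n → ∀ Pr : CmPr, Pr.Ok → ∀ (b0 h0 : ℝ → ℝ) (lam0 lam1 K : ℝ), 0 < lam0 → lam0 ≤ lam1 →
      (∀ l ∈ Icc 0 lam1, cmAdm Pr P l b0 h0) →
      (∀ l ∈ Ico lam0 lam1, ∃ q : CmQ P, q.IsMin Pr l b0 h0 ∧ q.env Pr l b0 h0 ≤ K) →
      Pr.f b0 h0 ≤ cmVal Pr P b0 h0 lam1 ∧ cmVal Pr P b0 h0 lam1 ≤ Pr.f b0 h0 + K * Real.log (lam1 / lam0) + lam0 / 2 := by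
  obtain ⟨N0, h⟩ := cm4_min_attain (D0 := D0) hc hm0
  refine ⟨N0, fun P hP hm hn Pr hPr b0 h0 lam0 lam1 K hl0 hl01 hA hK => ?_⟩
  refine cm4e_total hPr hc hP hl0 hl01 hA (fun l hl' => ?_) hK
  obtain ⟨q', hq', _⟩ := h P hP hm hn Pr hPr l b0 h0 hl'.1 (hA l hl')
  exact ⟨q', hq'⟩

/-! ## GEO : PE Lemma 3.3 -/

/-- **the closed output of PE Lemma 3.3**: `S`, `B` = moments as functions of the MASS; `H` = potential, `J` = integrating factor, functions of the RADIUS -/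
structure Cm4Geo (P : CmCall) (lam : ℝ) (q : CmQ P) (S B H J : ℝ → ℝ) : Prop where
  S_mono : MonotoneOn S (Icc 0 1)
  B_mono : MonotoneOn B (Icc 0 1)
  S_nonneg : ∀ u ∈ Icc (0:ℝ) 1, 0 ≤ S u
  S_sq : ∀ u ∈ Icc (0:ℝ) 1, S u ^ 2 ≤ B u
  B_le : ∀ u ∈ Icc (0:ℝ) 1, B u ≤ 1
  J_pos : ∀ r ∈ Icc P.rmin 1, 0 < J r
  J_cont : ContinuousOn J (Icc P.rmin 1)
  /-- bounded distortion -/
  J_dist : ∀ r1 r2 : ℝ, P.rmin ≤ r1 → r1 ≤ r2 → r2 ≤ 1 →
    J r1 ≤ J r2 ∧ J r2 ≤ ((q.al r2 + P.us) / (q.al r1 + P.us)) ^ 2 * J r1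
  /-- `H' = J G` -/
  H_sub : ∀ r1 ∈ Icc P.rmin 1, ∀ r2 ∈ Icc P.rmin 1,
    H r2 - H r1 = ∫ x in r1..r2, J x * (P.e lam x * cmBr (P.pp lam x) x (S (q.al x)) (B (q.al x)))
  /-- `α' = M(α)` on `{H < 0}` -/
  cap : ∀ᵐ r, r ∈ Icc P.rmin 1 → H r < 0 → HasDerivAt q.al (P.M (q.al r)) r
  /-- `α' = k` on `{H > 0}` -/
  floor : ∀ᵐ r, r ∈ Icc P.rmin 1 → 0 < H r → HasDerivAt q.al (P.k r) r

/-- **PE Lemma 3.3, first part** -/
theorem cm4_geo (hc : 0 < cE) {m0 : ℝ} (hm0 : 0 < m0) :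
    ∃ N0 : ℕ, ∀ P : CmCall, P.Ok cE D0 → m0 ≤ P.m → N0 ≤ P.n → ∀ Pr : CmPr, Pr.Ok → ∀ (lam : ℝ) (b0 h0 : ℝ → ℝ), 0 < lam → lam ≤ P.d ^ 2 →
      cmAdm Pr P lam b0 h0 → ∀ q : CmQ P, q.IsMin Pr lam b0 h0 →
      ∃ H J : ℝ → ℝ, Cm4Geo P lam q (q.mS Pr lam b0 h0) (q.mB Pr lam b0 h0) H J := by
  obtain ⟨N0, h⟩ := cm4i_geo (D0 := D0) hc hm0
  refine ⟨N0, fun P hP hm hn Pr hPr lam b0 h0 _ _ hA q hq => ?_⟩
  obtain ⟨H, J, g1, g2, g3, g4, g5, g6⟩ := h P hP hm hn Pr hPr lam b0 h0 hA q hq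
  exact ⟨H, J, ⟨hPr.S_mono _ _ (hA q), hPr.B_mono _ _ (hA q), hPr.S_nonneg _ _ (hA q), hPr.S_sq _ _ (hA q), hPr.B_le _ _ (hA q),
    g1, g2, g3, g4, g5, g6⟩⟩

/-- a cap: a maximal interval of `{H < 0}`;  it is INITIAL if `rL = rmin` -/
def CmCapI (P : CmCall) (H : ℝ → ℝ) (rL rR : ℝ) : Prop :=
  P.rmin ≤ rL ∧ rL < rR ∧ rR ≤ 1 ∧ (∀ r ∈ Ioo rL rR, H r < 0) ∧ (rL = P.rmin ∨ H rL = 0) ∧ (rR = 1 ∨ H rR = 0)

section geo

variable {lam : ℝ} {q : CmQ P} {S B H J : ℝ → ℝ}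

/-- bridge to the abstract geometry `Cmp/P04Geo.lean` (helper106) -/
theorem Cm4Geo.toG (hc : 0 < cE) (hP : P.Ok cE D0) (hl : 0 < lam) (g : Cm4Geo P lam q S B H J) (h : P.rmin ≤ 1) :
    Cm4g P.rmin 1 (fun x => S (q.al x)) (fun x => B (q.al x)) (P.pp lam) (P.e lam) J H :=
  cm4g_of_call hc hP hl q h g.S_mono g.B_mono g.S_nonneg g.S_sq g.B_le g.J_pos g.J_cont g.H_sub

theorem CmCapI.le_one {rL rR : ℝ} (hI : CmCapI P H rL rR) : P.rmin ≤ 1 := hI.1.trans (hI.2.1.le.trans hI.2.2.1)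

/-- continuity of the potential (no sign condition on `lam`) -/
theorem cm4_H_cont (hc : 0 < cE) (hP : P.Ok cE D0) (g : Cm4Geo P lam q S B H J) : ContinuousOn H (Icc P.rmin 1) := by
  rcases lt_or_ge 1 P.rmin with h | h
  · rw [Icc_eq_empty (not_le.2 h)]; exact continuousOn_empty _
  rcases lt_or_ge 0 lam with hl | hl
  · exact cm4g_H_cont (g.toG hc hP hl h)
  · -- `lam ≤ 0`: then `p = 0` on `[0,1]` and the integrand is still integrable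
    have hmem : ∀ r ∈ Icc P.rmin 1, q.al r ∈ Icc (0:ℝ) 1 := fun r hr =>
      ⟨hP.u00.trans (cm_q_al_mem hc hP q hr).1, (cm_q_al_mem hc hP q hr).2⟩
    have hal := (cm_q_al_strictMono hc hP q).monotoneOn
    have mS : MonotoneOn (fun x => S (q.al x)) (Icc P.rmin 1) := fun a ha b hb hab => g.S_mono (hmem a ha) (hmem b hb) (hal ha hb hab)
    have mB : MonotoneOn (fun x => B (q.al x)) (Icc P.rmin 1) := fun a ha b hb hab => g.B_mono (hmem a ha) (hmem b hb) (hal ha hb hab)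
    have hpx : ContinuousOn (fun x => P.pp lam x / x) (Icc P.rmin 1) := by
      have : ∀ x ∈ Icc P.rmin 1, (fun _ : ℝ => (0:ℝ)) x = P.pp lam x / x := by
        intro x hx
        have h0 : 0 ≤ x := hP.r0.trans hx.1
        have hd := hP.d0
        have : lam * x / P.d ^ 3 ≤ 1 := by
          have : lam * x / P.d ^ 3 ≤ 0 := div_nonpos_of_nonpos_of_nonneg (mul_nonpos_of_nonpos_of_nonneg hl h0) (by positivity)
          linarith
        rw [cm_pp_of_le P this, zero_div]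
      exact continuousOn_const.congr fun x hx => (this x hx).symm
    have hint := cm4g_int h mS mB g.J_cont (cm_e_cont P lam).continuousOn (cm_pp_cont P lam).continuousOn hpx
    have h1 : ContinuousOn (fun t => H P.rmin + ∫ x in P.rmin..t, J x * (P.e lam x * cmBr (P.pp lam x) x (S (q.al x)) (B (q.al x)))) (Icc P.rmin 1) := by
      have := intervalIntegral.continuousOn_primitive_interval (μ := volume)
        (f := fun x => J x * (P.e lam x * cmBr (P.pp lam x) x (S (q.al x)) (B (q.al x)))) (a := P.rmin) (b := 1)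
        (by rw [uIcc_of_le h]; exact (intervalIntegrable_iff_integrableOn_Icc_of_le h).1 hint)
      rw [uIcc_of_le h] at this
      exact continuousOn_const.add this
    refine h1.congr ?_
    intro t ht
    have := g.H_sub P.rmin ⟨le_rfl, h⟩ t ht
    simp only
    linarith

/-- every point of `{H < 0}` lies in a cap -/
theorem cm4_cap_ex (hc : 0 < cE) (hP : P.Ok cE D0) (g : Cm4Geo P lam q S B H J) {r : ℝ} (hr : r ∈ Icc P.rmin 1) (hH : H r < 0) :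
    ∃ rL rR, CmCapI P H rL rR ∧ r ∈ Icc rL rR := by
  have h01 : P.rmin < 1 := cm4g_rmin_lt hP q (hr.1.trans hr.2)
  obtain ⟨rL, rR, a1, a2, a3, a4, a5, a6, a7⟩ := tl_106_comp (cm4_H_cont hc hP g) hr hH
  refine ⟨rL, rR, ⟨a1, ?_, a4, fun t ht => a5 t ht.1 ht.2, ?_, ?_⟩, a2, a3⟩
  · rcases a6 with ⟨h1, -⟩ | ⟨h1, -⟩
    · exact lt_of_lt_of_le h1 a3
    · rcases a7 with ⟨h2, -⟩ | ⟨h2, -⟩
      · exact lt_of_le_of_lt a2 h2
      · rw [h1, h2]; exact h01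
  · rcases a6 with ⟨-, h1⟩ | ⟨h1, -⟩
    · exact Or.inr h1
    · exact Or.inl h1
  · rcases a7 with ⟨-, h1⟩ | ⟨h1, -⟩
    · exact Or.inr h1
    · exact Or.inl h1

/-- on a cap `α` follows the cap flow -/
theorem cm4_cap_flow (hc : 0 < cE) (hP : P.Ok cE D0) (g : Cm4Geo P lam q S B H J) {rL rR : ℝ} (hI : CmCapI P H rL rR) {s t : ℝ}
    (hs : rL ≤ s) (hst : s ≤ t) (ht : t ≤ rR) : q.al t - q.al s = ∫ x in s..t, P.M (q.al x) :=
  cm4g_flow hc hP q g.cap hI.1 hI.2.2.1 hI.2.2.2.1 hs hst ht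

/-- first length bound -/
theorem cm4_cap_len (hc : 0 < cE) (hP : P.Ok cE D0) (g : Cm4Geo P lam q S B H J) {rL rR : ℝ} (hI : CmCapI P H rL rR) :
    rR - rL ≤ P.N ^ (-P.dl) * P.L * Real.log ((q.al rR + P.us) / (q.al rL + P.us)) :=
  cm4g_len hc hP q g.cap hI.1 hI.2.1.le hI.2.2.1 hI.2.2.2.1

/-- second length bound (`v ≫ u_*` is not needed) -/
theorem cm4_cap_len_band (hc : 0 < cE) (hP : P.Ok cE D0) (g : Cm4Geo P lam q S B H J) {rL rR : ℝ} (hI : CmCapI P H rL rR)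
    (h0 : 0 < q.al rL) : q.al rL * (rR - rL) ≤ P.N ^ (-P.dl) * P.E / P.d ^ 3 :=
  cm4g_len_band hc hP q g.cap hI.1 hI.2.1.le hI.2.2.1 hI.2.2.2.1 h0

/-- (10), first bound, noninitial cap -/
theorem cm4_cap_dS (hc : 0 < cE) (hP : P.Ok cE D0) (hl : 0 < lam) (g : Cm4Geo P lam q S B H J) {rL rR : ℝ} (hI : CmCapI P H rL rR)
    (hni : P.rmin < rL) {s t : ℝ} (hs : rL < s) (hst : s ≤ t) (ht : t < rR) :
    S (q.al t) - S (q.al s) ≤ 3 / (1 - P.pp lam rR) * (rR - rL) :=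
  cm4g_cap_dS (g.toG hc hP hl hI.le_one) hI hni hs hst ht

/-- (10), first bound, any cap -/
theorem cm4_cap_dS_init (hc : 0 < cE) (hP : P.Ok cE D0) (hl : 0 < lam) (g : Cm4Geo P lam q S B H J) {rL rR : ℝ} (hI : CmCapI P H rL rR)
    {s t : ℝ} (hs : rL < s) (hst : s ≤ t) (ht : t < rR) : S (q.al t) - S (q.al s) ≤ rR :=
  cm4g_cap_dS_init (g.toG hc hP hl hI.le_one) hI hs hst ht

/-- (10), second bound: `S ≤ r_R ≤ r + ℓ` -/
theorem cm4_cap_S_le (hc : 0 < cE) (hP : P.Ok cE D0) (hl : 0 < lam) (g : Cm4Geo P lam q S B H J) {rL rR : ℝ} (hI : CmCapI P H rL rR)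
    {r : ℝ} (hr : r ∈ Ioo rL rR) : S (q.al r) ≤ rR :=
  cm4g_cap_S_le (g.toG hc hP hl hI.le_one) hI hr

/-- (10), third bound, noninitial cap: ABSOLUTE constants -/
theorem cm4_cap_mis (hc : 0 < cE) (hP : P.Ok cE D0) (hl : 0 < lam) (g : Cm4Geo P lam q S B H J) {rL rR : ℝ} (hI : CmCapI P H rL rR)
    (hni : P.rmin < rL) {r : ℝ} (hr : r ∈ Ioo rL rR) :
    (S (q.al r) - r) ^ 2 ≤ 200 * (rR - rL) ^ 2 + 2 * (B (q.al r) - S (q.al r) ^ 2) :=
  cm4g_cap_mis (g.toG hc hP hl hI.le_one) hI hni hr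

/-- (10), third bound, initial cap -/
theorem cm4_cap_mis_init (hc : 0 < cE) (hP : P.Ok cE D0) (hl : 0 < lam) (g : Cm4Geo P lam q S B H J) {rR : ℝ}
    (hI : CmCapI P H P.rmin rR) {r : ℝ} (hr : r ∈ Ioo P.rmin rR) :
    (S (q.al r) - r) ^ 2 ≤ 2 * (rR - P.rmin) ^ 2 + 2 * P.rmin ^ 2 := by
  have h1 := cm4g_cap_mis_init (g.toG hc hP hl hI.le_one) hI hr
  have h2 : (S (q.al r) - r) ^ 2 ≤ rR ^ 2 := h1
  nlinarith [sq_nonneg (rR - P.rmin - P.rmin)]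

/-- a noninitial cap on which `p = 0` -/
theorem cm4_cap_p0 (hc : 0 < cE) (hP : P.Ok cE D0) (hl : 0 < lam) (g : Cm4Geo P lam q S B H J) {rL rR : ℝ} (hI : CmCapI P H rL rR)
    (hni : P.rmin < rL) (hp : P.pp lam rR = 0) {r : ℝ} (hr : r ∈ Ioo rL rR) : |S (q.al r) - r| ≤ rR - rL :=
  cm4g_cap_p0 (g.toG hc hP hl hI.le_one) hI hni hp hr

/-- (9): contact -/
theorem cm4_contact (hc : 0 < cE) (hP : P.Ok cE D0) (hl : 0 < lam) (g : Cm4Geo P lam q S B H J) :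
    ∀ᵐ r, r ∈ Icc P.rmin 1 → H r = 0 →
      cmBr (P.pp lam r) r (S (q.al r)) (B (q.al r)) = 0 ∧ S (q.al r) ≤ r ∧ (S (q.al r) - r) ^ 2 ≤ B (q.al r) - S (q.al r) ^ 2 := by
  rcases lt_or_ge 1 P.rmin with h | h
  · exact Eventually.of_forall fun r hr => absurd (hr.1.trans hr.2) (not_le.2 h)
  · exact cm4g_contact (g.toG hc hP hl h)

/-- the two-point form of `S' ≲ n^{o(1)}`: it holds between ANY two radii with `G(r1) ≤ 0 ≤ G(r2)`, whatever lies between them -/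
theorem cm4_contact_two (hc : 0 < cE) (hP : P.Ok cE D0) (hl : 0 < lam) (g : Cm4Geo P lam q S B H J) {r1 r2 : ℝ} (h0 : 0 < r1)
    (h1 : P.rmin ≤ r1) (h12 : r1 ≤ r2) (h2 : r2 ≤ 1) (hG1 : cmBr (P.pp lam r1) r1 (S (q.al r1)) (B (q.al r1)) ≤ 0)
    (hG2 : 0 ≤ cmBr (P.pp lam r2) r2 (S (q.al r2)) (B (q.al r2))) :
    S (q.al r2) - S (q.al r1) ≤ (1 + r2 / r1) / (1 - P.pp lam r2) * (r2 - r1) :=
  cm4g_two (g.toG hc hP hl (h1.trans (h12.trans h2))) h0 ⟨h1, h12.trans h2⟩ ⟨h1.trans h12, h2⟩ h12 hG1 hG2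

/-- (9): `S' ≤ 2/(1-p)` a.e. on contact -/
theorem cm4_contact_deriv (hc : 0 < cE) (hP : P.Ok cE D0) (hl : 0 < lam) (g : Cm4Geo P lam q S B H J) :
    ∀ᵐ r, r ∈ Icc P.rmin 1 → H r = 0 →
      DifferentiableAt ℝ (fun x => S (q.al x)) r ∧ deriv (fun x => S (q.al x)) r ≤ 2 / (1 - P.pp lam r) := by
  rcases lt_or_ge 1 P.rmin with h | h
  · exact Eventually.of_forall fun r hr => absurd (hr.1.trans hr.2) (not_le.2 h)
  · exact cm4g_contact_deriv (g.toG hc hP hl h)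

/-- the total floor mass -/
theorem cm4_floor_mass (hc : 0 < cE) (hP : P.Ok cE D0) (g : Cm4Geo P lam q S B H J) :
    volume (q.al '' {r | r ∈ Icc P.rmin 1 ∧ 0 < H r}) ≤ ENNReal.ofReal (P.N ^ (-P.dl) * P.us) :=
  cm4g_floor hc hP q (cm4_H_cont hc hP g) g.floor

/-- (Geo) of P05: off a set of masses of measure `≤ n^{-δ} u_*`, `S_u ≤ r(u) + ℓ_max` -/
theorem cm4_nonfloor_S_le (hc : 0 < cE) (hP : P.Ok cE D0) (hl : 0 < lam) (g : Cm4Geo P lam q S B H J) :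
    ∀ᵐ r, r ∈ Icc P.rmin 1 → H r ≤ 0 → S (q.al r) ≤ r + P.N ^ (-P.dl) * P.L * Real.log ((1 + P.us) / P.us) := by
  have hus := cm_us_pos hc hP
  have hN := cm_N_pos hP
  have hL := cm_L_pos hc hP
  have hlog0 : 0 ≤ P.N ^ (-P.dl) * P.L * Real.log ((1 + P.us) / P.us) := by
    have : 1 ≤ (1 + P.us) / P.us := by rw [le_div_iff₀ hus]; linarith
    have := Real.log_nonneg this
    positivity
  have ha : ∀ᵐ x : ℝ, x ≠ P.rmin := by simp [ae_iff, measure_singleton]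
  have hb : ∀ᵐ x : ℝ, x ≠ 1 := by simp [ae_iff, measure_singleton]
  filter_upwards [cm4_contact hc hP hl g, ha, hb] with r hct hra hrb hr hH
  rcases lt_or_eq_of_le hH with hneg | hz
  · obtain ⟨rL, rR, hI, hm⟩ := cm4_cap_ex hc hP g hr hneg
    have hrL : rL < r := by
      rcases lt_or_eq_of_le hm.1 with h1 | h1
      · exact h1
      · exfalso
        rcases hI.2.2.2.2.1 with h2 | h2
        · exact hra (h1 ▸ h2)
        · rw [h1] at h2; linarith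
    have hrR : r < rR := by
      rcases lt_or_eq_of_le hm.2 with h1 | h1
      · exact h1
      · exfalso
        rcases hI.2.2.2.2.2 with h2 | h2
        · exact hrb (h1.trans h2)
        · rw [← h1] at h2; linarith
    have h1 := cm4_cap_S_le hc hP hl g hI ⟨hrL, hrR⟩
    have h2 := cm4_cap_len hc hP g hI
    have mL := cm_q_al_mem hc hP q (t := rL) ⟨hI.1, hI.2.1.le.trans hI.2.2.1⟩
    have mR := cm_q_al_mem hc hP q (t := rR) ⟨hI.1.trans hI.2.1.le, hI.2.2.1⟩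
    have hL0 : 0 ≤ q.al rL := hP.u00.trans mL.1
    have h3 : Real.log ((q.al rR + P.us) / (q.al rL + P.us)) ≤ Real.log ((1 + P.us) / P.us) := by
      apply Real.log_le_log (by have := hP.u00.trans mR.1; positivity)
      apply div_le_div₀ (by positivity) (by linarith [mR.2]) hus (by linarith)
    have h4 : P.N ^ (-P.dl) * P.L * Real.log ((q.al rR + P.us) / (q.al rL + P.us)) ≤ P.N ^ (-P.dl) * P.L * Real.log ((1 + P.us) / P.us) :=
      mul_le_mul_of_nonneg_left h3 (by positivity)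
    linarith
  · have := (hct hr hz).2.1
    linarith

end geo

/-- `∂_r [h(α(r))] ≥ (1-p) e`, integrated -/
theorem cm4_h_incr (hc : 0 < cE) (hP : P.Ok cE D0) {lam : ℝ} (hl : 0 ≤ lam) (q : CmQ P) {h0 : ℝ → ℝ} (hh : MonotoneOn h0 (Icc P.u0 1))
    {r1 r2 : ℝ} (h1 : P.rmin ≤ r1) (h12 : r1 ≤ r2) (h2 : r2 ≤ 1) :
    ∫ x in r1..r2, (1 - P.pp lam x) * P.e lam x ≤ q.hq lam h0 (q.al r2) - q.hq lam h0 (q.al r1) := by
  rw [← cm_re_integral P hP.d0 hl (hP.r0.trans h1) h12]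
  exact cm_q_h_gain hc hP q h0 hh h1 h12 h2

/-- outer regularity: if one of `u`, `r(u)` is `O(x)`, so is the other -/
theorem cm4_reg_swap (hc : 0 < cE) (hP : P.Ok cE D0) (q : CmQ P) {c C C0 x K : ℝ} (h0 : 0 < c) (hx : 0 ≤ x)
    (hR : q.Reg c C C0 x) {u : ℝ} (hu : u ∈ Icc P.u0 1) :
    (u ≤ K * x → max K C0 * x ≤ 1 → q.r u ≤ C * (max K C0 * x)) ∧ (q.r u ≤ K * x → u ≤ max C0 (K / c) * x) := by
  constructor
  · intro h1 h2
    have h3 : u ≤ max K C0 * x := h1.trans (mul_le_mul_of_nonneg_right (le_max_left _ _) hx)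
    have h4 : C0 * x ≤ max K C0 * x := mul_le_mul_of_nonneg_right (le_max_right _ _) hx
    have h5 := (hR (max K C0 * x) h4 h2 (hu.1.trans h3)).2
    exact ((cm_q_r_strictMono hc hP q).monotoneOn hu ⟨hu.1.trans h3, h2⟩ h3).trans h5
  · intro h1
    rcases le_total (C0 * x) u with h2 | h2
    · have h3 := (hR u h2 hu.2 hu.1).1
      have h4 : u ≤ K / c * x := by
        rw [div_mul_eq_mul_div, le_div_iff₀ h0]
        linarith
      exact h4.trans (mul_le_mul_of_nonneg_right (le_max_right _ _) hx)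
    · exact h2.trans (mul_le_mul_of_nonneg_right (le_max_left _ _) hx)

end

end Claimed.Agent.R286
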