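import Claimed.Agent.R286.Cmp.P6GlueS
import Claimed.Agent.R286.Cmp.InstNum
import Claimed.Agent.R286.Exit.CmpGeo
import Claimed.Agent.R286.Exit.CmpEnv

/-!
# Row 286 (S0533), package P06: THE SUPPLIES WHICH P06 TAKES FROM THE OTHER PACKAGES OF PE Sec. 3      (helper294)

Every exit of P06 (`Exit/CmpDir`, `Exit/CmpErr`, `Exit/P6Sweep`) is PROVED (files `Cmp/P6Glue.lean`, `Cmp/P6GlueS.lean`) from the abstract exits of `Cmp/P6Out.lean`, from `exit_cmp_raw`, `exit_cmp_split` (247) and from the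
seven theorems below.   ALL SEVEN ARE NOW PROVED from exits which are on main (no own sorry in this file):
* `cmk_sup_geo`      from `exit_cmp_pot`, `exit_cmp_geo` (255 / 106, `Exit/CmpGeo.lean`) + `cm_pp_log`
* `cmk_sup_num`      from `cmk_num_ok` (295 / 21, `Cmp/InstNum.lean`)
* `cmk_sup_mx0`      from `exit_clk_lim_nu` (chain through the fork), `cmk_star_id`, `cmk_chain_adm` (295, `Cmp/InstNum.lean`) + positivity of the planted path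
* `cmk_sup_d20`      from `exit_clk_SB`
* `cmk_env_total`, `cmk_env_small`, `cmk_env_attain`      from `exit_cmp_env_min/zero/mono/int` (255 / 34, `Exit/CmpEnv.lean`)
-/

set_option autoImplicit false

namespace Claimed.Agent.R286

open MeasureTheory Set

/-- TEX[PE:comp:geometry] closed form, constants first -/
theorem cmk_sup_geo {mlo cE D0 Tm : ℝ} (hm : 0 < mlo) (hcE : 0 < cE) (_hD0 : 0 < D0) (_hTm : 0 < Tm) :
    ∃ (Kg CL : ℝ) (n0 : ℕ), 1 ≤ Kg ∧ 1 ≤ CL ∧ ∀ I : CmI, mlo ≤ I.P.m → I.Std cE D0 Tm → MonotoneOn I.h0 (Icc I.P.u0 1) → n0 ≤ I.P.n →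
      ∃ (Z : CmCaps) (Lp : ℝ), CmGeo I.P I.lam I.q I.num Z Kg Lp ∧ Lp ≤ CL * I.P.Lam := by
  obtain ⟨n1, h1⟩ := exit_cmp_pot (D0 := D0) (Tm := Tm) hm hcE
  obtain ⟨Kg, n2, h2⟩ := exit_cmp_geo (D0 := D0) (Tm := Tm) hm hcE
  obtain ⟨C, hC, h3⟩ := cm_pp_log (cE := cE) (D0 := D0) hcE
  have key : ∀ I : CmI, mlo ≤ I.P.m → I.Std cE D0 Tm → MonotoneOn I.h0 (Icc I.P.u0 1) → max n1 n2 ≤ I.P.n →
      ∃ (Z : CmCaps) (Lp : ℝ), CmGeo I.P I.lam I.q I.num Z Kg Lp ∧ Lp ≤ max C 1 * I.P.Lam := by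
    intro I hmI hS hmono hn
    obtain ⟨H, J, hHJ⟩ := h1 I hS hmI ((le_max_left _ _).trans hn)
    obtain ⟨Z, hZ, -⟩ := h2 I hS hmono hmI ((le_max_right _ _).trans hn) H J hHJ
    refine ⟨Z, _, hZ, ?_⟩
    have h4 := h3 I.P hS.ok I.lam 1 hS.lam0.le hS.lam1 zero_le_one le_rfl
    have hL : 0 ≤ I.P.Lam := by have := cm_Lam_ge_one hS.ok; linarith
    have hCL : 0 ≤ C * I.P.Lam := mul_nonneg hC.le hL
    have hpos : 0 < 1 - I.P.pp I.lam 1 := by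
      by_contra hneg
      have h5 : C * I.P.Lam * (1 - I.P.pp I.lam 1) ≤ 0 := mul_nonpos_of_nonneg_of_nonpos hCL (not_lt.1 hneg)
      linarith
    rw [div_le_iff₀ hpos]
    refine h4.trans ?_
    exact mul_le_mul_of_nonneg_right (mul_le_mul_of_nonneg_right (le_max_left _ _) hL) hpos.le
  by_cases hex : ∃ I : CmI, mlo ≤ I.P.m ∧ I.Std cE D0 Tm ∧ MonotoneOn I.h0 (Icc I.P.u0 1) ∧ max n1 n2 ≤ I.P.n
  · obtain ⟨I, a, b, c, d⟩ := hex
    obtain ⟨Z, Lp, hZ, -⟩ := key I a b c d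
    exact ⟨Kg, max C 1, max n1 n2, hZ.Kg1, le_max_right _ _, key⟩
  · exact ⟨1, 1, max n1 n2, le_rfl, le_rfl, fun I a b c d => absurd ⟨I, a, b, c, d⟩ hex⟩

theorem cmk_sup_num {cE D0 Tm : ℝ} (_hcE : 0 < cE) (I : CmI) (h : I.Std cE D0 Tm) : I.num.Ok :=
  cmk_num_ok I.P.n (by have := h.ok.n3; omega) (h.adm I.q)

/-! ### positivity of the even moments of `X` -/

/-- the planted path is a positive functional -/
theorem cm6u_path_nonneg {S ι : Type} [Fintype S] [Fintype ι] {B : GhB S} (hB : B.Ok) (ls : List (GhLv S ι)) :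
    ∀ (z : S → ℝ) (T : (ℕ → ι → ℝ) → S → ℝ), (∀ ξ s, 0 ≤ T ξ s) → 0 ≤ ghPath B ls z T := by
  induction ls with
  | nil =>
    intro z T hT
    simp only [ghPath]
    exact Finset.sum_nonneg fun s _ => mul_nonneg (gh_b_Gw_nonneg hB z s) (hT _ s)
  | cons l ls ih =>
    intro z T hT
    simp only [ghPath]
    exact integral_nonneg fun ξ => mul_nonneg (gh_b_D_pos B l ls z ξ).le (ih _ _ fun η s => hT _ s)

theorem cm6u_stp_length (b h : ℝ → ℝ) (ps : List GhPos) : ∀ x y : ℝ, (skCStp 1 b h x y ps).length = ps.length := by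
  induction ps with
  | nil => intro x y; rfl
  | cons p ps ih => intro x y; simp only [skCStp, List.length_cons, ih]

theorem cm6u_idx_coe_le (ps : List GhPos) (p : GhPos) : ghIdx ps (p : WithTop GhPos) ≤ ps.length := by
  unfold ghIdx
  simp only [WithTop.coe_ne_top, if_false, add_zero]
  refine (List.length_filter_le _ _).trans (le_of_eq ?_)
  simp

theorem cm6u_idx_top (ps : List GhPos) : ghIdx ps ⊤ = ps.length + 1 := by
  unfold ghIdx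
  simp

theorem cm6u_star_rt {p : GhPos} (hp : p.Ok 1) (q : ℕ) : GhIsRT 1 q (cmkStar p) where
  diag := fun x _ => by simp [cmkStar, ghR2]
  symm := fun x y _ _ => by simp only [cmkStar, ghR2, eq_comm]
  ultra := fun x y z _ _ _ => by
    simp only [cmkStar, ghR2]
    split_ifs <;> simp_all
  ok := fun x y _ _ r hr => by
    simp only [cmkStar, ghR2] at hr
    split_ifs at hr
    · exact absurd hr (by simp)
    · have : p = r := by exact_mod_cast hr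
      exact this ▸ hp

theorem cmk_sup_mx0 {cE D0 Tm : ℝ} (_hcE : 0 < cE) (I : CmI) (h : I.Std cE D0 Tm) (l : ℕ) (p : GhPos) (hp : p.Ok 1) : 0 ≤ cmkMX I.P.n I.b I.h l p := by
  have hn : 0 < I.P.n := by have := h.ok.n3; omega
  have H : CkAdm 1 I.b I.h := h.adm I.q
  set T : (Fin (2 * l) → SkCfg I.P.n) → ℝ := fun σ =>
    ∏ i : Fin l, skOv (σ ⟨2 * i.1, by have := i.2; omega⟩) (σ ⟨2 * i.1 + 1, by have := i.2; omega⟩) with hT
  have hTb : ∀ σ, |T σ| ≤ 1 := by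
    intro σ
    simp only [hT, Finset.abs_prod]
    exact Finset.prod_le_one (fun i _ => abs_nonneg _) fun i _ => cmk_ov_abs_le _ _
  refine le_of_forall_pos_le_add fun δ hδ => ?_
  classical
  obtain ⟨F1, hF1⟩ := exit_clk_lim_nu hn one_pos H (2 * l) hδ
  obtain ⟨F0, hF0⟩ : ∃ F0 : Finset GhPos, F0 = insert p F1 := ⟨_, rfl⟩
  have h1 := hF1 F0 (hF0 ▸ Finset.subset_insert _ _) (cmkStar p) (cm6u_star_rt hp _) (fun x y r _ _ hr => by
    simp only [cmkStar, ghR2] at hr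
    split_ifs at hr
    · exact absurd hr (by simp)
    · have : p = r := by exact_mod_cast hr
      rw [hF0, ← this]; exact Finset.mem_insert_self _ _) T 1 hTb
  have hlen : (ckStp 1 I.b I.h (ghPs 1 F0)).length = (ghPs 1 F0).length := cm6u_stp_length _ _ _ _ _
  have h2 : 0 ≤ ckNuF I.P.n 1 I.b I.h (2 * l) (cmkStar p) T (ghPs 1 F0) := by
    have h3 := cmk_star_id I.P.n hn (ckStp 1 I.b I.h (ghPs 1 F0)) (cmk_chain_adm H F0) l (ghIdx (ghPs 1 F0) p)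
      (by rw [hlen]; exact cm6u_idx_coe_le _ _)
      (ghDisc (ghPs 1 F0) (cmkStar p))
      (fun x y hxy => by simp only [ghDisc, cmkStar, ghR2, if_neg hxy])
      (fun x => by
        rw [hlen]
        simp only [ghDisc, cmkStar, ghR2, if_true, cm6u_idx_top]
        omega)
    have h4 : ckNuF I.P.n 1 I.b I.h (2 * l) (cmkStar p) T (ghPs 1 F0)
        = obE I.P.n 1 (ckStp 1 I.b I.h (ghPs 1 F0)) 0 fun ξ _ => (∑ k, obXp I.P.n 1 (ckStp 1 I.b I.h (ghPs 1 F0)) 0 (ghIdx (ghPs 1 F0) p) ξ k ^ 2) ^ l := h3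
    rw [h4]
    exact cm6u_path_nonneg (sk_stp_base_ok I.P.n one_pos) _ _ _ fun ξ _ => pow_nonneg (Finset.sum_nonneg fun k _ => sq_nonneg _) _
  have h5 := (abs_le.1 h1).2
  have h6 : cmkMX I.P.n I.b I.h l p = skCNu I.P.n 1 I.b I.h (2 * l) (cmkStar p) T := rfl
  rw [h6]
  linarith

theorem cmk_sup_d20 {cE D0 Tm : ℝ} (_hcE : 0 < cE) (I : CmI) (h : I.Std cE D0 Tm) (u : ℝ) (hu : u ∈ Icc (0 : ℝ) 1) : 0 ≤ cmkD2 I.P.n I.b I.h (ghPosA u) := by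
  have hn : 0 < I.P.n := by have := h.ok.n3; omega
  have H : CkAdm 1 I.b I.h := h.adm I.q
  have := (exit_clk_SB hn one_pos H (cmk_posA_ok hu) (cmk_posA_ok hu) le_rfl).2.2.2.1
  simp only [cmkD2]
  linarith

theorem cmk_sup (mlo cE D0 Tm : ℝ) (hm : 0 < mlo) (hcE : 0 < cE) (hD0 : 0 < D0) (hTm : 0 < Tm) : CmkSup mlo cE D0 Tm :=
  { geo := cmk_sup_geo hm hcE hD0 hTm, num := cmk_sup_num hcE, mx0 := cmk_sup_mx0 hcE, d20 := cmk_sup_d20 hcE }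

/-- TEX[PE:comp:envelope] -/
theorem cmk_env_attain {mlo cE D0 : ℝ} (hm : 0 < mlo) (hcE : 0 < cE) (_hD0 : 0 < D0) :
    ∃ N0 : ℕ, ∀ P : CmCall, P.Ok cE D0 → mlo ≤ P.m → N0 ≤ P.n → ∀ (b0 h0 : ℝ → ℝ) (lam : ℝ), 0 ≤ lam → CmkAdm P lam b0 h0 →
      ∃ q : CmQ P, CmkMin P lam b0 h0 q := by
  obtain ⟨N0, h⟩ := exit_cmp_env_min (D0 := D0) hm hcE
  refine ⟨N0, fun P hP hmP hn b0 h0 lam hl hA => ?_⟩
  obtain ⟨q, hq, -⟩ := (h P hP hmP hn).2 lam b0 h0 hl hA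
  exact ⟨q, hq⟩

/-- TEX[PE:comp:envelope] -/
theorem cmk_env_small {mlo cE D0 : ℝ} (hm : 0 < mlo) (hcE : 0 < cE) (_hD0 : 0 < D0) :
    ∃ N0 : ℕ, ∀ P : CmCall, P.Ok cE D0 → mlo ≤ P.m → N0 ≤ P.n → ∀ (b0 h0 : ℝ → ℝ) (lam1 : ℝ), 0 ≤ lam1 → CmkSweep P lam1 b0 h0 →
      skCPr P.n 1 b0 h0 ≤ cmkVal P lam1 b0 h0 ∧ cmkVal P lam1 b0 h0 ≤ skCPr P.n 1 b0 h0 + lam1 / 2 := by
  obtain ⟨N1, h1⟩ := exit_cmp_env_min (D0 := D0) hm hcE
  obtain ⟨N2, h2⟩ := exit_cmp_env_mono (D0 := D0) hm hcE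
  refine ⟨max N1 N2, fun P hP hmP hn b0 h0 lam1 hl hS => ?_⟩
  have hne := (h1 P hP hmP (le_of_max_le_left hn)).1
  have h3 := h2 P hP hmP (le_of_max_le_right hn) b0 h0 0 lam1 le_rfl hl (hS 0 le_rfl hl) (hS lam1 hl le_rfl)
  rw [exit_cmp_env_zero P b0 h0 hne, sub_zero] at h3
  exact h3

/-- TEX[PE:comp:envelope] -/
theorem cmk_env_total {mlo cE D0 : ℝ} (hm : 0 < mlo) (hcE : 0 < cE) (hD0 : 0 < D0) :
    ∃ N0 : ℕ, ∀ P : CmCall, P.Ok cE D0 → mlo ≤ P.m → N0 ≤ P.n → ∀ (b0 h0 : ℝ → ℝ) (lam0 lam1 K : ℝ), 0 < lam0 → lam0 ≤ lam1 →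
      CmkSweep P lam1 b0 h0 → (∀ l ∈ Ico lam0 lam1, ∃ q : CmQ P, CmkMin P l b0 h0 q ∧ cmkErr P l b0 h0 q ≤ K) →
      skCPr P.n 1 b0 h0 ≤ cmkVal P lam1 b0 h0 ∧ cmkVal P lam1 b0 h0 ≤ skCPr P.n 1 b0 h0 + K * Real.log (lam1 / lam0) + lam0 / 2 := by
  obtain ⟨N1, h1⟩ := cmk_env_small hm hcE hD0
  obtain ⟨N2, h2⟩ := exit_cmp_env_int (D0 := D0) hm hcE
  refine ⟨max N1 N2, fun P hP hmP hn b0 h0 lam0 lam1 K hl0 hl01 hS hK => ?_⟩
  have a := h1 P hP hmP (le_of_max_le_left hn) b0 h0 lam1 (hl0.le.trans hl01) hS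
  have b := h1 P hP hmP (le_of_max_le_left hn) b0 h0 lam0 hl0.le (fun l h0l hl => hS l h0l (hl.trans hl01))
  have c := h2 P hP hmP (le_of_max_le_right hn) b0 h0 lam0 lam1 K hl0 hl01 (fun l hl => hS l (hl0.le.trans hl.1) hl.2) hK
  exact ⟨a.1, by linarith [b.2]⟩

theorem cmk_env (mlo cE D0 : ℝ) (hm : 0 < mlo) (hcE : 0 < cE) (hD0 : 0 < D0) : CmkEnvSup mlo cE D0 :=
  { total := cmk_env_total hm hcE hD0, small := cmk_env_small hm hcE hD0, attain := cmk_env_attain hm hcE hD0 }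

end Claimed.Agent.R286
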