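import Claimed.Agent.R286.Cmp.Num

/-!
# Row 286, PE Section 3 / Section 6, file Cmp/Fwd : THE CLASS (5) IN FORWARD (MASS) COORDINATES      (owner helper1; prefix `cm_fw_`)

`CmQ P` (Cmp/Defs) carries the constraints `k(r) ≤ α'(r) ≤ M(α(r))` integrated in RADIUS coordinates.   The barriers of PE Lemma 6.4 (`reg:barriers`) are built in MASS coordinates: `1/M(u) ≤ r'(u) ≤ 1/k(r(u))`.
* `P.Ak = n^δ u_*²`, `P.Bk = n^(2δ) u_*`  (`k(r) = Ak/(r + Bk)²`),   `P.dpsi q1 q2 = ψ(q2) - ψ(q1) = Ak (1/(q1+Bk) - 1/(q2+Bk))`,   `P.Lf u = ∫_{u0}^u 1/M`.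
* `CmFw P r`          the two slope constraints in integrated forward form (no end point conditions).
* `cm_fw_of_q`        a feasible quantile satisfies them;      `cm_fw_mk`  CONSTRUCTOR: `CmFw P r`, `r u0 = rmin`, `r 1 = 1` give a `q : CmQ P` with `q.r = r`.
* closure: `cm_fw_max`, `cm_fw_min`, `cm_fw_lin` (linear interpolation towards `max r w`, `w` Lipschitz with constant `≤ 1/k(0)`), `cm_fw_har` (interpolation linear in `ψ` = weighted harmonic mean of `r + Bk`), `cm_fw_bar` (explicit barriers).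
All by algebra: no a.e. derivative.
-/

set_option autoImplicit false

namespace Claimed.Agent.R286

open MeasureTheory Set Filter Topology

section kit

variable {M : ℝ → ℝ}

theorem cm_fw_ii (hc : Continuous M) (hp : ∀ u, 0 < M u) (a b : ℝ) : IntervalIntegrable (fun v => (M v)⁻¹) volume a b :=
  (hc.inv₀ fun u => (hp u).ne').intervalIntegrable a b

theorem cm_fw_inv_le (hc : Continuous M) (hp : ∀ u, 0 < M u) (hm : Monotone M) {a b : ℝ} (hab : a ≤ b) :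
    ∫ v in a..b, (M v)⁻¹ ≤ (b - a) * (M a)⁻¹ := by
  have h := intervalIntegral.integral_mono_on hab (cm_fw_ii hc hp a b) (intervalIntegrable_const (c := (M a)⁻¹))
    (fun v hv => inv_anti₀ (hp a) (hm hv.1))
  rwa [intervalIntegral.integral_const, smul_eq_mul] at h

theorem cm_fw_inv_ge (hc : Continuous M) (hp : ∀ u, 0 < M u) (hm : Monotone M) {a b : ℝ} (hab : a ≤ b) :
    (b - a) * (M b)⁻¹ ≤ ∫ v in a..b, (M v)⁻¹ := by
  have h := intervalIntegral.integral_mono_on hab (intervalIntegrable_const (c := (M b)⁻¹)) (cm_fw_ii hc hp a b)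
    (fun v hv => inv_anti₀ (hp v) (hm hv.2))
  rwa [intervalIntegral.integral_const, smul_eq_mul] at h

/-- **from the radius form `α' ≤ M(α)` (integrated) to the mass form `r' ≥ 1/M`** -/
theorem cm_fw_A (hc : Continuous M) (hp : ∀ u, 0 < M u) (hm : Monotone M) {φ : ℝ → ℝ} {ρ1 ρ2 : ℝ} (h12 : ρ1 ≤ ρ2)
    (hφc : ContinuousOn φ (Icc ρ1 ρ2)) (hφm : MonotoneOn φ (Icc ρ1 ρ2))
    (hi : ∀ s t, ρ1 ≤ s → s ≤ t → t ≤ ρ2 → φ t - φ s ≤ ∫ τ in s..t, M (φ τ)) :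
    ∫ v in φ ρ1..φ ρ2, (M v)⁻¹ ≤ ρ2 - ρ1 := by
  have hF : Continuous fun u => ∫ v in φ ρ1..u, (M v)⁻¹ := intervalIntegral.continuous_primitive (cm_fw_ii hc hp) _
  have hMφ : ContinuousOn (fun τ => M (φ τ)) (Icc ρ1 ρ2) := hc.comp_continuousOn hφc
  refine image_le_of_liminf_slope_right_le_deriv_boundary (f := fun ρ => ∫ v in φ ρ1..φ ρ, (M v)⁻¹) (a := ρ1) (b := ρ2)
    (hF.comp_continuousOn hφc) (B := fun ρ => ρ - ρ1) (B' := fun _ => 1) (by simp) (by fun_prop)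
    (fun x _ => ((hasDerivAt_id x).sub_const ρ1).hasDerivWithinAt) ?_ (right_mem_Icc.2 h12)
  intro x hx r hr
  have hxI : x ∈ Icc ρ1 ρ2 := ⟨hx.1, hx.2.le⟩
  have hle : 𝓝[>] x ≤ 𝓝[Icc ρ1 ρ2] x := by
    refine nhdsWithin_le_of_mem ?_
    filter_upwards [Ioo_mem_nhdsGT hx.2] with z hz
    exact ⟨hx.1.trans hz.1.le, hz.2.le⟩
  have ht : Tendsto (fun τ => M (φ τ)) (𝓝[>] x) (𝓝 (M (φ x))) := (hMφ x hxI).mono_left hle
  have hlt : M (φ x) < r * M (φ x) := by nlinarith [hp (φ x)]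
  refine Eventually.frequently ?_
  filter_upwards [Ioo_mem_nhdsGT hx.2, ht.eventually (gt_mem_nhds hlt)] with z hz hz2
  have hzI : z ∈ Icc ρ1 ρ2 := ⟨hx.1.trans hz.1.le, hz.2.le⟩
  have hmono : φ x ≤ φ z := hφm hxI hzI hz.1.le
  have e : (∫ v in φ ρ1..φ z, (M v)⁻¹) - ∫ v in φ ρ1..φ x, (M v)⁻¹ = ∫ v in φ x..φ z, (M v)⁻¹ :=
    intervalIntegral.integral_interval_sub_left (cm_fw_ii hc hp _ _) (cm_fw_ii hc hp _ _)
  have b1 := cm_fw_inv_le hc hp hm hmono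
  have hsub : Icc x z ⊆ Icc ρ1 ρ2 := Icc_subset_Icc hx.1 hz.2.le
  have b2 : ∫ τ in x..z, M (φ τ) ≤ (z - x) * M (φ z) := by
    have h := intervalIntegral.integral_mono_on hz.1.le
      ((hMφ.mono hsub).intervalIntegrable_of_Icc (μ := volume) hz.1.le) (intervalIntegrable_const (c := M (φ z)))
      (fun v hv => hm (hφm (hsub hv) hzI hv.2))
    rwa [intervalIntegral.integral_const, smul_eq_mul] at h
  have b3 := hi x z hx.1 hz.1.le hz.2.le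
  have hpx := hp (φ x)
  rw [slope_def_field, div_lt_iff₀ (sub_pos.2 hz.1)]
  show (∫ v in φ ρ1..φ z, (M v)⁻¹) - ∫ v in φ ρ1..φ x, (M v)⁻¹ < _
  rw [e]
  have b4 : (φ z - φ x) * (M (φ x))⁻¹ ≤ (z - x) * M (φ z) * (M (φ x))⁻¹ :=
    mul_le_mul_of_nonneg_right (b3.trans b2) (inv_nonneg.2 hpx.le)
  have b5 : (z - x) * M (φ z) * (M (φ x))⁻¹ < r * (z - x) := by
    have : M (φ z) * (M (φ x))⁻¹ < r := by
      rw [← div_eq_mul_inv, div_lt_iff₀ hpx]; exact hz2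
    have hzx : 0 < z - x := sub_pos.2 hz.1
    nlinarith
  linarith

/-- **from the mass form to the radius form** -/
theorem cm_fw_B (hc : Continuous M) (hp : ∀ u, 0 < M u) (hm : Monotone M) {al : ℝ → ℝ} {r1 r2 : ℝ} (h12 : r1 ≤ r2)
    (hac : ContinuousOn al (Icc r1 r2)) (ham : MonotoneOn al (Icc r1 r2))
    (hlo : ∀ s t, r1 ≤ s → s ≤ t → t ≤ r2 → ∫ v in al s..al t, (M v)⁻¹ ≤ t - s) :
    al r2 - al r1 ≤ ∫ τ in r1..r2, M (al τ) := by
  obtain ⟨g, hg⟩ : ∃ g : ℝ → ℝ, g = fun τ => M (al (max r1 (min τ r2))) := ⟨_, rfl⟩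
  have hproj : ∀ τ, max r1 (min τ r2) ∈ Icc r1 r2 := fun τ => ⟨le_max_left _ _, max_le h12 (min_le_right _ _)⟩
  have hgc : Continuous g := by
    rw [hg]
    refine hc.comp ?_
    exact hac.comp_continuous (by fun_prop) hproj
  have hge : ∀ τ ∈ Icc r1 r2, g τ = M (al τ) := by
    intro τ hτ
    rw [hg]
    simp only
    rw [min_eq_left hτ.2, max_eq_right hτ.1]
  have key : al r2 ≤ al r1 + ∫ τ in r1..r2, g τ := by
    refine image_le_of_liminf_slope_right_le_deriv_boundary (f := al) (a := r1) (b := r2) hac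
      (B := fun ρ => al r1 + ∫ τ in r1..ρ, g τ) (B' := g) (by simp) ?_ ?_ ?_ (right_mem_Icc.2 h12)
    · exact (continuous_const.add (intervalIntegral.continuous_primitive (fun a b => hgc.intervalIntegrable a b) _)).continuousOn
    · intro x _
      exact ((hgc.integral_hasStrictDerivAt r1 x).hasDerivAt.const_add (al r1)).hasDerivWithinAt
    · intro x hx r hr
      have hxI : x ∈ Icc r1 r2 := ⟨hx.1, hx.2.le⟩
      refine Eventually.frequently ?_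
      have ht : Tendsto g (𝓝[>] x) (𝓝 (g x)) := hgc.continuousAt.mono_left nhdsWithin_le_nhds
      filter_upwards [Ioo_mem_nhdsGT hx.2, ht.eventually (gt_mem_nhds hr)] with z hz hz2
      have hzI : z ∈ Icc r1 r2 := ⟨hx.1.trans hz.1.le, hz.2.le⟩
      have hmono : al x ≤ al z := ham hxI hzI hz.1.le
      have b1 := cm_fw_inv_ge hc hp hm hmono
      have b2 := hlo x z hx.1 hz.1.le hz.2.le
      rw [hge z hzI] at hz2
      have hpz := hp (al z)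
      rw [slope_def_field, div_lt_iff₀ (sub_pos.2 hz.1)]
      have b3 : al z - al x ≤ (z - x) * M (al z) := by
        have := b1.trans b2
        rwa [← div_eq_mul_inv, div_le_iff₀ hpz] at this
      have hzx : 0 < z - x := sub_pos.2 hz.1
      nlinarith
  have e : ∫ τ in r1..r2, g τ = ∫ τ in r1..r2, M (al τ) := by
    refine intervalIntegral.integral_congr fun τ hτ => ?_
    rw [uIcc_of_le h12] at hτ
    exact hge τ hτ
  rw [e] at key
  linarith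

end kit


noncomputable section

namespace CmCall

variable (P : CmCall)

/-- `A₀ = n^δ u_*²` -/
def Ak : ℝ := P.N ^ P.dl * P.us ^ 2
/-- `B₀ = n^(2δ) u_*` -/
def Bk : ℝ := P.N ^ (2 * P.dl) * P.us
/-- `ψ(q2) - ψ(q1)`, `ψ(q) = ∫_0^q k` -/
def dpsi (q1 q2 : ℝ) : ℝ := P.Ak * (1 / (q1 + P.Bk) - 1 / (q2 + P.Bk))
/-- the forced rise `∫_{u0}^u 1/M` -/
def Lf (u : ℝ) : ℝ := ∫ v in P.u0..u, (P.M v)⁻¹
/-- the cap, frozen below mass `0` -/
def Mt (v : ℝ) : ℝ := P.M (max v 0)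

end CmCall

/-- **the two slope constraints of (5) in forward integrated form** -/
structure CmFw (P : CmCall) (r : ℝ → ℝ) : Prop where
  nn : ∀ u : ℝ, P.u0 ≤ u → u ≤ 1 → 0 ≤ r u
  lo : ∀ u1 u2 : ℝ, P.u0 ≤ u1 → u1 ≤ u2 → u2 ≤ 1 → ∫ v in u1..u2, (P.M v)⁻¹ ≤ r u2 - r u1
  up : ∀ u1 u2 : ℝ, P.u0 ≤ u1 → u1 ≤ u2 → u2 ≤ 1 → P.dpsi (r u1) (r u2) ≤ u2 - u1

theorem cm_fw_eqns_cite : True := by
  have := @CmCall.Ak.eq_1; have := @CmCall.Bk.eq_1; have := @CmCall.dpsi.eq_1; have := @CmCall.Lf.eq_1; have := @CmCall.Mt.eq_1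
  trivial

variable {P : CmCall} {cE D0 : ℝ}

/-! ## 1. the constants -/

theorem cm_fw_A0_pos (hc : 0 < cE) (h : P.Ok cE D0) : 0 < P.Ak := by
  have := cm_N_pos h
  have := cm_us_pos hc h
  unfold CmCall.Ak
  positivity

theorem cm_fw_B0_pos (hc : 0 < cE) (h : P.Ok cE D0) : 0 < P.Bk := by
  have := cm_N_pos h
  have := cm_us_pos hc h
  unfold CmCall.Bk
  positivity

theorem cm_fw_k_eq (r : ℝ) : P.k r = P.Ak / (r + P.Bk) ^ 2 := rfl

/-- `k(0) = Ak/B0² = n^(-3δ)` -/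
theorem cm_fw_k0 (h : P.Ok cE D0) : P.Ak = P.N ^ (-(3 * P.dl)) * P.Bk ^ 2 := by
  have hN := cm_N_pos h
  unfold CmCall.Ak CmCall.Bk
  rw [mul_pow, ← mul_assoc, ← Real.rpow_natCast (P.N ^ (2 * P.dl)) 2, ← Real.rpow_mul hN.le, ← Real.rpow_add hN]
  congr 2
  push_cast
  ring

theorem cm_fw_dpsi_eq (hB : 0 < P.Bk) {q1 q2 : ℝ} (h1 : 0 ≤ q1) (h2 : 0 ≤ q2) :
    P.dpsi q1 q2 = P.Ak * (q2 - q1) / ((q1 + P.Bk) * (q2 + P.Bk)) := by
  unfold CmCall.dpsi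
  have a1 : q1 + P.Bk ≠ 0 := by positivity
  have a2 : q2 + P.Bk ≠ 0 := by positivity
  field_simp
  ring

theorem cm_fw_dpsi_mono_right (hA : 0 < P.Ak) (hB : 0 < P.Bk) {q1 q2 q3 : ℝ} (h2 : 0 ≤ q2) (h23 : q2 ≤ q3) : P.dpsi q1 q2 ≤ P.dpsi q1 q3 := by
  unfold CmCall.dpsi
  have : 1 / (q3 + P.Bk) ≤ 1 / (q2 + P.Bk) := one_div_le_one_div_of_le (by positivity) (by linarith)
  exact mul_le_mul_of_nonneg_left (by linarith) hA.le

theorem cm_fw_dpsi_anti_left (hA : 0 < P.Ak) (hB : 0 < P.Bk) {q1 q2 q3 : ℝ} (h1 : 0 ≤ q1) (h12 : q1 ≤ q2) : P.dpsi q2 q3 ≤ P.dpsi q1 q3 := by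
  unfold CmCall.dpsi
  have : 1 / (q2 + P.Bk) ≤ 1 / (q1 + P.Bk) := one_div_le_one_div_of_le (by positivity) (by linarith)
  exact mul_le_mul_of_nonneg_left (by linarith) hA.le

/-- shifting the base point up decreases the `ψ`-length of an increment (`k` is decreasing) -/
theorem cm_fw_dpsi_shift (hA : 0 < P.Ak) (hB : 0 < P.Bk) {p q D : ℝ} (hp : 0 ≤ p) (hpq : p ≤ q) (hD : 0 ≤ D) : P.dpsi q (q + D) ≤ P.dpsi p (p + D) := by
  have hq : 0 ≤ q := hp.trans hpq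
  rw [cm_fw_dpsi_eq hB hq (by linarith), cm_fw_dpsi_eq hB hp (by linarith)]
  have e1 : q + D - q = D := by ring
  have e2 : p + D - p = D := by ring
  rw [e1, e2]
  refine div_le_div_of_nonneg_left (by positivity) (by positivity) ?_
  exact mul_le_mul (by linarith) (by linarith) (by positivity) (by positivity)

/-- `ψ(q + D) - ψ(q) ≤ k(0) D` -/
theorem cm_fw_dpsi_le (hA : 0 < P.Ak) (hB : 0 < P.Bk) {q D : ℝ} (hq : 0 ≤ q) (hD : 0 ≤ D) : P.dpsi q (q + D) ≤ P.Ak / P.Bk ^ 2 * D := by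
  rw [cm_fw_dpsi_eq hB hq (by linarith)]
  have e1 : q + D - q = D := by ring
  rw [e1, div_mul_eq_mul_div]
  refine div_le_div_of_nonneg_left (by positivity) (by positivity) ?_
  rw [sq]
  exact mul_le_mul (by linarith) (by linarith) hB.le (by positivity)

/-- `∫ k = ψ(q2) - ψ(q1)` -/
theorem cm_fw_k_int (hB : 0 < P.Bk) {q1 q2 : ℝ} (h1 : 0 ≤ q1) (h12 : q1 ≤ q2) : ∫ t in q1..q2, P.k t = P.dpsi q1 q2 := by
  have hne : ∀ t ∈ uIcc q1 q2, t + P.Bk ≠ 0 := by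
    intro t ht
    rw [uIcc_of_le h12] at ht
    have : 0 ≤ t := h1.trans ht.1
    positivity
  have hd : ∀ t ∈ uIcc q1 q2, HasDerivAt (fun t => -(P.Ak * (1 / (t + P.Bk)))) (P.k t) t := by
    intro t ht
    have h0 := hne t ht
    have a1 : HasDerivAt (fun t : ℝ => t + P.Bk) 1 t := (hasDerivAt_id t).add_const _
    have a3 : HasDerivAt (fun s : ℝ => -(P.Ak * (1 / (s + P.Bk)))) (-(P.Ak * ((0 * (t + P.Bk) - 1 * 1) / (t + P.Bk) ^ 2))) t :=
      (((hasDerivAt_const t (1 : ℝ)).div a1 h0).const_mul P.Ak).neg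
    refine a3.congr_deriv ?_
    rw [cm_fw_k_eq]
    field_simp
    ring
  have hi : IntervalIntegrable P.k volume q1 q2 := by
    apply ContinuousOn.intervalIntegrable
    intro t ht
    have h0 := hne t ht
    have : ContinuousAt (fun t : ℝ => P.Ak / (t + P.Bk) ^ 2) t :=
      continuousAt_const.div ((continuousAt_id.add continuousAt_const).pow 2) (pow_ne_zero 2 h0)
    exact this.continuousWithinAt
  rw [intervalIntegral.integral_eq_sub_of_hasDerivAt hd hi]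
  unfold CmCall.dpsi
  ring

/-! ## 2. the frozen cap -/

theorem cm_fw_Mt_cont : Continuous P.Mt := cm_M_cont.comp (by fun_prop)

theorem cm_fw_Mt_pos (hc : 0 < cE) (h : P.Ok cE D0) (u : ℝ) : 0 < P.Mt u :=
  lt_of_lt_of_le (Real.rpow_pos_of_pos (cm_N_pos h) _) (cm_M_ge hc h (le_max_right u 0))

theorem cm_fw_Mt_mono (hc : 0 < cE) (h : P.Ok cE D0) : Monotone P.Mt := fun a b hab =>
  cm_M_mono hc h (mem_Ici.2 (le_max_right a 0)) (mem_Ici.2 (le_max_right b 0)) (max_le_max_right 0 hab)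

theorem cm_fw_Mt_eq {u : ℝ} (hu : 0 ≤ u) : P.Mt u = P.M u := by
  unfold CmCall.Mt
  rw [max_eq_left hu]

theorem cm_fw_Mt_int {a b : ℝ} (ha : 0 ≤ a) (hab : a ≤ b) : ∫ v in a..b, (P.Mt v)⁻¹ = ∫ v in a..b, (P.M v)⁻¹ := by
  refine intervalIntegral.integral_congr fun v hv => ?_
  rw [uIcc_of_le hab] at hv
  rw [cm_fw_Mt_eq (ha.trans hv.1)]

theorem cm_fw_invM_nonneg (hc : 0 < cE) (h : P.Ok cE D0) {a b : ℝ} (ha : 0 ≤ a) (hab : a ≤ b) : 0 ≤ ∫ v in a..b, (P.M v)⁻¹ := by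
  rw [← cm_fw_Mt_int ha hab]
  exact intervalIntegral.integral_nonneg hab fun v _ => (inv_pos.2 (cm_fw_Mt_pos hc h v)).le

theorem cm_fw_invM_ge (hc : 0 < cE) (h : P.Ok cE D0) {a b : ℝ} (ha : 0 ≤ a) (hab : a ≤ b) : (b - a) * (P.M b)⁻¹ ≤ ∫ v in a..b, (P.M v)⁻¹ := by
  rw [← cm_fw_Mt_int ha hab, ← cm_fw_Mt_eq (ha.trans hab)]
  exact cm_fw_inv_ge cm_fw_Mt_cont (cm_fw_Mt_pos hc h) (cm_fw_Mt_mono hc h) hab

/-- `∫ 1/M ≤ n^(-δ) (b - a)` -/
theorem cm_fw_invM_le (hc : 0 < cE) (h : P.Ok cE D0) {a b : ℝ} (ha : 0 ≤ a) (hab : a ≤ b) : ∫ v in a..b, (P.M v)⁻¹ ≤ P.N ^ (-P.dl) * (b - a) := by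
  rw [← cm_fw_Mt_int ha hab]
  refine (cm_fw_inv_le cm_fw_Mt_cont (cm_fw_Mt_pos hc h) (cm_fw_Mt_mono hc h) hab).trans ?_
  rw [mul_comm, cm_fw_Mt_eq ha, Real.rpow_neg (cm_N_pos h).le]
  exact mul_le_mul_of_nonneg_right (inv_anti₀ (Real.rpow_pos_of_pos (cm_N_pos h) _) (cm_M_ge hc h ha)) (by linarith)

theorem cm_fw_invM_add (hc : 0 < cE) (h : P.Ok cE D0) {a b c : ℝ} (ha : 0 ≤ a) (hab : a ≤ b) (hbc : b ≤ c) :
    (∫ v in a..b, (P.M v)⁻¹) + ∫ v in b..c, (P.M v)⁻¹ = ∫ v in a..c, (P.M v)⁻¹ := by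
  rw [← cm_fw_Mt_int ha hab, ← cm_fw_Mt_int (ha.trans hab) hbc, ← cm_fw_Mt_int ha (hab.trans hbc)]
  exact intervalIntegral.integral_add_adjacent_intervals (cm_fw_ii cm_fw_Mt_cont (cm_fw_Mt_pos hc h) _ _) (cm_fw_ii cm_fw_Mt_cont (cm_fw_Mt_pos hc h) _ _)

/-- increments of the forced rise -/
theorem cm_fw_Lf_sub (hc : 0 < cE) (h : P.Ok cE D0) {u1 u2 : ℝ} (h1 : P.u0 ≤ u1) (h12 : u1 ≤ u2) : P.Lf u2 - P.Lf u1 = ∫ v in u1..u2, (P.M v)⁻¹ := by
  unfold CmCall.Lf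
  rw [← cm_fw_invM_add hc h h.u00 h1 h12]
  ring

theorem cm_fw_Lf_zero : P.Lf P.u0 = 0 := by
  unfold CmCall.Lf
  simp

theorem cm_fw_Lf_nonneg (hc : 0 < cE) (h : P.Ok cE D0) {u : ℝ} (h1 : P.u0 ≤ u) : 0 ≤ P.Lf u := cm_fw_invM_nonneg hc h h.u00 h1

/-! ## 3. a feasible quantile in forward form -/

theorem cm_fw_of_q (hc : 0 < cE) (h : P.Ok cE D0) (q : CmQ P) : CmFw P q.r := by
  have hB := cm_fw_B0_pos hc h
  have hmem : ∀ u : ℝ, P.u0 ≤ u → u ≤ 1 → q.r u ∈ Icc P.rmin 1 := fun u h1 h2 => q.r_mem u ⟨h1, h2⟩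
  have hmono : ∀ u1 u2 : ℝ, P.u0 ≤ u1 → u1 ≤ u2 → u2 ≤ 1 → q.r u1 ≤ q.r u2 := fun u1 u2 h1 h12 h2 =>
    (cm_q_r_strictMono hc h q).monotoneOn ⟨h1, h12.trans h2⟩ ⟨h1.trans h12, h2⟩ h12
  refine ⟨fun u h1 h2 => h.r0.trans (hmem u h1 h2).1, fun u1 u2 h1 h12 h2 => ?_, fun u1 u2 h1 h12 h2 => ?_⟩
  · have m1 := hmem u1 h1 (h12.trans h2)
    have m2 := hmem u2 (h1.trans h12) h2
    have hsub : Icc (q.r u1) (q.r u2) ⊆ Icc P.rmin 1 := Icc_subset_Icc m1.1 m2.2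
    have key := cm_fw_A (M := P.Mt) cm_fw_Mt_cont (cm_fw_Mt_pos hc h) (cm_fw_Mt_mono hc h) (φ := q.al) (hmono u1 u2 h1 h12 h2)
      ((cm_q_al_cont hc h q).mono hsub) ((cm_q_al_strictMono hc h q).monotoneOn.mono hsub)
      (fun s t hs hst ht => by
        refine (q.hi s t (m1.1.trans hs) hst (ht.trans m2.2)).trans (le_of_eq ?_)
        refine intervalIntegral.integral_congr fun τ hτ => ?_
        rw [uIcc_of_le hst] at hτ
        rw [cm_fw_Mt_eq (h.u00.trans (cm_q_al_mem hc h q ⟨(m1.1.trans hs).trans hτ.1, hτ.2.trans (ht.trans m2.2)⟩).1)])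
    rw [q.al_r u1 ⟨h1, h12.trans h2⟩, q.al_r u2 ⟨h1.trans h12, h2⟩, cm_fw_Mt_int (h.u00.trans h1) h12] at key
    exact key
  · have m1 := hmem u1 h1 (h12.trans h2)
    have m2 := hmem u2 (h1.trans h12) h2
    have key := q.lo (q.r u1) (q.r u2) m1.1 (hmono u1 u2 h1 h12 h2) m2.2
    rw [q.al_r u1 ⟨h1, h12.trans h2⟩, q.al_r u2 ⟨h1.trans h12, h2⟩, cm_fw_k_int hB (h.r0.trans m1.1) (hmono u1 u2 h1 h12 h2)] at key
    exact key

/-! ## 4. first consequences of the forward form -/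

theorem cm_fw_M_pos (hc : 0 < cE) (h : P.Ok cE D0) {u : ℝ} (hu : 0 ≤ u) : 0 < P.M u :=
  lt_of_lt_of_le (Real.rpow_pos_of_pos (cm_N_pos h) _) (cm_M_ge hc h hu)

theorem cm_fw_mono (hc : 0 < cE) (h : P.Ok cE D0) {r : ℝ → ℝ} (hr : CmFw P r) {u1 u2 : ℝ} (h1 : P.u0 ≤ u1) (h12 : u1 ≤ u2) (h2 : u2 ≤ 1) : r u1 ≤ r u2 := by
  have a := hr.lo u1 u2 h1 h12 h2
  have b := cm_fw_invM_nonneg hc h (h.u00.trans h1) h12
  linarith

theorem cm_fw_strict (hc : 0 < cE) (h : P.Ok cE D0) {r : ℝ → ℝ} (hr : CmFw P r) {u1 u2 : ℝ} (h1 : P.u0 ≤ u1) (h12 : u1 < u2) (h2 : u2 ≤ 1) : r u1 < r u2 := by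
  have a := hr.lo u1 u2 h1 h12.le h2
  have b := cm_fw_invM_ge hc h (h.u00.trans h1) h12.le
  have c : 0 < (u2 - u1) * (P.M u2)⁻¹ := mul_pos (sub_pos.2 h12) (inv_pos.2 (cm_fw_M_pos hc h ((h.u00.trans h1).trans h12.le)))
  linarith

/-- `r` is Lipschitz with the constant `1/k(1)` -/
theorem cm_fw_lip (hc : 0 < cE) (h : P.Ok cE D0) {r : ℝ → ℝ} (hr : CmFw P r) (h11 : r 1 ≤ 1) {u1 u2 : ℝ} (h1 : P.u0 ≤ u1) (h12 : u1 ≤ u2) (h2 : u2 ≤ 1) :
    r u2 - r u1 ≤ (1 + P.Bk) ^ 2 / P.Ak * (u2 - u1) := by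
  have hA := cm_fw_A0_pos hc h
  have hB := cm_fw_B0_pos hc h
  have n1 := hr.nn u1 h1 (h12.trans h2)
  have n2 := hr.nn u2 (h1.trans h12) h2
  have m12 := cm_fw_mono hc h hr h1 h12 h2
  have m2 : r u2 ≤ 1 := (cm_fw_mono hc h hr (h1.trans h12) h2 le_rfl).trans h11
  have a := hr.up u1 u2 h1 h12 h2
  rw [cm_fw_dpsi_eq hB n1 n2, div_le_iff₀ (by positivity)] at a
  rw [div_mul_eq_mul_div, le_div_iff₀ hA]
  have b : (r u1 + P.Bk) * (r u2 + P.Bk) ≤ (1 + P.Bk) ^ 2 := by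
    rw [sq]
    exact mul_le_mul (by linarith) (by linarith) (by positivity) (by positivity)
  have c : 0 ≤ u2 - u1 := by linarith
  nlinarith

theorem cm_fw_contOn_of_lip {f : ℝ → ℝ} {a b K : ℝ} (hK : 0 ≤ K)
    (hm : ∀ x y : ℝ, a ≤ x → x ≤ y → y ≤ b → 0 ≤ f y - f x ∧ f y - f x ≤ K * (y - x)) : ContinuousOn f (Icc a b) := by
  refine (LipschitzOnWith.of_dist_le_mul (K := K.toNNReal) ?_).continuousOn
  intro x hx y hy
  rw [Real.coe_toNNReal K hK, Real.dist_eq, Real.dist_eq]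
  rcases le_total x y with hxy | hxy
  · obtain ⟨c1, c2⟩ := hm x y hx.1 hxy hy.2
    rw [abs_sub_comm (f x), abs_sub_comm x, abs_of_nonneg c1, abs_of_nonneg (by linarith)]
    exact c2
  · obtain ⟨c1, c2⟩ := hm y x hy.1 hxy hx.2
    rw [abs_of_nonneg c1, abs_of_nonneg (by linarith)]
    exact c2

/-! ## 5. THE CONSTRUCTOR -/

/-- **a forward quantile is a feasible quantile** -/
theorem cm_fw_mk (hc : 0 < cE) (h : P.Ok cE D0) {r : ℝ → ℝ} (hr : CmFw P r) (h0 : r P.u0 = P.rmin) (h1 : r 1 = 1) : ∃ q : CmQ P, q.r = r := by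
  have hA := cm_fw_A0_pos hc h
  have hB := cm_fw_B0_pos hc h
  have h01 : P.u0 ≤ 1 := h.u01.trans (by norm_num)
  have hsm : StrictMonoOn r (Icc P.u0 1) := fun a ha b hb hab => cm_fw_strict hc h hr ha.1 hab hb.2
  have hcont : ContinuousOn r (Icc P.u0 1) := cm_fw_contOn_of_lip (K := (1 + P.Bk) ^ 2 / P.Ak) (by positivity) fun x y hx hxy hy =>
    ⟨sub_nonneg.2 (cm_fw_mono hc h hr hx hxy hy), cm_fw_lip hc h hr h1.le hx hxy hy⟩
  have surj : ∀ t ∈ Icc P.rmin 1, ∃ u ∈ Icc P.u0 1, r u = t := by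
    intro t ht
    have := intermediate_value_Icc h01 hcont
    rw [h0, h1] at this
    exact this ht
  obtain ⟨al, hal⟩ : ∃ al : ℝ → ℝ, al = Function.invFunOn r (Icc P.u0 1) := ⟨_, rfl⟩
  have hal_mem : ∀ t ∈ Icc P.rmin 1, al t ∈ Icc P.u0 1 := fun t ht => hal ▸ Function.invFunOn_mem (surj t ht)
  have hr_al : ∀ t ∈ Icc P.rmin 1, r (al t) = t := fun t ht => hal ▸ Function.invFunOn_eq (surj t ht)
  have hal_r : ∀ u ∈ Icc P.u0 1, al (r u) = u := fun u hu => hal ▸ hsm.injOn.leftInvOn_invFunOn hu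
  have hal_mono : ∀ s t : ℝ, P.rmin ≤ s → s ≤ t → t ≤ 1 → al s ≤ al t := by
    intro s t hs hst ht
    by_contra hlt
    rw [not_le] at hlt
    have := hsm (hal_mem t ⟨hs.trans hst, ht⟩) (hal_mem s ⟨hs, hst.trans ht⟩) hlt
    rw [hr_al t ⟨hs.trans hst, ht⟩, hr_al s ⟨hs, hst.trans ht⟩] at this
    linarith
  have hlo : ∀ s t : ℝ, P.rmin ≤ s → s ≤ t → t ≤ 1 → ∫ v in al s..al t, (P.M v)⁻¹ ≤ t - s := by
    intro s t hs hst ht
    have := hr.lo (al s) (al t) (hal_mem s ⟨hs, hst.trans ht⟩).1 (hal_mono s t hs hst ht) (hal_mem t ⟨hs.trans hst, ht⟩).2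
    rwa [hr_al t ⟨hs.trans hst, ht⟩, hr_al s ⟨hs, hst.trans ht⟩] at this
  have hal_lip : ∀ s t : ℝ, P.rmin ≤ s → s ≤ t → t ≤ 1 → al t - al s ≤ P.M 1 * (t - s) := by
    intro s t hs hst ht
    have ms := hal_mem s ⟨hs, hst.trans ht⟩
    have mt := hal_mem t ⟨hs.trans hst, ht⟩
    have a := (cm_fw_invM_ge hc h (h.u00.trans ms.1) (hal_mono s t hs hst ht)).trans (hlo s t hs hst ht)
    have hp := cm_fw_M_pos hc h (h.u00.trans mt.1)
    rw [← div_eq_mul_inv, div_le_iff₀ hp] at a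
    have b : P.M (al t) ≤ P.M 1 := cm_M_mono hc h (mem_Ici.2 (h.u00.trans mt.1)) (mem_Ici.2 zero_le_one) mt.2
    have c : 0 ≤ t - s := by linarith
    nlinarith
  have hM1 : 0 < P.M 1 := cm_fw_M_pos hc h zero_le_one
  refine ⟨⟨al, r, ?_, ?_, ?_, ?_, ?_, hal_r, hr_al⟩, rfl⟩
  · rw [← h0]; exact hal_r _ ⟨le_rfl, h01⟩
  · have := hal_r 1 ⟨h01, le_rfl⟩
    rwa [h1] at this
  · intro s t hs hst ht
    rw [cm_fw_k_int hB (h.r0.trans hs) hst]
    have := hr.up (al s) (al t) (hal_mem s ⟨hs, hst.trans ht⟩).1 (hal_mono s t hs hst ht) (hal_mem t ⟨hs.trans hst, ht⟩).2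
    rwa [hr_al t ⟨hs.trans hst, ht⟩, hr_al s ⟨hs, hst.trans ht⟩] at this
  · intro s t hs hst ht
    have key := cm_fw_B (M := P.Mt) cm_fw_Mt_cont (cm_fw_Mt_pos hc h) (cm_fw_Mt_mono hc h) (al := al) hst
      (cm_fw_contOn_of_lip hM1.le fun x y hx hxy hy =>
        ⟨sub_nonneg.2 (hal_mono x y (hs.trans hx) hxy (hy.trans ht)), hal_lip x y (hs.trans hx) hxy (hy.trans ht)⟩)
      (fun x hx y hy hxy => hal_mono x y (hs.trans hx.1) hxy (hy.2.trans ht))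
      (fun x y hx hxy hy => by
        rw [cm_fw_Mt_int (h.u00.trans (hal_mem x ⟨hs.trans hx, (hxy.trans hy).trans ht⟩).1) (hal_mono x y (hs.trans hx) hxy (hy.trans ht))]
        exact hlo x y (hs.trans hx) hxy (hy.trans ht))
    refine key.trans (le_of_eq ?_)
    refine intervalIntegral.integral_congr fun τ hτ => ?_
    rw [uIcc_of_le hst] at hτ
    exact cm_fw_Mt_eq (h.u00.trans (hal_mem τ ⟨hs.trans hτ.1, hτ.2.trans ht⟩).1)
  · intro u hu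
    refine ⟨?_, ?_⟩
    · rw [← h0]; exact cm_fw_mono hc h hr le_rfl hu.1 hu.2
    · rw [← h1]; exact cm_fw_mono hc h hr hu.1 hu.2 le_rfl

/-! ## 6. closure -/

theorem cm_fw_max_lo {r w : ℝ → ℝ} {u1 u2 I : ℝ} (hr : I ≤ r u2 - r u1) (hw : I ≤ w u2 - w u1) : I ≤ max (r u2) (w u2) - max (r u1) (w u1) := by
  rcases le_total (w u1) (r u1) with hh | hh
  · rw [max_eq_left hh]
    have := le_max_left (r u2) (w u2)
    linarith
  · rw [max_eq_right hh]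
    have := le_max_right (r u2) (w u2)
    linarith

theorem cm_fw_max (hc : 0 < cE) (h : P.Ok cE D0) {r w : ℝ → ℝ} (hr : CmFw P r) (hw : CmFw P w) : CmFw P (fun u => max (r u) (w u)) := by
  have hA := cm_fw_A0_pos hc h
  have hB := cm_fw_B0_pos hc h
  refine ⟨fun u h1 h2 => le_max_of_le_left (hr.nn u h1 h2), fun u1 u2 h1 h12 h2 => cm_fw_max_lo (hr.lo u1 u2 h1 h12 h2) (hw.lo u1 u2 h1 h12 h2),
    fun u1 u2 h1 h12 h2 => ?_⟩
  show P.dpsi (max (r u1) (w u1)) (max (r u2) (w u2)) ≤ _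
  rcases le_total (w u2) (r u2) with hh | hh
  · rw [max_eq_left hh]
    exact (cm_fw_dpsi_anti_left hA hB (hr.nn u1 h1 (h12.trans h2)) (le_max_left _ _)).trans (hr.up u1 u2 h1 h12 h2)
  · rw [max_eq_right hh]
    exact (cm_fw_dpsi_anti_left hA hB (hw.nn u1 h1 (h12.trans h2)) (le_max_right _ _)).trans (hw.up u1 u2 h1 h12 h2)

theorem cm_fw_min (hc : 0 < cE) (h : P.Ok cE D0) {r w : ℝ → ℝ} (hr : CmFw P r) (hw : CmFw P w) : CmFw P (fun u => min (r u) (w u)) := by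
  have hA := cm_fw_A0_pos hc h
  have hB := cm_fw_B0_pos hc h
  refine ⟨fun u h1 h2 => le_min (hr.nn u h1 h2) (hw.nn u h1 h2), fun u1 u2 h1 h12 h2 => ?_, fun u1 u2 h1 h12 h2 => ?_⟩
  · show _ ≤ min (r u2) (w u2) - min (r u1) (w u1)
    rcases le_total (r u2) (w u2) with hh | hh
    · rw [min_eq_left hh]
      have := min_le_left (r u1) (w u1)
      have := hr.lo u1 u2 h1 h12 h2
      linarith
    · rw [min_eq_right hh]
      have := min_le_right (r u1) (w u1)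
      have := hw.lo u1 u2 h1 h12 h2
      linarith
  · show P.dpsi (min (r u1) (w u1)) (min (r u2) (w u2)) ≤ _
    have n2 : 0 ≤ min (r u2) (w u2) := le_min (hr.nn u2 (h1.trans h12) h2) (hw.nn u2 (h1.trans h12) h2)
    rcases le_total (r u1) (w u1) with hh | hh
    · rw [min_eq_left hh]
      exact (cm_fw_dpsi_mono_right hA hB n2 (min_le_left _ _)).trans (hr.up u1 u2 h1 h12 h2)
    · rw [min_eq_right hh]
      exact (cm_fw_dpsi_mono_right hA hB n2 (min_le_right _ _)).trans (hw.up u1 u2 h1 h12 h2)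

/-- a nonnegative function with the lower slope and a Lipschitz constant `≤ 1/k(0)` -/
theorem cm_fw_of_lip (hc : 0 < cE) (h : P.Ok cE D0) {w : ℝ → ℝ} {s : ℝ} (hnn : ∀ u : ℝ, P.u0 ≤ u → u ≤ 1 → 0 ≤ w u)
    (hlo : ∀ u1 u2 : ℝ, P.u0 ≤ u1 → u1 ≤ u2 → u2 ≤ 1 → ∫ v in u1..u2, (P.M v)⁻¹ ≤ w u2 - w u1)
    (hlip : ∀ u1 u2 : ℝ, P.u0 ≤ u1 → u1 ≤ u2 → u2 ≤ 1 → w u2 - w u1 ≤ s * (u2 - u1)) (hs : s * P.Ak ≤ P.Bk ^ 2) : CmFw P w := by
  have hA := cm_fw_A0_pos hc h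
  have hB := cm_fw_B0_pos hc h
  refine ⟨hnn, hlo, fun u1 u2 h1 h12 h2 => ?_⟩
  have d0 : 0 ≤ w u2 - w u1 := (cm_fw_invM_nonneg hc h (h.u00.trans h1) h12).trans (hlo u1 u2 h1 h12 h2)
  have a := cm_fw_dpsi_le hA hB (hnn u1 h1 (h12.trans h2)) d0
  have e : w u1 + (w u2 - w u1) = w u2 := by ring
  rw [e] at a
  refine a.trans ?_
  have b := hlip u1 u2 h1 h12 h2
  have c : 0 ≤ u2 - u1 := by linarith
  rw [div_mul_eq_mul_div, div_le_iff₀ (by positivity)]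
  nlinarith

/-- **linear interpolation towards `max r w`** (PE l.363-372) -/
theorem cm_fw_lin (hc : 0 < cE) (h : P.Ok cE D0) {r w : ℝ → ℝ} {s t : ℝ} (hr : CmFw P r)
    (hlo : ∀ u1 u2 : ℝ, P.u0 ≤ u1 → u1 ≤ u2 → u2 ≤ 1 → ∫ v in u1..u2, (P.M v)⁻¹ ≤ w u2 - w u1)
    (hlip : ∀ u1 u2 : ℝ, P.u0 ≤ u1 → u1 ≤ u2 → u2 ≤ 1 → w u2 - w u1 ≤ s * (u2 - u1)) (hs : s * P.Ak ≤ P.Bk ^ 2) (ht0 : 0 ≤ t) (ht1 : t ≤ 1) :
    CmFw P (fun u => (1 - t) * r u + t * max (r u) (w u)) := by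
  have hA := cm_fw_A0_pos hc h
  have hB := cm_fw_B0_pos hc h
  have hnn : ∀ u : ℝ, P.u0 ≤ u → u ≤ 1 → r u ≤ (1 - t) * r u + t * max (r u) (w u) := by
    intro u _ _
    have := le_max_left (r u) (w u)
    nlinarith
  have hLO : ∀ u1 u2 : ℝ, P.u0 ≤ u1 → u1 ≤ u2 → u2 ≤ 1 →
      ∫ v in u1..u2, (P.M v)⁻¹ ≤ ((1 - t) * r u2 + t * max (r u2) (w u2)) - ((1 - t) * r u1 + t * max (r u1) (w u1)) := by
    intro u1 u2 h1 h12 h2
    have a := hr.lo u1 u2 h1 h12 h2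
    have b := cm_fw_max_lo a (hlo u1 u2 h1 h12 h2)
    nlinarith
  refine ⟨fun u h1 h2 => (hr.nn u h1 h2).trans (hnn u h1 h2), hLO, fun u1 u2 h1 h12 h2 => ?_⟩
  show P.dpsi ((1 - t) * r u1 + t * max (r u1) (w u1)) ((1 - t) * r u2 + t * max (r u2) (w u2)) ≤ _
  obtain ⟨q, hq⟩ : ∃ q : ℝ, q = (1 - t) * r u1 + t * max (r u1) (w u1) := ⟨_, rfl⟩
  obtain ⟨D, hD⟩ : ∃ D : ℝ, D = ((1 - t) * r u2 + t * max (r u2) (w u2)) - q := ⟨_, rfl⟩
  have hp0 := hr.nn u1 h1 (h12.trans h2)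
  have hpq : r u1 ≤ q := hq ▸ hnn u1 h1 (h12.trans h2)
  have hD0 : 0 ≤ D := by
    rw [hD, hq]
    exact (cm_fw_invM_nonneg hc h (h.u00.trans h1) h12).trans (hLO u1 u2 h1 h12 h2)
  have e : (1 - t) * r u2 + t * max (r u2) (w u2) = q + D := by rw [hD]; ring
  rw [← hq, e]
  refine (cm_fw_dpsi_shift hA hB hp0 hpq hD0).trans ?_
  have hr12 := cm_fw_mono hc h hr h1 h12 h2
  -- the increment of the maximum
  have hDv : max (r u2) (w u2) - max (r u1) (w u1) ≤ max (r u2 - r u1) (w u2 - w u1) := by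
    rcases le_total (w u2) (r u2) with hh | hh
    · rw [max_eq_left hh]
      have := le_max_left (r u1) (w u1)
      exact le_max_of_le_left (by linarith)
    · rw [max_eq_right hh]
      have := le_max_right (r u1) (w u1)
      exact le_max_of_le_right (by linarith)
  have hDle : D ≤ max (r u2 - r u1) (w u2 - w u1) := by
    have a := le_max_left (r u2 - r u1) (w u2 - w u1)
    rw [hD, hq]
    nlinarith
  rcases le_max_iff.1 hDle with hc1 | hc1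
  · have a := cm_fw_dpsi_mono_right (q1 := r u1) hA hB (show 0 ≤ r u1 + D by linarith) (show r u1 + D ≤ r u2 by linarith)
    exact a.trans (hr.up u1 u2 h1 h12 h2)
  · refine (cm_fw_dpsi_le hA hB hp0 hD0).trans ?_
    have b := hlip u1 u2 h1 h12 h2
    have c : 0 ≤ u2 - u1 := by linarith
    rw [div_mul_eq_mul_div, div_le_iff₀ (by positivity)]
    nlinarith

/-- the weighted harmonic mean -/
def cmHm (t R V : ℝ) : ℝ := R * V / ((1 - t) * V + t * R)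

theorem cm_fw_hm_den {t R V : ℝ} (ht0 : 0 ≤ t) (ht1 : t ≤ 1) (hR : 0 < R) (hV : 0 < V) : 0 < (1 - t) * V + t * R := by
  rcases ht0.eq_or_lt with rfl | h
  · simpa using hV
  · have : 0 ≤ (1 - t) * V := mul_nonneg (by linarith) hV.le
    have : 0 < t * R := mul_pos h hR
    linarith

theorem cm_fw_hm_pos {t R V : ℝ} (ht0 : 0 ≤ t) (ht1 : t ≤ 1) (hR : 0 < R) (hV : 0 < V) : 0 < cmHm t R V :=
  div_pos (mul_pos hR hV) (cm_fw_hm_den ht0 ht1 hR hV)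

theorem cm_fw_hm_inv {t R V : ℝ} (ht0 : 0 ≤ t) (ht1 : t ≤ 1) (hR : 0 < R) (hV : 0 < V) : 1 / cmHm t R V = (1 - t) * (1 / R) + t * (1 / V) := by
  have := cm_fw_hm_den ht0 ht1 hR hV
  unfold cmHm
  field_simp

theorem cm_fw_hm_mono {t R V R' V' : ℝ} (ht0 : 0 ≤ t) (ht1 : t ≤ 1) (hR : 0 < R) (hV : 0 < V) (hRR : R ≤ R') (hVV : V ≤ V') : cmHm t R V ≤ cmHm t R' V' := by
  have p1 := cm_fw_hm_pos ht0 ht1 hR hV
  have p2 := cm_fw_hm_pos ht0 ht1 (hR.trans_le hRR) (hV.trans_le hVV)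
  rw [← one_div_le_one_div p2 p1, cm_fw_hm_inv ht0 ht1 hR hV, cm_fw_hm_inv ht0 ht1 (hR.trans_le hRR) (hV.trans_le hVV)]
  have a : 1 / R' ≤ 1 / R := one_div_le_one_div_of_le hR hRR
  have b : 1 / V' ≤ 1 / V := one_div_le_one_div_of_le hV hVV
  have c : 0 ≤ 1 - t := by linarith
  nlinarith

/-- superadditivity on the diagonal: `W W* - R V = t (1 - t) (R - V)²` -/
theorem cm_fw_hm_shift {t R V D : ℝ} (ht0 : 0 ≤ t) (ht1 : t ≤ 1) (hR : 0 < R) (hV : 0 < V) (hD : 0 ≤ D) : cmHm t R V + D ≤ cmHm t (R + D) (V + D) := by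
  have d1 := cm_fw_hm_den ht0 ht1 hR hV
  have d2 := cm_fw_hm_den ht0 ht1 (show 0 < R + D by linarith) (show 0 < V + D by linarith)
  unfold cmHm
  rw [div_add' _ _ _ d1.ne', div_le_div_iff₀ d1 d2]
  have key : 0 ≤ D * (t * (1 - t) * (R - V) ^ 2) := mul_nonneg hD (mul_nonneg (mul_nonneg ht0 (by linarith)) (sq_nonneg _))
  nlinarith

/-- **interpolation linear in `ψ`** (PE l.418-447) -/
theorem cm_fw_har (hc : 0 < cE) (h : P.Ok cE D0) {r v : ℝ → ℝ} {t : ℝ} (hr : CmFw P r) (hv : CmFw P v) (ht0 : 0 ≤ t) (ht1 : t ≤ 1) :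
    CmFw P (fun u => cmHm t (r u + P.Bk) (v u + P.Bk) - P.Bk) := by
  have hA := cm_fw_A0_pos hc h
  have hB := cm_fw_B0_pos hc h
  have hR : ∀ u : ℝ, P.u0 ≤ u → u ≤ 1 → 0 < r u + P.Bk := fun u h1 h2 => by have := hr.nn u h1 h2; linarith
  have hV : ∀ u : ℝ, P.u0 ≤ u → u ≤ 1 → 0 < v u + P.Bk := fun u h1 h2 => by have := hv.nn u h1 h2; linarith
  refine ⟨fun u h1 h2 => ?_, fun u1 u2 h1 h12 h2 => ?_, fun u1 u2 h1 h12 h2 => ?_⟩
  · have a := cm_fw_hm_mono ht0 ht1 hB hB (show P.Bk ≤ r u + P.Bk by have := hr.nn u h1 h2; linarith) (show P.Bk ≤ v u + P.Bk by have := hv.nn u h1 h2; linarith)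
    have b : cmHm t P.Bk P.Bk = P.Bk := by
      unfold cmHm
      have : (1 - t) * P.Bk + t * P.Bk = P.Bk := by ring
      rw [this]
      field_simp
    rw [b] at a
    linarith
  · have I0 := cm_fw_invM_nonneg hc h (h.u00.trans h1) h12
    have a := cm_fw_hm_shift ht0 ht1 (hR u1 h1 (h12.trans h2)) (hV u1 h1 (h12.trans h2)) I0
    have b := cm_fw_hm_mono (t := t) ht0 ht1 (show 0 < r u1 + P.Bk + ∫ v in u1..u2, (P.M v)⁻¹ by have := hR u1 h1 (h12.trans h2); linarith)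
      (show 0 < v u1 + P.Bk + ∫ v in u1..u2, (P.M v)⁻¹ by have := hV u1 h1 (h12.trans h2); linarith)
      (show r u1 + P.Bk + ∫ v in u1..u2, (P.M v)⁻¹ ≤ r u2 + P.Bk by have := hr.lo u1 u2 h1 h12 h2; linarith)
      (show v u1 + P.Bk + ∫ v in u1..u2, (P.M v)⁻¹ ≤ v u2 + P.Bk by have := hv.lo u1 u2 h1 h12 h2; linarith)
    show _ ≤ (cmHm t (r u2 + P.Bk) (v u2 + P.Bk) - P.Bk) - (cmHm t (r u1 + P.Bk) (v u1 + P.Bk) - P.Bk)
    linarith
  · show P.dpsi (cmHm t (r u1 + P.Bk) (v u1 + P.Bk) - P.Bk) (cmHm t (r u2 + P.Bk) (v u2 + P.Bk) - P.Bk) ≤ _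
    have a := hr.up u1 u2 h1 h12 h2
    have b := hv.up u1 u2 h1 h12 h2
    unfold CmCall.dpsi at a b ⊢
    rw [sub_add_cancel, sub_add_cancel, cm_fw_hm_inv ht0 ht1 (hR u1 h1 (h12.trans h2)) (hV u1 h1 (h12.trans h2)),
      cm_fw_hm_inv ht0 ht1 (hR u2 (h1.trans h12) h2) (hV u2 (h1.trans h12) h2)]
    have c : 0 ≤ 1 - t := by linarith
    nlinarith

/-- displacement of the harmonic interpolation, `V ≤ R` -/
theorem cm_fw_hm_disp {t R V : ℝ} (ht0 : 0 ≤ t) (ht1 : t ≤ 1) (hV : 0 < V) (hVR : V ≤ R) :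
    t * (R - V) ≤ R - cmHm t R V ∧ R - cmHm t R V ≤ t * (R - V) * (R / V) ∧ V ≤ cmHm t R V := by
  have hR : 0 < R := hV.trans_le hVR
  have d := cm_fw_hm_den ht0 ht1 hR hV
  have e : R - cmHm t R V = t * (R - V) * (R / ((1 - t) * V + t * R)) := by
    unfold cmHm
    rw [eq_comm, mul_div_assoc', div_eq_iff d.ne', sub_mul, div_mul_cancel₀ _ d.ne']
    ring
  have w1 : (1 - t) * V + t * R ≤ R := by nlinarith
  have w2 : V ≤ (1 - t) * V + t * R := by nlinarith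
  have n0 : 0 ≤ t * (R - V) := mul_nonneg ht0 (by linarith)
  refine ⟨?_, ?_, ?_⟩
  · rw [e]
    have : 1 ≤ R / ((1 - t) * V + t * R) := (one_le_div d).2 w1
    nlinarith
  · rw [e]
    exact mul_le_mul_of_nonneg_left (div_le_div_of_nonneg_left hR.le hV w2) n0
  · unfold cmHm
    rw [le_div_iff₀ d]
    nlinarith

/-! ## 7. the explicit barriers -/

/-- the clamp -/
def cmClamp (a len u : ℝ) : ℝ := max 0 (min (u - a) len)

theorem cm_fw_clamp_nonneg (a len u : ℝ) : 0 ≤ cmClamp a len u := le_max_left _ _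

theorem cm_fw_clamp_mono (a len : ℝ) {u1 u2 : ℝ} (h : u1 ≤ u2) : cmClamp a len u1 ≤ cmClamp a len u2 :=
  max_le_max_left 0 (min_le_min_right len (by linarith))

theorem cm_fw_clamp_lip (a len : ℝ) {u1 u2 : ℝ} (h : u1 ≤ u2) : cmClamp a len u2 - cmClamp a len u1 ≤ u2 - u1 := by
  unfold cmClamp
  rcases le_total (u2 - a) len with h2 | h2
  · rw [min_eq_left h2, min_eq_left (show u1 - a ≤ len by linarith)]
    rcases le_total 0 (u2 - a) with h3 | h3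
    · rw [max_eq_right h3]
      have := le_max_right 0 (u1 - a)
      linarith
    · rw [max_eq_left h3]
      have := le_max_left 0 (u1 - a)
      linarith
  · rw [min_eq_right h2]
    rcases le_total (u1 - a) len with h1 | h1
    · rw [min_eq_left h1]
      rcases le_total 0 len with h3 | h3
      · rw [max_eq_right h3]
        have := le_max_right 0 (u1 - a)
        linarith
      · rw [max_eq_left h3]
        have := le_max_left 0 (u1 - a)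
        linarith
    · rw [min_eq_right h1]
      linarith

theorem cm_fw_clamp_of_le {a len u : ℝ} (h : u ≤ a) : cmClamp a len u = 0 := by
  unfold cmClamp
  exact max_eq_left ((min_le_left _ _).trans (by linarith))

theorem cm_fw_clamp_of_ge {a len u : ℝ} (hl : 0 ≤ len) (h : a + len ≤ u) : cmClamp a len u = len := by
  unfold cmClamp
  rw [min_eq_right (by linarith), max_eq_right hl]

theorem cm_fw_clamp_le {a len : ℝ} (hl : 0 ≤ len) (u : ℝ) : cmClamp a len u ≤ len := max_le hl (min_le_right _ _)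

theorem cm_fw_clamp_mid {a len u : ℝ} (h1 : a ≤ u) (h2 : u ≤ a + len) : cmClamp a len u = u - a := by
  unfold cmClamp
  rw [min_eq_left (by linarith), max_eq_right (by linarith)]

/-- **the barrier** `c + ∫_{u0}^u 1/M + s clamp` -/
def CmCall.bar (P : CmCall) (c s a len u : ℝ) : ℝ := c + P.Lf u + s * cmClamp a len u

theorem cm_fw_bar_lo (hc : 0 < cE) (h : P.Ok cE D0) {c s a len : ℝ} (hs : 0 ≤ s) (u1 u2 : ℝ) (h1 : P.u0 ≤ u1) (h12 : u1 ≤ u2) :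
    ∫ v in u1..u2, (P.M v)⁻¹ ≤ P.bar c s a len u2 - P.bar c s a len u1 := by
  unfold CmCall.bar
  have a1 := cm_fw_Lf_sub hc h h1 h12
  have a2 := mul_le_mul_of_nonneg_left (cm_fw_clamp_mono a len h12) hs
  linarith

theorem cm_fw_bar_lip (hc : 0 < cE) (h : P.Ok cE D0) {c s a len : ℝ} (hs : 0 ≤ s) (u1 u2 : ℝ) (h1 : P.u0 ≤ u1) (h12 : u1 ≤ u2) :
    P.bar c s a len u2 - P.bar c s a len u1 ≤ (P.N ^ (-P.dl) + s) * (u2 - u1) := by
  unfold CmCall.bar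
  have a1 := cm_fw_Lf_sub hc h h1 h12
  have a2 := cm_fw_invM_le hc h (h.u00.trans h1) h12
  have a3 := mul_le_mul_of_nonneg_left (cm_fw_clamp_lip a len h12) hs
  nlinarith

theorem cm_fw_bar_nonneg (hc : 0 < cE) (h : P.Ok cE D0) {c s a len : ℝ} (hc0 : 0 ≤ c) (hs : 0 ≤ s) {u : ℝ} (h1 : P.u0 ≤ u) : 0 ≤ P.bar c s a len u := by
  unfold CmCall.bar
  have a1 := cm_fw_Lf_nonneg hc h h1
  have a2 := mul_nonneg hs (cm_fw_clamp_nonneg a len u)
  linarith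

/-- the barrier obeys both slope constraints as soon as `n^(-δ) + s ≤ n^(3δ) = 1/k(0)` -/
theorem cm_fw_bar (hc : 0 < cE) (h : P.Ok cE D0) {c s a len : ℝ} (hc0 : 0 ≤ c) (hs : 0 ≤ s) (hs1 : P.N ^ (-P.dl) + s ≤ P.N ^ (3 * P.dl)) :
    CmFw P (P.bar c s a len) := by
  refine cm_fw_of_lip hc h (s := P.N ^ (-P.dl) + s) (fun u h1 _ => cm_fw_bar_nonneg hc h hc0 hs h1)
    (fun u1 u2 h1 h12 _ => cm_fw_bar_lo hc h hs u1 u2 h1 h12) (fun u1 u2 h1 h12 _ => cm_fw_bar_lip hc h hs u1 u2 h1 h12) ?_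
  have hN := cm_N_pos h
  have hB := cm_fw_B0_pos hc h
  rw [cm_fw_k0 h]
  have e : P.N ^ (3 * P.dl) * P.N ^ (-(3 * P.dl)) = 1 := by
    rw [← Real.rpow_add hN]
    simp
  have p : 0 < P.N ^ (-(3 * P.dl)) * P.Bk ^ 2 := by positivity
  calc (P.N ^ (-P.dl) + s) * (P.N ^ (-(3 * P.dl)) * P.Bk ^ 2) ≤ P.N ^ (3 * P.dl) * (P.N ^ (-(3 * P.dl)) * P.Bk ^ 2) := mul_le_mul_of_nonneg_right hs1 p.le
    _ = P.Bk ^ 2 := by rw [← mul_assoc, e, one_mul]

theorem cm_fw_eqns_cite2 : True := by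
  have := @cmHm.eq_1; have := @cmClamp.eq_1; have := @CmCall.bar.eq_1
  trivial

end

end Claimed.Agent.R286
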