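import Claimed.Agent.R286.Cmp.P6Geo

/-!
# Row 286 (S0533), PE Section 3.4 (package P06): THE BAND LEMMA      (architect helper35; proofs helper179; package head helper294; prefix `cm6b_`)

ONE non-asymptotic estimate of `∫_{[v1,v2]} D²` (`v2 ≤ Γ v1`, `16 u_* ≤ v1`), used by (18) (l.1017-1033), by the inner part of Prop. 3.9 (l.1051-1075) and by the mass form of (19) (l.1110-1127):
   `[v1,v2] ⊆ floor ∪ ordinary group ∪ broad caps ∪ (u0, u0+u_*)`   (`cm_cover_units`, ratio `Gam = 8`)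
* floor:            floor mass times `yR²`   (`D ≤ yR` on `[v1,v2]`);
* ordinary group:   `cm_br_geo` + `cm_brR_opt` at `v = v1`, `Gam = 16 Γ`   (`cm_grp_band`: the group lies in `[v1/16, 16 v2]`);
* broad caps:       at most `4 Γ` of them (`cm_broad_count`); each is replaced by its ENLARGED slice `capM ∩ (v1/2, 2 v2)`, of length `≥ v1/2` (`cm_broad_window`), then `cm_br_slice`;
* initial interval: mass `≤ u_*`, absent if `u0 + u_* ≤ v1`.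
`l0` = bound of `len + io` for the nondegenerate caps meeting `[v1,v2]`, `lb` = the same for the BROAD ones (`lb = 0` if there is none: then the broad term vanishes).
TEX[PE:comp:bracket] (paragraph "Broad cap units and the initial wall").
-/

set_option autoImplicit false

namespace Claimed.Agent.R286

open MeasureTheory Set

noncomputable section

variable {P : CmCall} {cE D0 lam Kg Lp : ℝ} {q : CmQ P} {X : CmNum} {Z : CmCaps}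

/-- the right side of `cm_brR_opt` -/
def cm6bOrd (G v y0 ω q4 T th : ℝ) : ℝ :=
  10000000 * G ^ 3 * (1 + Real.log (1 + G * v / th)) ^ 2 * (v * ((y0 * T / v ^ 2) ^ (2 / 3 : ℝ) + T / v ^ 2 + ω ^ 2 + q4))
    + 1000000 * (3 + (y0 ^ 2 * v ^ 2 / T) ^ (1 / 3 : ℝ)) * th

/-- the bound of one enlarged broad slice -/
def cm6bBrd (v1 v2 ω q4 MT : ℝ) : ℝ := 200000 * (2 * v2 * (ω ^ 2 + q4) + 8 / v1 ^ 2 * MT)

theorem cm6b_eqns_cite : True := by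
  have := @cm6bOrd.eq_1; have := @cm6bBrd.eq_1
  trivial

/-- `cmQ4` is nonnegative -/
theorem cm6b_Q4_nonneg {ω Cq y0 : ℝ} {qq : ℕ} (h0 : 0 ≤ ω) (hC : 0 ≤ Cq) : 0 ≤ cmQ4 ω Cq y0 qq := by
  unfold cmQ4
  exact mul_nonneg (Real.rpow_nonneg h0 _) (Real.rpow_nonneg (by positivity) _)

/-- `cmQ4` is nondecreasing in the oscillation -/
theorem cm6b_Q4_mono {ω ω' Cq y0 : ℝ} {qq : ℕ} (h0 : 0 ≤ ω) (h : ω ≤ ω') (hq : 3 ≤ qq) (hC : 0 ≤ Cq) :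
    cmQ4 ω Cq y0 qq ≤ cmQ4 ω' Cq y0 qq := by
  have hq3 : (3 : ℝ) ≤ (qq : ℝ) := by exact_mod_cast hq
  have hq1 : (0 : ℝ) < (qq : ℝ) - 1 := by linarith
  have he1 : 0 ≤ 1 - 1 / ((qq : ℝ) - 1) := by
    rw [sub_nonneg, div_le_one hq1]; linarith
  unfold cmQ4
  exact mul_le_mul_of_nonneg_right (Real.rpow_le_rpow h0 h he1) (Real.rpow_nonneg (by positivity) _)

/-- `cmQ4 0 = 0` -/
theorem cm6b_Q4_zero {Cq y0 : ℝ} {qq : ℕ} (hq : 3 ≤ qq) : cmQ4 0 Cq y0 qq = 0 := by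
  have hq3 : (3 : ℝ) ≤ (qq : ℝ) := by exact_mod_cast hq
  have hq1 : (0 : ℝ) < (qq : ℝ) - 1 := by linarith
  have he1 : 1 - 1 / ((qq : ℝ) - 1) ≠ 0 := by
    have : 1 / ((qq : ℝ) - 1) < 1 := by rw [div_lt_one hq1]; linarith
    linarith
  unfold cmQ4
  rw [Real.zero_rpow he1, zero_mul]

/-- `E|X_i-X_j|⁴ ≤ cmQ4` from `q4_int` -/
theorem cm6b_Q4_le (hX : X.Ok) {ω Cq y0 i j : ℝ} {qq : ℕ} (hq : 3 ≤ qq) (hi : i ∈ Icc (0 : ℝ) 1) (hj : j ∈ Icc (0 : ℝ) 1)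
    (hS : |X.S j - X.S i| ≤ ω) (hNi : X.NX qq i ≤ Cq * Real.sqrt y0) (hNj : X.NX qq j ≤ Cq * Real.sqrt y0) :
    X.Q4 i j ≤ cmQ4 ω Cq y0 qq := by
  exact cm_g_q4 hX hq hi hj hS hNi hNj

/-- **geometry of the enlarged slice** `(a,b) = capM ∩ (v1/2, 2 v2)` of a broad cap meeting `[v1,v2]`   (from `cm_broad_window`) -/
theorem cm6b_slice_geom (hc : 0 < cE) (hP : P.Ok cE D0) (hG : CmGeo P lam q X Z Kg Lp) {v1 v2 : ℝ} {i : ℕ} (h1 : P.us ≤ v1) (h12 : v1 ≤ v2)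
    (hB : Z.Broad P q.al 8 i) (hmeet : (Z.capM q.al i ∩ Icc v1 v2).Nonempty) :
    v1 / 2 ≤ max (q.al (Z.cL i)) (v1 / 2) ∧ max (q.al (Z.cL i)) (v1 / 2) + v1 / 2 ≤ min (q.al (Z.cR i)) (2 * v2) ∧
      Ioo (max (q.al (Z.cL i)) (v1 / 2)) (min (q.al (Z.cR i)) (2 * v2)) ⊆ Z.capM q.al i ∧
      Z.capM q.al i ∩ Icc v1 v2 ⊆ Ioo (max (q.al (Z.cL i)) (v1 / 2)) (min (q.al (Z.cR i)) (2 * v2)) := by
  have hus := cm_us_pos hc hP
  have hv1 : 0 < v1 := by linarith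
  obtain ⟨t, ht1, ht2, hsub⟩ := cm_broad_window hc hP hG (Gam := 8) le_rfl h1 hB hmeet
  have ht0 : 0 < t := by linarith
  have hsub' : Ioo t (2 * t) ⊆ Ioo (q.al (Z.cL i)) (q.al (Z.cR i)) := hsub
  have hlr := (Ioo_subset_Ioo_iff (by linarith : t < 2 * t)).1 hsub'
  refine ⟨le_max_right _ _, ?_, ?_, ?_⟩
  · have h3 : max (q.al (Z.cL i)) (v1 / 2) ≤ t := max_le hlr.1 ht1
    have h4 : 2 * t ≤ min (q.al (Z.cR i)) (2 * v2) := le_min hlr.2 (by linarith)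
    linarith
  · exact Ioo_subset_Ioo (le_max_left _ _) (min_le_left _ _)
  · rintro u ⟨hu1, hu2⟩
    have hu1' : u ∈ Ioo (q.al (Z.cL i)) (q.al (Z.cR i)) := hu1
    exact ⟨max_lt hu1'.1 (by linarith [hu2.1]), lt_min hu1'.2 (by linarith [hu2.1, hu2.2])⟩

/-- **one broad cap**: `cm_br_slice` on the enlarged slice -/
theorem cm6b_broad (hc : 0 < cE) (hP : P.Ok cE D0) (hl : 0 < lam) (hX : X.Ok) (hG : CmGeo P lam q X Z Kg Lp) {i : ℕ} {v1 v2 y0 eg Cq lb : ℝ} {qq : ℕ}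
    (h1 : P.us ≤ v1) (h12 : v1 ≤ v2) (hB : Z.Broad P q.al 8 i) (hmeet : (Z.capM q.al i ∩ Icc v1 v2).Nonempty)
    (hy0 : 0 < y0) (heg0 : 0 < eg) (hCq : 0 ≤ Cq) (hqq : 3 ≤ qq) (hlen : Z.len i + Z.io P.rmin i ≤ lb)
    (heg : ∀ u ∈ Icc (v1 / 2) (2 * v2) ∩ Icc P.u0 1, eg ≤ P.e lam (q.r u))
    (hNX : ∀ u ∈ Icc (v1 / 2) (2 * v2) ∩ Icc P.u0 1, X.NX qq u ≤ Cq * Real.sqrt y0) :
    ∫ u in Z.capM q.al i ∩ Icc v1 v2, X.D u ^ 2 ≤
      cm6bBrd v1 v2 (Kg * Lp * lb) (cmQ4 (Kg * Lp * lb) Cq y0 qq) (P.M (2 * v2) * (Kg ^ 2 * Lp ^ 2 * lb / (P.N * eg))) := by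
  have hus := cm_us_pos hc hP
  have hv1 : 0 < v1 := by linarith
  have hv2 : 0 < v2 := by linarith
  have hN := cm_N_pos hP
  obtain ⟨ha1, hab, hsub, hsup⟩ := cm6b_slice_geom hc hP hG h1 h12 hB hmeet
  have hb2 : min (q.al (Z.cR i)) (2 * v2) ≤ 2 * v2 := min_le_right _ _
  generalize max (q.al (Z.cL i)) (v1 / 2) = a at ha1 hab hsub hsup
  generalize min (q.al (Z.cR i)) (2 * v2) = b at hab hsub hsup hb2
  have ha0 : 0 < a := by linarith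
  have hablt : a < b := by linarith
  have hcap01 := cm_capM_sub hc hP hG i
  have hmem : ∀ u ∈ Ioo a b, u ∈ Icc (v1 / 2) (2 * v2) ∩ Icc P.u0 1 := fun u hu =>
    ⟨⟨by linarith [hu.1], by linarith [hu.2]⟩, hcap01 (hsub hu)⟩
  have h2 := cm_br_slice hc hP hl hX hG ha0 hablt hsub hy0 heg0 hCq hqq (fun u hu => heg u (hmem u hu)) (fun u hu => hNX u (hmem u hu))
  have hI01 : Ioo a b ⊆ Icc (0 : ℝ) 1 := fun u hu => ⟨hP.u00.trans (hcap01 (hsub hu)).1, (hcap01 (hsub hu)).2⟩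
  have hint : IntegrableOn (fun u => X.D u ^ 2) (Ioo a b) :=
    cm_g_intOn (B := 1) (hX.D_meas.pow_const 2) (fun u _ => sq_nonneg _) (fun u hu => pow_le_one₀ (hX.D_nn u hu) (hX.D_le u hu)) hI01
  have h3 : ∫ u in Z.capM q.al i ∩ Icc v1 v2, X.D u ^ 2 ≤ ∫ u in Ioo a b, X.D u ^ 2 :=
    setIntegral_mono_set hint (Filter.Eventually.of_forall fun u => sq_nonneg _) (Filter.Eventually.of_forall hsup)
  refine h3.trans (h2.trans ?_)
  unfold cm6bBrd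
  have hll0 : 0 ≤ Z.len i + Z.io P.rmin i := by
    have hlen0 : 0 ≤ Z.len i := sub_nonneg.2 (hG.cap_le i)
    have hio0 : 0 ≤ Z.io P.rmin i := by
      unfold CmCaps.io
      split_ifs
      · exact hP.r0
      · exact le_rfl
    linarith
  generalize Z.len i + Z.io P.rmin i = ll at hlen hll0
  have hKg0 : 0 < Kg := by linarith [hG.Kg1]
  have hLp0 : 0 < Lp := by linarith [hG.Lp1]
  have hKL : 0 ≤ Kg * Lp := by positivity
  have hω : Kg * Lp * ll ≤ Kg * Lp * lb := mul_le_mul_of_nonneg_left hlen hKL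
  have hω0 : 0 ≤ Kg * Lp * ll := mul_nonneg hKL hll0
  have hq4 : cmQ4 (Kg * Lp * ll) Cq y0 qq ≤ cmQ4 (Kg * Lp * lb) Cq y0 qq := cm6b_Q4_mono hω0 hω hqq hCq
  have hq40 : 0 ≤ cmQ4 (Kg * Lp * ll) Cq y0 qq := cm6b_Q4_nonneg hω0 hCq
  have hM : P.M b ≤ P.M (2 * v2) := cm_M_mono hc hP (mem_Ici.2 (by linarith)) (mem_Ici.2 (by linarith)) hb2
  have hMb0 : 0 < P.M b := cm_M_pos hc hP (by linarith)
  have hMT : P.M b * (Kg ^ 2 * Lp ^ 2 * ll / (P.N * eg)) ≤ P.M (2 * v2) * (Kg ^ 2 * Lp ^ 2 * lb / (P.N * eg)) := by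
    refine mul_le_mul hM ?_ (by positivity) (by linarith)
    gcongr
  have hMT0 : 0 ≤ P.M b * (Kg ^ 2 * Lp ^ 2 * ll / (P.N * eg)) := by positivity
  have hcoef : 1 / a ^ 2 + 1 / (a * (b - a)) ≤ 8 / v1 ^ 2 := by
    have e1 : 1 / a ^ 2 ≤ 4 / v1 ^ 2 := by
      rw [div_le_div_iff₀ (by positivity) (by positivity)]
      nlinarith
    have e2 : 1 / (a * (b - a)) ≤ 4 / v1 ^ 2 := by
      have hba : v1 / 2 ≤ b - a := by linarith
      rw [div_le_div_iff₀ (mul_pos ha0 (by linarith)) (by positivity)]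
      nlinarith [mul_le_mul ha1 hba (by positivity) ha0.le]
    have e3 : 8 / v1 ^ 2 = 4 / v1 ^ 2 + 4 / v1 ^ 2 := by ring
    linarith
  have hcoef0 : 0 ≤ 1 / a ^ 2 + 1 / (a * (b - a)) := by
    have : 0 < b - a := by linarith
    positivity
  have t1 : (b - a) * ((Kg * Lp * ll) ^ 2 + cmQ4 (Kg * Lp * ll) Cq y0 qq) ≤ 2 * v2 * ((Kg * Lp * lb) ^ 2 + cmQ4 (Kg * Lp * lb) Cq y0 qq) := by
    refine mul_le_mul (by linarith) ?_ (by positivity) (by linarith)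
    have := pow_le_pow_left₀ hω0 hω 2
    linarith
  have t2 : (1 / a ^ 2 + 1 / (a * (b - a))) * (P.M b * (Kg ^ 2 * Lp ^ 2 * ll / (P.N * eg))) ≤
      8 / v1 ^ 2 * (P.M (2 * v2) * (Kg ^ 2 * Lp ^ 2 * lb / (P.N * eg))) :=
    mul_le_mul hcoef hMT hMT0 (by positivity)
  linarith

/-- **the ordinary group**: `cm_grp_isGroup`, `cm_grp_cap`, `cm_grp_band`, `cm_br_geo` (with `v = v1`, `Gam = 16 Γ`), `cm_brR_opt` -/
theorem cm6b_ord (hc : 0 < cE) (hP : P.Ok cE D0) (hl : 0 < lam) (hX : X.Ok) (hG : CmGeo P lam q X Z Kg Lp) {v1 v2 Γ y0 l0 eg th Cq : ℝ} {qq : ℕ}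
    (h1 : 16 * P.us ≤ v1) (hu0 : P.u0 ≤ v1) (h12 : v1 ≤ v2) (h2 : v2 ≤ 1) (hΓ : v2 ≤ Γ * v1)
    (hy0 : 0 < y0) (hl0 : 0 ≤ l0) (heg0 : 0 < eg) (hth : 0 < th) (hCq : 0 ≤ Cq) (hqq : 3 ≤ qq)
    (hlen : ∀ i, Z.cL i < Z.cR i → (Z.capM q.al i ∩ Icc v1 v2).Nonempty → Z.len i + Z.io P.rmin i ≤ l0)
    (heg : ∀ u ∈ Icc (v1 / 16) (16 * v2) ∩ Icc P.u0 1, eg ≤ P.e lam (q.r u))
    (hS : ∀ u ∈ Icc (v1 / 16) (16 * v2) ∩ Icc P.u0 1, X.S u ≤ y0)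
    (hNX : ∀ u ∈ Icc (v1 / 16) (16 * v2) ∩ Icc P.u0 1, X.NX qq u ≤ Cq * Real.sqrt y0) :
    ∫ u in Z.grp P q.al 8 (Icc v1 v2), X.D u ^ 2 ≤
      cm6bOrd (16 * Γ) v1 y0 (Kg * Lp * l0) (cmQ4 (Kg * Lp * l0) Cq y0 qq) (2 * (16 * Γ) ^ 2 * Kg ^ 2 * Lp ^ 2 / (P.N * eg)) th := by
  have hus := cm_us_pos hc hP
  have hv1 : 0 < v1 := by linarith
  have hΓ1 : 1 ≤ Γ := by
    by_contra h
    push Not at h
    nlinarith
  have hN := cm_N_pos hP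
  have hKg0 : 0 < Kg := by linarith [hG.Kg1]
  have hLp0 : 0 < Lp := by linarith [hG.Lp1]
  have hGr := cm_grp_isGroup hc hP hG (Gam := 8) (J := Icc v1 v2) measurableSet_Icc
  have hband0 := cm_grp_band hc hP hG (Gam := 8) (v1 := v1) (v2 := v2) (J := Icc v1 v2) (by norm_num) (by linarith) subset_rfl
  have hG01 : Z.grp P q.al 8 (Icc v1 v2) ⊆ Icc P.u0 1 := fun u hu => by
    rcases hGr.sub hu with h | ⟨r, hr, rfl⟩
    · obtain ⟨i, hi⟩ := mem_iUnion.1 h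
      exact cm_capM_sub hc hP hG i hi
    · exact cm_q_al_mem hc hP q (hG.ct_sub hr)
  have hband1 : Z.grp P q.al 8 (Icc v1 v2) ⊆ Icc (v1 / 16) (16 * v2) := fun u hu => by
    have h := hband0 hu
    exact ⟨by have := h.1; linarith, by have := h.2; linarith⟩
  have hmem : ∀ u ∈ Z.grp P q.al 8 (Icc v1 v2), u ∈ Icc (v1 / 16) (16 * v2) ∩ Icc P.u0 1 := fun u hu => ⟨hband1 hu, hG01 hu⟩
  have hT : 0 < 2 * (16 * Γ) ^ 2 * Kg ^ 2 * Lp ^ 2 / (P.N * eg) := by positivity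
  have hV : (volume (Z.grp P q.al 8 (Icc v1 v2))).toReal ≤ 16 * Γ * v1 := by
    have h3 : volume (Z.grp P q.al 8 (Icc v1 v2)) ≤ ENNReal.ofReal (16 * v2 - v1 / 16) := by
      rw [← Real.volume_Icc]; exact measure_mono hband1
    refine (ENNReal.toReal_le_of_le_ofReal (by linarith) h3).trans ?_
    nlinarith
  have hω : 0 ≤ Kg * Lp * l0 := by positivity
  obtain ⟨k0, hk1, _, hk⟩ := cm_brR_opt (V := (volume (Z.grp P q.al 8 (Icc v1 v2))).toReal) (v := v1) (Gam := 16 * Γ) (y0 := y0) (ω := Kg * Lp * l0)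
    (q4 := cmQ4 (Kg * Lp * l0) Cq y0 qq) (T := 2 * (16 * Γ) ^ 2 * Kg ^ 2 * Lp ^ 2 / (P.N * eg)) (th := th)
    ENNReal.toReal_nonneg hV hv1 (by linarith) hy0 hω (cm6b_Q4_nonneg hω hCq) hT hth
  have hband : Z.grp P q.al 8 (Icc v1 v2) ⊆ Icc (v1 / (16 * Γ)) (16 * Γ * v1) := fun u hu => by
    have h := hband1 hu
    refine ⟨le_trans ?_ h.1, h.2.trans (by nlinarith)⟩
    exact div_le_div_of_nonneg_left hv1.le (by norm_num) (by linarith)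
  have h3 := cm_br_geo hc hP hl hX hG hGr (v := v1) (Gam := 16 * Γ) (y0 := y0) (l0 := l0) (eg := eg) (th := th) (Cq := Cq) (qq := qq) (k0 := k0)
    hv1 (by linarith) hy0 hl0 heg0 hth hCq hqq hk1 hband
    (fun i hi hsub => by
      have h4 := (cm_grp_cap hc hP hG hi hsub).1.2.1
      have h5 := (cm_q_al_mem hc hP q (cm_g_cL_mem hG i)).1
      have h6 : 0 ≤ q.al (Z.cL i) + P.us := by linarith [hP.u00]
      nlinarith)
    (fun i hi hsub => (cm_grp_cap hc hP hG hi hsub).1.2.2)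
    (fun i hi hsub => hlen i hi (cm_grp_cap hc hP hG hi hsub).2)
    (fun u hu => heg u (hmem u hu)) (fun u hu => hS u (hmem u hu)) (fun u hu => hNX u (hmem u hu))
  unfold cm6bOrd
  exact h3.trans hk

/-- subadditivity of the set integral of a nonnegative function -/
theorem cm6b_union_le {f : ℝ → ℝ} (hf : ∀ u, 0 ≤ f u) {A B : Set ℝ} (hA : MeasurableSet A) (hB : MeasurableSet B)
    (hiA : IntegrableOn f A) (hiB : IntegrableOn f B) : ∫ u in A ∪ B, f u ≤ (∫ u in A, f u) + ∫ u in B, f u := by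
  rw [← union_sdiff_self, setIntegral_union disjoint_sdiff_right (hB.diff hA) hiA (hiB.mono_set sdiff_subset)]
  have h1 : ∫ u in B \ A, f u ≤ ∫ u in B, f u :=
    setIntegral_mono_set hiB (Filter.Eventually.of_forall hf) (LE.le.eventuallyLE sdiff_subset)
  linarith

/-- **splitting the integral along the covering** `cm_cover_units` (`D² ≥ 0`, `D ≤ 1` measurable; all the sets are measurable subsets of `[0,1]`) -/
theorem cm6b_split (hc : 0 < cE) (hP : P.Ok cE D0) (hX : X.Ok) (hG : CmGeo P lam q X Z Kg Lp) {v1 v2 : ℝ} (h1 : P.u0 ≤ v1) (h12 : v1 ≤ v2) (h2 : v2 ≤ 1)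
    (s : Finset ℕ) (hs : ∀ i, i ∈ s ↔ (Z.Broad P q.al 8 i ∧ (Z.capM q.al i ∩ Icc v1 v2).Nonempty)) :
    ∫ u in Icc v1 v2, X.D u ^ 2 ≤ (∫ u in q.al '' Z.Fl ∩ Icc v1 v2, X.D u ^ 2) + (∫ u in Z.grp P q.al 8 (Icc v1 v2), X.D u ^ 2)
      + (∑ i ∈ s, ∫ u in Z.capM q.al i ∩ Icc v1 v2, X.D u ^ 2) + ∫ u in Ioo P.u0 (P.u0 + P.us) ∩ Icc v1 v2, X.D u ^ 2 := by
  have hus := cm_us_pos hc hP
  have hJ01 : Icc v1 v2 ⊆ Icc (0 : ℝ) 1 := Icc_subset_Icc (hP.u00.trans h1) h2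
  have hf0 : ∀ u, 0 ≤ X.D u ^ 2 := fun u => sq_nonneg _
  have hGr := cm_grp_isGroup hc hP hG (Gam := 8) (J := Icc v1 v2) measurableSet_Icc
  have hG01 : Z.grp P q.al 8 (Icc v1 v2) ⊆ Icc (0 : ℝ) 1 := fun u hu => by
    have h3 : u ∈ Icc P.u0 1 := by
      rcases hGr.sub hu with h | ⟨r, hr, rfl⟩
      · obtain ⟨i, hi⟩ := mem_iUnion.1 h
        exact cm_capM_sub hc hP hG i hi
      · exact cm_q_al_mem hc hP q (hG.ct_sub hr)
    exact ⟨hP.u00.trans h3.1, h3.2⟩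
  have hintOn : ∀ A : Set ℝ, A ⊆ Icc (0 : ℝ) 1 → IntegrableOn (fun u => X.D u ^ 2) A := fun A hA =>
    cm_g_intOn (B := 1) (hX.D_meas.pow_const 2) (fun u _ => sq_nonneg _) (fun u hu => pow_le_one₀ (hX.D_nn u hu) (hX.D_le u hu)) hA
  have m1 : MeasurableSet (q.al '' Z.Fl ∩ Icc v1 v2) := (cm_al_meas hc hP q hG.fl_sub hG.fl_meas).inter measurableSet_Icc
  have m2 : MeasurableSet (Z.grp P q.al 8 (Icc v1 v2)) := hGr.meas
  have m3i : ∀ i, MeasurableSet (Z.capM q.al i ∩ Icc v1 v2) := fun i => measurableSet_Ioo.inter measurableSet_Icc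
  have m3 : MeasurableSet (⋃ i ∈ s, Z.capM q.al i ∩ Icc v1 v2) := Finset.measurableSet_biUnion s fun i _ => m3i i
  have m4 : MeasurableSet (Ioo P.u0 (P.u0 + P.us) ∩ Icc v1 v2) := measurableSet_Ioo.inter measurableSet_Icc
  have s1 : q.al '' Z.Fl ∩ Icc v1 v2 ⊆ Icc (0 : ℝ) 1 := inter_subset_right.trans hJ01
  have s3 : (⋃ i ∈ s, Z.capM q.al i ∩ Icc v1 v2) ⊆ Icc (0 : ℝ) 1 := iUnion₂_subset fun i _ => inter_subset_right.trans hJ01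
  have s4 : Ioo P.u0 (P.u0 + P.us) ∩ Icc v1 v2 ⊆ Icc (0 : ℝ) 1 := inter_subset_right.trans hJ01
  have hae : (Icc v1 v2 : Set ℝ) ≤ᵐ[volume] ((q.al '' Z.Fl ∩ Icc v1 v2) ∪ Z.grp P q.al 8 (Icc v1 v2) ∪ (⋃ i ∈ s, Z.capM q.al i ∩ Icc v1 v2)
      ∪ (Ioo P.u0 (P.u0 + P.us) ∩ Icc v1 v2) : Set ℝ) := by
    rw [ae_le_set]
    refine measure_mono_null ?_ (cm_cover_units hc hP hG (Gam := 8) (v1 := v1) (v2 := v2) (by norm_num) h1 h2)
    rintro u ⟨hu, hnot⟩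
    refine ⟨hu, fun hmem => hnot ?_⟩
    rcases hmem with ((h | h) | h) | h
    · exact Or.inl (Or.inl (Or.inl ⟨h, hu⟩))
    · exact Or.inl (Or.inl (Or.inr h))
    · obtain ⟨i, hi, hui⟩ := mem_iUnion₂.1 h
      exact Or.inl (Or.inr (mem_iUnion₂.2 ⟨i, (hs i).2 ⟨hi, ⟨u, hui, hu⟩⟩, hui, hu⟩))
    · exact Or.inr ⟨h, hu⟩
  have e3 : ∫ u in ⋃ i ∈ s, Z.capM q.al i ∩ Icc v1 v2, X.D u ^ 2 = ∑ i ∈ s, ∫ u in Z.capM q.al i ∩ Icc v1 v2, X.D u ^ 2 := by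
    refine integral_biUnion_finset s (fun i _ => m3i i) ?_ (fun i _ => hintOn _ (inter_subset_right.trans hJ01))
    intro i _ j _ hij
    exact (cm_capM_disj hc hP hG hij).mono inter_subset_left inter_subset_left
  have u12 := cm6b_union_le hf0 m1 m2 (hintOn _ s1) (hintOn _ hG01)
  have u123 := cm6b_union_le hf0 (m1.union m2) m3 (hintOn _ (union_subset s1 hG01)) (hintOn _ s3)
  have u1234 := cm6b_union_le hf0 ((m1.union m2).union m3) m4 (hintOn _ (union_subset (union_subset s1 hG01) s3)) (hintOn _ s4)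
  have h0 := setIntegral_mono_set (hintOn _ (union_subset (union_subset (union_subset s1 hG01) s3) s4))
    (Filter.Eventually.of_forall hf0) hae
  rw [e3] at u123
  linarith

/-- a set integral of `D²` against the measure of the set -/
theorem cm6b_small (hX : X.Ok) {A : Set ℝ} {yR : ℝ} (hfin : volume A ≠ ⊤) (hD : ∀ u ∈ A, |X.D u| ≤ yR) :
    ∫ u in A, X.D u ^ 2 ≤ (volume A).toReal * yR ^ 2 := by
  have h1 := norm_setIntegral_le_of_norm_le_const (μ := volume) (s := A) (f := fun u => X.D u ^ 2) (C := yR ^ 2)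
    (lt_top_iff_ne_top.2 hfin) (fun u hu => by
      rw [Real.norm_eq_abs, abs_of_nonneg (sq_nonneg _), ← sq_abs]
      exact pow_le_pow_left₀ (abs_nonneg _) (hD u hu) 2)
  have h2 := (le_abs_self _).trans h1
  rw [mul_comm]
  exact h2

/-- the initial interval -/
theorem cm6b_ini (hc : 0 < cE) (hP : P.Ok cE D0) (v1 v2 : ℝ) :
    (volume (Ioo P.u0 (P.u0 + P.us) ∩ Icc v1 v2)).toReal ≤ if v1 < P.u0 + P.us then P.us else 0 := by
  have hus := cm_us_pos hc hP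
  split_ifs with h
  · have h1 : volume (Ioo P.u0 (P.u0 + P.us) ∩ Icc v1 v2) ≤ ENNReal.ofReal P.us := by
      refine (measure_mono inter_subset_left).trans ?_
      rw [Real.volume_Ioo]
      exact le_of_eq (by congr 1; ring)
    exact ENNReal.toReal_le_of_le_ofReal hus.le h1
  · have h1 : Ioo P.u0 (P.u0 + P.us) ∩ Icc v1 v2 = ∅ := by
      ext u
      simp only [mem_inter_iff, mem_Ioo, mem_Icc, mem_empty_iff_false, iff_false, not_and, not_le]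
      intro hu hu1
      exact absurd (lt_of_le_of_lt hu1 hu.2) h
    rw [h1]; simp

/-- **THE BAND LEMMA** -/
theorem cm6b_band (hc : 0 < cE) (hP : P.Ok cE D0) (hl : 0 < lam) (hX : X.Ok) (hG : CmGeo P lam q X Z Kg Lp) {v1 v2 Γ y0 yR l0 lb eg th Cq : ℝ} {qq : ℕ}
    (h1 : 16 * P.us ≤ v1) (hu0 : P.u0 ≤ v1) (h12 : v1 ≤ v2) (h2 : v2 ≤ 1) (hΓ : v2 ≤ Γ * v1)
    (hy0 : 0 < y0) (hl0 : 0 ≤ l0) (hlb : 0 ≤ lb) (heg0 : 0 < eg) (hth : 0 < th) (hCq : 0 ≤ Cq) (hqq : 3 ≤ qq)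
    (hlen : ∀ i, Z.cL i < Z.cR i → (Z.capM q.al i ∩ Icc v1 v2).Nonempty → Z.len i + Z.io P.rmin i ≤ l0)
    (hlenB : ∀ i, Z.Broad P q.al 8 i → (Z.capM q.al i ∩ Icc v1 v2).Nonempty → Z.len i + Z.io P.rmin i ≤ lb)
    (heg : ∀ u ∈ Icc (v1 / 16) (16 * v2) ∩ Icc P.u0 1, eg ≤ P.e lam (q.r u))
    (hS : ∀ u ∈ Icc (v1 / 16) (16 * v2) ∩ Icc P.u0 1, X.S u ≤ y0)
    (hNX : ∀ u ∈ Icc (v1 / 16) (16 * v2) ∩ Icc P.u0 1, X.NX qq u ≤ Cq * Real.sqrt y0)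
    (hD : ∀ u ∈ Icc v1 v2, X.D u ≤ yR) :
    ∫ u in Icc v1 v2, X.D u ^ 2 ≤
      (volume (q.al '' Z.Fl ∩ Icc v1 v2)).toReal * yR ^ 2
      + cm6bOrd (16 * Γ) v1 y0 (Kg * Lp * l0) (cmQ4 (Kg * Lp * l0) Cq y0 qq) (2 * (16 * Γ) ^ 2 * Kg ^ 2 * Lp ^ 2 / (P.N * eg)) th
      + 4 * Γ * cm6bBrd v1 v2 (Kg * Lp * lb) (cmQ4 (Kg * Lp * lb) Cq y0 qq) (P.M (2 * v2) * (Kg ^ 2 * Lp ^ 2 * lb / (P.N * eg)))
      + (if v1 < P.u0 + P.us then P.us else 0) * yR ^ 2 := by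
  have hus := cm_us_pos hc hP
  have hv1 : 0 < v1 := by linarith
  have hfin := cm_broad_count hc hP hG (Gam := 8) (v1 := v1) (v2 := v2) le_rfl hv1 h12
  have hs : ∀ i, i ∈ hfin.1.toFinset ↔ (Z.Broad P q.al 8 i ∧ (Z.capM q.al i ∩ Icc v1 v2).Nonempty) := fun i => by
    rw [Set.Finite.mem_toFinset]; rfl
  have h0 := cm6b_split hc hP hX hG hu0 h12 h2 hfin.1.toFinset hs
  have hJ01 : Icc v1 v2 ⊆ Icc (0 : ℝ) 1 := Icc_subset_Icc hv1.le h2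
  have hDabs : ∀ u ∈ Icc v1 v2, |X.D u| ≤ yR := fun u hu => by
    rw [abs_of_nonneg (hX.D_nn u (hJ01 hu))]; exact hD u hu
  have hfinJ : ∀ A : Set ℝ, volume (A ∩ Icc v1 v2) ≠ ⊤ := fun A =>
    ne_top_of_le_ne_top (by simp) (measure_mono (inter_subset_right (s := A) (t := Icc v1 v2)))
  have t1 : ∫ u in q.al '' Z.Fl ∩ Icc v1 v2, X.D u ^ 2 ≤ (volume (q.al '' Z.Fl ∩ Icc v1 v2)).toReal * yR ^ 2 :=
    cm6b_small hX (hfinJ _) fun u hu => hDabs u hu.2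
  have t2 := cm6b_ord hc hP hl hX hG h1 hu0 h12 h2 hΓ hy0 hl0 heg0 hth hCq hqq hlen heg hS hNX
  have hsub : Icc (v1 / 2) (2 * v2) ∩ Icc P.u0 1 ⊆ Icc (v1 / 16) (16 * v2) ∩ Icc P.u0 1 :=
    inter_subset_inter_left _ (Icc_subset_Icc (by linarith) (by linarith))
  have hN := cm_N_pos hP
  have hKL : 0 ≤ Kg * Lp * lb := mul_nonneg (mul_nonneg (by linarith [hG.Kg1]) (by linarith [hG.Lp1])) hlb
  have hBrd0 : 0 ≤ cm6bBrd v1 v2 (Kg * Lp * lb) (cmQ4 (Kg * Lp * lb) Cq y0 qq) (P.M (2 * v2) * (Kg ^ 2 * Lp ^ 2 * lb / (P.N * eg))) := by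
    have hM := cm_M_pos hc hP (u := 2 * v2) (by linarith)
    have hq4 := cm6b_Q4_nonneg (y0 := y0) (qq := qq) hKL hCq
    have hv2 : 0 ≤ v2 := by linarith
    unfold cm6bBrd
    positivity
  have t3 : ∑ i ∈ hfin.1.toFinset, ∫ u in Z.capM q.al i ∩ Icc v1 v2, X.D u ^ 2 ≤
      4 * Γ * cm6bBrd v1 v2 (Kg * Lp * lb) (cmQ4 (Kg * Lp * lb) Cq y0 qq) (P.M (2 * v2) * (Kg ^ 2 * Lp ^ 2 * lb / (P.N * eg))) := by
    calc ∑ i ∈ hfin.1.toFinset, ∫ u in Z.capM q.al i ∩ Icc v1 v2, X.D u ^ 2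
        ≤ ∑ _i ∈ hfin.1.toFinset, cm6bBrd v1 v2 (Kg * Lp * lb) (cmQ4 (Kg * Lp * lb) Cq y0 qq) (P.M (2 * v2) * (Kg ^ 2 * Lp ^ 2 * lb / (P.N * eg))) := by
          refine Finset.sum_le_sum fun i hi => ?_
          have hi' := (hs i).1 hi
          exact cm6b_broad hc hP hl hX hG (by linarith) h12 hi'.1 hi'.2 hy0 heg0 hCq hqq (hlenB i hi'.1 hi'.2)
            (fun u hu => heg u (hsub hu)) (fun u hu => hNX u (hsub hu))
      _ = (hfin.1.toFinset.card : ℝ) * cm6bBrd v1 v2 (Kg * Lp * lb) (cmQ4 (Kg * Lp * lb) Cq y0 qq) (P.M (2 * v2) * (Kg ^ 2 * Lp ^ 2 * lb / (P.N * eg))) := by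
          rw [Finset.sum_const, nsmul_eq_mul]
      _ ≤ _ := by
          refine mul_le_mul_of_nonneg_right ?_ hBrd0
          have h3 := hfin.2
          rw [Set.ncard_eq_toFinset_card _ hfin.1] at h3
          refine h3.trans ?_
          rw [div_le_iff₀ hv1]
          nlinarith
  have t4 : ∫ u in Ioo P.u0 (P.u0 + P.us) ∩ Icc v1 v2, X.D u ^ 2 ≤ (if v1 < P.u0 + P.us then P.us else 0) * yR ^ 2 :=
    (cm6b_small hX (hfinJ _) fun u hu => hDabs u hu.2).trans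
      (mul_le_mul_of_nonneg_right (cm6b_ini hc hP v1 v2) (sq_nonneg _))
  linarith

/-! ## lengths of caps, mismatch at a point, selection of good points      (used by `cm_x_Sband`, `cm_x_select`, (18), (19), Prop. 3.9) -/

/-- `D²` is integrable on every measurable subset of `[0,1]` -/
theorem cm6b_D2_int (hX : X.Ok) {A : Set ℝ} (hA : MeasurableSet A) (h01 : A ⊆ Icc (0 : ℝ) 1) : IntegrableOn (fun u => X.D u ^ 2) A := by
  exact cm_g_intOn (B := 1) (hX.D_meas.pow_const 2) (fun u _ => sq_nonneg _)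
    (fun u hu => pow_le_one₀ (hX.D_nn u hu) (hX.D_le u hu)) h01

/-- **every cap**: `len + io ≤ C log n · n^(-δ) L`      (`cm_cap_len`, `cm_log_us`, `cm_rmin_le`, `cm_Lam_ge_one`; `io ≤ rmin`; degenerate caps: `len = 0`) -/
theorem cm6b_len_le (hc : 0 < cE) (hD : 0 < D0) : ∃ C : ℝ, 0 < C ∧ ∀ (P : CmCall) (lam : ℝ) (q : CmQ P) (X : CmNum) (Z : CmCaps) (Kg Lp : ℝ),
    P.Ok cE D0 → CmGeo P lam q X Z Kg Lp → ∀ i, Z.len i + Z.io P.rmin i ≤ C * P.Lam * (P.N ^ (-P.dl) * P.L) := by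
  obtain ⟨C1, hC10, hC1⟩ := cm_log_us (D0 := D0) hc hD
  refine ⟨C1 + 1, by linarith, fun P lam q X Z Kg Lp hP hG i => ?_⟩
  have hN := cm_N_pos hP
  have hL := cm_L_pos hc hP
  have hNL : 0 < P.N ^ (-P.dl) * P.L := mul_pos (Real.rpow_pos_of_pos hN _) hL
  have hLam := cm_Lam_ge_one hP
  have h1 := cm_cap_len hc hP hG i
  have hL1 := cm_q_al_mem hc hP q (cm_g_cL_mem hG i)
  have hR1 := cm_q_al_mem hc hP q (cm_g_cR_mem hG i)
  have hmono : q.al (Z.cL i) ≤ q.al (Z.cR i) :=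
    (cm_q_al_strictMono hc hP q).monotoneOn (cm_g_cL_mem hG i) (cm_g_cR_mem hG i) (hG.cap_le i)
  have h2 := hC1 P hP _ _ (hP.u00.trans hL1.1) hmono hR1.2
  have h3 : Z.io P.rmin i ≤ P.rmin := by
    unfold CmCaps.io
    split_ifs
    · exact le_rfl
    · exact hP.r0
  have h4 := cm_rmin_le hc hP
  have h5 : Z.len i ≤ P.N ^ (-P.dl) * P.L * (C1 * P.Lam) := h1.trans (mul_le_mul_of_nonneg_left h2 hNL.le)
  have h6 := mul_le_mul_of_nonneg_left hLam hNL.le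
  nlinarith

/-- **mismatch at a non-floor point** (`ct_mis`, `cap_mis`; `u = α(r u)`, `cm_capM_image`; `len² + io² ≤ (len + io)²`) -/
theorem cm6b_mis_pt (hc : 0 < cE) (hP : P.Ok cE D0) (hG : CmGeo P lam q X Z Kg Lp) {u l0 : ℝ}
    (hu : u ∈ (⋃ i, Z.capM q.al i) ∪ q.al '' Z.Ct) (hlen : ∀ i, Z.len i + Z.io P.rmin i ≤ l0) :
    (X.S u - q.r u) ^ 2 ≤ Kg * Lp ^ 2 * (X.D u ^ 2 + l0 ^ 2) := by
  have hKg := hG.Kg1
  have hLp := hG.Lp1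
  have hLp2 : 1 ≤ Lp ^ 2 := one_le_pow₀ hLp
  have hK0 : 0 ≤ Kg := by linarith
  rcases hu with hu | ⟨r, hr, rfl⟩
  · obtain ⟨i, hi⟩ := mem_iUnion.1 hu
    rw [cm_capM_image hc hP hG i] at hi
    obtain ⟨r, hr, rfl⟩ := hi
    have hrm : r ∈ Icc P.rmin 1 := cm_g_cap_sub hG i (Ioo_subset_Icc_self hr)
    rw [q.r_al r hrm]
    refine (hG.cap_mis i r hr).trans ?_
    have hlen0 : 0 ≤ Z.len i := sub_nonneg.2 (hG.cap_le i)
    have hio0 : 0 ≤ Z.io P.rmin i := by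
      unfold CmCaps.io
      split_ifs
      · exact hP.r0
      · exact le_rfl
    have h1 : Z.len i ^ 2 + Z.io P.rmin i ^ 2 ≤ l0 ^ 2 := by nlinarith [hlen i]
    have h2 : 0 ≤ Kg * Lp ^ 2 := by positivity
    exact mul_le_mul_of_nonneg_left (by linarith) h2
  · rw [q.r_al r (hG.ct_sub hr)]
    refine (hG.ct_mis r hr).trans ?_
    rw [mul_assoc]
    refine mul_le_mul_of_nonneg_left ?_ hK0
    nlinarith [sq_nonneg (X.D (q.al r)), sq_nonneg l0]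

/-- **selection**: if `∫_{[w1,w2]} D² < t² (w2 - w1 - n^(-δ) u_*)` there is a non-floor point of `[w1,w2]` with `D ≤ t`
(else `D > t` a.e. on `[w1,w2] \ α(Fl)` by `cm_cover_mass`, of measure `≥ w2 - w1 - n^(-δ) u_*` by `cm_floor_mass`) -/
theorem cm6b_select (hc : 0 < cE) (hP : P.Ok cE D0) (hX : X.Ok) (hG : CmGeo P lam q X Z Kg Lp) {w1 w2 t : ℝ} (h1 : P.u0 ≤ w1) (h12 : w1 ≤ w2) (h2 : w2 ≤ 1)
    (ht : 0 < t) (hI : ∫ u in Icc w1 w2, X.D u ^ 2 < t ^ 2 * (w2 - w1 - P.N ^ (-P.dl) * P.us)) :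
    ∃ u ∈ Icc w1 w2, u ∈ (⋃ i, Z.capM q.al i) ∪ q.al '' Z.Ct ∧ X.D u ≤ t := by
  by_contra hcon
  push Not at hcon
  have hJ01 : Icc w1 w2 ⊆ Icc (0 : ℝ) 1 := Icc_subset_Icc (hP.u00.trans h1) h2
  have hUm : MeasurableSet ((⋃ i, Z.capM q.al i) ∪ q.al '' Z.Ct) :=
    (MeasurableSet.iUnion fun i => measurableSet_Ioo).union (cm_al_meas hc hP q hG.ct_sub hG.ct_meas)
  have hBm : MeasurableSet (Icc w1 w2 ∩ ((⋃ i, Z.capM q.al i) ∪ q.al '' Z.Ct)) := measurableSet_Icc.inter hUm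
  have hBfin : volume (Icc w1 w2 ∩ ((⋃ i, Z.capM q.al i) ∪ q.al '' Z.Ct)) ≠ ⊤ :=
    ne_top_of_le_ne_top (by simp) (measure_mono (inter_subset_left (s := Icc w1 w2)))
  have hint := cm6b_D2_int hX (measurableSet_Icc (a := w1) (b := w2)) hJ01
  have h3 := setIntegral_ge_of_const_le_real (μ := volume) (f := fun u => X.D u ^ 2) (c := t ^ 2) hBm hBfin
    (fun u hu => pow_le_pow_left₀ ht.le (hcon u hu.1 hu.2).le 2) (hint.mono_set inter_subset_left)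
  have h4 : ∫ u in Icc w1 w2 ∩ ((⋃ i, Z.capM q.al i) ∪ q.al '' Z.Ct), X.D u ^ 2 ≤ ∫ u in Icc w1 w2, X.D u ^ 2 :=
    setIntegral_mono_set hint (Filter.Eventually.of_forall fun u => sq_nonneg _) (Filter.Eventually.of_forall inter_subset_left)
  have h5 : volume (Icc w1 w2) ≤ volume (Icc w1 w2 ∩ ((⋃ i, Z.capM q.al i) ∪ q.al '' Z.Ct)) + ENNReal.ofReal (P.N ^ (-P.dl) * P.us) := by
    have hsub : Icc w1 w2 ⊆ (Icc w1 w2 ∩ ((⋃ i, Z.capM q.al i) ∪ q.al '' Z.Ct)) ∪ q.al '' Z.Fl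
        ∪ (Icc P.u0 1 \ ((⋃ i, Z.capM q.al i) ∪ q.al '' Z.Fl ∪ q.al '' Z.Ct)) := by
      intro u hu
      by_cases h6 : u ∈ (⋃ i, Z.capM q.al i) ∪ q.al '' Z.Fl ∪ q.al '' Z.Ct
      · rcases h6 with (h6 | h6) | h6
        · exact Or.inl (Or.inl ⟨hu, Or.inl h6⟩)
        · exact Or.inl (Or.inr h6)
        · exact Or.inl (Or.inl ⟨hu, Or.inr h6⟩)
      · exact Or.inr ⟨⟨h1.trans hu.1, hu.2.trans h2⟩, h6⟩
    calc volume (Icc w1 w2) ≤ _ := measure_mono hsub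
      _ ≤ volume ((Icc w1 w2 ∩ ((⋃ i, Z.capM q.al i) ∪ q.al '' Z.Ct)) ∪ q.al '' Z.Fl) + volume (Icc P.u0 1 \ ((⋃ i, Z.capM q.al i) ∪ q.al '' Z.Fl ∪ q.al '' Z.Ct)) :=
          measure_union_le _ _
      _ = volume ((Icc w1 w2 ∩ ((⋃ i, Z.capM q.al i) ∪ q.al '' Z.Ct)) ∪ q.al '' Z.Fl) := by rw [cm_cover_mass hc hP hG, add_zero]
      _ ≤ volume (Icc w1 w2 ∩ ((⋃ i, Z.capM q.al i) ∪ q.al '' Z.Ct)) + volume (q.al '' Z.Fl) := measure_union_le _ _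
      _ ≤ _ := by gcongr; exact cm_floor_mass hc hP hG
  have hNu : 0 ≤ P.N ^ (-P.dl) * P.us := mul_nonneg (Real.rpow_nonneg (cm_N_pos hP).le _) (cm_us_pos hc hP).le
  have h6 : w2 - w1 ≤ volume.real (Icc w1 w2 ∩ ((⋃ i, Z.capM q.al i) ∪ q.al '' Z.Ct)) + P.N ^ (-P.dl) * P.us := by
    rw [Real.volume_Icc] at h5
    have h7 := ENNReal.toReal_mono (ENNReal.add_ne_top.2 ⟨hBfin, ENNReal.ofReal_ne_top⟩) h5
    rw [ENNReal.toReal_add hBfin ENNReal.ofReal_ne_top, ENNReal.toReal_ofReal hNu, ENNReal.toReal_ofReal (by linarith)] at h7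
    exact h7
  have h8 : t ^ 2 * (w2 - w1 - P.N ^ (-P.dl) * P.us) ≤ t ^ 2 * volume.real (Icc w1 w2 ∩ ((⋃ i, Z.capM q.al i) ∪ q.al '' Z.Ct)) :=
    mul_le_mul_of_nonneg_left (by linarith) (sq_nonneg _)
  linarith

/-- plain Chebyshev selection -/
theorem cm6b_cheb (hX : X.Ok) {w1 w2 t : ℝ} (h0 : 0 ≤ w1) (h12 : w1 ≤ w2) (h2 : w2 ≤ 1) (ht : 0 ≤ t)
    (hI : ∫ u in Icc w1 w2, X.D u ^ 2 < t ^ 2 * (w2 - w1)) : ∃ u ∈ Icc w1 w2, X.D u ≤ t := by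
  by_contra hcon
  push Not at hcon
  have hJ01 : Icc w1 w2 ⊆ Icc (0 : ℝ) 1 := Icc_subset_Icc h0 h2
  have h1 := setIntegral_ge_of_const_le_real (μ := volume) (s := Icc w1 w2) (f := fun u => X.D u ^ 2) (c := t ^ 2) measurableSet_Icc
    (by simp) (fun u hu => pow_le_pow_left₀ ht (hcon u hu).le 2) (cm6b_D2_int hX measurableSet_Icc hJ01)
  rw [Real.volume_real_Icc_of_le h12] at h1
  linarith

/-- thresholds: `A < n^c` for `n ≥ n0` -/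
theorem cm6b_large (A : ℝ) {c : ℝ} (hc : 0 < c) : ∃ n0 : ℕ, ∀ n : ℕ, n0 ≤ n → A < (n : ℝ) ^ c := by
  have h1 : Filter.Tendsto (fun n : ℕ => (n : ℝ) ^ c) Filter.atTop Filter.atTop :=
    (tendsto_rpow_atTop hc).comp tendsto_natCast_atTop_atTop
  obtain ⟨n0, h0⟩ := Filter.eventually_atTop.1 (h1.eventually_gt_atTop A)
  exact ⟨n0, h0⟩

/-- thresholds with logarithms: `A (log n)^j < n^c` for `n ≥ n0` -/
theorem cm6b_large_log (A : ℝ) (j : ℕ) {c : ℝ} (hc : 0 < c) : ∃ n0 : ℕ, ∀ n : ℕ, n0 ≤ n → A * Real.log n ^ j < (n : ℝ) ^ c := by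
  obtain ⟨C, hC0, hC⟩ := cm_log_pow j (ε := c / 2) (by positivity)
  obtain ⟨n0, h0⟩ := cm6b_large (|A| * C) (c := c / 2) (by positivity)
  refine ⟨max n0 1, fun n hn => ?_⟩
  have hn0 : n0 ≤ n := (le_max_left _ _).trans hn
  have hn1 : (1 : ℝ) ≤ (n : ℝ) := by exact_mod_cast (le_max_right _ _).trans hn
  have h1 := hC n hn1
  have h2 := h0 n hn0
  have hp : 0 < (n : ℝ) ^ (c / 2) := Real.rpow_pos_of_pos (by linarith) _
  have hl : 0 ≤ Real.log n ^ j := pow_nonneg (Real.log_nonneg hn1) _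
  calc A * Real.log n ^ j ≤ |A| * Real.log n ^ j := mul_le_mul_of_nonneg_right (le_abs_self _) hl
    _ ≤ |A| * (C * (n : ℝ) ^ (c / 2)) := mul_le_mul_of_nonneg_left h1 (abs_nonneg _)
    _ = (|A| * C) * (n : ℝ) ^ (c / 2) := by ring
    _ < (n : ℝ) ^ (c / 2) * (n : ℝ) ^ (c / 2) := mul_lt_mul_of_pos_right h2 hp
    _ = (n : ℝ) ^ c := by rw [← Real.rpow_add (by linarith)]; congr 1; ring

end

end Claimed.Agent.R286
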