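import Claimed.Agent.R286.Cmp.P6X18

/-!
# Row 286 (S0533), PE Section 3.4 (package P06): CUT OF THE EXITS `cm_x19_mass`, `cm_x19_rad`, `cm_x19_int` = PE (19)      (architect + prover helper52; head of P06 helper294; prefix `cm19_`)

TEX[PE:comp:direct-moments] comparisons.tex l.1108-1200.   Deterministic; rests on `Cmp/P6Geo.lean`, `Cmp/P6Abs.lean` (`cm_br1`), `Cmp/P6X18.lean` (generic tools `cm6x_cover`, `cm6x_br_opt`, exit `cm6x_18`), `Cmp/Num.lean`, `Cmp/Prof.lean`.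
EXITS  `cm19_mass`, `cm19_rad`, `cm19_int` = the statements of `cm_x19_*` (P6Out) verbatim (`cm19_int` takes the statement of `cm_x_dt1_lo` as the hypothesis `Cm19Dt`); P6Out cites them.

NOTATION  `s = n^(-m)`, `Λ = log n`;   KEY SMALLNESS `cm19_key`: `Λ^10 u_* ≤ A0 s² x`.
* MASS.  `J = [v1,v2] ⊆ [c'x, C'x] ∩ [u0,1]` (the constraint `r ≤ C'x` is dropped: `cm19_r_le`).   `cm6x_cover` (`Gam = 8`): floor + initial strip (`cm19_thin`), ordinary group (`cm19_grp` = `cm6x_br_opt` + `cm19_num_grp`),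
  at most `4C'/c'` broad caps (`cm19_broad` = `cm_br_slice` on `(max(α cL, v1/2), min(α cR, 2 v2))` + `cm19_num_broad`).
* RADIUS.  `A = {r ≤ C'x, c'x ≤ α(r) ≤ C'x}` is order connected; `cm19_transport` (`cm_q_dens`) moves `∫_A F(α r) dr` to `∫_{α(A)} ϖ F du`;   `cm19_bins` (bins by `S` heights, `cm_br1` on the long bins, raw moments on the short ones);
  `cm19_rad_tr` (`cm_ut_rad`);   `ϖ ≤ 1/k(C'x) ≤ 4 (C'x)²/(n^δ u_*²)`;   `cm19_num_rad` (`k0 = ⌈n^(δ/8)⌉`, `ρ0 = n^(-δ/2) x`).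
* INTEGRAL.  `[0, εx]` raw;   `[εx, C1 x]` `cm19_massJ` + `cm19_cs`;   `[C1 x, min(C'W,1)]` `cm19_outer` (`cm6x_18`, `Cm19Dt`, `cm19_cs`, `cm19_dyadic`).
LEAVES = the `sorry`s (pure arithmetic or abstract measure theory), each independent of the others; prove IN PLACE; claim by Lean name in `claim286` (helper52 works through them from the top).
-/

set_option autoImplicit false

namespace Claimed.Agent.R286

open MeasureTheory Set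

noncomputable section

variable {K : CmK} {P : CmCall} {lam Lp x : ℝ} {q : CmQ P} {X : CmNum} {Z : CmCaps}

/-! ## 0. first consequences of `CmStd` -/

/-- `u_* ≤ C n^(-3m) x` -/
theorem cm19_us_le (hK : K.Ok) (h : CmStd K P lam q X Z Lp x) :
    P.us ≤ K.cE⁻¹ ^ 3 / K.ca * P.N ^ (-(3 * P.m)) * x := by
  have h1 := cm_us_a hK.cE0 h.base.ok
  have hN := cm_N_pos h.base.ok
  have hpos : 0 ≤ K.cE⁻¹ ^ 3 * P.N ^ (-(3 * P.m)) := by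
    have := hK.cE0
    positivity
  have h2 : P.a ≤ x / K.ca := by
    rw [le_div_iff₀ hK.ca0]; linarith [h.xa]
  calc P.us ≤ K.cE⁻¹ ^ 3 * P.N ^ (-(3 * P.m)) * P.a := h1
    _ ≤ K.cE⁻¹ ^ 3 * P.N ^ (-(3 * P.m)) * (x / K.ca) := mul_le_mul_of_nonneg_left h2 hpos
    _ = _ := by ring

theorem cm19_D_le (hK : K.Ok) (h : CmStd K P lam q X Z Lp x) {u G : ℝ} (hu : u ∈ Icc (0 : ℝ) 1) (huG : u ≤ G * x) :
    X.D u ≤ K.Cp 1 * (G + 1) * x := by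
  have h1 := h.base.num.d_nr u hu
  have h2 := (h.raw u hu).2
  have h3 : K.Cp 1 * (u + x) ≤ K.Cp 1 * ((G + 1) * x) :=
    mul_le_mul_of_nonneg_left (by linarith) (by linarith [hK.Cp1 1])
  linarith

theorem cm19_NX_le (hK : K.Ok) (h : CmStd K P lam q X Z Lp x) {u G : ℝ} {qq : ℕ} (hq : 1 ≤ qq) (hu : u ∈ Icc (0 : ℝ) 1)
    (huG : u ≤ G * x) : X.NX qq u ≤ K.Cp qq * Real.sqrt ((G + 1) * x) := by
  have h2 := (h.raw u hu).1 qq hq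
  have h3 : Real.sqrt (u + x) ≤ Real.sqrt ((G + 1) * x) := Real.sqrt_le_sqrt (by linarith)
  exact h2.trans (mul_le_mul_of_nonneg_left h3 (by linarith [hK.Cp1 qq]))

theorem cm19_S_le (hK : K.Ok) (h : CmStd K P lam q X Z Lp x) {u G : ℝ} (hG : 0 ≤ G) (hu : u ∈ Icc (0 : ℝ) 1) (huG : u ≤ G * x) :
    X.S u ≤ K.Cp 1 ^ 2 * (G + 1) * x := by
  have h1 := cm19_NX_le hK h le_rfl hu huG
  have h0 := h.base.num.NX_nn 1 u hu
  rw [h.base.num.s_nx u hu]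
  have hx := h.x0
  calc X.NX 1 u ^ 2 ≤ (K.Cp 1 * Real.sqrt ((G + 1) * x)) ^ 2 := pow_le_pow_left₀ h0 h1 2
    _ = K.Cp 1 ^ 2 * (G + 1) * x := by
        rw [mul_pow, Real.sq_sqrt (by positivity)]; ring

/-- radii of masses `O(x)` -/
theorem cm19_r_le (hK : K.Ok) (h : CmStd K P lam q X Z Lp x) {u G : ℝ} (hu : u ∈ Icc P.u0 1) (huG : u ≤ G * x) :
    q.r u ≤ K.C * max G K.C0 * x := by
  have hC : 0 < K.C := by linarith [hK.C1]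
  by_cases hc : max G K.C0 * x ≤ 1
  · exact cm_q_reg_r hK.cE0 h.base.ok q hC h.x0 h.reg hu.1 huG hc
  · have h1 := (q.r_mem u hu).2
    have h2 : 1 < max G K.C0 * x := not_le.1 hc
    have h3 : 1 * (max G K.C0 * x) ≤ K.C * (max G K.C0 * x) :=
      mul_le_mul_of_nonneg_right hK.C1 (by linarith)
    linarith

/-- the strength at radii `O(x)` -/
theorem cm19_e_ge (h : CmStd K P lam q X Z Lp x) {r R : ℝ} (hR : 1 ≤ R) (hr : r ≤ R * x) :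
    P.e lam x / R ≤ P.e lam r := by
  have hd := h.base.ok.d0
  have hl := h.base.lam0.le
  exact (cm_e_scale P hd hl hR h.x0.le).trans (cm_e_anti P hd hl hr)

/-- `1/(n e(x)) ≤ x² u_*²/ce` -/
theorem cm19_T_le (hK : K.Ok) (h : CmStd K P lam q X Z Lp x) :
    1 / (P.N * P.e lam x) ≤ x ^ 2 * P.us ^ 2 / K.ce := by
  have h1 := cm_dt_nex hK.cE0 h.base.ok h.x0 h.ex
  have hus := cm_us_pos hK.cE0 h.base.ok
  have hN := cm_N_pos h.base.ok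
  have he := cm_e_pos P h.base.lam0 x
  have hx := h.x0
  have hce := hK.ce0
  rw [div_le_div_iff₀ (by positivity) hce]
  have e1 : K.ce * (x / P.us) ^ 2 * (P.us ^ 2 / x ^ 2) = K.ce := by field_simp
  have e2 : P.N * P.e lam x * x ^ 4 * (P.us ^ 2 / x ^ 2) = x ^ 2 * P.us ^ 2 * (P.N * P.e lam x) := by field_simp
  have := mul_le_mul_of_nonneg_right h1 (by positivity : 0 ≤ P.us ^ 2 / x ^ 2)
  rw [e1, e2] at this
  linarith

/-- the length of an arbitrary cap, wall included -/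
theorem cm19_len_any (K : CmK) (hK : K.Ok) : ∃ C : ℝ, 1 ≤ C ∧ ∀ (P : CmCall) (lam : ℝ) (q : CmQ P) (X : CmNum) (Z : CmCaps) (Lp : ℝ),
    CmBase K P lam q X Z Lp → ∀ i, Z.len i + Z.io P.rmin i ≤ C * P.Lam * (P.N ^ (-P.dl) * P.L) := by
  obtain ⟨C, hC, hlog⟩ := cm_log_us (cE := K.cE) (D0 := K.D0) hK.cE0 hK.D00
  refine ⟨C + 1, by linarith, fun P lam q X Z Lp h i => ?_⟩
  have hP := h.ok
  have hG := h.geo
  have hN := cm_N_pos hP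
  have hL := cm_L_pos hK.cE0 hP
  have hLam := cm_Lam_ge_one hP
  have hs : 0 ≤ P.N ^ (-P.dl) * P.L := by positivity
  have h1 := cm_cap_len hK.cE0 hP hG i
  have hr1 : P.rmin ≤ 1 := (hG.cap_lo i).trans ((hG.cap_le i).trans (hG.cap_hi i))
  have hmL := cm_q_al_mem hK.cE0 hP q (t := Z.cL i) ⟨hG.cap_lo i, (hG.cap_le i).trans (hG.cap_hi i)⟩
  have hmR := cm_q_al_mem hK.cE0 hP q (t := Z.cR i) ⟨(hG.cap_lo i).trans (hG.cap_le i), hG.cap_hi i⟩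
  have hmono : q.al (Z.cL i) ≤ q.al (Z.cR i) :=
    (cm_q_al_strictMono hK.cE0 hP q).monotoneOn ⟨hG.cap_lo i, (hG.cap_le i).trans (hG.cap_hi i)⟩
      ⟨(hG.cap_lo i).trans (hG.cap_le i), hG.cap_hi i⟩ (hG.cap_le i)
  have h2 := hlog P hP _ _ (hP.u00.trans hmL.1) hmono hmR.2
  have h3 : Z.io P.rmin i ≤ P.N ^ (-P.dl) * P.L := by
    unfold CmCaps.io
    split_ifs
    · exact cm_rmin_le hK.cE0 hP
    · exact hs
  have h4 : P.N ^ (-P.dl) * P.L * Real.log ((q.al (Z.cR i) + P.us) / (q.al (Z.cL i) + P.us))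
      ≤ P.N ^ (-P.dl) * P.L * (C * P.Lam) := mul_le_mul_of_nonneg_left h2 hs
  have h5 : P.N ^ (-P.dl) * P.L * 1 ≤ P.N ^ (-P.dl) * P.L * P.Lam := mul_le_mul_of_nonneg_left hLam hs
  nlinarith

/-- `n^(-δ) L ≤ u_*` -/
theorem cm19_NL_le (hK : K.Ok) (hP : P.Ok K.cE K.D0) : P.N ^ (-P.dl) * P.L ≤ P.us := by
  have hN := cm_N_ge hP
  have hL := cm_L_pos hK.cE0 hP
  have h1 : P.N ^ (-P.dl) ≤ 1 :=
    Real.rpow_le_one_of_one_le_of_nonpos (by linarith) (by linarith [cm_dl_pos hP])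
  calc P.N ^ (-P.dl) * P.L ≤ 1 * P.L := mul_le_mul_of_nonneg_right h1 hL.le
    _ ≤ P.us := by rw [one_mul]; exact cm_L_le_us

/-! ## 1. smallness -/

/-- negative powers of `n` are eventually small -/
theorem cm19_pow_small {e δ : ℝ} (he : 0 < e) (hδ : 0 < δ) : ∃ n0 : ℕ, ∀ n : ℕ, n0 ≤ n → (n : ℝ) ^ (-e) ≤ δ := by
  have h1 : Filter.Tendsto (fun n : ℕ => (n : ℝ) ^ (-e)) Filter.atTop (nhds 0) :=
    (tendsto_rpow_neg_atTop he).comp tendsto_natCast_atTop_atTop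
  have h2 := h1.eventually (Iic_mem_nhds hδ)
  obtain ⟨n0, hn0⟩ := Filter.eventually_atTop.1 h2
  exact ⟨n0, fun n hn => hn0 n hn⟩

/-- **the key smallness**: `Λ^10 u_* ≤ A0 (n^(-m))² x` -/
theorem cm19_key (K : CmK) (hK : K.Ok) : ∃ A0 : ℝ, 0 < A0 ∧ ∀ (P : CmCall) (lam : ℝ) (q : CmQ P) (X : CmNum) (Z : CmCaps) (Lp x : ℝ),
    CmStd K P lam q X Z Lp x → P.Lam ^ 10 * P.us ≤ A0 * (P.N ^ (-P.m)) ^ 2 * x := by
  obtain ⟨C, hC, hlog⟩ := cm_log_pow 10 hK.mm0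
  refine ⟨C * (K.cE⁻¹ ^ 3 / K.ca), by have := hK.cE0; have := hK.ca0; positivity, fun P lam q X Z Lp x h => ?_⟩
  have hP := h.base.ok
  have hN := cm_N_ge hP
  have hN0 := cm_N_pos hP
  have h1 := cm19_us_le hK h
  have h2 := hlog P.N (by linarith)
  have hm : P.m = K.mm := h.base.m_eq
  have hus := cm_us_pos hK.cE0 hP
  have hx := h.x0
  have hA : 0 ≤ K.cE⁻¹ ^ 3 / K.ca := by have := hK.cE0; have := hK.ca0; positivity
  have e : P.N ^ K.mm * P.N ^ (-(3 * P.m)) = (P.N ^ (-P.m)) ^ 2 := by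
    rw [← Real.rpow_add hN0, ← Real.rpow_natCast, ← Real.rpow_mul hN0.le, hm]
    congr 1
    push_cast
    ring
  calc P.Lam ^ 10 * P.us ≤ (C * P.N ^ K.mm) * (K.cE⁻¹ ^ 3 / K.ca * P.N ^ (-(3 * P.m)) * x) :=
        mul_le_mul h2 h1 hus.le (by positivity)
    _ = C * (K.cE⁻¹ ^ 3 / K.ca) * (P.N ^ K.mm * P.N ^ (-(3 * P.m))) * x := by ring
    _ = _ := by rw [e]

/-- thresholds: `n^(2δ) u_* ≤ κ x` for `n ≥ n0(κ)` -/
theorem cm19_small (K : CmK) (hK : K.Ok) {κ : ℝ} (hκ : 0 < κ) : ∃ n0 : ℕ, ∀ (P : CmCall) (lam : ℝ) (q : CmQ P) (X : CmNum) (Z : CmCaps) (Lp x : ℝ),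
    CmStd K P lam q X Z Lp x → n0 ≤ P.n → P.N ^ (2 * P.dl) * P.us ≤ κ * x ∧ P.us ≤ κ * x := by
  have hA : 0 < K.cE⁻¹ ^ 3 / K.ca := by have := hK.cE0; have := hK.ca0; positivity
  obtain ⟨n0, hn0⟩ := cm19_pow_small (e := K.mm) (δ := κ / (K.cE⁻¹ ^ 3 / K.ca)) hK.mm0 (by positivity)
  refine ⟨n0, fun P lam q X Z Lp x h hn => ?_⟩
  have hP := h.base.ok
  have hN := cm_N_ge hP
  have hN0 := cm_N_pos hP
  have hN1 : 1 ≤ P.N := by linarith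
  have h1 := cm19_us_le hK h
  have hm : P.m = K.mm := h.base.m_eq
  have hus := cm_us_pos hK.cE0 hP
  have hx := h.x0
  have h2 : P.N ^ (-K.mm) ≤ κ / (K.cE⁻¹ ^ 3 / K.ca) := hn0 P.n hn
  have hdl : P.dl = K.mm / 10000 := by unfold CmCall.dl; rw [hm]
  have hmm := hK.mm0
  have h3 : P.N ^ (2 * P.dl) * P.N ^ (-(3 * P.m)) ≤ P.N ^ (-K.mm) := by
    rw [← Real.rpow_add hN0]
    apply Real.rpow_le_rpow_of_exponent_le hN1
    rw [hdl, hm]; linarith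
  have h4 : 1 ≤ P.N ^ (2 * P.dl) := Real.one_le_rpow hN1 (by rw [hdl]; positivity)
  have h5 : P.N ^ (2 * P.dl) * P.us ≤ κ * x := by
    calc P.N ^ (2 * P.dl) * P.us ≤ P.N ^ (2 * P.dl) * (K.cE⁻¹ ^ 3 / K.ca * P.N ^ (-(3 * P.m)) * x) :=
          mul_le_mul_of_nonneg_left h1 (by positivity)
      _ = (K.cE⁻¹ ^ 3 / K.ca) * x * (P.N ^ (2 * P.dl) * P.N ^ (-(3 * P.m))) := by ring
      _ ≤ (K.cE⁻¹ ^ 3 / K.ca) * x * (κ / (K.cE⁻¹ ^ 3 / K.ca)) := mul_le_mul_of_nonneg_left (h3.trans h2) (by positivity)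
      _ = κ * x := by
        have hne := hA.ne'
        generalize K.cE⁻¹ ^ 3 / K.ca = A at hne
        field_simp
  refine ⟨h5, le_trans ?_ h5⟩
  calc P.us = 1 * P.us := (one_mul _).symm
    _ ≤ _ := mul_le_mul_of_nonneg_right h4 hus.le

/-- `s = n^(-m) ∈ (0,1]` -/
theorem cm19_s (hP : P.Ok K.cE K.D0) : 0 < P.N ^ (-P.m) ∧ P.N ^ (-P.m) ≤ 1 := by
  have hN := cm_N_ge hP
  exact ⟨Real.rpow_pos_of_pos (by linarith) _, Real.rpow_le_one_of_one_le_of_nonpos (by linarith) (by linarith [hP.m0])⟩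

/-! ## 2. crude bounds -/

/-- `D²` is integrable on every subset of `[0,1]` -/
theorem cm19_Dsq_int (hX : X.Ok) {A : Set ℝ} (hA : A ⊆ Icc (0 : ℝ) 1) : IntegrableOn (fun u => X.D u ^ 2) A := by
  have h1 : IntegrableOn (fun u => X.D u ^ 2) (Icc (0 : ℝ) 1) := by
    refine Measure.integrableOn_of_bounded (M := 1) (by simp) (hX.D_meas.pow_const 2).aestronglyMeasurable ?_
    refine (ae_restrict_iff' measurableSet_Icc).2 (Filter.Eventually.of_forall fun u hu => ?_)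
    rw [Real.norm_eq_abs, abs_of_nonneg (sq_nonneg _)]
    exact pow_le_one₀ (hX.D_nn u hu) (hX.D_le u hu)
  exact h1.mono_set hA

/-- crude bound of `∫_A D²` -/
theorem cm19_Dsq_crude (hX : X.Ok) {A : Set ℝ} {Dm V : ℝ} (hA : A ⊆ Icc (0 : ℝ) 1) (hDm : ∀ u ∈ A, X.D u ≤ Dm)
    (hV : volume A ≤ ENNReal.ofReal V) (hV0 : 0 ≤ V) : ∫ u in A, X.D u ^ 2 ≤ Dm ^ 2 * V := by
  have hfin : volume A < ⊤ := lt_of_le_of_lt hV ENNReal.ofReal_lt_top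
  have h1 : ∀ u ∈ A, ‖X.D u ^ 2‖ ≤ Dm ^ 2 := by
    intro u hu
    rw [Real.norm_eq_abs, abs_of_nonneg (sq_nonneg _)]
    exact pow_le_pow_left₀ (hX.D_nn u (hA hu)) (hDm u hu) 2
  have h2 := norm_setIntegral_le_of_norm_le_const hfin h1
  have h3 : volume.real A ≤ V := by
    unfold Measure.real
    calc (volume A).toReal ≤ (ENNReal.ofReal V).toReal := ENNReal.toReal_mono ENNReal.ofReal_ne_top hV
      _ = V := ENNReal.toReal_ofReal hV0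
  calc ∫ u in A, X.D u ^ 2 ≤ ‖∫ u in A, X.D u ^ 2‖ := Real.le_norm_self _
    _ ≤ Dm ^ 2 * volume.real A := h2
    _ ≤ Dm ^ 2 * V := mul_le_mul_of_nonneg_left h3 (sq_nonneg _)

/-- **thin sets** (floor, initial strip): mass `≤ u_*` below `C' x` -/
theorem cm19_thin (K : CmK) (hK : K.Ok) {C' : ℝ} (hC' : 0 < C') :
    ∃ K1 : ℝ, 0 < K1 ∧ ∀ (P : CmCall) (lam : ℝ) (q : CmQ P) (X : CmNum) (Z : CmCaps) (Lp x : ℝ), CmStd K P lam q X Z Lp x →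
      ∀ A : Set ℝ, A ⊆ Icc (0 : ℝ) 1 → (∀ u ∈ A, u ≤ C' * x) → volume A ≤ ENNReal.ofReal P.us →
        ∫ u in A, X.D u ^ 2 ≤ K1 * P.N ^ (-P.m) * x ^ 3 := by
  obtain ⟨A0, hA0, hkey⟩ := cm19_key K hK
  have hCp := hK.Cp1 1
  refine ⟨(K.Cp 1 * (C' + 1)) ^ 2 * A0, by positivity, fun P lam q X Z Lp x h A hA hAx hV => ?_⟩
  have hP := h.base.ok
  have hus := cm_us_pos hK.cE0 hP
  have hx := h.x0
  obtain ⟨hs0, hs1⟩ := cm19_s (K := K) hP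
  have hLam := cm_Lam_ge_one hP
  have h1 := cm19_Dsq_crude h.base.num hA (fun u hu => cm19_D_le hK h (hA hu) (hAx u hu)) hV hus.le
  have h2 : P.us ≤ A0 * P.N ^ (-P.m) * x := by
    have e1 : 1 * P.us ≤ P.Lam ^ 10 * P.us := mul_le_mul_of_nonneg_right (one_le_pow₀ hLam) hus.le
    have e2 : (P.N ^ (-P.m)) ^ 2 ≤ P.N ^ (-P.m) := by nlinarith
    have e3 : A0 * (P.N ^ (-P.m)) ^ 2 * x ≤ A0 * P.N ^ (-P.m) * x := by gcongr
    linarith [hkey P lam q X Z Lp x h]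
  calc ∫ u in A, X.D u ^ 2 ≤ (K.Cp 1 * (C' + 1) * x) ^ 2 * P.us := h1
    _ ≤ (K.Cp 1 * (C' + 1) * x) ^ 2 * (A0 * P.N ^ (-P.m) * x) := mul_le_mul_of_nonneg_left h2 (sq_nonneg _)
    _ = _ := by ring

/-! ## 3. (19) in mass -/

/-- `cmQ4` at `q = 3` -/
theorem cm19_Q4_three {ω Cq y0 : ℝ} (hω : 0 ≤ ω) (hCq : 0 ≤ Cq) (hy0 : 0 ≤ y0) :
    cmQ4 ω Cq y0 3 = 8 * Cq ^ 3 * Real.sqrt (ω * y0 ^ 3) := by
  unfold cmQ4
  have e1 : (1 - 1 / (((3 : ℕ) : ℝ) - 1)) = 1 / 2 := by norm_num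
  have e2 : 2 * ((3 : ℕ) : ℝ) / (((3 : ℕ) : ℝ) - 1) = ((3 : ℕ) : ℝ) := by norm_num
  rw [e1, e2, Real.rpow_natCast, ← Real.sqrt_eq_rpow, Real.sqrt_mul hω]
  have e3 : Real.sqrt (y0 ^ 3) = Real.sqrt y0 ^ 3 := by
    conv_lhs => rw [← Real.sq_sqrt hy0]
    rw [← pow_mul, mul_comm 2 3, pow_mul, Real.sqrt_sq (by positivity)]
  rw [e3]
  ring

/-- **the cap and wall terms**: `Λ² (ω² + Q4(ω)) ≤ C s x²` if `ω ≤ A2 Λ² u_*`, `y0 ≤ A3 x`, `Λ^10 u_* ≤ A0 s² x` -/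
theorem cm19_num_q4 {Λ us x s A0 A2 A3 Cq ω y0 : ℝ} (hΛ : 1 ≤ Λ) (hus : 0 < us) (hx : 0 < x) (hs : 0 < s) (hs1 : s ≤ 1)
    (hA0 : 0 < A0) (hA2 : 0 ≤ A2) (hA3 : 0 ≤ A3) (hCq : 0 ≤ Cq) (hkey : Λ ^ 10 * us ≤ A0 * s ^ 2 * x)
    (hω0 : 0 ≤ ω) (hω : ω ≤ A2 * Λ ^ 2 * us) (hy0 : 0 ≤ y0) (hy : y0 ≤ A3 * x) :
    Λ ^ 2 * (ω ^ 2 + cmQ4 ω Cq y0 3) ≤ (A2 ^ 2 * A0 ^ 2 + 8 * Cq ^ 3 * Real.sqrt (A2 * A0 * A3 ^ 3)) * s * x ^ 2 := by
  have hΛ0 : 0 < Λ := by linarith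
  have hw : ∀ k : ℕ, k ≤ 10 → Λ ^ k * us ≤ A0 * s ^ 2 * x := fun k hk =>
    (mul_le_mul_of_nonneg_right (pow_le_pow_right₀ hΛ hk) hus.le).trans hkey
  have h1 : Λ * ω ≤ A2 * (A0 * s ^ 2 * x) := by
    calc Λ * ω ≤ Λ * (A2 * Λ ^ 2 * us) := mul_le_mul_of_nonneg_left hω hΛ0.le
      _ = A2 * (Λ ^ 3 * us) := by ring
      _ ≤ A2 * (A0 * s ^ 2 * x) := mul_le_mul_of_nonneg_left (hw 3 (by norm_num)) hA2
  have h2 : Λ ^ 2 * ω ^ 2 ≤ A2 ^ 2 * A0 ^ 2 * s * x ^ 2 := by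
    have h3 : (Λ * ω) ^ 2 ≤ (A2 * (A0 * s ^ 2 * x)) ^ 2 := pow_le_pow_left₀ (by positivity) h1 2
    have hs4 : s ^ 4 ≤ s := by
      calc s ^ 4 = s * s ^ 3 := by ring
        _ ≤ s * 1 := mul_le_mul_of_nonneg_left (pow_le_one₀ hs.le hs1) hs.le
        _ = s := mul_one s
    calc Λ ^ 2 * ω ^ 2 = (Λ * ω) ^ 2 := by ring
      _ ≤ (A2 * (A0 * s ^ 2 * x)) ^ 2 := h3
      _ = A2 ^ 2 * A0 ^ 2 * x ^ 2 * s ^ 4 := by ring
      _ ≤ A2 ^ 2 * A0 ^ 2 * x ^ 2 * s := mul_le_mul_of_nonneg_left hs4 (by positivity)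
      _ = _ := by ring
  have h3 : Λ ^ 2 * Real.sqrt (ω * y0 ^ 3) ≤ Real.sqrt (A2 * A0 * A3 ^ 3) * s * x ^ 2 := by
    have e1 : Λ ^ 2 * Real.sqrt (ω * y0 ^ 3) = Real.sqrt (Λ ^ 4 * (ω * y0 ^ 3)) := by
      rw [Real.sqrt_mul (by positivity : 0 ≤ Λ ^ 4), show Λ ^ 4 = (Λ ^ 2) ^ 2 by ring, Real.sqrt_sq (by positivity)]
    have e2 : Real.sqrt (A2 * A0 * A3 ^ 3) * s * x ^ 2 = Real.sqrt (A2 * A0 * A3 ^ 3 * (s * x ^ 2) ^ 2) := by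
      rw [Real.sqrt_mul (by positivity : 0 ≤ A2 * A0 * A3 ^ 3), Real.sqrt_sq (by positivity)]; ring
    rw [e1, e2]
    apply Real.sqrt_le_sqrt
    have e3 : y0 ^ 3 ≤ (A3 * x) ^ 3 := pow_le_pow_left₀ hy0 hy 3
    calc Λ ^ 4 * (ω * y0 ^ 3) ≤ Λ ^ 4 * ((A2 * Λ ^ 2 * us) * (A3 * x) ^ 3) := by gcongr
      _ = A2 * A3 ^ 3 * x ^ 3 * (Λ ^ 6 * us) := by ring
      _ ≤ A2 * A3 ^ 3 * x ^ 3 * (A0 * s ^ 2 * x) := mul_le_mul_of_nonneg_left (hw 6 (by norm_num)) (by positivity)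
      _ = _ := by ring
  rw [cm19_Q4_three hω0 hCq hy0]
  have h4 : 8 * Cq ^ 3 * (Λ ^ 2 * Real.sqrt (ω * y0 ^ 3)) ≤ 8 * Cq ^ 3 * (Real.sqrt (A2 * A0 * A3 ^ 3) * s * x ^ 2) :=
    mul_le_mul_of_nonneg_left h3 (by positivity)
  calc Λ ^ 2 * (ω ^ 2 + 8 * Cq ^ 3 * Real.sqrt (ω * y0 ^ 3)) = Λ ^ 2 * ω ^ 2 + 8 * Cq ^ 3 * (Λ ^ 2 * Real.sqrt (ω * y0 ^ 3)) := by ring
    _ ≤ A2 ^ 2 * A0 ^ 2 * s * x ^ 2 + 8 * Cq ^ 3 * (Real.sqrt (A2 * A0 * A3 ^ 3) * s * x ^ 2) := add_le_add h2 h4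
    _ = _ := by ring

/-- `B^(2/3) ≤ β` if `B² ≤ β³` -/
theorem cm19_rpow23 {B β : ℝ} (hB : 0 ≤ B) (hβ : 0 ≤ β) (h : B ^ 2 ≤ β ^ 3) : B ^ (2 / 3 : ℝ) ≤ β := by
  have e1 : B ^ (2 / 3 : ℝ) = (B ^ 2) ^ (1 / 3 : ℝ) := by
    rw [← Real.rpow_natCast, ← Real.rpow_mul hB]; norm_num
  have e2 : β = (β ^ 3) ^ (1 / 3 : ℝ) := by
    rw [← Real.rpow_natCast, ← Real.rpow_mul hβ]; norm_num
  rw [e1, e2]
  exact Real.rpow_le_rpow (by positivity) h (by norm_num)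

/-- `z^(1/3) ≤ 1 + z` -/
theorem cm19_rpow13 {z : ℝ} (hz : 0 ≤ z) : z ^ (1 / 3 : ℝ) ≤ 1 + z := by
  rcases le_total z 1 with h | h
  · have := Real.rpow_le_one hz h (by norm_num : (0 : ℝ) ≤ 1 / 3)
    linarith
  · have := Real.rpow_le_rpow_of_exponent_le h (by norm_num : (1 / 3 : ℝ) ≤ 1)
    rw [Real.rpow_one] at this
    linarith

/-- `Λ^k u_* ≤ A0 s x` for `k ≤ 10` -/
theorem cm19_num_w {Λ us x s A0 : ℝ} (hΛ : 1 ≤ Λ) (hus : 0 < us) (hx : 0 < x) (hs : 0 < s) (hs1 : s ≤ 1) (hA0 : 0 < A0)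
    (hkey : Λ ^ 10 * us ≤ A0 * s ^ 2 * x) (k : ℕ) (hk : k ≤ 10) : Λ ^ k * us ≤ A0 * s * x := by
  have e1 := (mul_le_mul_of_nonneg_right (pow_le_pow_right₀ hΛ hk) hus.le).trans hkey
  have e2 : s ^ 2 ≤ s := by
    calc s ^ 2 = s * s := sq s
      _ ≤ s * 1 := mul_le_mul_of_nonneg_left hs1 hs.le
      _ = s := mul_one s
  have e3 : A0 * s ^ 2 * x ≤ A0 * s * x := by gcongr
  linarith

/-- the first optimised variable term of (21) -/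
theorem cm19_num_t1 {Λ us x s A0 A1 A3 y0 T : ℝ} (hΛ : 1 ≤ Λ) (hus : 0 < us) (hx : 0 < x) (husx : us ≤ x) (hs : 0 < s) (hs1 : s ≤ 1)
    (hA0 : 0 < A0) (hA1 : 0 ≤ A1) (hA3 : 0 ≤ A3) (hkey : Λ ^ 10 * us ≤ A0 * s ^ 2 * x)
    (hT0 : 0 ≤ T) (hT : T ≤ A1 * Λ ^ 2 * x ^ 2 * us ^ 2) (hy0 : 0 ≤ y0) (hy : y0 ≤ A3 * x) :
    Λ ^ 2 * (y0 * T / x ^ 2) ^ (2 / 3 : ℝ) ≤ (A3 * A1 + 1) * A0 * s * x ^ 2 := by
  have hΛ0 : 0 < Λ := by linarith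
  have h31 : 0 ≤ A3 * A1 := mul_nonneg hA3 hA1
  have hb1 : 1 ≤ A3 * A1 + 1 := by linarith
  have hB0 : 0 ≤ y0 * T / x ^ 2 := by positivity
  have hB : y0 * T / x ^ 2 ≤ A3 * A1 * (Λ ^ 2 * x * us ^ 2) := by
    rw [div_le_iff₀ (by positivity)]
    calc y0 * T ≤ (A3 * x) * (A1 * Λ ^ 2 * x ^ 2 * us ^ 2) := mul_le_mul hy hT hT0 (by positivity)
      _ = _ := by ring
  have hβ0 : 0 ≤ (A3 * A1 + 1) * (Λ ^ 2 * us * x) := by positivity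
  have h23 : (y0 * T / x ^ 2) ^ (2 / 3 : ℝ) ≤ (A3 * A1 + 1) * (Λ ^ 2 * us * x) := by
    apply cm19_rpow23 hB0 hβ0
    have e1 : (y0 * T / x ^ 2) ^ 2 ≤ ((A3 * A1 + 1) * (Λ ^ 2 * x * us ^ 2)) ^ 2 := by
      apply pow_le_pow_left₀ hB0
      refine hB.trans (mul_le_mul_of_nonneg_right (by linarith) (by positivity))
    refine e1.trans ?_
    have e2 : (A3 * A1 + 1) ^ 2 ≤ (A3 * A1 + 1) ^ 3 := pow_le_pow_right₀ hb1 (by norm_num)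
    have e3 : Λ ^ 4 ≤ Λ ^ 6 := pow_le_pow_right₀ hΛ (by norm_num)
    have e4 : x ^ 2 * us ^ 4 ≤ us ^ 3 * x ^ 3 := by
      calc x ^ 2 * us ^ 4 = x ^ 2 * us ^ 3 * us := by ring
        _ ≤ x ^ 2 * us ^ 3 * x := mul_le_mul_of_nonneg_left husx (by positivity)
        _ = _ := by ring
    calc ((A3 * A1 + 1) * (Λ ^ 2 * x * us ^ 2)) ^ 2 = (A3 * A1 + 1) ^ 2 * Λ ^ 4 * (x ^ 2 * us ^ 4) := by ring
      _ ≤ (A3 * A1 + 1) ^ 3 * Λ ^ 6 * (us ^ 3 * x ^ 3) :=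
          mul_le_mul (mul_le_mul e2 e3 (by positivity) (by positivity)) e4 (by positivity) (by positivity)
      _ = _ := by ring
  calc Λ ^ 2 * (y0 * T / x ^ 2) ^ (2 / 3 : ℝ) ≤ Λ ^ 2 * ((A3 * A1 + 1) * (Λ ^ 2 * us * x)) := mul_le_mul_of_nonneg_left h23 (by positivity)
    _ = (A3 * A1 + 1) * x * (Λ ^ 4 * us) := by ring
    _ ≤ (A3 * A1 + 1) * x * (A0 * s * x) :=
        mul_le_mul_of_nonneg_left (cm19_num_w hΛ hus hx hs hs1 hA0 hkey 4 (by norm_num)) (by positivity)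
    _ = _ := by ring

/-- the second optimised variable term of (21) -/
theorem cm19_num_t2 {Λ us x s A0 A1 T : ℝ} (hΛ : 1 ≤ Λ) (hus : 0 < us) (hx : 0 < x) (husx : us ≤ x) (hs : 0 < s) (hs1 : s ≤ 1)
    (hA0 : 0 < A0) (hA1 : 0 ≤ A1) (hkey : Λ ^ 10 * us ≤ A0 * s ^ 2 * x) (hT : T ≤ A1 * Λ ^ 2 * x ^ 2 * us ^ 2) :
    Λ ^ 2 * (T / x ^ 2) ≤ A1 * A0 * s * x ^ 2 := by
  have hΛ0 : 0 < Λ := by linarith
  have e1 : T / x ^ 2 ≤ A1 * Λ ^ 2 * us ^ 2 := by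
    rw [div_le_iff₀ (by positivity)]
    linarith
  have e2 : us ^ 2 ≤ us * x := by
    calc us ^ 2 = us * us := sq us
      _ ≤ us * x := mul_le_mul_of_nonneg_left husx hus.le
  have e3 : A1 * Λ ^ 2 * us ^ 2 ≤ A1 * Λ ^ 2 * (us * x) := mul_le_mul_of_nonneg_left e2 (by positivity)
  calc Λ ^ 2 * (T / x ^ 2) ≤ Λ ^ 2 * (A1 * Λ ^ 2 * (us * x)) := mul_le_mul_of_nonneg_left (e1.trans e3) (by positivity)
    _ = A1 * x * (Λ ^ 4 * us) := by ring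
    _ ≤ A1 * x * (A0 * s * x) :=
        mul_le_mul_of_nonneg_left (cm19_num_w hΛ hus hx hs hs1 hA0 hkey 4 (by norm_num)) (by positivity)
    _ = _ := by ring

/-- the right side of (21) at the scale `x`, abstract arithmetic -/
theorem cm19_R_le {Γ Kg Lp N x y0 eg l0 Cq th Λ us s A0 A1 A2 A3 A4 A5 : ℝ}
    (hΛ : 1 ≤ Λ) (hus : 0 < us) (hx : 0 < x) (husx : us ≤ x) (hs : 0 < s) (hs1 : s ≤ 1) (hA0 : 0 < A0) (hA1 : 0 ≤ A1) (hA2 : 0 ≤ A2)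
    (hA3 : 0 ≤ A3) (hΓ : 0 ≤ Γ) (hCq : 0 ≤ Cq) (hkey : Λ ^ 10 * us ≤ A0 * s ^ 2 * x)
    (hT0 : 0 ≤ 2 * Γ ^ 2 * Kg ^ 2 * Lp ^ 2 / (N * eg)) (hT : 2 * Γ ^ 2 * Kg ^ 2 * Lp ^ 2 / (N * eg) ≤ A1 * Λ ^ 2 * x ^ 2 * us ^ 2)
    (hω0 : 0 ≤ Kg * Lp * l0) (hω : Kg * Lp * l0 ≤ A2 * Λ ^ 2 * us) (hy0 : 0 ≤ y0) (hy : y0 ≤ A3 * x)
    (hLg0 : 0 ≤ 1 + Real.log (1 + Γ * x / th)) (hLg : 1 + Real.log (1 + Γ * x / th) ≤ A4 * Λ)
    (hedge : (3 + (y0 ^ 2 * x ^ 2 / (2 * Γ ^ 2 * Kg ^ 2 * Lp ^ 2 / (N * eg))) ^ (1 / 3 : ℝ)) * th ≤ A5 * s * x ^ 3) :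
    cm6xR Γ Kg Lp N x y0 eg l0 Cq th 3 ≤
      (10000000 * Γ ^ 3 * A4 ^ 2 * ((A3 * A1 + 1) * A0 + A1 * A0 + (A2 ^ 2 * A0 ^ 2 + 8 * Cq ^ 3 * Real.sqrt (A2 * A0 * A3 ^ 3))) + 1000000 * A5) * s * x ^ 3 := by
  unfold cm6xR
  generalize 2 * Γ ^ 2 * Kg ^ 2 * Lp ^ 2 / (N * eg) = T at *
  generalize Kg * Lp * l0 = ω at *
  generalize 1 + Real.log (1 + Γ * x / th) = Lg at *
  have hΛ0 : 0 < Λ := by linarith
  have hq4 := cm19_num_q4 hΛ hus hx hs hs1 hA0 hA2 hA3 hCq hkey hω0 hω hy0 hy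
  have t1 := cm19_num_t1 hΛ hus hx husx hs hs1 hA0 hA1 hA3 hkey hT0 hT hy0 hy
  have t2 := cm19_num_t2 hΛ hus hx husx hs hs1 hA0 hA1 hkey hT
  have hb1 : 0 ≤ (y0 * T / x ^ 2) ^ (2 / 3 : ℝ) := Real.rpow_nonneg (by positivity) _
  have hb3 : 0 ≤ T / x ^ 2 := by positivity
  have hb4 : 0 ≤ cmQ4 ω Cq y0 3 := cm_g_q4_nonneg hω0 hCq 3
  have hb5 : 0 ≤ ω ^ 2 := sq_nonneg _
  generalize (y0 * T / x ^ 2) ^ (2 / 3 : ℝ) = b1 at *
  generalize (y0 ^ 2 * x ^ 2 / T) ^ (1 / 3 : ℝ) = b2 at *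
  generalize T / x ^ 2 = b3 at *
  generalize cmQ4 ω Cq y0 3 = b4 at *
  generalize ω ^ 2 = b5 at *
  generalize Real.sqrt (A2 * A0 * A3 ^ 3) = r0 at *
  have hLg2 : Lg ^ 2 ≤ A4 ^ 2 * Λ ^ 2 := by
    calc Lg ^ 2 ≤ (A4 * Λ) ^ 2 := pow_le_pow_left₀ hLg0 hLg 2
      _ = _ := by ring
  have hS0 : 0 ≤ x * (b1 + b3 + b5 + b4) := mul_nonneg hx.le (by linarith)
  have m0 : Λ ^ 2 * (b1 + b3 + b5 + b4) ≤ ((A3 * A1 + 1) * A0 + A1 * A0 + (A2 ^ 2 * A0 ^ 2 + 8 * Cq ^ 3 * r0)) * s * x ^ 2 := by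
    calc Λ ^ 2 * (b1 + b3 + b5 + b4) = Λ ^ 2 * b1 + Λ ^ 2 * b3 + Λ ^ 2 * (b5 + b4) := by ring
      _ ≤ (A3 * A1 + 1) * A0 * s * x ^ 2 + A1 * A0 * s * x ^ 2 + (A2 ^ 2 * A0 ^ 2 + 8 * Cq ^ 3 * r0) * s * x ^ 2 :=
          add_le_add (add_le_add t1 t2) hq4
      _ = _ := by ring
  have m1 : Lg ^ 2 * (x * (b1 + b3 + b5 + b4)) ≤ A4 ^ 2 * x * (((A3 * A1 + 1) * A0 + A1 * A0 + (A2 ^ 2 * A0 ^ 2 + 8 * Cq ^ 3 * r0)) * s * x ^ 2) := by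
    calc Lg ^ 2 * (x * (b1 + b3 + b5 + b4)) ≤ A4 ^ 2 * Λ ^ 2 * (x * (b1 + b3 + b5 + b4)) := mul_le_mul_of_nonneg_right hLg2 hS0
      _ = A4 ^ 2 * x * (Λ ^ 2 * (b1 + b3 + b5 + b4)) := by ring
      _ ≤ _ := mul_le_mul_of_nonneg_left m0 (by positivity)
  have m2 := mul_le_mul_of_nonneg_left m1 (by positivity : 0 ≤ 10000000 * Γ ^ 3)
  calc 10000000 * Γ ^ 3 * Lg ^ 2 * (x * (b1 + b3 + b5 + b4)) + 1000000 * (3 + b2) * th
      = 10000000 * Γ ^ 3 * (Lg ^ 2 * (x * (b1 + b3 + b5 + b4))) + 1000000 * ((3 + b2) * th) := by ring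
    _ ≤ 10000000 * Γ ^ 3 * (A4 ^ 2 * x * (((A3 * A1 + 1) * A0 + A1 * A0 + (A2 ^ 2 * A0 ^ 2 + 8 * Cq ^ 3 * r0)) * s * x ^ 2))
        + 1000000 * (A5 * s * x ^ 3) := by linarith
    _ = _ := by ring

/-- the logarithm of (21) with `th = n^(-10)` -/
theorem cm19_Lg {cE D0 : ℝ} (hP : P.Ok cE D0) {Γ : ℝ} (hΓ : 1 ≤ Γ) (hx : 0 < x) (hx1 : x ≤ 1) :
    0 ≤ 1 + Real.log (1 + Γ * x / P.N ^ (-(10 : ℝ))) ∧
      1 + Real.log (1 + Γ * x / P.N ^ (-(10 : ℝ))) ≤ (11 + Real.log (2 * Γ)) * P.Lam := by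
  have hN := cm_N_ge hP
  have hN0 := cm_N_pos hP
  have hLam := cm_Lam_ge_one hP
  have hN10 : 1 ≤ P.N ^ (10 : ℝ) := Real.one_le_rpow (by linarith) (by norm_num)
  have e0 : Γ * x / P.N ^ (-(10 : ℝ)) = Γ * x * P.N ^ (10 : ℝ) := by
    rw [Real.rpow_neg hN0.le, div_inv_eq_mul]
  rw [e0]
  have hpos : 0 ≤ Γ * x * P.N ^ (10 : ℝ) := by positivity
  have h1 : Γ * x * P.N ^ (10 : ℝ) ≤ Γ * P.N ^ (10 : ℝ) := by
    have : Γ * x ≤ Γ * 1 := mul_le_mul_of_nonneg_left hx1 (by linarith)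
    calc Γ * x * P.N ^ (10 : ℝ) ≤ Γ * 1 * P.N ^ (10 : ℝ) := mul_le_mul_of_nonneg_right this (by positivity)
      _ = _ := by ring
  have h2 : 1 ≤ Γ * P.N ^ (10 : ℝ) := by
    calc (1 : ℝ) = 1 * 1 := (one_mul 1).symm
      _ ≤ Γ * P.N ^ (10 : ℝ) := mul_le_mul hΓ hN10 zero_le_one (by linarith)
  have h3 : Real.log (1 + Γ * x * P.N ^ (10 : ℝ)) ≤ Real.log (2 * Γ * P.N ^ (10 : ℝ)) :=
    Real.log_le_log (by linarith) (by linarith)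
  have h4 : Real.log (2 * Γ * P.N ^ (10 : ℝ)) = Real.log (2 * Γ) + 10 * P.Lam := by
    rw [Real.log_mul (by positivity) (by positivity), Real.log_rpow hN0]
    rfl
  have h5 : 0 ≤ Real.log (2 * Γ) := Real.log_nonneg (by linarith)
  refine ⟨by have := Real.log_nonneg (by linarith : (1 : ℝ) ≤ 1 + Γ * x * P.N ^ (10 : ℝ)); linarith, ?_⟩
  have h6 : Real.log (2 * Γ) * 1 ≤ Real.log (2 * Γ) * P.Lam := mul_le_mul_of_nonneg_left hLam h5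
  linarith

/-- the edge term of (21) with `th = n^(-10)` -/
theorem cm19_edge (hK : K.Ok) (h : CmStd K P lam q X Z Lp x) {Γ R A3 : ℝ} (hΓ : 1 ≤ Γ) (hR : 1 ≤ R) (hA3 : 0 ≤ A3) :
    (3 + ((A3 * x) ^ 2 * x ^ 2 / (2 * Γ ^ 2 * K.Kg ^ 2 * Lp ^ 2 / (P.N * (P.e lam x / R)))) ^ (1 / 3 : ℝ)) * P.N ^ (-(10 : ℝ))
      ≤ (4 + A3 ^ 2 * K.D0 ^ 2) * (K.ca * K.cE)⁻¹ ^ 3 * P.N ^ (-P.m) * x ^ 3 := by
  have hP := h.base.ok
  have hc := hK.cE0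
  have hN := cm_N_ge hP
  have hN0 := cm_N_pos hP
  have hN1 : 1 ≤ P.N := by linarith
  have hx := h.x0
  have hx1 := h.x1
  have he0 := cm_e_pos P h.base.lam0 x
  have hD0 := hK.D00
  have hLp := h.base.geo.Lp1
  have hKg := hK.Kg1
  have he1 : P.e lam x / R ≤ K.D0 ^ 2 := by
    have e1 : P.e lam x / R ≤ P.e lam x := div_le_self he0.le hR
    have e2 := cm_e_le P h.base.lam0.le x
    have e3 : P.d ^ 2 ≤ K.D0 ^ 2 := pow_le_pow_left₀ hP.d0.le hP.d1 2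
    linarith [h.base.lam1]
  have heR : 0 < P.e lam x / R := div_pos he0 (by linarith)
  have hnum : 2 ≤ 2 * Γ ^ 2 * K.Kg ^ 2 * Lp ^ 2 := by
    have a1 : 1 ≤ Γ ^ 2 := one_le_pow₀ hΓ
    have a2 : 1 ≤ K.Kg ^ 2 := one_le_pow₀ hKg
    have a3 : 1 ≤ Lp ^ 2 := one_le_pow₀ hLp
    have a4 : 1 ≤ Γ ^ 2 * K.Kg ^ 2 := one_le_mul_of_one_le_of_one_le a1 a2
    have a5 : 1 ≤ Γ ^ 2 * K.Kg ^ 2 * Lp ^ 2 := one_le_mul_of_one_le_of_one_le a4 a3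
    linarith
  have hz : (A3 * x) ^ 2 * x ^ 2 / (2 * Γ ^ 2 * K.Kg ^ 2 * Lp ^ 2 / (P.N * (P.e lam x / R))) ≤ A3 ^ 2 * K.D0 ^ 2 * P.N := by
    rw [div_div_eq_mul_div, div_le_iff₀ (by linarith)]
    have b1 : x ^ 4 ≤ 1 := pow_le_one₀ hx.le hx1
    have b2 : P.N * (P.e lam x / R) ≤ P.N * K.D0 ^ 2 := mul_le_mul_of_nonneg_left he1 hN0.le
    calc (A3 * x) ^ 2 * x ^ 2 * (P.N * (P.e lam x / R)) = A3 ^ 2 * x ^ 4 * (P.N * (P.e lam x / R)) := by ring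
      _ ≤ A3 ^ 2 * 1 * (P.N * K.D0 ^ 2) := by gcongr
      _ = A3 ^ 2 * K.D0 ^ 2 * P.N * 1 := by ring
      _ ≤ A3 ^ 2 * K.D0 ^ 2 * P.N * (2 * Γ ^ 2 * K.Kg ^ 2 * Lp ^ 2) := mul_le_mul_of_nonneg_left (by linarith) (by positivity)
  have hz0 : 0 ≤ (A3 * x) ^ 2 * x ^ 2 / (2 * Γ ^ 2 * K.Kg ^ 2 * Lp ^ 2 / (P.N * (P.e lam x / R))) := by positivity
  have h13 := cm19_rpow13 hz0
  generalize (A3 * x) ^ 2 * x ^ 2 / (2 * Γ ^ 2 * K.Kg ^ 2 * Lp ^ 2 / (P.N * (P.e lam x / R))) = z at *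
  have h1 : 3 + z ^ (1 / 3 : ℝ) ≤ (4 + A3 ^ 2 * K.D0 ^ 2) * P.N := by
    have : (4 : ℝ) * 1 ≤ 4 * P.N := by linarith
    nlinarith
  have h2 : P.N * P.N ^ (-(10 : ℝ)) ≤ P.N ^ (-(1 / 2 : ℝ)) := by
    have : P.N * P.N ^ (-(10 : ℝ)) = P.N ^ ((1 : ℝ) + -(10 : ℝ)) := by rw [Real.rpow_add hN0, Real.rpow_one]
    rw [this]
    exact Real.rpow_le_rpow_of_exponent_le hN1 (by norm_num)
  have h3 := (cm_dt_x hc hP hK.ca0 h.xa).2
  have h4 : P.N ^ (-(3 * P.m)) ≤ P.N ^ (-P.m) := Real.rpow_le_rpow_of_exponent_le hN1 (by linarith [hP.m0])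
  have hcc : 0 ≤ (K.ca * K.cE)⁻¹ ^ 3 := by have := hK.ca0; positivity
  have h5 : P.N ^ (-(1 / 2 : ℝ)) ≤ (K.ca * K.cE)⁻¹ ^ 3 * P.N ^ (-P.m) * x ^ 3 := by
    refine h3.trans ?_
    gcongr
  calc (3 + z ^ (1 / 3 : ℝ)) * P.N ^ (-(10 : ℝ)) ≤ (4 + A3 ^ 2 * K.D0 ^ 2) * P.N * P.N ^ (-(10 : ℝ)) :=
        mul_le_mul_of_nonneg_right h1 (by positivity)
    _ = (4 + A3 ^ 2 * K.D0 ^ 2) * (P.N * P.N ^ (-(10 : ℝ))) := by ring
    _ ≤ (4 + A3 ^ 2 * K.D0 ^ 2) * ((K.ca * K.cE)⁻¹ ^ 3 * P.N ^ (-P.m) * x ^ 3) := mul_le_mul_of_nonneg_left (h2.trans h5) (by positivity)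
    _ = _ := by ring

/-- `T = 2Γ²Kg²Lp² R/(n e(x)) ≤ A1 Λ² x² u_*²` -/
theorem cm19_Tb (hK : K.Ok) (h : CmStd K P lam q X Z Lp x) {Γ R : ℝ} (hR : 1 ≤ R) :
    0 ≤ 2 * Γ ^ 2 * K.Kg ^ 2 * Lp ^ 2 / (P.N * (P.e lam x / R)) ∧
    2 * Γ ^ 2 * K.Kg ^ 2 * Lp ^ 2 / (P.N * (P.e lam x / R)) ≤ 2 * Γ ^ 2 * K.Kg ^ 2 * K.CL ^ 2 * R / K.ce * P.Lam ^ 2 * x ^ 2 * P.us ^ 2 := by
  have hP := h.base.ok
  have hN0 := cm_N_pos hP
  have he0 := cm_e_pos P h.base.lam0 x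
  have hR0 : 0 < R := by linarith
  have hLp := h.base.geo.Lp1
  have hce := hK.ce0
  have hT := cm19_T_le hK h
  have hLp2 : Lp ^ 2 ≤ (K.CL * P.Lam) ^ 2 := pow_le_pow_left₀ (by linarith) h.base.Lp_le 2
  refine ⟨by positivity, ?_⟩
  have e1 : 2 * Γ ^ 2 * K.Kg ^ 2 * Lp ^ 2 / (P.N * (P.e lam x / R)) = 2 * Γ ^ 2 * K.Kg ^ 2 * R * (Lp ^ 2 * (1 / (P.N * P.e lam x))) := by
    field_simp
  rw [e1]
  calc 2 * Γ ^ 2 * K.Kg ^ 2 * R * (Lp ^ 2 * (1 / (P.N * P.e lam x)))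
      ≤ 2 * Γ ^ 2 * K.Kg ^ 2 * R * ((K.CL * P.Lam) ^ 2 * (x ^ 2 * P.us ^ 2 / K.ce)) := by
        apply mul_le_mul_of_nonneg_left _ (by positivity)
        exact mul_le_mul hLp2 hT (by positivity) (by positivity)
    _ = _ := by ring

/-- `ω = Kg Lp ℓ ≤ A2 Λ² u_*` -/
theorem cm19_omb (hK : K.Ok) (h : CmStd K P lam q X Z Lp x) {C ℓ : ℝ} (hC : 1 ≤ C) (hℓ0 : 0 ≤ ℓ) (hℓ : ℓ ≤ C * P.Lam * (P.N ^ (-P.dl) * P.L)) :
    0 ≤ K.Kg * Lp * ℓ ∧ K.Kg * Lp * ℓ ≤ K.Kg * K.CL * C * P.Lam ^ 2 * P.us := by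
  have hP := h.base.ok
  have hLp := h.base.geo.Lp1
  have hKg := hK.Kg1
  have hLam := cm_Lam_ge_one hP
  have hNL := cm19_NL_le hK hP
  have hCL := hK.CL1
  refine ⟨by positivity, ?_⟩
  have e1 : ℓ ≤ C * P.Lam * P.us := hℓ.trans (mul_le_mul_of_nonneg_left hNL (by positivity))
  calc K.Kg * Lp * ℓ ≤ K.Kg * (K.CL * P.Lam) * (C * P.Lam * P.us) := by
        apply mul_le_mul (mul_le_mul_of_nonneg_left h.base.Lp_le (by linarith)) e1 hℓ0 (by positivity)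
    _ = _ := by ring

/-- **arithmetic of the ordinary group**.   `T = 2Γ²Kg²Lp² R/(n e(x)) ≤ A1 Λ² x² u_*²` (`cm19_T_le`), `ω = Kg Lp l0 ≤ A2 Λ² u_*` (`cm19_NL_le`), `y0 = A3 x`, `1 + log(1 + Γ x n^10) ≤ A4 Λ`;
`B = y0 T/x² ≤ b Λ² x u_*²`, `B² ≤ (b' Λ² u_* x)³` (`u_* ≤ x`) so `B^(2/3) ≤ b' Λ² u_* x`;   `T/x² ≤ A1 Λ² u_* x`;   `cm19_num_q4`;   `cm19_key`.
EDGE: `T ≥ 2/(n D0²)` (`e(x) ≤ lam ≤ d² ≤ D0²`), `(y0² x²/T)^(1/3) ≤ 1 + A3² D0² n`, `n n^(-10) ≤ n^(-1/2) ≤ C n^(-3m) x³` (`cm_dt_x`). -/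
theorem cm19_num_grp (K : CmK) (hK : K.Ok) {Γ R C : ℝ} (hΓ : 1 ≤ Γ) (hR : 1 ≤ R) (hC : 1 ≤ C) :
    ∃ K1 : ℝ, 0 < K1 ∧ ∀ (P : CmCall) (lam : ℝ) (q : CmQ P) (X : CmNum) (Z : CmCaps) (Lp x : ℝ), CmStd K P lam q X Z Lp x → P.us ≤ x →
      cm6xR Γ K.Kg Lp P.N x (K.Cp 1 ^ 2 * (Γ + 1) * x) (P.e lam x / R) (C * P.Lam * (P.N ^ (-P.dl) * P.L)) (K.Cp 3) (P.N ^ (-(10 : ℝ))) 3
        ≤ K1 * P.N ^ (-P.m) * x ^ 3 := by
  obtain ⟨A0, hA0, hkey⟩ := cm19_key K hK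
  have hKg := hK.Kg1
  have hCL := hK.CL1
  have hce := hK.ce0
  have hCp1 := hK.Cp1 1
  have hCp3 := hK.Cp1 3
  have hD0 := hK.D00
  have hca := hK.ca0
  have hcE := hK.cE0
  have hA1 : 0 ≤ 2 * Γ ^ 2 * K.Kg ^ 2 * K.CL ^ 2 * R / K.ce := by positivity
  have hA2 : 0 ≤ K.Kg * K.CL * C := by positivity
  have hA3 : 0 ≤ K.Cp 1 ^ 2 * (Γ + 1) := by positivity
  have hA5 : 0 < (4 + (K.Cp 1 ^ 2 * (Γ + 1)) ^ 2 * K.D0 ^ 2) * (K.ca * K.cE)⁻¹ ^ 3 := by positivity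
  refine ⟨(10000000 * Γ ^ 3 * (11 + Real.log (2 * Γ)) ^ 2 * (((K.Cp 1 ^ 2 * (Γ + 1)) * (2 * Γ ^ 2 * K.Kg ^ 2 * K.CL ^ 2 * R / K.ce) + 1) * A0 + (2 * Γ ^ 2 * K.Kg ^ 2 * K.CL ^ 2 * R / K.ce) * A0
    + ((K.Kg * K.CL * C) ^ 2 * A0 ^ 2 + 8 * K.Cp 3 ^ 3 * Real.sqrt ((K.Kg * K.CL * C) * A0 * (K.Cp 1 ^ 2 * (Γ + 1)) ^ 3))) + 1000000 * ((4 + (K.Cp 1 ^ 2 * (Γ + 1)) ^ 2 * K.D0 ^ 2) * (K.ca * K.cE)⁻¹ ^ 3)),
    ?_, fun P lam q X Z Lp x h husx => ?_⟩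
  swap
  · have hP := h.base.ok
    obtain ⟨hs0, hs1⟩ := cm19_s (K := K) hP
    have hL := cm_L_pos hcE hP
    have hLam := cm_Lam_ge_one hP
    have hN0 := cm_N_pos hP
    have hl0 : 0 ≤ C * P.Lam * (P.N ^ (-P.dl) * P.L) := by positivity
    obtain ⟨hT0, hT⟩ := cm19_Tb hK h (Γ := Γ) hR
    obtain ⟨hω0, hω⟩ := cm19_omb hK h hC hl0 le_rfl
    obtain ⟨hLg0, hLg⟩ := cm19_Lg hP hΓ h.x0 h.x1
    exact cm19_R_le hLam (cm_us_pos hcE hP) h.x0 husx hs0 hs1 hA0 hA1 hA2 hA3 (by linarith) (by linarith) (hkey P lam q X Z Lp x h)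
      hT0 hT hω0 hω (by have := h.x0; positivity) le_rfl hLg0 hLg (cm19_edge hK h hΓ hR hA3)
  · have : 0 ≤ Real.sqrt (K.Kg * K.CL * C * A0 * (K.Cp 1 ^ 2 * (Γ + 1)) ^ 3) := Real.sqrt_nonneg _
    positivity

/-- **the ordinary group of a band `[v1,v2] ⊆ [c'x, C'x]`** -/
theorem cm19_grp (K : CmK) (hK : K.Ok) {c' C' : ℝ} (hc' : 0 < c') (hC' : c' ≤ C') :
    ∃ (K1 : ℝ) (n0 : ℕ), 0 < K1 ∧ ∀ (P : CmCall) (lam : ℝ) (q : CmQ P) (X : CmNum) (Z : CmCaps) (Lp x : ℝ),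
      CmStd K P lam q X Z Lp x → n0 ≤ P.n → ∀ v1 v2 : ℝ, c' * x ≤ v1 → v2 ≤ C' * x →
        ∫ u in Z.grp P q.al 8 (Icc v1 v2), X.D u ^ 2 ≤ K1 * P.N ^ (-P.m) * x ^ 3 := by
  have hC0 : 0 < C' := lt_of_lt_of_le hc' hC'
  set Γ : ℝ := 16 + 16 / c' + 16 * C' with hΓdef
  have hΓ16 : 16 ≤ Γ := by
    have : 0 < 16 / c' := by positivity
    rw [hΓdef]; linarith
  have hΓ1 : 1 ≤ Γ := by linarith
  have hΓ0 : 0 < Γ := by linarith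
  have hRC : 1 ≤ K.C * max Γ K.C0 := by
    have h1 : 1 ≤ max Γ K.C0 := hΓ1.trans (le_max_left _ _)
    calc (1 : ℝ) = 1 * 1 := (one_mul 1).symm
      _ ≤ K.C * max Γ K.C0 := mul_le_mul hK.C1 h1 zero_le_one (by linarith [hK.C1])
  obtain ⟨C, hC, hlen⟩ := cm19_len_any K hK
  obtain ⟨K1, hK1, hnum⟩ := cm19_num_grp K hK hΓ1 hRC hC
  obtain ⟨n0, hn0⟩ := cm19_small K hK (κ := min 1 (c' / 16)) (lt_min one_pos (by positivity))
  refine ⟨K1, n0, hK1, fun P lam q X Z Lp x h hn v1 v2 h1 h2 => ?_⟩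
  have hP := h.base.ok
  have hc := hK.cE0
  have hx := h.x0
  have hG := h.base.geo
  have hus := cm_us_pos hc hP
  have hN0 := cm_N_pos hP
  have hsm := (hn0 P lam q X Z Lp x h hn).2
  have husx : P.us ≤ x := hsm.trans (by
    calc min 1 (c' / 16) * x ≤ 1 * x := mul_le_mul_of_nonneg_right (min_le_left _ _) hx.le
      _ = x := one_mul x)
  have hus16 : 2 * 8 * P.us ≤ v1 := by
    have e1 : min 1 (c' / 16) * x ≤ c' / 16 * x := mul_le_mul_of_nonneg_right (min_le_right _ _) hx.le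
    linarith
  have hGr := cm_grp_isGroup (Gam := 8) hc hP hG (measurableSet_Icc (a := v1) (b := v2))
  have hsub := cm6x_grp_sub hc hP hG hGr
  have hband0 := cm_grp_band (Gam := 8) (J := Icc v1 v2) hc hP hG (by norm_num) hus16 subset_rfl
  have hband : Z.grp P q.al 8 (Icc v1 v2) ⊆ Icc (x / Γ) (Γ * x) := by
    refine hband0.trans (Icc_subset_Icc ?_ ?_)
    · rw [div_le_div_iff₀ hΓ0 (by norm_num)]
      have e1 : 16 / c' ≤ Γ := by rw [hΓdef]; nlinarith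
      have e2 : 16 ≤ Γ * c' := by
        rw [div_le_iff₀ hc'] at e1; exact e1
      have e3 : 16 * x ≤ Γ * c' * x := mul_le_mul_of_nonneg_right e2 hx.le
      have e4 : Γ * (c' * x) ≤ Γ * v1 := mul_le_mul_of_nonneg_left h1 hΓ0.le
      nlinarith
    · have e1 : 16 * C' ≤ Γ := by
        have : 0 < 16 / c' := by positivity
        rw [hΓdef]; linarith
      have e3 : 16 * C' * x ≤ Γ * x := mul_le_mul_of_nonneg_right e1 hx.le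
      linarith
  have hCp1 := hK.Cp1 1
  have hCp3 := hK.Cp1 3
  have hy0 : 0 < K.Cp 1 ^ 2 * (Γ + 1) * x := by positivity
  have hl0 : 0 ≤ C * P.Lam * (P.N ^ (-P.dl) * P.L) := by
    have := cm_Lam_ge_one hP
    have := cm_L_pos hc hP
    positivity
  have heg0 : 0 < P.e lam x / (K.C * max Γ K.C0) := div_pos (cm_e_pos P h.base.lam0 x) (by linarith)
  have h01 : ∀ u ∈ Z.grp P q.al 8 (Icc v1 v2), u ∈ Icc (0 : ℝ) 1 := fun u hu => ⟨hP.u00.trans (hsub hu).1, (hsub hu).2⟩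
  refine (cm6x_br_opt (v := x) (Gam := Γ) (y0 := K.Cp 1 ^ 2 * (Γ + 1) * x) (l0 := C * P.Lam * (P.N ^ (-P.dl) * P.L))
    (eg := P.e lam x / (K.C * max Γ K.C0)) (th := P.N ^ (-(10 : ℝ))) (Cq := K.Cp 3) (qq := 3) hc hP h.base.lam0 h.base.num hG hGr hx hΓ1 hy0 hl0 heg0
    (Real.rpow_pos_of_pos hN0 _) (by linarith) le_rfl hband ?_ ?_ ?_ ?_ ?_ ?_).trans (hnum P lam q X Z Lp x h husx)
  · intro i hi hsubi
    have ho := (cm_grp_cap hc hP hG hi hsubi).1.2.1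
    have hpos : 0 ≤ q.al (Z.cL i) + P.us := by
      have := (cm_q_al_mem hc hP q (cm_g_cL_mem hG i)).1
      linarith [hP.u00]
    have : 8 * (q.al (Z.cL i) + P.us) ≤ Γ * (q.al (Z.cL i) + P.us) := mul_le_mul_of_nonneg_right (by linarith) hpos
    linarith
  · intro i hi hsubi
    exact (cm_grp_cap hc hP hG hi hsubi).1.2.2
  · intro i _ _
    exact hlen P lam q X Z Lp h.base i
  · intro u hu
    exact cm19_e_ge h hRC (cm19_r_le hK h (hsub hu) (hband hu).2)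
  · intro u hu
    exact cm19_S_le hK h hΓ0.le (h01 u hu) (hband hu).2
  · intro u hu
    refine (cm19_NX_le hK h (by norm_num) (h01 u hu) (hband hu).2).trans ?_
    apply mul_le_mul_of_nonneg_left _ (by linarith)
    apply Real.sqrt_le_sqrt
    have e1 : 1 ≤ K.Cp 1 ^ 2 := one_le_pow₀ hCp1
    have e2 : 0 ≤ (Γ + 1) * x := by positivity
    calc (Γ + 1) * x = 1 * ((Γ + 1) * x) := (one_mul _).symm
      _ ≤ K.Cp 1 ^ 2 * ((Γ + 1) * x) := mul_le_mul_of_nonneg_right e1 e2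
      _ = _ := by ring

/-- `M(b) ℓ ≤ 2 C Λ g² x²/u_*` for `b + u_* ≤ g x` -/
theorem cm19_Ml (hK : K.Ok) (hP : P.Ok K.cE K.D0) {C b ℓ g : ℝ} (hC : 1 ≤ C) (hb0 : 0 ≤ b) (hℓ : ℓ ≤ C * P.Lam * (P.N ^ (-P.dl) * P.L))
    (hg : 1 ≤ g) (hx : 0 < x) (hbx : b + P.us ≤ g * x) (husx : P.us ≤ x) : P.M b * ℓ ≤ 2 * C * P.Lam * g ^ 2 * x ^ 2 / P.us := by
  have hc := hK.cE0
  have hN0 := cm_N_pos hP
  have hus := cm_us_pos hc hP
  have hL := cm_L_pos hc hP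
  have hE := cm_E_pos hc hP
  have hd := hP.d0
  have hLam := cm_Lam_ge_one hP
  have hM0 := (cm_M_pos hc hP hb0).le
  obtain ⟨d1, d2⟩ := cm_dLus hc hP
  have hdl : P.d ^ 3 * P.L / P.E ≤ 1 / P.us := by
    rw [le_div_iff₀ hus]
    calc P.d ^ 3 * P.L / P.E * P.us = P.d ^ 3 * P.L * P.us / P.E := by ring
      _ ≤ 1 := d1.trans d2
  have hNN : P.N ^ P.dl * P.N ^ (-P.dl) = 1 := by rw [← Real.rpow_add hN0]; simp
  have hw0 : 0 < b + P.us := by linarith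
  have e1 : P.M b * (C * P.Lam * (P.N ^ (-P.dl) * P.L)) = C * P.Lam * ((b + P.us) + P.d ^ 3 * P.L / P.E * (b + P.us) ^ 2) := by
    unfold CmCall.M
    calc P.N ^ P.dl * ((b + P.us) / P.L + P.d ^ 3 / P.E * (b + P.us) ^ 2) * (C * P.Lam * (P.N ^ (-P.dl) * P.L))
        = (P.N ^ P.dl * P.N ^ (-P.dl)) * (C * P.Lam * ((b + P.us) / P.L * P.L + P.d ^ 3 * P.L / P.E * (b + P.us) ^ 2)) := by ring
      _ = _ := by rw [hNN, one_mul, div_mul_cancel₀ _ hL.ne']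
  have e2 : P.d ^ 3 * P.L / P.E * (b + P.us) ^ 2 ≤ 1 / P.us * (g * x) ^ 2 :=
    mul_le_mul hdl (pow_le_pow_left₀ hw0.le hbx 2) (by positivity) (by positivity)
  have e3 : g * x ≤ g ^ 2 * x ^ 2 / P.us := by
    rw [le_div_iff₀ hus]
    have : P.us ≤ g * x := by nlinarith
    calc g * x * P.us ≤ g * x * (g * x) := mul_le_mul_of_nonneg_left this (by positivity)
      _ = _ := by ring
  calc P.M b * ℓ ≤ P.M b * (C * P.Lam * (P.N ^ (-P.dl) * P.L)) := mul_le_mul_of_nonneg_left hℓ hM0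
    _ = C * P.Lam * ((b + P.us) + P.d ^ 3 * P.L / P.E * (b + P.us) ^ 2) := e1
    _ ≤ C * P.Lam * (g ^ 2 * x ^ 2 / P.us + 1 / P.us * (g * x) ^ 2) :=
        mul_le_mul_of_nonneg_left (add_le_add (hbx.trans e3) e2) (by positivity)
    _ = _ := by ring

/-- **arithmetic of a broad slice**.   `ω = Kg Lp ℓ ≤ A2 Λ² u_*`, `cm19_num_q4`;   `M(b) ℓ ≤ C Λ ((b+u_*) + (b+u_*)²/u_*)` (`cm_dLus`), `b + u_* ≤ (2C'+1) x`, `u_* ≤ x`;   `1/(n eg) ≤ R x² u_*²/ce` (`cm19_T_le`);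
`1/a² + 1/(a(b-a)) ≤ 8/(c'x)²`:   trace term `≤ c Λ³ u_* x²`, `cm19_key`. -/
theorem cm19_num_broad (K : CmK) (hK : K.Ok) {c' C' R C : ℝ} (hc' : 0 < c') (hC' : c' ≤ C') (hR : 1 ≤ R) (hC : 1 ≤ C) :
    ∃ K1 : ℝ, 0 < K1 ∧ ∀ (P : CmCall) (lam : ℝ) (q : CmQ P) (X : CmNum) (Z : CmCaps) (Lp x : ℝ), CmStd K P lam q X Z Lp x → P.us ≤ x →
      ∀ a b ℓ : ℝ, c' * x / 2 ≤ a → c' * x / 2 ≤ b - a → b ≤ 2 * C' * x → 0 ≤ ℓ → ℓ ≤ C * P.Lam * (P.N ^ (-P.dl) * P.L) →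
        200000 * ((b - a) * ((K.Kg * Lp * ℓ) ^ 2 + cmQ4 (K.Kg * Lp * ℓ) (K.Cp 3) (K.Cp 1 ^ 2 * (2 * C' + 1) * x) 3)
          + (1 / a ^ 2 + 1 / (a * (b - a))) * (P.M b * (K.Kg ^ 2 * Lp ^ 2 * ℓ / (P.N * (P.e lam x / R))))) ≤ K1 * P.N ^ (-P.m) * x ^ 3 := by
  obtain ⟨A0, hA0, hkey⟩ := cm19_key K hK
  have hC0 : 0 < C' := lt_of_lt_of_le hc' hC'
  have hKg := hK.Kg1
  have hCL := hK.CL1
  have hce := hK.ce0
  have hCp1 := hK.Cp1 1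
  have hCp3 := hK.Cp1 3
  have hcE := hK.cE0
  have hA2 : 0 ≤ K.Kg * K.CL * C := by positivity
  have hA3 : 0 ≤ K.Cp 1 ^ 2 * (2 * C' + 1) := by positivity
  obtain ⟨Kq, hKqdef⟩ : ∃ Kq : ℝ, Kq = (K.Kg * K.CL * C) ^ 2 * A0 ^ 2 + 8 * K.Cp 3 ^ 3 * Real.sqrt (K.Kg * K.CL * C * A0 * (K.Cp 1 ^ 2 * (2 * C' + 1)) ^ 3) :=
    ⟨_, rfl⟩
  have hKq0 : 0 ≤ Kq := by rw [hKqdef]; positivity
  obtain ⟨Kt, hKtdef⟩ : ∃ Kt : ℝ, Kt = 8 / c' ^ 2 * (2 * C * (2 * C' + 1) ^ 2) * (K.Kg ^ 2 * K.CL ^ 2 * R / K.ce) * A0 := ⟨_, rfl⟩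
  have hKt0 : 0 < Kt := by rw [hKtdef]; positivity
  refine ⟨200000 * (2 * C' * Kq + Kt), by positivity, fun P lam q X Z Lp x h husx a b ℓ ha hba hb hℓ0 hℓ => ?_⟩
  have hP := h.base.ok
  have hx := h.x0
  obtain ⟨hs0, hs1⟩ := cm19_s (K := K) hP
  have hLam := cm_Lam_ge_one hP
  have hN0 := cm_N_pos hP
  have hus := cm_us_pos hcE hP
  have hk := hkey P lam q X Z Lp x h
  obtain ⟨hω0, hω⟩ := cm19_omb hK h hC hℓ0 hℓ
  have hcx : 0 < c' * x / 2 := by positivity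
  have ha0 : 0 < a := lt_of_lt_of_le hcx ha
  have hba0 : 0 < b - a := lt_of_lt_of_le hcx hba
  have hb0 : 0 ≤ b := by linarith
  have hq4 := cm19_num_q4 (Cq := K.Cp 3) (y0 := K.Cp 1 ^ 2 * (2 * C' + 1) * x) hLam hus hx hs0 hs1 hA0 hA2 hA3 (by linarith) hk hω0 hω
    (by positivity) le_rfl
  rw [← hKqdef] at hq4
  have hQ0 : 0 ≤ (K.Kg * Lp * ℓ) ^ 2 + cmQ4 (K.Kg * Lp * ℓ) (K.Cp 3) (K.Cp 1 ^ 2 * (2 * C' + 1) * x) 3 :=
    add_nonneg (sq_nonneg _) (cm_g_q4_nonneg hω0 (by linarith) 3)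
  generalize (K.Kg * Lp * ℓ) ^ 2 + cmQ4 (K.Kg * Lp * ℓ) (K.Cp 3) (K.Cp 1 ^ 2 * (2 * C' + 1) * x) 3 = Q at *
  have p1 : (b - a) * Q ≤ 2 * C' * Kq * (P.N ^ (-P.m) * x ^ 3) := by
    have e1 : Q ≤ Kq * P.N ^ (-P.m) * x ^ 2 := by
      have : 1 * Q ≤ P.Lam ^ 2 * Q := mul_le_mul_of_nonneg_right (one_le_pow₀ hLam) hQ0
      linarith
    calc (b - a) * Q ≤ (2 * C' * x) * (Kq * P.N ^ (-P.m) * x ^ 2) := mul_le_mul (by linarith) e1 hQ0 (by positivity)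
      _ = _ := by ring
  have hMl := cm19_Ml (x := x) hK hP hC hb0 hℓ (g := 2 * C' + 1) (by linarith) hx (by linarith) husx
  obtain ⟨-, hT⟩ := cm19_Tb hK h (Γ := 1) hR
  have hT' : K.Kg ^ 2 * Lp ^ 2 / (P.N * (P.e lam x / R)) ≤ K.Kg ^ 2 * K.CL ^ 2 * R / K.ce * P.Lam ^ 2 * x ^ 2 * P.us ^ 2 := by
    have e1 : 2 * 1 ^ 2 * K.Kg ^ 2 * Lp ^ 2 / (P.N * (P.e lam x / R)) = 2 * (K.Kg ^ 2 * Lp ^ 2 / (P.N * (P.e lam x / R))) := by ring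
    have e2 : 2 * 1 ^ 2 * K.Kg ^ 2 * K.CL ^ 2 * R / K.ce * P.Lam ^ 2 * x ^ 2 * P.us ^ 2
        = 2 * (K.Kg ^ 2 * K.CL ^ 2 * R / K.ce * P.Lam ^ 2 * x ^ 2 * P.us ^ 2) := by ring
    rw [e1, e2] at hT
    linarith
  have hT0 : 0 ≤ K.Kg ^ 2 * Lp ^ 2 / (P.N * (P.e lam x / R)) := by
    have := cm_e_pos P h.base.lam0 x
    positivity
  have hMl0 : 0 ≤ P.M b * ℓ := mul_nonneg (cm_M_pos hcE hP hb0).le hℓ0
  have hinv : 1 / a ^ 2 + 1 / (a * (b - a)) ≤ 8 / (c' ^ 2 * x ^ 2) := by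
    have e1 : (c' * x / 2) ^ 2 ≤ a ^ 2 := pow_le_pow_left₀ hcx.le ha 2
    have e2 : (c' * x / 2) * (c' * x / 2) ≤ a * (b - a) := mul_le_mul ha hba hcx.le ha0.le
    have e3 : 1 / a ^ 2 ≤ 1 / (c' * x / 2) ^ 2 := one_div_le_one_div_of_le (by positivity) e1
    have e4 : 1 / (a * (b - a)) ≤ 1 / ((c' * x / 2) * (c' * x / 2)) := one_div_le_one_div_of_le (by positivity) e2
    have e5 : 1 / (c' * x / 2) ^ 2 + 1 / ((c' * x / 2) * (c' * x / 2)) = 8 / (c' ^ 2 * x ^ 2) := by field_simp; ring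
    linarith
  have p2 : (1 / a ^ 2 + 1 / (a * (b - a))) * (P.M b * (K.Kg ^ 2 * Lp ^ 2 * ℓ / (P.N * (P.e lam x / R)))) ≤ Kt * (P.N ^ (-P.m) * x ^ 3) := by
    have e0 : P.M b * (K.Kg ^ 2 * Lp ^ 2 * ℓ / (P.N * (P.e lam x / R))) = (P.M b * ℓ) * (K.Kg ^ 2 * Lp ^ 2 / (P.N * (P.e lam x / R))) := by ring
    rw [e0]
    have e1 : (P.M b * ℓ) * (K.Kg ^ 2 * Lp ^ 2 / (P.N * (P.e lam x / R)))
        ≤ (2 * C * P.Lam * (2 * C' + 1) ^ 2 * x ^ 2 / P.us) * (K.Kg ^ 2 * K.CL ^ 2 * R / K.ce * P.Lam ^ 2 * x ^ 2 * P.us ^ 2) :=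
      mul_le_mul hMl hT' hT0 (by positivity)
    have e2 := cm19_num_w hLam hus hx hs0 hs1 hA0 hk 3 (by norm_num)
    calc (1 / a ^ 2 + 1 / (a * (b - a))) * ((P.M b * ℓ) * (K.Kg ^ 2 * Lp ^ 2 / (P.N * (P.e lam x / R))))
        ≤ 8 / (c' ^ 2 * x ^ 2) * ((2 * C * P.Lam * (2 * C' + 1) ^ 2 * x ^ 2 / P.us) * (K.Kg ^ 2 * K.CL ^ 2 * R / K.ce * P.Lam ^ 2 * x ^ 2 * P.us ^ 2)) :=
          mul_le_mul hinv e1 (mul_nonneg hMl0 hT0) (by positivity)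
      _ = 8 / c' ^ 2 * (2 * C * (2 * C' + 1) ^ 2) * (K.Kg ^ 2 * K.CL ^ 2 * R / K.ce) * x ^ 2 * (P.Lam ^ 3 * P.us) := by
          field_simp
      _ ≤ 8 / c' ^ 2 * (2 * C * (2 * C' + 1) ^ 2) * (K.Kg ^ 2 * K.CL ^ 2 * R / K.ce) * x ^ 2 * (A0 * P.N ^ (-P.m) * x) :=
          mul_le_mul_of_nonneg_left e2 (by positivity)
      _ = _ := by rw [hKtdef]; ring
  calc 200000 * ((b - a) * Q + (1 / a ^ 2 + 1 / (a * (b - a))) * (P.M b * (K.Kg ^ 2 * Lp ^ 2 * ℓ / (P.N * (P.e lam x / R)))))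
      ≤ 200000 * (2 * C' * Kq * (P.N ^ (-P.m) * x ^ 3) + Kt * (P.N ^ (-P.m) * x ^ 3)) := by linarith
    _ = _ := by ring

/-- **a broad cap meeting the band** -/
theorem cm19_broad (K : CmK) (hK : K.Ok) {c' C' : ℝ} (hc' : 0 < c') (hC' : c' ≤ C') :
    ∃ (K1 : ℝ) (n0 : ℕ), 0 < K1 ∧ ∀ (P : CmCall) (lam : ℝ) (q : CmQ P) (X : CmNum) (Z : CmCaps) (Lp x : ℝ),
      CmStd K P lam q X Z Lp x → n0 ≤ P.n → ∀ v1 v2 : ℝ, c' * x ≤ v1 → v2 ≤ C' * x →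
        ∀ i, Z.Broad P q.al 8 i → (Z.capM q.al i ∩ Icc v1 v2).Nonempty →
          ∫ u in Z.capM q.al i ∩ Icc v1 v2, X.D u ^ 2 ≤ K1 * P.N ^ (-P.m) * x ^ 3 := by
  have hC0 : 0 < C' := lt_of_lt_of_le hc' hC'
  have hRC : 1 ≤ K.C * max (2 * C') K.C0 := by
    have h1 : 1 ≤ max (2 * C') K.C0 := hK.C01.trans (le_max_right _ _)
    calc (1 : ℝ) = 1 * 1 := (one_mul 1).symm
      _ ≤ K.C * max (2 * C') K.C0 := mul_le_mul hK.C1 h1 zero_le_one (by linarith [hK.C1])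
  obtain ⟨C, hC, hlen⟩ := cm19_len_any K hK
  obtain ⟨K1, hK1, hnum⟩ := cm19_num_broad K hK hc' hC' hRC hC
  obtain ⟨n0, hn0⟩ := cm19_small K hK (κ := min 1 c') (lt_min one_pos hc')
  refine ⟨K1, n0, hK1, fun P lam q X Z Lp x h hn v1 v2 h1 h2 i hB hmeet => ?_⟩
  have hP := h.base.ok
  have hc := hK.cE0
  have hx := h.x0
  have hG := h.base.geo
  have hus := cm_us_pos hc hP
  have hsm := (hn0 P lam q X Z Lp x h hn).2
  have husx : P.us ≤ x := hsm.trans (by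
    calc min 1 c' * x ≤ 1 * x := mul_le_mul_of_nonneg_right (min_le_left _ _) hx.le
      _ = x := one_mul x)
  have husv : P.us ≤ v1 := by
    have e1 : min 1 c' * x ≤ c' * x := mul_le_mul_of_nonneg_right (min_le_right _ _) hx.le
    linarith
  have hv1 : 0 < v1 := lt_of_lt_of_le (mul_pos hc' hx) h1
  obtain ⟨t, ht1, ht2, ht3⟩ := cm_broad_window hc hP hG (le_refl 8) husv hB hmeet
  have ht0 : 0 < t := by linarith
  obtain ⟨htL, htR⟩ := (Ioo_subset_Ioo_iff (by linarith : t < 2 * t)).1 ht3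
  set a : ℝ := max (q.al (Z.cL i)) (v1 / 2) with ha
  set b : ℝ := min (q.al (Z.cR i)) (2 * v2) with hb
  have hat : a ≤ t := max_le htL ht1
  have hbt : 2 * t ≤ b := le_min htR (by linarith)
  have ha0 : 0 < a := lt_of_lt_of_le (by linarith) (le_max_right _ _)
  have hab : a < b := by linarith
  have hsubab : Ioo a b ⊆ Z.capM q.al i := Ioo_subset_Ioo (le_max_left _ _) (min_le_left _ _)
  have hcapsub := cm_capM_sub hc hP hG i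
  have hsub1 : Z.capM q.al i ∩ Icc v1 v2 ⊆ Ioo a b := by
    rintro u ⟨hu1, hu2⟩
    exact ⟨max_lt hu1.1 (by linarith [hu2.1]), lt_min hu1.2 (by linarith [hu2.2, hu2.1])⟩
  have hab01 : Ioo a b ⊆ Icc (0 : ℝ) 1 := fun u hu => ⟨hP.u00.trans (hcapsub (hsubab hu)).1, (hcapsub (hsubab hu)).2⟩
  have hbx : b ≤ 2 * C' * x := (min_le_right _ _).trans (by linarith)
  have hux : ∀ u ∈ Ioo a b, u ≤ 2 * C' * x := fun u hu => hu.2.le.trans hbx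
  have hCp1 := hK.Cp1 1
  have hCp3 := hK.Cp1 3
  have hy0 : 0 < K.Cp 1 ^ 2 * (2 * C' + 1) * x := by positivity
  have heg0 : 0 < P.e lam x / (K.C * max (2 * C') K.C0) := div_pos (cm_e_pos P h.base.lam0 x) (by linarith)
  have hm1 : ∫ u in Z.capM q.al i ∩ Icc v1 v2, X.D u ^ 2 ≤ ∫ u in Ioo a b, X.D u ^ 2 :=
    setIntegral_mono_set (cm19_Dsq_int h.base.num hab01) (Filter.Eventually.of_forall fun u => sq_nonneg _) hsub1.eventuallyLE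
  have hℓ0 : 0 ≤ Z.len i + Z.io P.rmin i := by
    have e1 : 0 ≤ Z.len i := by unfold CmCaps.len; linarith [hG.cap_le i]
    have e2 : 0 ≤ Z.io P.rmin i := by
      unfold CmCaps.io
      split_ifs
      · exact hP.r0
      · exact le_rfl
    linarith
  refine hm1.trans ((cm_br_slice (y0 := K.Cp 1 ^ 2 * (2 * C' + 1) * x) (eg := P.e lam x / (K.C * max (2 * C') K.C0)) (Cq := K.Cp 3) (qq := 3)
    hc hP h.base.lam0 h.base.num hG ha0 hab hsubab hy0 heg0 (by linarith) le_rfl ?_ ?_).trans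
    (hnum P lam q X Z Lp x h husx a b _ ?_ ?_ hbx hℓ0 (hlen P lam q X Z Lp h.base i)))
  · intro u hu
    exact cm19_e_ge h hRC (cm19_r_le hK h (hcapsub (hsubab hu)) (hux u hu))
  · intro u hu
    refine (cm19_NX_le hK h (by norm_num) (hab01 hu) (hux u hu)).trans ?_
    apply mul_le_mul_of_nonneg_left _ (by linarith)
    apply Real.sqrt_le_sqrt
    have e1 : 1 ≤ K.Cp 1 ^ 2 := one_le_pow₀ hCp1
    have e2 : 0 ≤ (2 * C' + 1) * x := by positivity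
    calc (2 * C' + 1) * x = 1 * ((2 * C' + 1) * x) := (one_mul _).symm
      _ ≤ K.Cp 1 ^ 2 * ((2 * C' + 1) * x) := mul_le_mul_of_nonneg_right e1 e2
      _ = _ := by ring
  · have : v1 / 2 ≤ a := le_max_right _ _
    linarith
  · linarith

/-- **(19) in mass on an interval** `[v1,v2] ⊆ [c'x, C'x] ∩ [u0,1]`.   GLUE: `cm6x_cover` (`Gam = 8`), `cm19_thin` (floor: `cm_floor_mass`; initial strip), `cm19_grp`, `cm19_broad` (at most `4C'/c'` broad caps). -/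
theorem cm19_massJ (K : CmK) (hK : K.Ok) {c' C' : ℝ} (hc' : 0 < c') (hC' : c' ≤ C') :
    ∃ (K1 : ℝ) (n0 : ℕ), 0 < K1 ∧ ∀ (P : CmCall) (lam : ℝ) (q : CmQ P) (X : CmNum) (Z : CmCaps) (Lp x : ℝ),
      CmStd K P lam q X Z Lp x → n0 ≤ P.n → ∀ v1 v2 : ℝ, c' * x ≤ v1 → P.u0 ≤ v1 → v1 ≤ v2 → v2 ≤ C' * x → v2 ≤ 1 →
        ∫ u in Icc v1 v2, X.D u ^ 2 ≤ K1 * P.N ^ (-P.m) * x ^ 3 := by
  have hC0 : 0 < C' := lt_of_lt_of_le hc' hC'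
  obtain ⟨Kt, hKt, hthin⟩ := cm19_thin K hK hC0
  obtain ⟨Kg, n1, hKg, hgrp⟩ := cm19_grp K hK hc' hC'
  obtain ⟨Kb, n2, hKb, hbr⟩ := cm19_broad K hK hc' hC'
  refine ⟨2 * Kt + Kg + 4 * C' / c' * Kb, max n1 n2, by positivity, fun P lam q X Z Lp x h hn v1 v2 h1 hu0 h12 h2 h21 => ?_⟩
  have hP := h.base.ok
  have hc := hK.cE0
  have hx := h.x0
  have hG := h.base.geo
  have hus := cm_us_pos hc hP
  obtain ⟨hs0, hs1⟩ := cm19_s (K := K) hP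
  have hv1 : 0 < v1 := lt_of_lt_of_le (mul_pos hc' hx) h1
  obtain ⟨B, hB1, hB2, hB3⟩ := cm6x_cover hc hP hG (le_refl 8) hv1 hu0 h12 h21 (cm6x_intD hc hP h.base.num) (fun u _ => sq_nonneg _)
  have hJ01 : Icc v1 v2 ⊆ Icc (0 : ℝ) 1 := Icc_subset_Icc hv1.le h21
  have a1 : ∫ u in q.al '' Z.Fl ∩ Icc v1 v2, X.D u ^ 2 ≤ Kt * P.N ^ (-P.m) * x ^ 3 := by
    refine hthin P lam q X Z Lp x h _ (inter_subset_right.trans hJ01) (fun u hu => hu.2.2.trans h2) ?_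
    refine (measure_mono inter_subset_left).trans ((cm_floor_mass hc hP hG).trans (ENNReal.ofReal_le_ofReal ?_))
    have e1 : P.N ^ (-P.dl) ≤ 1 :=
      Real.rpow_le_one_of_one_le_of_nonpos (by linarith [cm_N_ge hP]) (by linarith [cm_dl_pos hP])
    calc P.N ^ (-P.dl) * P.us ≤ 1 * P.us := mul_le_mul_of_nonneg_right e1 hus.le
      _ = P.us := one_mul _
  have a4 : ∫ u in Ioo P.u0 (P.u0 + P.us) ∩ Icc v1 v2, X.D u ^ 2 ≤ Kt * P.N ^ (-P.m) * x ^ 3 := by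
    refine hthin P lam q X Z Lp x h _ (inter_subset_right.trans hJ01) (fun u hu => hu.2.2.trans h2) ?_
    refine (measure_mono inter_subset_left).trans ?_
    rw [Real.volume_Ioo]
    apply ENNReal.ofReal_le_ofReal
    linarith
  have a2 := hgrp P lam q X Z Lp x h (le_trans (le_max_left _ _) hn) v1 v2 h1 h2
  have hs3 : 0 ≤ P.N ^ (-P.m) * x ^ 3 := by positivity
  have a3 : ∑ i ∈ B, ∫ u in Z.capM q.al i ∩ Icc v1 v2, X.D u ^ 2 ≤ 4 * C' / c' * Kb * (P.N ^ (-P.m) * x ^ 3) := by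
    have e1 : ∑ i ∈ B, ∫ u in Z.capM q.al i ∩ Icc v1 v2, X.D u ^ 2 ≤ ∑ _i ∈ B, Kb * P.N ^ (-P.m) * x ^ 3 :=
      Finset.sum_le_sum fun i hi => hbr P lam q X Z Lp x h (le_trans (le_max_right _ _) hn) v1 v2 h1 h2 i (hB1 i hi).1 (hB1 i hi).2
    rw [Finset.sum_const, nsmul_eq_mul] at e1
    have e2 : (B.card : ℝ) ≤ 4 * C' / c' := by
      refine hB2.trans ?_
      rw [div_le_div_iff₀ hv1 hc']
      have e3 : 4 * v2 * c' ≤ 4 * (C' * x) * c' := by gcongr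
      have e4 : 4 * C' * (c' * x) ≤ 4 * C' * v1 := by gcongr
      linarith
    calc ∑ i ∈ B, ∫ u in Z.capM q.al i ∩ Icc v1 v2, X.D u ^ 2 ≤ (B.card : ℝ) * (Kb * P.N ^ (-P.m) * x ^ 3) := e1
      _ ≤ 4 * C' / c' * (Kb * P.N ^ (-P.m) * x ^ 3) := mul_le_mul_of_nonneg_right e2 (by positivity)
      _ = _ := by ring
  calc ∫ u in Icc v1 v2, X.D u ^ 2 ≤ _ := hB3
    _ ≤ Kt * P.N ^ (-P.m) * x ^ 3 + Kg * P.N ^ (-P.m) * x ^ 3 + 4 * C' / c' * Kb * (P.N ^ (-P.m) * x ^ 3) + Kt * P.N ^ (-P.m) * x ^ 3 := by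
        linarith
    _ = _ := by ring

/-- **(19), `D = o(x)`, mass form** = the statement of `cm_x19_mass` (P6Out) -/
theorem cm19_mass (K : CmK) (hK : K.Ok) {c' C' : ℝ} (hc' : 0 < c') (hC' : c' ≤ C') :
    ∃ (K1 : ℝ) (n0 : ℕ), 0 < K1 ∧ ∀ (P : CmCall) (lam : ℝ) (q : CmQ P) (X : CmNum) (Z : CmCaps) (Lp x : ℝ),
      CmStd K P lam q X Z Lp x → n0 ≤ P.n →
        ∫ u in {u | u ∈ Icc (c' * x) (C' * x) ∩ Icc P.u0 1 ∧ q.r u ≤ C' * x}, X.D u ^ 2 ≤ K1 * P.N ^ (-P.m) * x ^ 3 := by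
  obtain ⟨K1, n0, hK1, hJ⟩ := cm19_massJ K hK hc' hC'
  refine ⟨K1, n0, hK1, fun P lam q X Z Lp x h hn => ?_⟩
  have hP := h.base.ok
  have hx := h.x0
  obtain ⟨hs0, hs1⟩ := cm19_s (K := K) hP
  have hsub : {u | u ∈ Icc (c' * x) (C' * x) ∩ Icc P.u0 1 ∧ q.r u ≤ C' * x} ⊆ Icc (max (c' * x) P.u0) (min (C' * x) 1) := by
    rintro u ⟨⟨hu1, hu2⟩, -⟩
    exact ⟨max_le hu1.1 hu2.1, le_min hu1.2 hu2.2⟩
  have h01 : Icc (max (c' * x) P.u0) (min (C' * x) 1) ⊆ Icc (0 : ℝ) 1 :=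
    Icc_subset_Icc (hP.u00.trans (le_max_right _ _)) (min_le_right _ _)
  have hm : ∫ u in {u | u ∈ Icc (c' * x) (C' * x) ∩ Icc P.u0 1 ∧ q.r u ≤ C' * x}, X.D u ^ 2
      ≤ ∫ u in Icc (max (c' * x) P.u0) (min (C' * x) 1), X.D u ^ 2 :=
    setIntegral_mono_set (cm19_Dsq_int h.base.num h01) (Filter.Eventually.of_forall fun u => sq_nonneg _) hsub.eventuallyLE
  refine hm.trans ?_
  rcases le_or_gt (max (c' * x) P.u0) (min (C' * x) 1) with h12 | h12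
  · exact hJ P lam q X Z Lp x h hn _ _ (le_max_left _ _) (le_max_right _ _) h12 (min_le_left _ _) (min_le_right _ _)
  · rw [Icc_eq_empty (not_le.2 h12)]
    simp only [Measure.restrict_empty, integral_zero_measure]
    positivity

/-! ## 4. (19) in radius -/

/-- **bins by `S` heights** (abstract; l.1166-1186).   `G k = J ∩ {⌊S k0/y0⌋₊ = k}`, `k ≤ k0`: a measurable partition of `J`, oscillation of `S` in a bin `≤ y0/k0`, `Q4 ≤ cmQ4 (y0/k0) ..` (`cm_g_q4`).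
A bin with `∫_G ϖ < ρ0` costs `≤ Dm² ρ0` (raw);   on the other bins `cm_br1`, `(∫_G ϖ² TW)/(∫_G ϖ) ≤ (κ/ρ0) ∫_G ϖ TW`.   Sum over `k ≤ k0`. -/
theorem cm19_bins (X : CmNum) (hX : X.Ok) (J : Set ℝ) (hJ : MeasurableSet J) (hJ01 : J ⊆ Icc 0 1)
    (ϖ : ℝ → ℝ) (hϖm : Measurable ϖ) (hϖ0 : ∀ u, 0 ≤ ϖ u) (hϖb : ∃ B : ℝ, ∀ u, ϖ u ≤ B)
    {y0 Dm κ ρ0 Cq : ℝ} {k0 : ℕ} (hk0 : 1 ≤ k0) (hy0 : 0 < y0) (hρ0 : 0 < ρ0) (hCq : 0 ≤ Cq) (hκ0 : 0 ≤ κ)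
    (hS : ∀ u ∈ J, X.S u ≤ y0) (hD : ∀ u ∈ J, X.D u ≤ Dm) (hNX : ∀ u ∈ J, X.NX 3 u ≤ Cq * Real.sqrt y0) (hκ : ∀ u ∈ J, ϖ u ≤ κ) :
    ∫ u in J, ϖ u * X.D u ^ 2 ≤ ((k0 : ℝ) + 1) * (Dm ^ 2 * ρ0)
      + 200000 * ((∫ u in J, ϖ u) * ((y0 / k0) ^ 2 + cmQ4 (y0 / k0) Cq y0 3) + (∫ u in J, ϖ u * X.TC u) + κ / ρ0 * ∫ u in J, ϖ u * X.TW u) := by
  obtain ⟨Bd, hBd⟩ := hϖb
  have hk0' : (0 : ℝ) < k0 := by exact_mod_cast hk0
  set η : ℝ := y0 / k0 with hη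
  have hη0 : 0 < η := by positivity
  set q4 : ℝ := cmQ4 η Cq y0 3 with hq4
  have hq40 : 0 ≤ q4 := cm_g_q4_nonneg hη0.le hCq 3
  -- the bins
  set G : ℕ → Set ℝ := fun k => J ∩ {u | ⌊X.S u * k0 / y0⌋₊ = k} with hG
  have hGm : ∀ k, MeasurableSet (G k) := fun k => by
    refine hJ.inter ?_
    have hm : Measurable fun u => ⌊X.S u * k0 / y0⌋₊ := Nat.measurable_floor.comp ((hX.S_meas.mul_const _).div_const _)
    exact hm (measurableSet_singleton k)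
  have hGJ : ∀ k, G k ⊆ J := fun k => inter_subset_left
  have hG01 : ∀ k, G k ⊆ Icc 0 1 := fun k => (hGJ k).trans hJ01
  have hdisj : Set.PairwiseDisjoint (↑(Finset.range (k0 + 1))) G := by
    intro a _ b _ hab
    show Disjoint (G a) (G b)
    rw [Set.disjoint_left]
    intro u hu hu'
    exact hab (hu.2.symm.trans hu'.2)
  have hU : J = ⋃ k ∈ Finset.range (k0 + 1), G k := by
    ext u
    simp only [mem_iUnion, Finset.mem_range, exists_prop]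
    constructor
    · intro hu
      refine ⟨⌊X.S u * k0 / y0⌋₊, ?_, hu, rfl⟩
      have h1 : X.S u * k0 / y0 ≤ k0 := by
        rw [div_le_iff₀ hy0]
        nlinarith [hS u hu]
      have := Nat.floor_le_of_le h1
      omega
    · rintro ⟨k, -, hu⟩
      exact hu.1
  -- integrability
  have hI : ∀ F : ℝ → ℝ, Measurable F → (∀ u ∈ Icc (0:ℝ) 1, 0 ≤ F u) → (∀ u ∈ Icc (0:ℝ) 1, F u ≤ 1) → ∀ A : Set ℝ, A ⊆ Icc (0:ℝ) 1 →
      IntegrableOn (fun u => ϖ u * F u) A := by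
    intro F hF h0 h1 A hA
    refine cm_g_intOn (hϖm.mul hF) (B := Bd) (fun u hu => mul_nonneg (hϖ0 u) (h0 u hu)) (fun u hu => ?_) hA
    calc ϖ u * F u ≤ ϖ u * 1 := mul_le_mul_of_nonneg_left (h1 u hu) (hϖ0 u)
      _ ≤ Bd := by rw [mul_one]; exact hBd u
  have hsplit : ∀ F : ℝ → ℝ, IntegrableOn F J → ∫ u in J, F u = ∑ k ∈ Finset.range (k0 + 1), ∫ u in G k, F u := by
    intro F hF
    conv_lhs => rw [hU]
    exact integral_biUnion_finset _ (fun k _ => hGm k) hdisj (fun k _ => hF.mono_set (hGJ k))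
  have iD : ∀ A : Set ℝ, A ⊆ Icc (0:ℝ) 1 → IntegrableOn (fun u => ϖ u * X.D u ^ 2) A :=
    hI (fun u => X.D u ^ 2) (hX.D_meas.pow_const 2) (fun u _ => sq_nonneg _)
      (fun u hu => pow_le_one₀ (hX.D_nn u hu) (hX.D_le u hu))
  have iC := hI X.TC hX.TC_meas hX.TC_nn hX.TC_le
  have iW := hI X.TW hX.TW_meas hX.TW_nn hX.TW_le
  have i1 : ∀ A : Set ℝ, A ⊆ Icc (0:ℝ) 1 → IntegrableOn ϖ A := fun A hA => by
    have := hI (fun _ => 1) measurable_const (fun _ _ => zero_le_one) (fun _ _ => le_rfl) A hA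
    simpa using this
  -- one bin
  have hbin : ∀ k, ∫ u in G k, ϖ u * X.D u ^ 2 ≤ Dm ^ 2 * ρ0
      + 200000 * ((∫ u in G k, ϖ u) * (η ^ 2 + q4) + (∫ u in G k, ϖ u * X.TC u) + κ / ρ0 * ∫ u in G k, ϖ u * X.TW u) := by
    intro k
    have n1 : 0 ≤ ∫ u in G k, ϖ u := integral_nonneg fun u => hϖ0 u
    have n2 : 0 ≤ ∫ u in G k, ϖ u * X.TC u :=
      setIntegral_nonneg (hGm k) fun u hu => mul_nonneg (hϖ0 u) (hX.TC_nn u (hG01 k hu))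
    have n3 : 0 ≤ ∫ u in G k, ϖ u * X.TW u :=
      setIntegral_nonneg (hGm k) fun u hu => mul_nonneg (hϖ0 u) (hX.TW_nn u (hG01 k hu))
    have n4 : 0 ≤ κ / ρ0 := div_nonneg hκ0 hρ0.le
    have n5 : 0 ≤ η ^ 2 + q4 := by positivity
    rcases lt_or_ge (∫ u in G k, ϖ u) ρ0 with hlt | hge
    · have h1 : ∫ u in G k, ϖ u * X.D u ^ 2 ≤ ∫ u in G k, Dm ^ 2 * ϖ u := by
        refine setIntegral_mono_on (iD _ (hG01 k)) ((i1 _ (hG01 k)).const_mul _) (hGm k) fun u hu => ?_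
        have a1 := hX.D_nn u (hG01 k hu)
        have a2 := hD u (hGJ k hu)
        have a3 : X.D u ^ 2 ≤ Dm ^ 2 := pow_le_pow_left₀ a1 a2 2
        calc ϖ u * X.D u ^ 2 ≤ ϖ u * Dm ^ 2 := mul_le_mul_of_nonneg_left a3 (hϖ0 u)
          _ = Dm ^ 2 * ϖ u := mul_comm _ _
      rw [integral_const_mul] at h1
      have h2 : Dm ^ 2 * ∫ u in G k, ϖ u ≤ Dm ^ 2 * ρ0 := mul_le_mul_of_nonneg_left hlt.le (sq_nonneg _)
      have h3 : 0 ≤ 200000 * ((∫ u in G k, ϖ u) * (η ^ 2 + q4) + (∫ u in G k, ϖ u * X.TC u) + κ / ρ0 * ∫ u in G k, ϖ u * X.TW u) := by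
        positivity
      linarith
    · have hpos : 0 < ∫ u in G k, ϖ u := lt_of_lt_of_le hρ0 hge
      have hSS : ∀ i ∈ G k, ∀ j ∈ G k, |X.S j - X.S i| ≤ η := by
        intro i hi j hj
        have p1 : ∀ u ∈ G k, (k : ℝ) ≤ X.S u * k0 / y0 ∧ X.S u * k0 / y0 < k + 1 := by
          intro u hu
          have h0 : 0 ≤ X.S u * k0 / y0 := by
            have := hX.S_nn u (hG01 k hu)
            positivity
          have e : ⌊X.S u * k0 / y0⌋₊ = k := hu.2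
          exact ⟨e ▸ Nat.floor_le h0, e ▸ Nat.lt_floor_add_one _⟩
        obtain ⟨a1, a2⟩ := p1 i hi
        obtain ⟨b1, b2⟩ := p1 j hj
        have e : ∀ s : ℝ, s * k0 / y0 = s / η := fun s => by
          rw [hη]; field_simp
        rw [e] at a1 a2 b1 b2
        rw [le_div_iff₀ hη0] at a1 b1
        rw [div_lt_iff₀ hη0] at a2 b2
        rw [abs_le]
        constructor <;> nlinarith
      have hQ : ∀ i ∈ G k, ∀ j ∈ G k, X.Q4 i j ≤ q4 := fun i hi j hj =>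
        cm_g_q4 hX le_rfl (hG01 k hi) (hG01 k hj) (hSS i hi j hj) (hNX i (hGJ k hi)) (hNX j (hGJ k hj))
      have h1 := cm_br1 X hX (G k) (hGm k) (hG01 k) ϖ hϖm hϖ0 ⟨Bd, hBd⟩ hpos η q4 hη0.le hq40 hSS hQ
      have h2 : (∫ u in G k, ϖ u ^ 2 * X.TW u) / (∫ u in G k, ϖ u) ≤ κ / ρ0 * ∫ u in G k, ϖ u * X.TW u := by
        have a1 : ∫ u in G k, ϖ u ^ 2 * X.TW u ≤ ∫ u in G k, κ * (ϖ u * X.TW u) := by
          refine setIntegral_mono_on ?_ ((iW _ (hG01 k)).const_mul _) (hGm k) fun u hu => ?_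
          · refine cm_g_intOn ((hϖm.pow_const 2).mul hX.TW_meas) (B := Bd ^ 2)
              (fun u hu => mul_nonneg (sq_nonneg _) (hX.TW_nn u hu)) (fun u hu => ?_) (hG01 k)
            calc ϖ u ^ 2 * X.TW u ≤ ϖ u ^ 2 * 1 := mul_le_mul_of_nonneg_left (hX.TW_le u hu) (sq_nonneg _)
              _ ≤ Bd ^ 2 := by rw [mul_one]; exact pow_le_pow_left₀ (hϖ0 u) (hBd u) 2
          · have b1 := hκ u (hGJ k hu)
            have b2 := hX.TW_nn u (hG01 k hu)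
            have b3 : ϖ u * ϖ u ≤ κ * ϖ u := mul_le_mul_of_nonneg_right b1 (hϖ0 u)
            calc ϖ u ^ 2 * X.TW u = ϖ u * ϖ u * X.TW u := by ring
              _ ≤ κ * ϖ u * X.TW u := mul_le_mul_of_nonneg_right b3 b2
              _ = _ := by ring
        rw [integral_const_mul] at a1
        have a0 : 0 ≤ κ * ∫ u in G k, ϖ u * X.TW u := mul_nonneg hκ0 n3
        calc (∫ u in G k, ϖ u ^ 2 * X.TW u) / (∫ u in G k, ϖ u) ≤ (κ * ∫ u in G k, ϖ u * X.TW u) / (∫ u in G k, ϖ u) :=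
              div_le_div_of_nonneg_right a1 hpos.le
          _ ≤ (κ * ∫ u in G k, ϖ u * X.TW u) / ρ0 := div_le_div_of_nonneg_left a0 hρ0 hge
          _ = _ := by ring
      have h3 : 0 ≤ Dm ^ 2 * ρ0 := by positivity
      linarith
  rw [hsplit _ (iD J hJ01), hsplit _ (i1 J hJ01), hsplit _ (iC J hJ01), hsplit _ (iW J hJ01)]
  calc ∑ k ∈ Finset.range (k0 + 1), ∫ u in G k, ϖ u * X.D u ^ 2
      ≤ ∑ k ∈ Finset.range (k0 + 1), (Dm ^ 2 * ρ0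
        + 200000 * ((∫ u in G k, ϖ u) * (η ^ 2 + q4) + (∫ u in G k, ϖ u * X.TC u) + κ / ρ0 * ∫ u in G k, ϖ u * X.TW u)) :=
        Finset.sum_le_sum fun k _ => hbin k
    _ = _ := by
        rw [Finset.sum_add_distrib, Finset.sum_const, Finset.card_range, ← Finset.mul_sum, Finset.sum_add_distrib, Finset.sum_add_distrib,
          ← Finset.sum_mul, ← Finset.mul_sum, nsmul_eq_mul]
        push_cast
        ring

/-- the change of variables `cm_q_dens` for functions bounded on `[0,1]` only -/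
theorem cm19_transport {cE D0 : ℝ} (hc : 0 < cE) (hP : P.Ok cE D0) (q : CmQ P) :
    ∃ ϖ : ℝ → ℝ, Measurable ϖ ∧ (∀ u, 0 ≤ ϖ u) ∧ (∃ B : ℝ, ∀ u, ϖ u ≤ B) ∧ (∀ u ∈ Icc P.u0 1, ϖ u ≤ 1 / P.k (q.r u)) ∧
      ∀ F : ℝ → ℝ, Measurable F → (∀ u ∈ Icc (0 : ℝ) 1, |F u| ≤ 1) → ∀ A : Set ℝ, MeasurableSet A → A ⊆ Icc P.rmin 1 →
        ∫ r in A, F (q.al r) = ∫ u in q.al '' A, ϖ u * F u := by
  obtain ⟨ϖ, h1, h2, h3, h4, h5⟩ := cm_q_dens hc hP q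
  refine ⟨ϖ, h1, h2, ⟨_, h3⟩, h4, fun F hF hb A hA hAs => ?_⟩
  have hF' : Measurable ((Icc (0 : ℝ) 1).indicator F) := hF.indicator measurableSet_Icc
  have hb' : ∃ B : ℝ, ∀ u, |(Icc (0 : ℝ) 1).indicator F u| ≤ B := by
    refine ⟨1, fun u => ?_⟩
    by_cases hu : u ∈ Icc (0 : ℝ) 1
    · rw [indicator_of_mem hu]; exact hb u hu
    · rw [indicator_of_notMem hu]; simp
  have h6 := h5 _ hF' hb' A hA hAs
  have hmem : ∀ r ∈ A, q.al r ∈ Icc (0 : ℝ) 1 := fun r hr =>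
    ⟨hP.u00.trans (cm_q_al_mem hc hP q (hAs hr)).1, (cm_q_al_mem hc hP q (hAs hr)).2⟩
  have e1 : ∫ r in A, F (q.al r) = ∫ r in A, (Icc (0 : ℝ) 1).indicator F (q.al r) :=
    setIntegral_congr_fun hA fun r hr => (indicator_of_mem (hmem r hr) F).symm
  have e2 : ∫ u in q.al '' A, (Icc (0 : ℝ) 1).indicator F u * ϖ u = ∫ u in q.al '' A, ϖ u * F u := by
    refine setIntegral_congr_fun (cm_al_meas hc hP q hAs hA) ?_
    rintro u ⟨r, hr, rfl⟩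
    simp only
    rw [indicator_of_mem (hmem r hr) F, mul_comm]
  rw [e1, h6, e2]

/-- **the trace integrated in radius below `C' x`** (l.1134-1140): `cm_ut_rad` on `[rmin, min(C'x,1)]`; `α(min(C'x,1)) ≤ max C0 (C'/c) x` (`cm_q_reg_u`), `cm19_S_le`, `cm19_e_ge` -/
theorem cm19_rad_tr (hK : K.Ok) (h : CmStd K P lam q X Z Lp x) {C' : ℝ} (hC' : 0 < C') {A : Set ℝ} (hA : A ⊆ Icc P.rmin (min (C' * x) 1)) :
    ∫ r in A, X.TH (q.al r) ≤ K.Kg * Lp * (K.Cp 1 ^ 2 * (C' + K.C0 + C' / K.c + 1) * x) / (P.N * (P.e lam x / (C' + 1))) := by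
  have hP := h.base.ok
  have hc := hK.cE0
  have hX := h.base.num
  have hx := h.x0
  have hN := cm_N_pos hP
  have he := cm_e_pos P h.base.lam0 x
  have hKg : 0 < K.Kg := lt_of_lt_of_le one_pos hK.Kg1
  have hLp : 0 < Lp := lt_of_lt_of_le one_pos h.base.geo.Lp1
  have hCp : 0 < K.Cp 1 := lt_of_lt_of_le one_pos (hK.Cp1 1)
  have hC0 : 0 < K.C0 := lt_of_lt_of_le one_pos hK.C01
  have hc0 := hK.c0
  have hden : 0 < P.N * (P.e lam x / (C' + 1)) := by positivity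
  have hR0 : 0 ≤ K.Kg * Lp * (K.Cp 1 ^ 2 * (C' + K.C0 + C' / K.c + 1) * x) / (P.N * (P.e lam x / (C' + 1))) := by positivity
  set t : ℝ := min (C' * x) 1 with ht
  rcases lt_or_ge t P.rmin with hlt | hle
  · have : A = ∅ := by
      rw [Icc_eq_empty (not_le.2 hlt)] at hA
      exact subset_empty_iff.1 hA
    rw [this]
    simpa using hR0
  have ht1 : t ≤ 1 := min_le_right _ _
  have hsub : Icc P.rmin t ⊆ Icc P.rmin 1 := Icc_subset_Icc le_rfl ht1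
  have hint : IntegrableOn (fun r => X.TH (q.al r)) (Icc P.rmin t) volume := (cm_THal_int hc hP hX q).mono_set hsub
  have hmem : ∀ r ∈ Icc P.rmin 1, q.al r ∈ Icc (0:ℝ) 1 := fun r hr =>
    ⟨hP.u00.trans (cm_q_al_mem hc hP q hr).1, (cm_q_al_mem hc hP q hr).2⟩
  have h1 : ∫ r in A, X.TH (q.al r) ≤ ∫ r in Icc P.rmin t, X.TH (q.al r) := by
    refine setIntegral_mono_set hint ?_ hA.eventuallyLE
    rw [Filter.EventuallyLE, ae_restrict_iff' measurableSet_Icc]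
    exact Filter.Eventually.of_forall fun r hr => hX.TH_nn _ (hmem r (hsub hr))
  refine h1.trans ?_
  rw [integral_Icc_eq_integral_Ioc, ← intervalIntegral.integral_of_le hle]
  have h2 := cm_ut_rad hc hP h.base.lam0 hX h.base.geo (s := P.rmin) (t := t) (eg := P.e lam x / (C' + 1)) le_rfl hle ht1 (by positivity)
    (fun r hr => cm19_e_ge h (by linarith) (by
      have : r ≤ C' * x := hr.2.trans (min_le_left _ _)
      nlinarith))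
  refine h2.trans ?_
  have htm : t ∈ Icc P.rmin 1 := ⟨hle, ht1⟩
  have hal := cm_q_al_mem hc hP q htm
  have h3 : q.al t ≤ max K.C0 (C' / K.c) * x := by
    refine cm_q_reg_u hc hP q hc0 hx h.reg hal.1 hal.2 ?_
    rw [q.r_al t htm]
    exact min_le_left _ _
  have h4 : q.al t ≤ (C' + K.C0 + C' / K.c) * x := by
    refine h3.trans (mul_le_mul_of_nonneg_right ?_ hx.le)
    have : 0 < C' / K.c := by positivity
    exact max_le (by linarith) (by linarith)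
  have h5 := cm19_S_le hK h (G := C' + K.C0 + C' / K.c) (by positivity) (hmem t htm) h4
  have h6 := hX.S_nn _ (hmem P.rmin ⟨le_rfl, hle.trans ht1⟩)
  refine div_le_div_of_nonneg_right ?_ hden.le
  refine mul_le_mul_of_nonneg_left ?_ (by positivity)
  linarith

/-- **arithmetic of the radius form**.   `k0 = ⌈n^(δ/8)⌉₊`, `ρ0 = n^(-δ/2) x`.   `cm19_Q4_three`: `cmQ4 (y0/k0) Cq y0 3 = 8 Cq³ y0²/√k0 ≤ c x² n^(-δ/16)`;   `1/(n e(x)) ≤ x² u_*²/ce` (`cm19_T_le`);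
`Lp ≤ CL Λ`, `Λ u_* ≤ A0 n^(-2m) x` (`cm19_key`), `Λ ≤ C n^(δ/4)` (`cm_log_pow 1`). -/
theorem cm19_num_rad (K : CmK) (hK : K.Ok) {c' C' G : ℝ} (hc' : 0 < c') (hC' : c' ≤ C') (hG : 0 ≤ G) :
    ∃ K1 : ℝ, 0 < K1 ∧ ∀ (P : CmCall) (lam : ℝ) (q : CmQ P) (X : CmNum) (Z : CmCaps) (Lp x : ℝ), CmStd K P lam q X Z Lp x → P.us ≤ x →
      ∃ (k0 : ℕ) (ρ0 : ℝ), 1 ≤ k0 ∧ 0 < ρ0 ∧
        ((k0 : ℝ) + 1) * ((K.Cp 1 * (C' + 1) * x) ^ 2 * ρ0)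
          + 200000 * (C' * x * ((K.Cp 1 ^ 2 * (G + 1) * x / k0) ^ 2 + cmQ4 (K.Cp 1 ^ 2 * (G + 1) * x / k0) (K.Cp 3) (K.Cp 1 ^ 2 * (G + 1) * x) 3)
            + K.Kg * Lp * (K.Cp 1 ^ 2 * (G + 1) * x) / (P.N * (P.e lam x / (C' + 1))) / (c' * x) ^ 2
            + 4 * (C' * x) ^ 2 / (P.N ^ P.dl * P.us ^ 2) / ρ0 * (K.Kg * Lp * (K.Cp 1 ^ 2 * (G + 1) * x) / (P.N * (P.e lam x / (C' + 1))) / (c' * x)))
          ≤ K1 * P.N ^ (-(P.dl / 16)) * x ^ 3 := by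
  obtain ⟨A0, hA0, hkey⟩ := cm19_key K hK
  obtain ⟨CΛ, hCΛ, hlog⟩ := cm_log_pow 1 (ε := K.mm / 10000 / 4) (by have := hK.mm0; positivity)
  have hC'0 : 0 < C' := lt_of_lt_of_le hc' hC'
  have hCp1 : 0 < K.Cp 1 := lt_of_lt_of_le one_pos (hK.Cp1 1)
  have hCp3 : 0 < K.Cp 3 := lt_of_lt_of_le one_pos (hK.Cp1 3)
  have hKg : 0 < K.Kg := lt_of_lt_of_le one_pos hK.Kg1
  have hCL : 0 < K.CL := lt_of_lt_of_le one_pos hK.CL1
  have hce := hK.ce0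
  obtain ⟨a, ha⟩ : ∃ a, a = K.Cp 1 * (C' + 1) := ⟨_, rfl⟩
  obtain ⟨b, hb⟩ : ∃ b, b = K.Cp 1 ^ 2 * (G + 1) := ⟨_, rfl⟩
  have ha0 : 0 < a := by rw [ha]; positivity
  have hb0 : 0 < b := by rw [hb]; positivity
  obtain ⟨t0, ht0⟩ : ∃ t0, t0 = K.Kg * b * (C' + 1) / K.ce := ⟨_, rfl⟩
  have ht00 : 0 < t0 := by rw [ht0]; positivity
  rw [← ha, ← hb]
  refine ⟨3 * a ^ 2 + 200000 * (C' * b ^ 2 + 8 * C' * K.Cp 3 ^ 3 * b ^ 2 + t0 * K.CL * A0 / c' ^ 2 + 4 * C' ^ 2 * t0 * K.CL * CΛ / c'), by positivity, ?_⟩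
  intro P lam q X Z Lp x h hus
  have hP := h.base.ok
  have hx := h.x0
  have hN := cm_N_pos hP
  have hN1 : 1 ≤ P.N := by linarith [cm_N_ge hP]
  have hus0 := cm_us_pos hK.cE0 hP
  have hLam := cm_Lam_ge_one hP
  have hLp1 := h.base.geo.Lp1
  have hLp0 : 0 < Lp := lt_of_lt_of_le one_pos hLp1
  have hdl := cm_dl_pos hP
  have he := cm_e_pos P h.base.lam0 x
  obtain ⟨ι, hι⟩ : ∃ ι, ι = P.N ^ (-(P.dl / 16)) := ⟨_, rfl⟩
  have hι0 : 0 < ι := by rw [hι]; exact Real.rpow_pos_of_pos hN _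
  have hι1 : ι ≤ 1 := by rw [hι]; exact Real.rpow_le_one_of_one_le_of_nonpos hN1 (by linarith)
  have hN16 : P.N ^ P.dl * ι ^ 16 = 1 := by
    rw [hι, ← Real.rpow_natCast, ← Real.rpow_mul hN.le, ← Real.rpow_add hN]
    norm_num
  have hN4 : P.N ^ (P.dl / 4) * ι ^ 4 = 1 := by
    rw [hι, ← Real.rpow_natCast, ← Real.rpow_mul hN.le, ← Real.rpow_add hN]
    have : P.dl / 4 + -(P.dl / 16) * ((4 : ℕ) : ℝ) = 0 := by push_cast; ring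
    rw [this, Real.rpow_zero]
  obtain ⟨Nd, hNd⟩ : ∃ Nd, Nd = P.N ^ P.dl := ⟨_, rfl⟩
  rw [← hι, ← hNd]
  rw [← hNd] at hN16
  have hNd' : Nd = 1 / ι ^ 16 := eq_div_of_mul_eq (by positivity) hN16
  -- the number of bins
  obtain ⟨k0, hk0⟩ : ∃ k0 : ℕ, k0 = ⌈(ι ^ 2)⁻¹⌉₊ := ⟨_, rfl⟩
  have hinv1 : 1 ≤ (ι ^ 2)⁻¹ := by
    rw [one_le_inv₀ (by positivity)]
    exact pow_le_one₀ hι0.le hι1
  have hk1 : (ι ^ 2)⁻¹ ≤ (k0 : ℝ) := by rw [hk0]; exact Nat.le_ceil _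
  have hk2 : (k0 : ℝ) ≤ (ι ^ 2)⁻¹ + 1 := by rw [hk0]; exact (Nat.ceil_lt_add_one (by positivity)).le
  have hkR : (1 : ℝ) ≤ k0 := hinv1.trans hk1
  have hkpos : (0 : ℝ) < k0 := by linarith
  have hkN : 1 ≤ k0 := by exact_mod_cast hkR
  have hkι : ((k0 : ℝ) + 1) * ι ^ 2 ≤ 3 := by
    have h1 : (ι ^ 2)⁻¹ * ι ^ 2 = 1 := inv_mul_cancel₀ (by positivity)
    have h2 : ι ^ 2 ≤ 1 := pow_le_one₀ hι0.le hι1
    have h3 : ((k0 : ℝ) + 1) * ι ^ 2 ≤ ((ι ^ 2)⁻¹ + 1 + 1) * ι ^ 2 := mul_le_mul_of_nonneg_right (by linarith) (by positivity)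
    nlinarith
  have hkinv : 1 / (k0 : ℝ) ≤ ι ^ 2 := by
    rw [div_le_iff₀ hkpos]
    have h1 : ι ^ 2 * (ι ^ 2)⁻¹ = 1 := mul_inv_cancel₀ (by positivity)
    calc (1 : ℝ) = ι ^ 2 * (ι ^ 2)⁻¹ := h1.symm
      _ ≤ ι ^ 2 * k0 := mul_le_mul_of_nonneg_left hk1 (by positivity)
  have hpw : ∀ j : ℕ, 1 ≤ j → ι ^ j ≤ ι := fun j hj => by
    calc ι ^ j ≤ ι ^ 1 := pow_le_pow_of_le_one hι0.le hι1 hj
      _ = ι := pow_one ι
  refine ⟨k0, x * ι ^ 8, hkN, by positivity, ?_⟩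
  -- term 1
  have T1 : ((k0 : ℝ) + 1) * ((a * x) ^ 2 * (x * ι ^ 8)) ≤ 3 * a ^ 2 * ι * x ^ 3 := by
    calc ((k0 : ℝ) + 1) * ((a * x) ^ 2 * (x * ι ^ 8)) = (((k0 : ℝ) + 1) * ι ^ 2) * (a ^ 2 * x ^ 3 * ι ^ 6) := by ring
      _ ≤ 3 * (a ^ 2 * x ^ 3 * ι) :=
          mul_le_mul hkι (mul_le_mul_of_nonneg_left (hpw 6 (by norm_num)) (by positivity)) (by positivity) (by norm_num)
      _ = _ := by ring
  -- term 2a
  have T2a : (b * x / k0) ^ 2 ≤ b ^ 2 * ι * x ^ 2 := by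
    have e1 : b * x / k0 = b * x * (1 / k0) := by ring
    have h1 : b * x / k0 ≤ b * x * ι ^ 2 := by rw [e1]; exact mul_le_mul_of_nonneg_left hkinv (by positivity)
    calc (b * x / k0) ^ 2 ≤ (b * x * ι ^ 2) ^ 2 := pow_le_pow_left₀ (by positivity) h1 2
      _ = b ^ 2 * x ^ 2 * ι ^ 4 := by ring
      _ ≤ b ^ 2 * x ^ 2 * ι := mul_le_mul_of_nonneg_left (hpw 4 (by norm_num)) (by positivity)
      _ = _ := by ring
  -- term 2b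
  have T2b : cmQ4 (b * x / k0) (K.Cp 3) (b * x) 3 ≤ 8 * K.Cp 3 ^ 3 * b ^ 2 * ι * x ^ 2 := by
    rw [cm19_Q4_three (by positivity) hCp3.le (by positivity)]
    have h1 : b * x / k0 * (b * x) ^ 3 ≤ ((b * x) ^ 2 * ι) ^ 2 := by
      calc b * x / k0 * (b * x) ^ 3 = (b * x) ^ 4 * (1 / k0) := by ring
        _ ≤ (b * x) ^ 4 * ι ^ 2 := mul_le_mul_of_nonneg_left hkinv (by positivity)
        _ = _ := by ring
    have h2 : Real.sqrt (b * x / k0 * (b * x) ^ 3) ≤ (b * x) ^ 2 * ι := by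
      calc Real.sqrt (b * x / k0 * (b * x) ^ 3) ≤ Real.sqrt (((b * x) ^ 2 * ι) ^ 2) := Real.sqrt_le_sqrt h1
        _ = _ := Real.sqrt_sq (by positivity)
    calc 8 * K.Cp 3 ^ 3 * Real.sqrt (b * x / k0 * (b * x) ^ 3) ≤ 8 * K.Cp 3 ^ 3 * ((b * x) ^ 2 * ι) :=
          mul_le_mul_of_nonneg_left h2 (by positivity)
      _ = _ := by ring
  -- the trace
  obtain ⟨Tt, hTt⟩ : ∃ Tt, Tt = K.Kg * Lp * (b * x) / (P.N * (P.e lam x / (C' + 1))) := ⟨_, rfl⟩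
  rw [← hTt]
  have hTt0 : 0 ≤ Tt := by rw [hTt]; positivity
  have hT : Tt ≤ t0 * Lp * x ^ 3 * P.us ^ 2 := by
    have h1 := cm19_T_le hK h
    calc Tt = K.Kg * Lp * (b * x) * (C' + 1) * (1 / (P.N * P.e lam x)) := by rw [hTt]; field_simp
      _ ≤ K.Kg * Lp * (b * x) * (C' + 1) * (x ^ 2 * P.us ^ 2 / K.ce) := mul_le_mul_of_nonneg_left h1 (by positivity)
      _ = _ := by rw [ht0]; ring
  have hL1 : Lp * P.us ≤ K.CL * A0 * ι * x := by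
    have h1 := hkey P lam q X Z Lp x h
    have h2 : (P.N ^ (-P.m)) ^ 2 ≤ ι := by
      rw [hι, ← Real.rpow_natCast, ← Real.rpow_mul hN.le]
      apply Real.rpow_le_rpow_of_exponent_le hN1
      have := hP.m0
      unfold CmCall.dl
      push_cast
      linarith
    have h3 : P.Lam ≤ P.Lam ^ 10 := le_self_pow₀ hLam (by norm_num)
    calc Lp * P.us ≤ K.CL * P.Lam * P.us := mul_le_mul_of_nonneg_right h.base.Lp_le hus0.le
      _ = K.CL * (P.Lam * P.us) := by ring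
      _ ≤ K.CL * (P.Lam ^ 10 * P.us) := mul_le_mul_of_nonneg_left (mul_le_mul_of_nonneg_right h3 hus0.le) hCL.le
      _ ≤ K.CL * (A0 * (P.N ^ (-P.m)) ^ 2 * x) := mul_le_mul_of_nonneg_left h1 hCL.le
      _ ≤ K.CL * (A0 * ι * x) :=
          mul_le_mul_of_nonneg_left (mul_le_mul_of_nonneg_right (mul_le_mul_of_nonneg_left h2 hA0.le) hx.le) hCL.le
      _ = _ := by ring
  have hL2 : Lp * ι ^ 4 ≤ K.CL * CΛ := by
    have h1 : P.Lam ≤ CΛ * P.N ^ (P.dl / 4) := by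
      have := hlog P.N hN1
      rw [pow_one] at this
      have e : P.dl / 4 = K.mm / 10000 / 4 := by unfold CmCall.dl; rw [h.base.m_eq]
      rw [e]; exact this
    calc Lp * ι ^ 4 ≤ K.CL * P.Lam * ι ^ 4 := mul_le_mul_of_nonneg_right h.base.Lp_le (by positivity)
      _ ≤ K.CL * (CΛ * P.N ^ (P.dl / 4)) * ι ^ 4 :=
          mul_le_mul_of_nonneg_right (mul_le_mul_of_nonneg_left h1 hCL.le) (by positivity)
      _ = K.CL * CΛ * (P.N ^ (P.dl / 4) * ι ^ 4) := by ring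
      _ = _ := by rw [hN4, mul_one]
  -- term 3
  have T3 : Tt / (c' * x) ^ 2 ≤ t0 * K.CL * A0 / c' ^ 2 * ι * x ^ 3 := by
    rw [div_le_iff₀ (by positivity)]
    calc Tt ≤ t0 * Lp * x ^ 3 * P.us ^ 2 := hT
      _ = t0 * x ^ 3 * (Lp * P.us) * P.us := by ring
      _ ≤ t0 * x ^ 3 * (K.CL * A0 * ι * x) * x :=
          mul_le_mul (mul_le_mul_of_nonneg_left hL1 (by positivity)) hus hus0.le (by positivity)
      _ = t0 * K.CL * A0 / c' ^ 2 * ι * x ^ 3 * (c' * x) ^ 2 := by field_simp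
  -- term 4
  have T4 : 4 * (C' * x) ^ 2 / (Nd * P.us ^ 2) / (x * ι ^ 8) * (Tt / (c' * x)) ≤ 4 * C' ^ 2 * t0 * K.CL * CΛ / c' * ι * x ^ 3 := by
    have e1 : 4 * (C' * x) ^ 2 / (Nd * P.us ^ 2) / (x * ι ^ 8) = 4 * C' ^ 2 * x * ι ^ 8 / P.us ^ 2 := by
      rw [hNd']; field_simp
    rw [e1]
    have h1 : Tt / (c' * x) ≤ t0 * Lp * x ^ 2 * P.us ^ 2 / c' := by
      rw [div_le_iff₀ (by positivity)]
      calc Tt ≤ t0 * Lp * x ^ 3 * P.us ^ 2 := hT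
        _ = _ := by field_simp
    calc 4 * C' ^ 2 * x * ι ^ 8 / P.us ^ 2 * (Tt / (c' * x))
        ≤ 4 * C' ^ 2 * x * ι ^ 8 / P.us ^ 2 * (t0 * Lp * x ^ 2 * P.us ^ 2 / c') := mul_le_mul_of_nonneg_left h1 (by positivity)
      _ = 4 * C' ^ 2 * t0 / c' * x ^ 3 * ι ^ 4 * (Lp * ι ^ 4) := by field_simp
      _ ≤ 4 * C' ^ 2 * t0 / c' * x ^ 3 * ι * (K.CL * CΛ) :=
          mul_le_mul (mul_le_mul_of_nonneg_left (hpw 4 (by norm_num)) (by positivity)) hL2 (by positivity) (by positivity)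
      _ = _ := by ring
  have T2 : C' * x * ((b * x / k0) ^ 2 + cmQ4 (b * x / k0) (K.Cp 3) (b * x) 3) ≤ (C' * b ^ 2 + 8 * C' * K.Cp 3 ^ 3 * b ^ 2) * ι * x ^ 3 := by
    calc C' * x * ((b * x / k0) ^ 2 + cmQ4 (b * x / k0) (K.Cp 3) (b * x) 3)
        ≤ C' * x * (b ^ 2 * ι * x ^ 2 + 8 * K.Cp 3 ^ 3 * b ^ 2 * ι * x ^ 2) := mul_le_mul_of_nonneg_left (add_le_add T2a T2b) (by positivity)
      _ = _ := by ring
  calc ((k0 : ℝ) + 1) * ((a * x) ^ 2 * (x * ι ^ 8))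
        + 200000 * (C' * x * ((b * x / k0) ^ 2 + cmQ4 (b * x / k0) (K.Cp 3) (b * x) 3) + Tt / (c' * x) ^ 2
          + 4 * (C' * x) ^ 2 / (Nd * P.us ^ 2) / (x * ι ^ 8) * (Tt / (c' * x)))
      ≤ 3 * a ^ 2 * ι * x ^ 3 + 200000 * ((C' * b ^ 2 + 8 * C' * K.Cp 3 ^ 3 * b ^ 2) * ι * x ^ 3 + t0 * K.CL * A0 / c' ^ 2 * ι * x ^ 3
          + 4 * C' ^ 2 * t0 * K.CL * CΛ / c' * ι * x ^ 3) := by linarith
    _ = _ := by ring

/-- **(19), `D = o(x)`, radius form** = the statement of `cm_x19_rad` (P6Out) -/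
theorem cm19_rad (K : CmK) (hK : K.Ok) {c' C' : ℝ} (hc' : 0 < c') (hC' : c' ≤ C') :
    ∃ (K1 : ℝ) (n0 : ℕ), 0 < K1 ∧ ∀ (P : CmCall) (lam : ℝ) (q : CmQ P) (X : CmNum) (Z : CmCaps) (Lp x : ℝ),
      CmStd K P lam q X Z Lp x → n0 ≤ P.n →
        ∫ r in {r | r ∈ Icc P.rmin 1 ∧ r ≤ C' * x ∧ q.al r ∈ Icc (c' * x) (C' * x)}, X.D (q.al r) ^ 2 ≤ K1 * P.N ^ (-(P.dl / 16)) * x ^ 3 := by
  have hC0 : 0 < C' := lt_of_lt_of_le hc' hC'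
  have hcK := hK.c0
  have hC01 := hK.C01
  have hdiv0 : 0 ≤ C' / K.c := by positivity
  obtain ⟨G, hGdef⟩ : ∃ G : ℝ, G = C' + K.C0 + C' / K.c := ⟨_, rfl⟩
  have hG0 : 0 ≤ G := by rw [hGdef]; linarith
  have hGC : C' ≤ G := by rw [hGdef]; linarith
  obtain ⟨K1, hK1, hnum⟩ := cm19_num_rad K hK hc' hC' hG0
  obtain ⟨n0, hn0⟩ := cm19_small K hK (κ := min 1 C') (lt_min one_pos hC0)
  refine ⟨K1, n0, hK1, fun P lam q X Z Lp x h hn => ?_⟩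
  have hP := h.base.ok
  have hc := hK.cE0
  have hx := h.x0
  have hX := h.base.num
  have hus := cm_us_pos hc hP
  have hN0 := cm_N_pos hP
  obtain ⟨hsm1, hsm2⟩ := hn0 P lam q X Z Lp x h hn
  have husx : P.us ≤ x := hsm2.trans (by
    calc min 1 C' * x ≤ 1 * x := mul_le_mul_of_nonneg_right (min_le_left _ _) hx.le
      _ = x := one_mul x)
  have hNus : P.N ^ (2 * P.dl) * P.us ≤ C' * x := hsm1.trans (mul_le_mul_of_nonneg_right (min_le_right _ _) hx.le)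
  obtain ⟨k0, ρ0, hk0, hρ0, hfin⟩ := hnum P lam q X Z Lp x h husx
  refine le_trans ?_ hfin
  obtain ⟨A, hAdef⟩ : ∃ A : Set ℝ, A = {r | r ∈ Icc P.rmin 1 ∧ r ≤ C' * x ∧ q.al r ∈ Icc (c' * x) (C' * x)} := ⟨_, rfl⟩
  rw [← hAdef]
  have hAmem : ∀ r ∈ A, r ∈ Icc P.rmin 1 ∧ r ≤ C' * x ∧ q.al r ∈ Icc (c' * x) (C' * x) := fun r hr => by rw [hAdef] at hr; exact hr
  have hAs : A ⊆ Icc P.rmin 1 := fun r hr => (hAmem r hr).1
  have hmono := (cm_q_al_strictMono hc hP q).monotoneOn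
  have hAoc : A.OrdConnected := by
    refine ⟨fun r1 h1 r2 h2 r hr => ?_⟩
    have g1 := hAmem r1 h1
    have g2 := hAmem r2 h2
    have hrm : r ∈ Icc P.rmin 1 := ⟨g1.1.1.trans hr.1, hr.2.trans g2.1.2⟩
    rw [hAdef]
    exact ⟨hrm, hr.2.trans g2.2.1, (g1.2.2.1).trans (hmono g1.1 hrm hr.1), (hmono hrm g2.1 hr.2).trans g2.2.2.2⟩
  have hAm : MeasurableSet A := hAoc.measurableSet
  obtain ⟨ϖ, hϖm, hϖ0, hϖb, hϖk, htr⟩ := cm19_transport hc hP q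
  obtain ⟨J, hJdef⟩ : ∃ J : Set ℝ, J = q.al '' A := ⟨_, rfl⟩
  have hJm : MeasurableSet J := by rw [hJdef]; exact cm_al_meas hc hP q hAs hAm
  have hJu : ∀ u ∈ J, u ∈ Icc P.u0 1 ∧ c' * x ≤ u ∧ u ≤ C' * x ∧ q.r u ≤ C' * x := by
    intro u hu
    rw [hJdef] at hu
    obtain ⟨r, hr, rfl⟩ := hu
    have g := hAmem r hr
    exact ⟨cm_q_al_mem hc hP q g.1, g.2.2.1, g.2.2.2, by rw [q.r_al r g.1]; exact g.2.1⟩
  have hJ01 : J ⊆ Icc (0 : ℝ) 1 := fun u hu => ⟨hP.u00.trans (hJu u hu).1.1, (hJu u hu).1.2⟩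
  have t1 : ∫ r in A, X.D (q.al r) ^ 2 = ∫ u in J, ϖ u * X.D u ^ 2 := by
    rw [hJdef]
    exact htr (fun u => X.D u ^ 2) (hX.D_meas.pow_const 2)
      (fun u hu => by rw [abs_of_nonneg (sq_nonneg _)]; exact pow_le_one₀ (hX.D_nn u hu) (hX.D_le u hu)) A hAm hAs
  have t2 : ∫ r in A, X.TH (q.al r) = ∫ u in J, ϖ u * X.TH u := by
    rw [hJdef]
    exact htr X.TH hX.TH_meas (fun u hu => by rw [abs_of_nonneg (hX.TH_nn u hu)]; exact hX.TH_le u hu) A hAm hAs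
  have t3 : ∫ _r in A, (1 : ℝ) = ∫ u in J, ϖ u := by
    have := htr (fun _ => (1 : ℝ)) measurable_const (fun u _ => by simp) A hAm hAs
    rw [hJdef, this]
    simp
  have hvol : ∫ u in J, ϖ u ≤ C' * x := by
    rw [← t3]
    have e1 : A ⊆ Icc 0 (C' * x) := fun r hr => ⟨hP.r0.trans (hAmem r hr).1.1, (hAmem r hr).2.1⟩
    have e2 : volume A ≤ ENNReal.ofReal (C' * x) := by
      refine (measure_mono e1).trans ?_
      rw [Real.volume_Icc, sub_zero]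
    rw [setIntegral_const, smul_eq_mul, mul_one]
    unfold Measure.real
    calc (volume A).toReal ≤ (ENNReal.ofReal (C' * x)).toReal := ENNReal.toReal_mono ENNReal.ofReal_ne_top e2
      _ = C' * x := ENNReal.toReal_ofReal (by positivity)
  have hAt : A ⊆ Icc P.rmin (min (C' * x) 1) := fun r hr => ⟨(hAmem r hr).1.1, le_min (hAmem r hr).2.1 (hAmem r hr).1.2⟩
  have hIT := cm19_rad_tr hK h hC0 hAt
  rw [← hGdef, t2] at hIT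
  obtain ⟨IT, hITdef⟩ : ∃ IT : ℝ, IT = K.Kg * Lp * (K.Cp 1 ^ 2 * (G + 1) * x) / (P.N * (P.e lam x / (C' + 1))) := ⟨_, rfl⟩
  rw [← hITdef] at hIT ⊢
  obtain ⟨Bϖ, hBϖ⟩ := hϖb
  have hwint : ∀ F : ℝ → ℝ, Measurable F → (∀ u ∈ Icc (0 : ℝ) 1, 0 ≤ F u ∧ F u ≤ 1) → IntegrableOn (fun u => ϖ u * F u) J := by
    intro F hF hb
    have hfinJ : volume J < ⊤ := lt_of_le_of_lt (measure_mono hJ01) (by simp)
    have : IsFiniteMeasure (volume.restrict J) := ⟨by rw [Measure.restrict_apply_univ]; exact hfinJ⟩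
    refine Integrable.mono' (integrable_const Bϖ) (hϖm.mul hF).aestronglyMeasurable ?_
    refine (ae_restrict_iff' hJm).2 (Filter.Eventually.of_forall fun u hu => ?_)
    have g := hb u (hJ01 hu)
    rw [Real.norm_eq_abs, abs_of_nonneg (mul_nonneg (hϖ0 u) g.1)]
    calc ϖ u * F u ≤ ϖ u * 1 := mul_le_mul_of_nonneg_left g.2 (hϖ0 u)
      _ ≤ Bϖ := by rw [mul_one]; exact hBϖ u
  have iTH := hwint X.TH hX.TH_meas (fun u hu => ⟨hX.TH_nn u hu, hX.TH_le u hu⟩)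
  have iTC := hwint X.TC hX.TC_meas (fun u hu => ⟨hX.TC_nn u hu, hX.TC_le u hu⟩)
  have iTW := hwint X.TW hX.TW_meas (fun u hu => ⟨hX.TW_nn u hu, hX.TW_le u hu⟩)
  have hcx : 0 < c' * x := mul_pos hc' hx
  have hTC : ∫ u in J, ϖ u * X.TC u ≤ IT / (c' * x) ^ 2 := by
    have e1 : ∫ u in J, ϖ u * X.TC u ≤ ∫ u in J, ϖ u * X.TH u / (c' * x) ^ 2 := by
      refine setIntegral_mono_on iTC (iTH.div_const _) hJm fun u hu => ?_
      have g := hJu u hu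
      have g1 := hX.tc_th u (hJ01 hu)
      have g2 := hX.TC_nn u (hJ01 hu)
      rw [mul_div_assoc]
      apply mul_le_mul_of_nonneg_left _ (hϖ0 u)
      rw [le_div_iff₀ (by positivity)]
      have g3 : (c' * x) ^ 2 ≤ u ^ 2 := pow_le_pow_left₀ hcx.le g.2.1 2
      calc X.TC u * (c' * x) ^ 2 ≤ X.TC u * u ^ 2 := mul_le_mul_of_nonneg_left g3 g2
        _ = u ^ 2 * X.TC u := mul_comm _ _
        _ ≤ X.TH u := g1
    rw [integral_div] at e1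
    exact e1.trans (div_le_div_of_nonneg_right hIT (by positivity))
  have hTW : ∫ u in J, ϖ u * X.TW u ≤ IT / (c' * x) := by
    have e1 : ∫ u in J, ϖ u * X.TW u ≤ ∫ u in J, ϖ u * X.TH u / (c' * x) := by
      refine setIntegral_mono_on iTW (iTH.div_const _) hJm fun u hu => ?_
      have g := hJu u hu
      have g1 := hX.tw_th u (hJ01 hu)
      have g2 := hX.TW_nn u (hJ01 hu)
      rw [mul_div_assoc]
      apply mul_le_mul_of_nonneg_left _ (hϖ0 u)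
      rw [le_div_iff₀ hcx]
      calc X.TW u * (c' * x) ≤ X.TW u * u := mul_le_mul_of_nonneg_left g.2.1 g2
        _ = u * X.TW u := mul_comm _ _
        _ ≤ X.TH u := g1
    rw [integral_div] at e1
    exact e1.trans (div_le_div_of_nonneg_right hIT hcx.le)
  have hCp1 := hK.Cp1 1
  have hCp3 := hK.Cp1 3
  have hy0 : 0 < K.Cp 1 ^ 2 * (G + 1) * x := by positivity
  have hκ0 : 0 ≤ 4 * (C' * x) ^ 2 / (P.N ^ P.dl * P.us ^ 2) := by positivity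
  have hκ : ∀ u ∈ J, ϖ u ≤ 4 * (C' * x) ^ 2 / (P.N ^ P.dl * P.us ^ 2) := by
    intro u hu
    have g := hJu u hu
    have hr0 : 0 ≤ q.r u := hP.r0.trans (q.r_mem u g.1).1
    have k1 := cm_k_ge hc hP hNus
    have k2 : P.k (C' * x) ≤ P.k (q.r u) := cm_k_anti hc hP (mem_Ici.2 hr0) (mem_Ici.2 (by positivity)) g.2.2.2
    have k3 : 0 < P.N ^ P.dl * P.us ^ 2 / (4 * (C' * x) ^ 2) := by positivity
    calc ϖ u ≤ 1 / P.k (q.r u) := hϖk u g.1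
      _ ≤ 1 / (P.N ^ P.dl * P.us ^ 2 / (4 * (C' * x) ^ 2)) := one_div_le_one_div_of_le k3 (k1.trans k2)
      _ = _ := by rw [one_div_div]
  have hbins := cm19_bins X hX J hJm hJ01 ϖ hϖm hϖ0 ⟨Bϖ, hBϖ⟩ (y0 := K.Cp 1 ^ 2 * (G + 1) * x) (Dm := K.Cp 1 * (C' + 1) * x)
    (κ := 4 * (C' * x) ^ 2 / (P.N ^ P.dl * P.us ^ 2)) (ρ0 := ρ0) (Cq := K.Cp 3) hk0 hy0 hρ0 (by linarith) hκ0
    (fun u hu => cm19_S_le hK h hG0 (hJ01 hu) ((hJu u hu).2.2.1.trans (mul_le_mul_of_nonneg_right hGC hx.le)))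
    (fun u hu => cm19_D_le hK h (hJ01 hu) (hJu u hu).2.2.1)
    (fun u hu => by
      refine (cm19_NX_le hK h (by norm_num) (hJ01 hu) ((hJu u hu).2.2.1.trans (mul_le_mul_of_nonneg_right hGC hx.le))).trans ?_
      apply mul_le_mul_of_nonneg_left _ (by linarith)
      apply Real.sqrt_le_sqrt
      have e1 : 1 ≤ K.Cp 1 ^ 2 := one_le_pow₀ hCp1
      have e2 : 0 ≤ (G + 1) * x := by positivity
      calc (G + 1) * x = 1 * ((G + 1) * x) := (one_mul _).symm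
        _ ≤ K.Cp 1 ^ 2 * ((G + 1) * x) := mul_le_mul_of_nonneg_right e1 e2
        _ = _ := by ring)
    hκ
  rw [t1]
  refine hbins.trans ?_
  have hq4 : 0 ≤ (K.Cp 1 ^ 2 * (G + 1) * x / k0) ^ 2 + cmQ4 (K.Cp 1 ^ 2 * (G + 1) * x / k0) (K.Cp 3) (K.Cp 1 ^ 2 * (G + 1) * x) 3 :=
    add_nonneg (sq_nonneg _) (cm_g_q4_nonneg (by positivity) (by linarith) 3)
  have f1 := mul_le_mul_of_nonneg_right hvol hq4
  have f2 := mul_le_mul_of_nonneg_left hTW (div_nonneg hκ0 hρ0.le)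
  linarith

/-! ## 5. (19), first assertion -/

/-- Cauchy-Schwarz on a set of finite measure -/
theorem cm19_cs {f : ℝ → ℝ} {A : Set ℝ} {V I : ℝ} (hf : IntegrableOn f A) (hf2 : IntegrableOn (fun u => f u ^ 2) A)
    (hV : volume A ≤ ENNReal.ofReal V) (hV0 : 0 ≤ V) (hI : ∫ u in A, f u ^ 2 ≤ I) : ∫ u in A, f u ≤ Real.sqrt (V * I) := by
  have hfin : volume A < ⊤ := lt_of_le_of_lt hV ENNReal.ofReal_lt_top
  have : IsFiniteMeasure (volume.restrict A) := ⟨by rw [Measure.restrict_apply_univ]; exact hfin⟩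
  set m : ℝ := (volume.restrict A).real univ with hm
  have hm0 : 0 ≤ m := measureReal_nonneg
  have hmV : m ≤ V := by
    rw [hm, Measure.real, Measure.restrict_apply_univ]
    exact ENNReal.toReal_le_of_le_ofReal hV0 hV
  have hI0 : 0 ≤ ∫ u in A, f u ^ 2 := integral_nonneg fun u => sq_nonneg _
  have key : ∀ t : ℝ, 0 ≤ (∫ u in A, f u ^ 2) - 2 * t * (∫ u in A, f u) + t ^ 2 * m := by
    intro t
    have h1 : 0 ≤ ∫ u in A, (f u - t) ^ 2 := integral_nonneg fun u => sq_nonneg _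
    have h2 : ∫ u in A, (f u - t) ^ 2 = (∫ u in A, f u ^ 2) - 2 * t * (∫ u in A, f u) + t ^ 2 * m := by
      have e : (fun u => (f u - t) ^ 2) = fun u => f u ^ 2 - 2 * t * f u + t ^ 2 := by
        funext u; ring
      have i1 : Integrable (fun u => 2 * t * f u) (volume.restrict A) := hf.const_mul _
      have i2 : Integrable (fun u => f u ^ 2 - 2 * t * f u) (volume.restrict A) := hf2.sub i1
      rw [e, integral_add i2 (integrable_const _), integral_sub hf2 i1, integral_const_mul,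
        integral_const, smul_eq_mul, ← hm]
      ring
    rwa [h2] at h1
  have hsq : (∫ u in A, f u) ^ 2 ≤ V * I := by
    have h3 : (∫ u in A, f u) ^ 2 ≤ m * ∫ u in A, f u ^ 2 := by
      rcases hm0.eq_or_lt with h0 | h0
      · have hμ : volume.restrict A = 0 := by
          have h1 : (volume.restrict A) univ = 0 := by
            rcases (ENNReal.toReal_eq_zero_iff _).1 h0.symm with h | h
            · exact h
            · exact absurd h (measure_ne_top _ _)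
          exact Measure.measure_univ_eq_zero.1 h1
        rw [hμ]; simp
      · have k1 := key ((∫ u in A, f u) / m)
        have e : (∫ u in A, f u ^ 2) - 2 * ((∫ u in A, f u) / m) * (∫ u in A, f u) + ((∫ u in A, f u) / m) ^ 2 * m
            = (∫ u in A, f u ^ 2) - (∫ u in A, f u) ^ 2 / m := by
          field_simp
          ring
        rw [e, sub_nonneg, div_le_iff₀ h0] at k1
        linarith
    calc (∫ u in A, f u) ^ 2 ≤ m * ∫ u in A, f u ^ 2 := h3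
      _ ≤ V * I := mul_le_mul hmV hI hI0 hV0
  exact (le_abs_self _).trans (Real.abs_le_sqrt hsq)

/-- **dyadic summation** (abstract): if `∫_{max(A,v/2)}^v D ≤ φ(v)` and `φ(v/2) ≤ (2/3) φ(v)` then `∫_A^T D ≤ 3 φ(T)`.   Induction on `n` with `T ≤ 2^n A`. -/
theorem cm19_dyadic {D φ : ℝ → ℝ} {A Tm : ℝ} (hA : 0 < A) (hint : IntervalIntegrable D volume A Tm) (hφ0 : ∀ v ∈ Icc A Tm, 0 ≤ φ v)
    (hφ : ∀ v ∈ Icc A Tm, A ≤ v / 2 → φ (v / 2) ≤ 2 / 3 * φ v) (hstep : ∀ v ∈ Icc A Tm, ∫ u in (max A (v / 2))..v, D u ≤ φ v) :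
    ∀ T ∈ Icc A Tm, ∫ u in A..T, D u ≤ 3 * φ T := by
  have main : ∀ n : ℕ, ∀ T ∈ Icc A Tm, T ≤ 2 ^ n * A → ∫ u in A..T, D u ≤ 3 * φ T := by
    intro n
    induction n with
    | zero =>
      intro T hT h
      have : T = A := le_antisymm (by simpa using h) hT.1
      rw [this, intervalIntegral.integral_same]
      have := hφ0 A ⟨le_rfl, hT.1.trans hT.2⟩
      linarith
    | succ n ih =>
      intro T hT h
      have h0 := hφ0 T hT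
      rcases le_total (T / 2) A with h2 | h2
      · have := hstep T hT
        rw [max_eq_left h2] at this
        linarith
      · have hT2 : T / 2 ∈ Icc A Tm := ⟨h2, by linarith [hT.2, hA.le.trans hT.1]⟩
        have h3 := ih (T / 2) hT2 (by rw [pow_succ] at h; linarith)
        have h4 := hφ T hT h2
        have h5 := hstep T hT
        rw [max_eq_right h2] at h5
        have hATm : A ≤ Tm := hT.1.trans hT.2
        have i1 : IntervalIntegrable D volume A (T / 2) :=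
          hint.mono_set (by rw [uIcc_of_le h2, uIcc_of_le hATm]; exact Icc_subset_Icc le_rfl hT2.2)
        have i2 : IntervalIntegrable D volume (T / 2) T :=
          hint.mono_set (by rw [uIcc_of_le (by linarith [hA.le.trans hT.1]), uIcc_of_le hATm]; exact Icc_subset_Icc h2 hT.2)
        rw [← intervalIntegral.integral_add_adjacent_intervals i1 i2]
        linarith
  intro T hT
  obtain ⟨n, hn⟩ := pow_unbounded_of_one_lt (T / A) (one_lt_two : (1:ℝ) < 2)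
  exact main n T hT (by rw [div_lt_iff₀ hA] at hn; exact hn.le)

/-- the statement of `cm_x_dt1_lo` (P6Out), taken as a hypothesis here because P6Out imports this file -/
def Cm19Dt (cE D0 ca cd : ℝ) : Prop := ∀ c' G : ℝ, 0 < c' → 1 ≤ G →
  ∃ K1 : ℝ, 0 < K1 ∧ ∀ (P : CmCall) (lam x v : ℝ), P.Ok cE D0 → 0 < lam → lam ≤ P.d ^ 2 → 0 < x → ca * P.a ≤ x → cd * x ^ 2 ≤ P.e lam x →
    c' * x ≤ v → v ≤ G * cmW P lam x → v ≤ 1 → P.R18 lam v ≤ K1 * P.N ^ (-(3 * P.m / 2)) * (x ^ 2 / (cmW P lam x ^ 2 * v) ^ (1 / 3 : ℝ))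

theorem cm19_eqns_cite : True := by
  have := @Cm19Dt.eq_1
  trivial

/-- **the dyads between `C1 x` and `C' W`** (l.1190-1195).   `cm6x_18` (`ε = m/4`, `Gam = 2`), `hdt` = `cm_x_dt1_lo` (`c' = C1`, `G = max C' 1`), `cm19_cs` on `[max(C1 x, v/2), v]`:
`∫ D ≤ φ(v) := √K18 Kd n^(-5m/4) x² (v/W)^(2/3)`;   `cm19_dyadic` (`(1/2)^(2/3) ≤ 2/3`);   `φ(T) ≤ .. (max C' 1)^(2/3)`. -/
theorem cm19_outer (K : CmK) (hK : K.Ok) {cd C' : ℝ} (hd : 0 < cd) (hC' : 0 < C') (hdt : Cm19Dt K.cE K.D0 K.ca cd) :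
    ∃ (K1 C1 : ℝ) (n0 : ℕ), 0 < K1 ∧ 1 ≤ C1 ∧ ∀ (P : CmCall) (lam : ℝ) (q : CmQ P) (X : CmNum) (Z : CmCaps) (Lp x : ℝ),
      CmStd K P lam q X Z Lp x → n0 ≤ P.n → cd * x ^ 2 ≤ P.e lam x → C1 * x ≤ min (C' * cmW P lam x) 1 →
        ∫ u in (C1 * x)..(min (C' * cmW P lam x) 1), X.D u ≤ K1 * P.N ^ (-P.m) * x ^ 2 := by
  have hmm := hK.mm0
  obtain ⟨K18, C1, n0, hK18, hC1, h18⟩ := cm6x_18 K hK (ε := K.mm / 4) (Gam := 2) (by positivity) (by norm_num)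
  have hC10 : 0 < C1 := by linarith
  obtain ⟨G, hG⟩ : ∃ G, G = max C' 1 := ⟨_, rfl⟩
  have hG1 : 1 ≤ G := hG ▸ le_max_right _ _
  have hGC : C' ≤ G := hG ▸ le_max_left _ _
  obtain ⟨Kd, hKd, hR⟩ := hdt C1 G hC10 hG1
  refine ⟨3 * (Real.sqrt K18 * Kd * G), C1, n0, by have := Real.sqrt_pos.2 hK18; positivity, hC1, ?_⟩
  intro P lam q X Z Lp x h hn hcd hAT
  have hP := h.base.ok
  have hX := h.base.num
  have hx := h.x0
  have hN := cm_N_pos hP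
  have hN1 : 1 ≤ P.N := by linarith [cm_N_ge hP]
  have hm : P.m = K.mm := h.base.m_eq
  obtain ⟨W, hW⟩ : ∃ W, W = cmW P lam x := ⟨_, rfl⟩
  rw [← hW] at hAT ⊢
  have hW0 : 0 < W := by rw [hW]; exact lt_of_lt_of_le hx (le_max_left _ _)
  obtain ⟨A, hA⟩ : ∃ A, A = C1 * x := ⟨_, rfl⟩
  obtain ⟨Tm, hTm⟩ : ∃ Tm, Tm = min (C' * W) 1 := ⟨_, rfl⟩
  rw [← hA, ← hTm] at hAT ⊢
  have hA0 : 0 < A := by rw [hA]; positivity
  have hT1 : Tm ≤ 1 := hTm ▸ min_le_right _ _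
  have hTW : Tm ≤ G * W := (hTm ▸ min_le_left _ _ : Tm ≤ C' * W).trans (mul_le_mul_of_nonneg_right hGC hW0.le)
  have hI01 : IntegrableOn X.D (Icc (0 : ℝ) 1) := by
    refine Measure.integrableOn_of_bounded (M := 1) (by simp) hX.D_meas.aestronglyMeasurable ?_
    refine (ae_restrict_iff' measurableSet_Icc).2 (Filter.Eventually.of_forall fun u hu => ?_)
    rw [Real.norm_eq_abs, abs_of_nonneg (hX.D_nn u hu)]
    exact hX.D_le u hu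
  have hII : ∀ a b : ℝ, a ∈ Icc (0 : ℝ) 1 → b ∈ Icc (0 : ℝ) 1 → IntervalIntegrable X.D volume a b := by
    intro a b ha hb
    rw [intervalIntegrable_iff]
    exact hI01.mono_set (uIoc_subset_uIcc.trans (uIcc_subset_Icc ha hb))
  obtain ⟨c0, hc0⟩ : ∃ c0, c0 = Real.sqrt K18 * Kd * P.N ^ (-(5 * K.mm / 4)) * x ^ 2 := ⟨_, rfl⟩
  have hc00 : 0 < c0 := by
    rw [hc0]
    have := Real.sqrt_pos.2 hK18
    have := Real.rpow_pos_of_pos hN (-(5 * K.mm / 4))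
    positivity
  have hcube : ∀ v : ℝ, 0 < v → 0 < (W ^ 2 * v) ^ (1 / 3 : ℝ) := fun v hv => Real.rpow_pos_of_pos (by positivity) _
  have key := cm19_dyadic (D := X.D) (φ := fun v => c0 * (v / (W ^ 2 * v) ^ (1 / 3 : ℝ))) (A := A) (Tm := Tm) hA0
    (hII A Tm ⟨hA0.le, hAT.trans hT1⟩ ⟨hA0.le.trans hAT, hT1⟩)
    (fun v hv => by
      have hv0 : 0 < v := lt_of_lt_of_le hA0 hv.1
      have := hcube v hv0
      positivity)
    (fun v hv _ => by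
      have hv0 : 0 < v := lt_of_lt_of_le hA0 hv.1
      have h1 := hcube v hv0
      have e1 : (W ^ 2 * (v / 2)) ^ (1 / 3 : ℝ) = (W ^ 2 * v) ^ (1 / 3 : ℝ) * (1 / 2 : ℝ) ^ (1 / 3 : ℝ) := by
        rw [← Real.mul_rpow (by positivity) (by norm_num)]
        congr 1; ring
      have h2 : (3 / 4 : ℝ) ≤ (1 / 2 : ℝ) ^ (1 / 3 : ℝ) := by
        have e2 : (3 / 4 : ℝ) = (((3 / 4 : ℝ)) ^ (3 : ℕ)) ^ (1 / 3 : ℝ) := by
          rw [one_div]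
          exact (Real.pow_rpow_inv_natCast (by norm_num) (by norm_num)).symm
        rw [e2]
        exact Real.rpow_le_rpow (by norm_num) (by norm_num) (by norm_num)
      have h3 : 0 < (1 / 2 : ℝ) ^ (1 / 3 : ℝ) := by positivity
      show c0 * (v / 2 / (W ^ 2 * (v / 2)) ^ (1 / 3 : ℝ)) ≤ 2 / 3 * (c0 * (v / (W ^ 2 * v) ^ (1 / 3 : ℝ)))
      rw [e1]
      have h4 : v / 2 / ((W ^ 2 * v) ^ (1 / 3 : ℝ) * (1 / 2 : ℝ) ^ (1 / 3 : ℝ)) ≤ 2 / 3 * (v / (W ^ 2 * v) ^ (1 / 3 : ℝ)) := by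
        rw [div_le_iff₀ (by positivity)]
        have e3 : 2 / 3 * (v / (W ^ 2 * v) ^ (1 / 3 : ℝ)) * ((W ^ 2 * v) ^ (1 / 3 : ℝ) * (1 / 2 : ℝ) ^ (1 / 3 : ℝ)) = 2 / 3 * v * (1 / 2 : ℝ) ^ (1 / 3 : ℝ) := by
          field_simp
        rw [e3]
        nlinarith
      calc c0 * (v / 2 / ((W ^ 2 * v) ^ (1 / 3 : ℝ) * (1 / 2 : ℝ) ^ (1 / 3 : ℝ))) ≤ c0 * (2 / 3 * (v / (W ^ 2 * v) ^ (1 / 3 : ℝ))) :=
            mul_le_mul_of_nonneg_left h4 hc00.le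
        _ = _ := by ring)
    (fun v hv => by
      have hv0 : 0 < v := lt_of_lt_of_le hA0 hv.1
      have hv1 : v ≤ 1 := hv.2.trans hT1
      have h1 := hcube v hv0
      have hmax : max A (v / 2) ≤ v := max_le hv.1 (by linarith)
      have hmax0 : 0 ≤ max A (v / 2) := hA0.le.trans (le_max_left _ _)
      have hsub01 : Icc (max A (v / 2)) v ⊆ Icc (0 : ℝ) 1 := Icc_subset_Icc hmax0 hv1
      rw [intervalIntegral.integral_of_le hmax, ← integral_Icc_eq_integral_Ioc]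
      have hxu0 : P.u0 ≤ A := by rw [hA]; nlinarith [h.u0x]
      have hsub : Icc (max A (v / 2)) v ⊆ Icc (v / 2) (2 * v) ∩ Icc P.u0 1 := fun u hu =>
        ⟨⟨(le_max_right _ _).trans hu.1, by linarith [hu.2]⟩, ⟨hxu0.trans ((le_max_left _ _).trans hu.1), hu.2.trans hv1⟩⟩
      have hb18 := h18 P lam q X Z Lp x h hn v (hA ▸ hv.1) hv1
      have hD2 : ∫ u in Icc (max A (v / 2)) v, X.D u ^ 2 ≤ K18 * P.N ^ (2 * (K.mm / 4)) * v * P.R18 lam v ^ 2 := by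
        refine le_trans ?_ hb18
        refine setIntegral_mono_set ((cm6x_intD hK.cE0 hP hX).mono_set inter_subset_right) (Filter.Eventually.of_forall fun u => sq_nonneg _) hsub.eventuallyLE
      have hcs := cm19_cs (f := X.D) (A := Icc (max A (v / 2)) v) (V := v) (hI01.mono_set hsub01) (cm19_Dsq_int hX hsub01)
        (by rw [Real.volume_Icc]; exact ENNReal.ofReal_le_ofReal (by linarith)) hv0.le hD2
      refine hcs.trans ?_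
      have hR18 := hR P lam x v hP h.base.lam0 h.base.lam1 hx h.xa hcd (hA ▸ hv.1) (hW ▸ hv.2.trans hTW) hv1
      rw [← hW, hm] at hR18
      have hR0 : 0 ≤ P.R18 lam v := by
        unfold CmCall.R18
        have := cm_e_pos P h.base.lam0 v
        have := cm_E_pos hK.cE0 hP
        have := hP.d0
        have := cm_us_pos hK.cE0 hP
        positivity
      have e1 : v * (K18 * P.N ^ (2 * (K.mm / 4)) * v * P.R18 lam v ^ 2) = K18 * (P.N ^ (K.mm / 4) * v * P.R18 lam v) ^ 2 := by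
        have : P.N ^ (2 * (K.mm / 4)) = (P.N ^ (K.mm / 4)) ^ 2 := by
          rw [← Real.rpow_natCast, ← Real.rpow_mul hN.le]; congr 1; push_cast; ring
        rw [this]; ring
      have hp : 0 < P.N ^ (K.mm / 4) := Real.rpow_pos_of_pos hN _
      rw [e1, Real.sqrt_mul hK18.le, Real.sqrt_sq (by positivity)]
      have e2 : P.N ^ (K.mm / 4) * P.N ^ (-(3 * K.mm / 2)) = P.N ^ (-(5 * K.mm / 4)) := by
        rw [← Real.rpow_add hN]; congr 1; ring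
      calc Real.sqrt K18 * (P.N ^ (K.mm / 4) * v * P.R18 lam v)
          ≤ Real.sqrt K18 * (P.N ^ (K.mm / 4) * v * (Kd * P.N ^ (-(3 * K.mm / 2)) * (x ^ 2 / (W ^ 2 * v) ^ (1 / 3 : ℝ)))) :=
            mul_le_mul_of_nonneg_left (mul_le_mul_of_nonneg_left hR18 (by positivity)) (Real.sqrt_nonneg _)
        _ = Real.sqrt K18 * Kd * (P.N ^ (K.mm / 4) * P.N ^ (-(3 * K.mm / 2))) * x ^ 2 * (v / (W ^ 2 * v) ^ (1 / 3 : ℝ)) := by ring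
        _ = c0 * (v / (W ^ 2 * v) ^ (1 / 3 : ℝ)) := by rw [e2, hc0])
    Tm ⟨hAT, le_rfl⟩
  refine key.trans ?_
  have hTm0 : 0 < Tm := lt_of_lt_of_le hA0 hAT
  have h1 := hcube Tm hTm0
  have h2 : Tm / (W ^ 2 * Tm) ^ (1 / 3 : ℝ) ≤ G := by
    rw [div_le_iff₀ h1]
    have e1 : Tm = (Tm ^ (3 : ℕ)) ^ (1 / 3 : ℝ) := by
      rw [one_div]; exact (Real.pow_rpow_inv_natCast hTm0.le (by norm_num)).symm
    have e2 : G = (G ^ (3 : ℕ)) ^ (1 / 3 : ℝ) := by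
      rw [one_div]; exact (Real.pow_rpow_inv_natCast (by linarith) (by norm_num)).symm
    calc Tm = (Tm ^ (3 : ℕ)) ^ (1 / 3 : ℝ) := e1
      _ ≤ (G ^ (3 : ℕ) * (W ^ 2 * Tm)) ^ (1 / 3 : ℝ) := by
          apply Real.rpow_le_rpow (by positivity) _ (by norm_num)
          have h3 : Tm ^ 2 ≤ (G * W) ^ 2 := pow_le_pow_left₀ hTm0.le hTW 2
          have h4 : G ^ 2 ≤ G ^ 3 := pow_le_pow_right₀ hG1 (by norm_num)
          calc Tm ^ 3 = Tm ^ 2 * Tm := by ring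
            _ ≤ (G * W) ^ 2 * Tm := mul_le_mul_of_nonneg_right h3 hTm0.le
            _ = G ^ 2 * (W ^ 2 * Tm) := by ring
            _ ≤ G ^ 3 * (W ^ 2 * Tm) := mul_le_mul_of_nonneg_right h4 (by positivity)
      _ = (G ^ (3 : ℕ)) ^ (1 / 3 : ℝ) * (W ^ 2 * Tm) ^ (1 / 3 : ℝ) := Real.mul_rpow (by positivity) (by positivity)
      _ = G * (W ^ 2 * Tm) ^ (1 / 3 : ℝ) := by rw [← e2]
  have h3 : P.N ^ (-(5 * K.mm / 4)) ≤ P.N ^ (-P.m) := by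
    rw [hm]; exact Real.rpow_le_rpow_of_exponent_le hN1 (by linarith)
  have hs := Real.sqrt_nonneg K18
  calc 3 * (c0 * (Tm / (W ^ 2 * Tm) ^ (1 / 3 : ℝ))) ≤ 3 * (c0 * G) := by
        have := mul_le_mul_of_nonneg_left h2 hc00.le
        linarith
    _ = 3 * (Real.sqrt K18 * Kd * G) * P.N ^ (-(5 * K.mm / 4)) * x ^ 2 := by rw [hc0]; ring
    _ ≤ 3 * (Real.sqrt K18 * Kd * G) * P.N ^ (-P.m) * x ^ 2 :=
        mul_le_mul_of_nonneg_right (mul_le_mul_of_nonneg_left h3 (by positivity)) (by positivity)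

/-- **(19), first assertion** = the statement of `cm_x19_int` (P6Out), given `hdt` -/
theorem cm19_int (K : CmK) (hK : K.Ok) {cd C' η : ℝ} (hd : 0 < cd) (hC' : 0 < C') (hη : 0 < η) (hdt : Cm19Dt K.cE K.D0 K.ca cd) :
    ∃ (κ : ℝ) (n0 : ℕ), 0 < κ ∧ ∀ (P : CmCall) (lam : ℝ) (q : CmQ P) (X : CmNum) (Z : CmCaps) (Lp x : ℝ),
      CmStd K P lam q X Z Lp x → n0 ≤ P.n → cd * x ^ 2 ≤ P.e lam x → P.u0 ≤ κ * x →
        ∫ u in (0 : ℝ)..(min (C' * cmW P lam x) 1), X.D u ≤ η * x ^ 2 := by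
  obtain ⟨Ko, C1, n1, hKo, hC1, hout⟩ := cm19_outer K hK hd hC' hdt
  have hCp1 := hK.Cp1 1
  have hCp0 : 0 < K.Cp 1 := by linarith
  have hC10 : 0 < C1 := by linarith
  obtain ⟨ε, hεdef⟩ : ∃ ε : ℝ, ε = min 1 (η / (6 * K.Cp 1)) := ⟨_, rfl⟩
  have hε0 : 0 < ε := by rw [hεdef]; exact lt_min one_pos (by positivity)
  have hε1 : ε ≤ 1 := by rw [hεdef]; exact min_le_left _ _
  have hεη : ε ≤ η / (6 * K.Cp 1) := by rw [hεdef]; exact min_le_right _ _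
  obtain ⟨Km, n2, hKm, hmass⟩ := cm19_massJ K hK hε0 (hε1.trans hC1)
  obtain ⟨n3, hn3⟩ := cm19_pow_small (e := K.mm) (δ := min (η / (3 * Ko)) (η ^ 2 / (9 * C1 * Km))) hK.mm0
    (lt_min (by positivity) (by positivity))
  refine ⟨ε, max n1 (max n2 n3), hε0, fun P lam q X Z Lp x h hn hcd hu0 => ?_⟩
  have hP := h.base.ok
  have hX := h.base.num
  have hx := h.x0
  have hs : P.N ^ (-P.m) ≤ min (η / (3 * Ko)) (η ^ 2 / (9 * C1 * Km)) := by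
    rw [h.base.m_eq]
    exact hn3 P.n (le_trans (le_trans (le_max_right _ _) (le_max_right _ _)) hn)
  have hsa : P.N ^ (-P.m) ≤ η / (3 * Ko) := hs.trans (min_le_left _ _)
  have hsb : P.N ^ (-P.m) ≤ η ^ 2 / (9 * C1 * Km) := hs.trans (min_le_right _ _)
  obtain ⟨hs0, hs1⟩ := cm19_s (K := K) hP
  obtain ⟨T, hTdef⟩ : ∃ T : ℝ, T = min (C' * cmW P lam x) 1 := ⟨_, rfl⟩
  rw [← hTdef]
  have hT1 : T ≤ 1 := by rw [hTdef]; exact min_le_right _ _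
  have hT0 : 0 ≤ T := by
    rw [hTdef]
    exact le_min (mul_nonneg hC'.le (lt_of_lt_of_le hx (le_max_left _ _)).le) zero_le_one
  have hI01 : IntegrableOn X.D (Icc (0 : ℝ) 1) := by
    refine Measure.integrableOn_of_bounded (M := 1) (by simp) hX.D_meas.aestronglyMeasurable ?_
    refine (ae_restrict_iff' measurableSet_Icc).2 (Filter.Eventually.of_forall fun u hu => ?_)
    rw [Real.norm_eq_abs, abs_of_nonneg (hX.D_nn u hu)]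
    exact hX.D_le u hu
  have hII : ∀ a b : ℝ, a ∈ Icc (0 : ℝ) 1 → b ∈ Icc (0 : ℝ) 1 → IntervalIntegrable X.D volume a b := by
    intro a b ha hb
    rw [intervalIntegrable_iff]
    exact hI01.mono_set (uIoc_subset_uIcc.trans (uIcc_subset_Icc ha hb))
  have hx2 : 0 < x ^ 2 := by positivity
  have p1 : ∀ t : ℝ, 0 ≤ t → t ≤ ε * x → t ≤ 1 → ∫ u in (0 : ℝ)..t, X.D u ≤ η * x ^ 2 / 3 := by
    intro t ht0 ht ht1
    have e1 : ∫ u in (0 : ℝ)..t, X.D u ≤ ∫ _u in (0 : ℝ)..t, 2 * K.Cp 1 * x := by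
      refine intervalIntegral.integral_mono_on ht0 (hII 0 t ⟨le_rfl, zero_le_one⟩ ⟨ht0, ht1⟩) intervalIntegrable_const fun u hu => ?_
      have g := cm19_D_le hK h (u := u) (G := ε) ⟨hu.1, hu.2.trans ht1⟩ (hu.2.trans ht)
      have g2 : K.Cp 1 * (ε + 1) * x ≤ K.Cp 1 * 2 * x := by gcongr; linarith
      linarith
    rw [intervalIntegral.integral_const, smul_eq_mul, sub_zero] at e1
    have e2 : t * (2 * K.Cp 1 * x) ≤ ε * x * (2 * K.Cp 1 * x) := mul_le_mul_of_nonneg_right ht (by positivity)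
    have e3 : ε * x * (2 * K.Cp 1 * x) ≤ η / (6 * K.Cp 1) * x * (2 * K.Cp 1 * x) := by gcongr
    have e4 : η / (6 * K.Cp 1) * x * (2 * K.Cp 1 * x) = η * x ^ 2 / 3 := by field_simp; ring
    linarith
  have p2 : ∀ t : ℝ, ε * x ≤ t → t ≤ C1 * x → t ≤ 1 → ∫ u in (ε * x)..t, X.D u ≤ η * x ^ 2 / 3 := by
    intro t ht0 ht ht1
    have hεx : 0 ≤ ε * x := by positivity
    have hsub : Icc (ε * x) t ⊆ Icc (0 : ℝ) 1 := Icc_subset_Icc hεx ht1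
    have m1 := hmass P lam q X Z Lp x h (le_trans (le_trans (le_max_left _ _) (le_max_right _ _)) hn) (ε * x) t le_rfl hu0 ht0 ht ht1
    have hV : volume (Icc (ε * x) t) ≤ ENNReal.ofReal (C1 * x) := by
      rw [Real.volume_Icc]
      exact ENNReal.ofReal_le_ofReal (by linarith)
    have c1 := cm19_cs (hI01.mono_set hsub) (cm19_Dsq_int hX hsub) hV (by positivity) m1
    rw [intervalIntegral.integral_of_le ht0, ← integral_Icc_eq_integral_Ioc]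
    refine c1.trans ?_
    have e1 : C1 * x * (Km * P.N ^ (-P.m) * x ^ 3) ≤ (η * x ^ 2 / 3) ^ 2 := by
      have e2 : 9 * C1 * Km * P.N ^ (-P.m) ≤ η ^ 2 := by
        rw [le_div_iff₀ (by positivity)] at hsb
        linarith
      have e3 : 9 * C1 * Km * P.N ^ (-P.m) * (x ^ 4 / 9) ≤ η ^ 2 * (x ^ 4 / 9) := mul_le_mul_of_nonneg_right e2 (by positivity)
      calc C1 * x * (Km * P.N ^ (-P.m) * x ^ 3) = 9 * C1 * Km * P.N ^ (-P.m) * (x ^ 4 / 9) := by ring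
        _ ≤ η ^ 2 * (x ^ 4 / 9) := e3
        _ = _ := by ring
    calc Real.sqrt (C1 * x * (Km * P.N ^ (-P.m) * x ^ 3)) ≤ Real.sqrt ((η * x ^ 2 / 3) ^ 2) := Real.sqrt_le_sqrt e1
      _ = η * x ^ 2 / 3 := Real.sqrt_sq (by positivity)
  have p3 : C1 * x ≤ T → ∫ u in (C1 * x)..T, X.D u ≤ η * x ^ 2 / 3 := by
    intro hT
    have o1 := hout P lam q X Z Lp x h (le_trans (le_max_left _ _) hn) hcd (by rw [← hTdef]; exact hT)
    rw [← hTdef] at o1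
    refine o1.trans ?_
    have e2 : Ko * P.N ^ (-P.m) ≤ η / 3 := by
      rw [le_div_iff₀ (by positivity)] at hsa
      linarith
    calc Ko * P.N ^ (-P.m) * x ^ 2 ≤ η / 3 * x ^ 2 := mul_le_mul_of_nonneg_right e2 hx2.le
      _ = _ := by ring
  have hηx : 0 < η * x ^ 2 := by positivity
  rcases le_total T (ε * x) with hA | hA
  · have := p1 T hT0 hA hT1
    linarith
  have hεx01 : ε * x ∈ Icc (0 : ℝ) 1 := ⟨by positivity, hA.trans hT1⟩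
  have q1 := p1 (ε * x) hεx01.1 le_rfl hεx01.2
  rcases le_total T (C1 * x) with hB | hB
  · have q2 := p2 T hA hB hT1
    rw [← intervalIntegral.integral_add_adjacent_intervals (hII 0 (ε * x) ⟨le_rfl, zero_le_one⟩ hεx01) (hII (ε * x) T hεx01 ⟨hT0, hT1⟩)]
    linarith
  · have hC1x01 : C1 * x ∈ Icc (0 : ℝ) 1 := ⟨by positivity, hB.trans hT1⟩
    have hεC : ε * x ≤ C1 * x := mul_le_mul_of_nonneg_right (hε1.trans hC1) hx.le
    have q2 := p2 (C1 * x) hεC le_rfl hC1x01.2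
    have q3 := p3 hB
    rw [← intervalIntegral.integral_add_adjacent_intervals (hII 0 (ε * x) ⟨le_rfl, zero_le_one⟩ hεx01) (hII (ε * x) T hεx01 ⟨hT0, hT1⟩),
      ← intervalIntegral.integral_add_adjacent_intervals (hII (ε * x) (C1 * x) hεx01 hC1x01) (hII (C1 * x) T hC1x01 ⟨hT0, hT1⟩)]
    linarith

end

end Claimed.Agent.R286
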