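import Claimed.Agent.R286.Cmp.P6CE
import Claimed.Agent.R286.Cmp.P6X19
import Claimed.Agent.R286.Cmp.P6Band

/-!
# Row 286 (S0533), PE Section 3.4 (package P06): CONTRACT 3 = THE EXITS      (owner helper294; adversary helper290)

Prop. 3.8 (local second moments: (18), the direct-test conclusions, (19) in mass and in radius, the ingredients of the good split) and Prop. 3.9 (conditional comparison error), in UNIFORM form:
     for all constants `K : CmK` (fixed BEFORE everything: decision D2) there are `K1, C1, n0, ...` such that for EVERY instance with `n ≥ n0` ...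
The sequential / ultrafilter forms follow by instantiation.   Hypotheses never mention "the minimiser of (6)": only `CmGeo` + `Reg` + `Raw` + numerical conditions (decision D7 ANA).
* `CmK`, `K.Ok`       the fixed constants: `mm` (= m), `cE`, `D0` ((3)), `c, C, C0` (outer regularity), `ca` (`x ≥ ca a`), `ce` (`e(x)x² ≥ ce nE²`), `Kg` (geometry), `CL` (`Lp ≤ CL log n`), `Cp q` (raw moments).
* `CmBase`            call + strength + numbers + geometry.            `CmStd`   = `CmBase` + a scale `x` with outer regularity and raw moments above it.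
* `P.R18 lam v`       the bracket of (18).            `cmW P lam x = max(x, √e(x))`.

EXITS
  `cm_x18`        (18)                                   users: cavity l.15, 100, 837, 1021, 1065-70; LL 07
  `cm_x_dt1_hi`, `cm_x_dt1_lo`     the right side of (18) against `x²/W`, `x²/(W²v)^{1/3}` (pure arithmetic)
  `cm_x19_mass`   (19), second assertion, mass form (with a POLYNOMIAL rate)
  `cm_x19_rad`    (19), second assertion, radius form (with a POLYNOMIAL rate `n^(-δ/16)`)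
  `cm_x19_int`    (19), first assertion
  `cm_x_Sband`    `S ≍ v` on the middle of a regular dyad `v ≥ C1 W`  (hypothesis of Lemma 3.7)
  `cm_x_select`   a point with small `D` in every window of mass `≥ n^(-c1) v` (Chebyshev; with Lemma 3.7 it gives the split `*`)
  `cm_x_ce_small`, `cm_x_ce_large`     Prop. 3.9 at a fixed strength (also for the wall variant)
-/

set_option autoImplicit false

namespace Claimed.Agent.R286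

open MeasureTheory Set

noncomputable section

/-- **(18)**: local second moments on regular outer dyads (with a fixed enlargement `Gam`) -/
theorem cm_x18 (K : CmK) (hK : K.Ok) {ε Gam : ℝ} (hε : 0 < ε) (hGam : 1 ≤ Gam) :
    ∃ (K1 C1 : ℝ) (n0 : ℕ), 0 < K1 ∧ 1 ≤ C1 ∧ ∀ (P : CmCall) (lam : ℝ) (q : CmQ P) (X : CmNum) (Z : CmCaps) (Lp x : ℝ),
      CmStd K P lam q X Z Lp x → n0 ≤ P.n → ∀ v : ℝ, C1 * x ≤ v → v ≤ 1 →
        ∫ u in Icc (v / Gam) (Gam * v) ∩ Icc P.u0 1, X.D u ^ 2 ≤ K1 * P.N ^ (2 * ε) * v * P.R18 lam v ^ 2 :=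
  cm6x_18 K hK hε hGam

/-- the cap and floor terms of (18) against `x²/W` -/
theorem cm6o_dt_tail {cE D0 ca cd : ℝ} (hc : 0 < cE) (ha : 0 < ca) (hd : 0 < cd) :
    ∃ K1 : ℝ, 0 < K1 ∧ ∀ (P : CmCall) (lam x : ℝ), P.Ok cE D0 → 0 < lam → lam ≤ P.d ^ 2 → 0 < x → ca * P.a ≤ x → cd * x ^ 2 ≤ P.e lam x →
      (P.N ^ (-P.dl) * P.E / P.d ^ 3) ^ (1 / 2 : ℝ) + P.N ^ (P.dl / 2) * P.us ≤ K1 * P.N ^ (-(3 * P.m / 2)) * (x ^ 2 / cmW P lam x) := by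
  obtain ⟨c2, hc2, hxW⟩ := cm_dt_xW (D0 := D0) hc hd ha
  refine ⟨(Real.sqrt (cE⁻¹ ^ 3) + cE⁻¹ ^ 3) / c2, by positivity, ?_⟩
  intro P lam x hP hl hl2 hx hxa hcd
  have hN := cm_N_pos hP
  have hN1 : 1 ≤ P.N := by linarith [cm_N_ge hP]
  have hE := cm_E_pos hc hP
  have hd0 := hP.d0
  have ha0 := cm_a_pos hc hP
  have hm := hP.m0
  have h1 : c2 * (P.a ^ 2 / P.d) ≤ x ^ 2 / cmW P lam x := hxW P hP lam x hl.le hl2 hx hxa hcd
  have hρ : P.d ^ 3 / (P.N ^ 2 * P.E ^ 3) ≤ cE⁻¹ ^ 3 * P.N ^ (-(3 * P.m)) := by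
    rw [div_le_iff₀ (by positivity)]; exact cm_d_nE hc hP
  have hρ0 : 0 < P.d ^ 3 / (P.N ^ 2 * P.E ^ 3) := by positivity
  have hNd : P.N ^ (-P.dl) ≤ 1 := Real.rpow_le_one_of_one_le_of_nonpos hN1 (by linarith [cm_dl_pos hP])
  have hs : Real.sqrt (P.N ^ (-(3 * P.m))) = P.N ^ (-(3 * P.m / 2)) := by
    rw [Real.sqrt_eq_rpow, ← Real.rpow_mul hN.le]; congr 1; ring
  have t3 : (P.N ^ (-P.dl) * P.E / P.d ^ 3) ^ (1 / 2 : ℝ) ≤ P.a ^ 2 / P.d * (Real.sqrt (cE⁻¹ ^ 3) * P.N ^ (-(3 * P.m / 2))) := by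
    rw [← Real.sqrt_eq_rpow, cm_dt_cap hc hP]
    refine mul_le_mul_of_nonneg_left ?_ (by positivity)
    rw [← hs, ← Real.sqrt_mul (by positivity)]
    refine Real.sqrt_le_sqrt ?_
    calc P.N ^ (-P.dl) * (P.d ^ 3 / (P.N ^ 2 * P.E ^ 3)) ≤ 1 * (cE⁻¹ ^ 3 * P.N ^ (-(3 * P.m))) :=
          mul_le_mul hNd hρ hρ0.le zero_le_one
      _ = _ := one_mul _
  have t4 : P.N ^ (P.dl / 2) * P.us ≤ P.a ^ 2 / P.d * (cE⁻¹ ^ 3 * P.N ^ (-(3 * P.m / 2))) := by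
    rw [cm_dt_floor hc hP]
    refine mul_le_mul_of_nonneg_left ?_ (by positivity)
    calc P.N ^ (P.dl / 2) * (P.d ^ 3 / (P.N ^ 2 * P.E ^ 3)) ≤ P.N ^ (P.dl / 2) * (cE⁻¹ ^ 3 * P.N ^ (-(3 * P.m))) :=
          mul_le_mul_of_nonneg_left hρ (by positivity)
      _ = cE⁻¹ ^ 3 * P.N ^ (P.dl / 2 + -(3 * P.m)) := by rw [Real.rpow_add hN]; ring
      _ ≤ cE⁻¹ ^ 3 * P.N ^ (-(3 * P.m / 2)) := by
          refine mul_le_mul_of_nonneg_left (Real.rpow_le_rpow_of_exponent_le hN1 ?_) (by positivity)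
          unfold CmCall.dl; linarith
  have h2 : P.a ^ 2 / P.d ≤ x ^ 2 / cmW P lam x / c2 := by
    rw [le_div_iff₀ hc2, mul_comm]; exact h1
  calc (P.N ^ (-P.dl) * P.E / P.d ^ 3) ^ (1 / 2 : ℝ) + P.N ^ (P.dl / 2) * P.us
      ≤ P.a ^ 2 / P.d * ((Real.sqrt (cE⁻¹ ^ 3) + cE⁻¹ ^ 3) * P.N ^ (-(3 * P.m / 2))) := by linarith
    _ ≤ x ^ 2 / cmW P lam x / c2 * ((Real.sqrt (cE⁻¹ ^ 3) + cE⁻¹ ^ 3) * P.N ^ (-(3 * P.m / 2))) :=
        mul_le_mul_of_nonneg_right h2 (by positivity)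
    _ = _ := by ring

/-- **DT1, high bands**: for `v ≥ c' W` the bracket of (18) is polynomially smaller than `x²/W`.
SKETCH (35; all ingredients in Cmp/Num sec. 5).  `W = max x √e(x)`.  (i) `cm_dt_e_ge` (`c = cd`, `G = max c' 1`): `e(c'W) ≥ c1 W²`; `cm_re_mono`: `v e(v) ≥ c'W e(c'W) ≥ c' c1 W³`, so `e(v) v² ≥ c'² c1 W⁴`.
(ii) term 1 `≤ (c' c1)^(-1/3) n^(-1/3)/W`, `n^(-1/3) ≤ A n^(-2m) x²` (`cm_dt_x`);   term 2 `≤ (c'² c1)^(-1/2) n^(-1/2)/W²`, `n^(-1/2) ≤ A' n^(-3m) x³`, `x ≤ W`.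
(iii) term 3 `= (a²/d) √(n^(-δ) ρ)` (`cm_dt_cap`, `Real.sqrt_eq_rpow`), term 4 `= (a²/d) n^(δ/2) ρ` (`cm_dt_floor`), `ρ = d³/(n²E³) ≤ cE⁻³ n^(-3m)` (`cm_d_nE`), `a²/d ≤ c2⁻¹ x²/W` (`cm_dt_xW`);  `δ = m/10000`, `n ≥ 1`: all exponents `≤ -3m/2`. -/
theorem cm_x_dt1_hi {cE D0 ca cd c' : ℝ} (hc : 0 < cE) (hD : 0 < D0) (ha : 0 < ca) (hd : 0 < cd) (hc' : 0 < c') :
    ∃ K1 : ℝ, 0 < K1 ∧ ∀ (P : CmCall) (lam x v : ℝ), P.Ok cE D0 → 0 < lam → lam ≤ P.d ^ 2 → 0 < x → ca * P.a ≤ x → cd * x ^ 2 ≤ P.e lam x →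
      c' * cmW P lam x ≤ v → v ≤ 1 → P.R18 lam v ≤ K1 * P.N ^ (-(3 * P.m / 2)) * (x ^ 2 / cmW P lam x) := by
  obtain ⟨Kt, hKt, htail⟩ := cm6o_dt_tail (D0 := D0) hc ha hd
  obtain ⟨c1, hc1, heW⟩ := cm_dt_e_ge (D0 := D0) hc hd (le_max_right c' 1)
  refine ⟨(c' * c1) ^ (-(1 / 3 : ℝ)) * (ca * cE)⁻¹ ^ 2 + (c' * (c' * c1)) ^ (-(1 / 2 : ℝ)) * (ca * cE)⁻¹ ^ 3 + Kt, by positivity, ?_⟩
  intro P lam x v hP hl hl2 hx hxa hcd hv hv1
  have hN := cm_N_pos hP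
  have hN1 : 1 ≤ P.N := by linarith [cm_N_ge hP]
  have hm := hP.m0
  have hW : 0 < cmW P lam x := lt_of_lt_of_le hx (le_max_left _ _)
  have hWx : x ≤ cmW P lam x := le_max_left _ _
  have hv0 : 0 < v := lt_of_lt_of_le (by positivity) hv
  have he := cm_e_pos P hl v
  -- `e(c'W) ≥ c1 W²`
  have h1 : c1 * cmW P lam x ^ 2 ≤ P.e lam (c' * cmW P lam x) :=
    heW P hP lam x (c' * cmW P lam x) hl.le hl2 hx hcd (by positivity) (mul_le_mul_of_nonneg_right (le_max_left _ _) hW.le)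
  have h2 : c' * cmW P lam x * P.e lam (c' * cmW P lam x) ≤ v * P.e lam v :=
    cm_re_mono P hP.d0 hl.le (show (0 : ℝ) ≤ c' * cmW P lam x by positivity) (show (0 : ℝ) ≤ v from hv0.le) hv
  have h3 : c' * c1 * cmW P lam x ^ 3 ≤ P.e lam v * v := by
    calc c' * c1 * cmW P lam x ^ 3 = c' * cmW P lam x * (c1 * cmW P lam x ^ 2) := by ring
      _ ≤ c' * cmW P lam x * P.e lam (c' * cmW P lam x) := mul_le_mul_of_nonneg_left h1 (by positivity)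
      _ ≤ v * P.e lam v := h2
      _ = _ := mul_comm _ _
  have h4 : c' * (c' * c1) * cmW P lam x ^ 4 ≤ P.e lam v * v ^ 2 := by
    calc c' * (c' * c1) * cmW P lam x ^ 4 = (c' * c1 * cmW P lam x ^ 3) * (c' * cmW P lam x) := by ring
      _ ≤ (P.e lam v * v) * v := mul_le_mul h3 hv (by positivity) (by positivity)
      _ = _ := by ring
  obtain ⟨hx1, hx2⟩ := cm_dt_x hc hP ha hxa
  have hE1 : P.N ^ (-(2 * P.m)) ≤ P.N ^ (-(3 * P.m / 2)) := Real.rpow_le_rpow_of_exponent_le hN1 (by linarith)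
  have hE2 : P.N ^ (-(3 * P.m)) ≤ P.N ^ (-(3 * P.m / 2)) := Real.rpow_le_rpow_of_exponent_le hN1 (by linarith)
  have hW3 : (cmW P lam x ^ 3) ^ (-(1 / 3 : ℝ)) = (cmW P lam x)⁻¹ := by
    rw [← Real.rpow_natCast, ← Real.rpow_mul hW.le, ← Real.rpow_neg_one]; congr 1; norm_num
  have hW4 : (cmW P lam x ^ 4) ^ (-(1 / 2 : ℝ)) = (cmW P lam x ^ 2)⁻¹ := by
    rw [← Real.rpow_natCast, ← Real.rpow_mul hW.le, ← Real.rpow_natCast, ← Real.rpow_neg hW.le]; congr 1; norm_num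
  have t1 : (P.N * P.e lam v * v) ^ (-(1 / 3 : ℝ)) ≤
      (c' * c1) ^ (-(1 / 3 : ℝ)) * (ca * cE)⁻¹ ^ 2 * P.N ^ (-(3 * P.m / 2)) * (x ^ 2 / cmW P lam x) := by
    calc (P.N * P.e lam v * v) ^ (-(1 / 3 : ℝ)) ≤ (P.N * ((c' * c1) * cmW P lam x ^ 3)) ^ (-(1 / 3 : ℝ)) := by
          refine Real.rpow_le_rpow_of_nonpos (by positivity) ?_ (by norm_num)
          rw [mul_assoc P.N]; exact mul_le_mul_of_nonneg_left h3 hN.le
      _ = P.N ^ (-(1 / 3 : ℝ)) * ((c' * c1) ^ (-(1 / 3 : ℝ)) * (cmW P lam x)⁻¹) := by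
          rw [Real.mul_rpow hN.le (by positivity), Real.mul_rpow (by positivity) (by positivity), hW3]
      _ ≤ ((ca * cE)⁻¹ ^ 2 * P.N ^ (-(3 * P.m / 2)) * x ^ 2) * ((c' * c1) ^ (-(1 / 3 : ℝ)) * (cmW P lam x)⁻¹) := by
          refine mul_le_mul_of_nonneg_right (hx1.trans ?_) (by positivity)
          exact mul_le_mul_of_nonneg_right (mul_le_mul_of_nonneg_left hE1 (by positivity)) (by positivity)
      _ = _ := by rw [div_eq_mul_inv]; ring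
  have t2 : (P.N * P.e lam v * v ^ 2) ^ (-(1 / 2 : ℝ)) ≤
      (c' * (c' * c1)) ^ (-(1 / 2 : ℝ)) * (ca * cE)⁻¹ ^ 3 * P.N ^ (-(3 * P.m / 2)) * (x ^ 2 / cmW P lam x) := by
    calc (P.N * P.e lam v * v ^ 2) ^ (-(1 / 2 : ℝ)) ≤ (P.N * ((c' * (c' * c1)) * cmW P lam x ^ 4)) ^ (-(1 / 2 : ℝ)) := by
          refine Real.rpow_le_rpow_of_nonpos (by positivity) ?_ (by norm_num)
          rw [mul_assoc P.N]; exact mul_le_mul_of_nonneg_left h4 hN.le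
      _ = P.N ^ (-(1 / 2 : ℝ)) * ((c' * (c' * c1)) ^ (-(1 / 2 : ℝ)) * (cmW P lam x ^ 2)⁻¹) := by
          rw [Real.mul_rpow hN.le (by positivity), Real.mul_rpow (by positivity) (by positivity), hW4]
      _ ≤ ((ca * cE)⁻¹ ^ 3 * P.N ^ (-(3 * P.m / 2)) * x ^ 3) * ((c' * (c' * c1)) ^ (-(1 / 2 : ℝ)) * (cmW P lam x ^ 2)⁻¹) := by
          refine mul_le_mul_of_nonneg_right (hx2.trans ?_) (by positivity)
          exact mul_le_mul_of_nonneg_right (mul_le_mul_of_nonneg_left hE2 (by positivity)) (by positivity)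
      _ = (c' * (c' * c1)) ^ (-(1 / 2 : ℝ)) * (ca * cE)⁻¹ ^ 3 * P.N ^ (-(3 * P.m / 2)) * (x ^ 2 / cmW P lam x * (x / cmW P lam x)) := by
          field_simp
      _ ≤ (c' * (c' * c1)) ^ (-(1 / 2 : ℝ)) * (ca * cE)⁻¹ ^ 3 * P.N ^ (-(3 * P.m / 2)) * (x ^ 2 / cmW P lam x * 1) := by
          refine mul_le_mul_of_nonneg_left (mul_le_mul_of_nonneg_left ?_ (by positivity)) (by positivity)
          rw [div_le_one hW]; exact hWx
      _ = _ := by rw [mul_one]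
  have t34 := htail P lam x hP hl hl2 hx hxa hcd
  unfold CmCall.R18
  calc _ ≤ (c' * c1) ^ (-(1 / 3 : ℝ)) * (ca * cE)⁻¹ ^ 2 * P.N ^ (-(3 * P.m / 2)) * (x ^ 2 / cmW P lam x)
        + (c' * (c' * c1)) ^ (-(1 / 2 : ℝ)) * (ca * cE)⁻¹ ^ 3 * P.N ^ (-(3 * P.m / 2)) * (x ^ 2 / cmW P lam x)
        + Kt * P.N ^ (-(3 * P.m / 2)) * (x ^ 2 / cmW P lam x) := by linarith
    _ = _ := by ring

/-- **DT1, between `x` and `W`**: for `c' x ≤ v ≤ G W` the bracket of (18) is polynomially smaller than `x²/(W² v)^{1/3}`.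
SKETCH (35).  `cm_dt_e_ge`: `e(v) ≥ c1 W²` for `v ≤ G W`.   term 1 `≤ c1^(-1/3) n^(-1/3)/(W² v)^(1/3)`;   term 2 `≤ c1^(-1/2) n^(-1/2)/(W v)` and `(W²v)^(1/3)/(W v) = W^(-1/3) v^(-2/3) ≤ c'^(-2/3)/x` (`W ≥ x`, `v ≥ c'x`);
terms 3, 4 as in `cm_x_dt1_hi`, then `x²/W ≤ G^(1/3) x²/(W² v)^(1/3)` (`v ≤ G W`). -/
theorem cm_x_dt1_lo {cE D0 ca cd c' G : ℝ} (hc : 0 < cE) (hD : 0 < D0) (ha : 0 < ca) (hd : 0 < cd) (hc' : 0 < c') (hG : 1 ≤ G) :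
    ∃ K1 : ℝ, 0 < K1 ∧ ∀ (P : CmCall) (lam x v : ℝ), P.Ok cE D0 → 0 < lam → lam ≤ P.d ^ 2 → 0 < x → ca * P.a ≤ x → cd * x ^ 2 ≤ P.e lam x →
      c' * x ≤ v → v ≤ G * cmW P lam x → v ≤ 1 → P.R18 lam v ≤ K1 * P.N ^ (-(3 * P.m / 2)) * (x ^ 2 / (cmW P lam x ^ 2 * v) ^ (1 / 3 : ℝ)) := by
  obtain ⟨Kt, hKt, htail⟩ := cm6o_dt_tail (D0 := D0) hc ha hd
  obtain ⟨c1, hc1, heW⟩ := cm_dt_e_ge (D0 := D0) hc hd hG
  have hG0 : 0 < G := by linarith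
  refine ⟨c1 ^ (-(1 / 3 : ℝ)) * (ca * cE)⁻¹ ^ 2 + c1 ^ (-(1 / 2 : ℝ)) * (ca * cE)⁻¹ ^ 3 * (G ^ (1 / 3 : ℝ) / c') + Kt * G ^ (1 / 3 : ℝ),
    by positivity, ?_⟩
  intro P lam x v hP hl hl2 hx hxa hcd hv hvG hv1
  have hN := cm_N_pos hP
  have hN1 : 1 ≤ P.N := by linarith [cm_N_ge hP]
  have hm := hP.m0
  have hW : 0 < cmW P lam x := lt_of_lt_of_le hx (le_max_left _ _)
  have hv0 : 0 < v := lt_of_lt_of_le (by positivity) hv
  have he := cm_e_pos P hl v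
  have h1 : c1 * cmW P lam x ^ 2 ≤ P.e lam v := heW P hP lam x v hl.le hl2 hx hcd hv0.le hvG
  set T : ℝ := (cmW P lam x ^ 2 * v) ^ (1 / 3 : ℝ) with hT
  have hT0 : 0 < T := by positivity
  have hTW : T ≤ G ^ (1 / 3 : ℝ) * cmW P lam x := by
    have h5 : cmW P lam x ^ 2 * v ≤ G * cmW P lam x ^ 3 := by
      calc cmW P lam x ^ 2 * v ≤ cmW P lam x ^ 2 * (G * cmW P lam x) := mul_le_mul_of_nonneg_left hvG (by positivity)
        _ = _ := by ring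
    have h6 : (cmW P lam x ^ 3) ^ (1 / 3 : ℝ) = cmW P lam x := by
      rw [← Real.rpow_natCast, ← Real.rpow_mul hW.le]; norm_num
    calc T ≤ (G * cmW P lam x ^ 3) ^ (1 / 3 : ℝ) := Real.rpow_le_rpow (by positivity) h5 (by norm_num)
      _ = _ := by rw [Real.mul_rpow hG0.le (by positivity), h6]
  obtain ⟨hx1, hx2⟩ := cm_dt_x hc hP ha hxa
  have hE1 : P.N ^ (-(2 * P.m)) ≤ P.N ^ (-(3 * P.m / 2)) := Real.rpow_le_rpow_of_exponent_le hN1 (by linarith)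
  have hE2 : P.N ^ (-(3 * P.m)) ≤ P.N ^ (-(3 * P.m / 2)) := Real.rpow_le_rpow_of_exponent_le hN1 (by linarith)
  have hTi : (cmW P lam x ^ 2 * v) ^ (-(1 / 3 : ℝ)) = T⁻¹ := by rw [Real.rpow_neg (by positivity)]
  have hWv : ((cmW P lam x * v) ^ 2) ^ (-(1 / 2 : ℝ)) = (cmW P lam x * v)⁻¹ := by
    rw [← Real.rpow_natCast, ← Real.rpow_mul (by positivity), ← Real.rpow_neg_one]; congr 1; norm_num
  have t1 : (P.N * P.e lam v * v) ^ (-(1 / 3 : ℝ)) ≤ c1 ^ (-(1 / 3 : ℝ)) * (ca * cE)⁻¹ ^ 2 * P.N ^ (-(3 * P.m / 2)) * (x ^ 2 / T) := by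
    calc (P.N * P.e lam v * v) ^ (-(1 / 3 : ℝ)) ≤ (P.N * (c1 * (cmW P lam x ^ 2 * v))) ^ (-(1 / 3 : ℝ)) := by
          refine Real.rpow_le_rpow_of_nonpos (by positivity) ?_ (by norm_num)
          rw [mul_assoc P.N, ← mul_assoc c1]
          exact mul_le_mul_of_nonneg_left (mul_le_mul_of_nonneg_right h1 hv0.le) hN.le
      _ = P.N ^ (-(1 / 3 : ℝ)) * (c1 ^ (-(1 / 3 : ℝ)) * T⁻¹) := by
          rw [Real.mul_rpow hN.le (by positivity), Real.mul_rpow hc1.le (by positivity), hTi]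
      _ ≤ ((ca * cE)⁻¹ ^ 2 * P.N ^ (-(3 * P.m / 2)) * x ^ 2) * (c1 ^ (-(1 / 3 : ℝ)) * T⁻¹) := by
          refine mul_le_mul_of_nonneg_right (hx1.trans ?_) (by positivity)
          exact mul_le_mul_of_nonneg_right (mul_le_mul_of_nonneg_left hE1 (by positivity)) (by positivity)
      _ = _ := by rw [div_eq_mul_inv]; ring
  have hxT : x ^ 3 * (cmW P lam x * v)⁻¹ ≤ G ^ (1 / 3 : ℝ) / c' * (x ^ 2 / T) := by
    have h7 : x ≤ v / c' := by rw [le_div_iff₀ hc', mul_comm]; exact hv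
    have h8 : x * T ≤ v / c' * (G ^ (1 / 3 : ℝ) * cmW P lam x) := mul_le_mul h7 hTW hT0.le (by positivity)
    rw [← div_eq_mul_inv, div_le_iff₀ (by positivity)]
    calc x ^ 3 = x ^ 2 / T * (x * T) := by field_simp
      _ ≤ x ^ 2 / T * (v / c' * (G ^ (1 / 3 : ℝ) * cmW P lam x)) := mul_le_mul_of_nonneg_left h8 (by positivity)
      _ = _ := by ring
  have t2 : (P.N * P.e lam v * v ^ 2) ^ (-(1 / 2 : ℝ)) ≤
      c1 ^ (-(1 / 2 : ℝ)) * (ca * cE)⁻¹ ^ 3 * (G ^ (1 / 3 : ℝ) / c') * P.N ^ (-(3 * P.m / 2)) * (x ^ 2 / T) := by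
    calc (P.N * P.e lam v * v ^ 2) ^ (-(1 / 2 : ℝ)) ≤ (P.N * (c1 * (cmW P lam x * v) ^ 2)) ^ (-(1 / 2 : ℝ)) := by
          refine Real.rpow_le_rpow_of_nonpos (by positivity) ?_ (by norm_num)
          rw [mul_assoc P.N]
          refine mul_le_mul_of_nonneg_left ?_ hN.le
          calc c1 * (cmW P lam x * v) ^ 2 = (c1 * cmW P lam x ^ 2) * v ^ 2 := by ring
            _ ≤ _ := mul_le_mul_of_nonneg_right h1 (by positivity)
      _ = P.N ^ (-(1 / 2 : ℝ)) * (c1 ^ (-(1 / 2 : ℝ)) * (cmW P lam x * v)⁻¹) := by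
          rw [Real.mul_rpow hN.le (by positivity), Real.mul_rpow hc1.le (by positivity), hWv]
      _ ≤ ((ca * cE)⁻¹ ^ 3 * P.N ^ (-(3 * P.m / 2)) * x ^ 3) * (c1 ^ (-(1 / 2 : ℝ)) * (cmW P lam x * v)⁻¹) := by
          refine mul_le_mul_of_nonneg_right (hx2.trans ?_) (by positivity)
          exact mul_le_mul_of_nonneg_right (mul_le_mul_of_nonneg_left hE2 (by positivity)) (by positivity)
      _ = c1 ^ (-(1 / 2 : ℝ)) * (ca * cE)⁻¹ ^ 3 * P.N ^ (-(3 * P.m / 2)) * (x ^ 3 * (cmW P lam x * v)⁻¹) := by ring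
      _ ≤ c1 ^ (-(1 / 2 : ℝ)) * (ca * cE)⁻¹ ^ 3 * P.N ^ (-(3 * P.m / 2)) * (G ^ (1 / 3 : ℝ) / c' * (x ^ 2 / T)) :=
          mul_le_mul_of_nonneg_left hxT (by positivity)
      _ = _ := by ring
  have hWT : x ^ 2 / cmW P lam x ≤ G ^ (1 / 3 : ℝ) * (x ^ 2 / T) := by
    rw [div_le_iff₀ hW]
    calc x ^ 2 = x ^ 2 / T * T := by field_simp
      _ ≤ x ^ 2 / T * (G ^ (1 / 3 : ℝ) * cmW P lam x) := mul_le_mul_of_nonneg_left hTW (by positivity)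
      _ = _ := by ring
  have t34 : (P.N ^ (-P.dl) * P.E / P.d ^ 3) ^ (1 / 2 : ℝ) + P.N ^ (P.dl / 2) * P.us ≤ Kt * G ^ (1 / 3 : ℝ) * P.N ^ (-(3 * P.m / 2)) * (x ^ 2 / T) := by
    calc _ ≤ Kt * P.N ^ (-(3 * P.m / 2)) * (x ^ 2 / cmW P lam x) := htail P lam x hP hl hl2 hx hxa hcd
      _ ≤ Kt * P.N ^ (-(3 * P.m / 2)) * (G ^ (1 / 3 : ℝ) * (x ^ 2 / T)) := mul_le_mul_of_nonneg_left hWT (by positivity)
      _ = _ := by ring
  unfold CmCall.R18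
  calc _ ≤ c1 ^ (-(1 / 3 : ℝ)) * (ca * cE)⁻¹ ^ 2 * P.N ^ (-(3 * P.m / 2)) * (x ^ 2 / T)
        + c1 ^ (-(1 / 2 : ℝ)) * (ca * cE)⁻¹ ^ 3 * (G ^ (1 / 3 : ℝ) / c') * P.N ^ (-(3 * P.m / 2)) * (x ^ 2 / T)
        + Kt * G ^ (1 / 3 : ℝ) * P.N ^ (-(3 * P.m / 2)) * (x ^ 2 / T) := by linarith
    _ = _ := by ring

/-- **(19), `D = o(x)`, mass form**, on the band `c' x ≤ u ≤ C' x`, `r(u) ≤ C' x` -/
theorem cm_x19_mass (K : CmK) (hK : K.Ok) {c' C' : ℝ} (hc' : 0 < c') (hC' : c' ≤ C') :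
    ∃ (K1 : ℝ) (n0 : ℕ), 0 < K1 ∧ ∀ (P : CmCall) (lam : ℝ) (q : CmQ P) (X : CmNum) (Z : CmCaps) (Lp x : ℝ),
      CmStd K P lam q X Z Lp x → n0 ≤ P.n →
        ∫ u in {u | u ∈ Icc (c' * x) (C' * x) ∩ Icc P.u0 1 ∧ q.r u ≤ C' * x}, X.D u ^ 2 ≤ K1 * P.N ^ (-P.m) * x ^ 3 :=
  cm19_mass K hK hc' hC'

/-- **(19), `D = o(x)`, radius form**, on `{r ≤ C' x, c' x ≤ α(r) ≤ C' x}` -/
theorem cm_x19_rad (K : CmK) (hK : K.Ok) {c' C' : ℝ} (hc' : 0 < c') (hC' : c' ≤ C') :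
    ∃ (K1 : ℝ) (n0 : ℕ), 0 < K1 ∧ ∀ (P : CmCall) (lam : ℝ) (q : CmQ P) (X : CmNum) (Z : CmCaps) (Lp x : ℝ),
      CmStd K P lam q X Z Lp x → n0 ≤ P.n →
        ∫ r in {r | r ∈ Icc P.rmin 1 ∧ r ≤ C' * x ∧ q.al r ∈ Icc (c' * x) (C' * x)}, X.D (q.al r) ^ 2 ≤ K1 * P.N ^ (-(P.dl / 16)) * x ^ 3 :=
  cm19_rad K hK hc' hC'

/-- **(19), first assertion**: `∫_0^{min(C' W, 1)} D_u du = o(x²)`, if `u0 ≤ κ x` -/
theorem cm_x19_int (K : CmK) (hK : K.Ok) {cd C' η : ℝ} (hd : 0 < cd) (hC' : 0 < C') (hη : 0 < η) :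
    ∃ (κ : ℝ) (n0 : ℕ), 0 < κ ∧ ∀ (P : CmCall) (lam : ℝ) (q : CmQ P) (X : CmNum) (Z : CmCaps) (Lp x : ℝ),
      CmStd K P lam q X Z Lp x → n0 ≤ P.n → cd * x ^ 2 ≤ P.e lam x → P.u0 ≤ κ * x →
        ∫ u in (0 : ℝ)..(min (C' * cmW P lam x) 1), X.D u ≤ η * x ^ 2 :=
  cm19_int K hK hd hC' hη (fun _ _ hc' hG => cm_x_dt1_lo hK.cE0 hK.D00 hK.ca0 hd hc' hG)

/-! ### helpers of `cm_x_Sband`, `cm_x_select` (helper35) -/

theorem cm6o_W_ge (P : CmCall) (lam x : ℝ) : x ≤ cmW P lam x := le_max_left _ _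

theorem cm6o_W_pos (P : CmCall) (lam : ℝ) {x : ℝ} (hx : 0 < x) : 0 < cmW P lam x := lt_of_lt_of_le hx (le_max_left _ _)

/-- `x²/W ≤ W` -/
theorem cm6o_xW_le (P : CmCall) (lam : ℝ) {x : ℝ} (hx : 0 < x) : x ^ 2 / cmW P lam x ≤ cmW P lam x := by
  have hW := cm6o_W_pos P lam hx
  have h1 := cm6o_W_ge P lam x
  rw [div_le_iff₀ hW]
  nlinarith

theorem cm6o_R18_nonneg {P : CmCall} {cE D0 lam v : ℝ} (hc : 0 < cE) (hP : P.Ok cE D0) (hl : 0 < lam) (hv : 0 ≤ v) : 0 ≤ P.R18 lam v := by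
  unfold CmCall.R18
  have hN := cm_N_pos hP
  have h5 := cm_us_pos hc hP
  have h6 := cm_e_pos P hl v
  have h7 := cm_E_pos hc hP
  have h8 := hP.d0
  have h9 : 0 ≤ (P.N * P.e lam v * v) ^ (-(1 / 3 : ℝ)) := Real.rpow_nonneg (by positivity) _
  have h10 : 0 ≤ (P.N * P.e lam v * v ^ 2) ^ (-(1 / 2 : ℝ)) := Real.rpow_nonneg (by positivity) _
  have h11 : 0 ≤ (P.N ^ (-P.dl) * P.E / P.d ^ 3) ^ (1 / 2 : ℝ) := Real.rpow_nonneg (by positivity) _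
  have h12 : 0 ≤ P.N ^ (P.dl / 2) * P.us := by positivity
  linarith

set_option maxHeartbeats 1000000 in
/-- a point of the window where `S` is close to the radius -/
theorem cm6o_good (K : CmK) (hK : K.Ok) {cd : ℝ} (hd : 0 < cd) :
    ∃ (C1 : ℝ) (n0 : ℕ), 1 ≤ C1 ∧ K.C0 ≤ C1 ∧ ∀ (P : CmCall) (lam : ℝ) (q : CmQ P) (X : CmNum) (Z : CmCaps) (Lp x : ℝ),
      CmStd K P lam q X Z Lp x → n0 ≤ P.n → cd * x ^ 2 ≤ P.e lam x → ∀ v : ℝ, C1 * cmW P lam x ≤ v → 2 * v ≤ 1 →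
        ∀ w1 w2 : ℝ, v ≤ w1 → w1 + v / 10 ≤ w2 → w2 ≤ 2 * v → ∃ u ∈ Icc w1 w2, |X.S u - q.r u| ≤ K.c / 2 * v := by
  have hm := hK.mm0
  have hc0 := hK.c0
  have hKg : 0 < K.Kg := by linarith [hK.Kg1]
  have hCL : 0 < K.CL := by linarith [hK.CL1]
  obtain ⟨K1, C1, n0, hK1, hC1, h18⟩ := cm_x18 K hK (ε := K.mm / 4) (Gam := 2) (by positivity) (by norm_num)
  obtain ⟨K2, hK2, hdt⟩ := cm_x_dt1_hi (cE := K.cE) (D0 := K.D0) (ca := K.ca) (cd := cd) (c' := 1) hK.cE0 hK.D00 hK.ca0 hd one_pos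
  obtain ⟨Cn, hCn, hlen⟩ := cm6b_len_le (cE := K.cE) (D0 := K.D0) hK.cE0 hK.D00
  set B : ℝ := K.cE⁻¹ ^ 3 / K.ca with hB
  have hB0 : 0 < B := by have := hK.cE0; have := hK.ca0; positivity
  obtain ⟨n1, hn1⟩ := cm6b_large (20 * B) (c := 3 * K.mm) (by positivity)
  obtain ⟨n2, hn2⟩ := cm6b_large_log (16 * K.Kg * K.CL ^ 2 * Cn ^ 2 * B ^ 2 / K.c ^ 2) 4 (c := 6 * K.mm) (by positivity)
  obtain ⟨n3, hn3⟩ := cm6b_large_log (320 * K1 * K2 ^ 2 * K.Kg ^ 2 * K.CL ^ 2 / K.c ^ 2) 2 (c := 5 * K.mm / 2) (by positivity)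
  refine ⟨max C1 K.C0, max (max n0 n1) (max n2 n3), le_max_of_le_left hC1, le_max_right _ _, ?_⟩
  intro P lam q X Z Lp x hS hn hcd v hv hv1 w1 w2 hw1 hw12 hw2
  have hP := hS.base.ok
  have hX := hS.base.num
  have hG := hS.base.geo
  have hN := cm_N_pos hP
  have hN1 : 1 ≤ P.N := by linarith [cm_N_ge hP]
  have hx := hS.x0
  have hW := cm6o_W_pos P lam hx
  have hWx := cm6o_W_ge P lam x
  have hmP : P.m = K.mm := hS.base.m_eq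
  have hΛ : 1 ≤ P.Lam := cm_Lam_ge_one hP
  have hΛ0 : 0 < P.Lam := by linarith
  have hvW1 : C1 * cmW P lam x ≤ v := le_trans (mul_le_mul_of_nonneg_right (le_max_left _ _) hW.le) hv
  have hvW : cmW P lam x ≤ v := le_trans (by nlinarith) hvW1
  have hv0 : 0 < v := lt_of_lt_of_le hW hvW
  have hvx : C1 * x ≤ v := le_trans (mul_le_mul_of_nonneg_left hWx (by linarith)) hvW1
  have hxv : x ≤ v := hWx.trans hvW
  have h1 := h18 P lam q X Z Lp x hS (le_trans (le_trans (le_max_left _ _) (le_max_left _ _)) hn) v hvx (by linarith)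
  have h2 := hdt P lam x v hP hS.base.lam0 hS.base.lam1 hx hS.xa hcd (by linarith) (by linarith)
  have hL1 : 20 * B < P.N ^ (3 * P.m) := by
    rw [hmP]; exact hn1 P.n (le_trans (le_trans (le_max_right _ _) (le_max_left _ _)) hn)
  have hL2 : 16 * K.Kg * K.CL ^ 2 * Cn ^ 2 * B ^ 2 / K.c ^ 2 * P.Lam ^ 4 < P.N ^ (6 * P.m) := by
    rw [hmP]; exact hn2 P.n (le_trans (le_trans (le_max_left _ _) (le_max_right _ _)) hn)
  have hL3 : 320 * K1 * K2 ^ 2 * K.Kg ^ 2 * K.CL ^ 2 / K.c ^ 2 * P.Lam ^ 2 < P.N ^ (5 * P.m / 2) := by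
    rw [hmP]; exact hn3 P.n (le_trans (le_trans (le_max_right _ _) (le_max_right _ _)) hn)
  -- `u_* ≤ B n^(-3m) v`
  have hus0 := cm_us_pos hK.cE0 hP
  have hus : P.us ≤ B * P.N ^ (-(3 * P.m)) * v := by
    have h3 := cm_us_a hK.cE0 hP
    have h4 : P.a ≤ v / K.ca := by
      rw [le_div_iff₀ hK.ca0, mul_comm]; exact hS.xa.trans hxv
    calc P.us ≤ K.cE⁻¹ ^ 3 * P.N ^ (-(3 * P.m)) * P.a := h3
      _ ≤ K.cE⁻¹ ^ 3 * P.N ^ (-(3 * P.m)) * (v / K.ca) := mul_le_mul_of_nonneg_left h4 (by have := hK.cE0; positivity)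
      _ = B * P.N ^ (-(3 * P.m)) * v := by rw [hB]; ring
  have hNd : P.N ^ (-P.dl) ≤ 1 := Real.rpow_le_one_of_one_le_of_nonpos hN1 (by linarith [cm_dl_pos hP])
  have hNd0 : 0 < P.N ^ (-P.dl) := by positivity
  have e3 : P.N ^ (-(3 * P.m)) * P.N ^ (3 * P.m) = 1 := by
    rw [← Real.rpow_add hN]; simp
  have hfl : P.N ^ (-P.dl) * P.us ≤ v / 20 := by
    have h5 : B * P.N ^ (-(3 * P.m)) ≤ 1 / 20 := by
      have h6 : 0 < P.N ^ (-(3 * P.m)) := by positivity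
      have h7 : 20 * B * P.N ^ (-(3 * P.m)) ≤ P.N ^ (3 * P.m) * P.N ^ (-(3 * P.m)) := mul_le_mul_of_nonneg_right hL1.le h6.le
      rw [mul_comm (P.N ^ (3 * P.m)), e3] at h7
      linarith
    calc P.N ^ (-P.dl) * P.us ≤ 1 * P.us := mul_le_mul_of_nonneg_right hNd hus0.le
      _ ≤ B * P.N ^ (-(3 * P.m)) * v := by rw [one_mul]; exact hus
      _ ≤ 1 / 20 * v := mul_le_mul_of_nonneg_right h5 hv0.le
      _ = v / 20 := by ring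
  -- the selection
  set t : ℝ := K.c * v / (4 * K.Kg * K.CL * P.Lam) with ht
  have ht0 : 0 < t := by positivity
  have hu0 : P.u0 ≤ w1 := hS.u0x.trans (hxv.trans hw1)
  have hw12' : w1 ≤ w2 := by linarith
  have hw21 : w2 ≤ 1 := by linarith
  have hsub : Icc w1 w2 ⊆ Icc (v / 2) (2 * v) ∩ Icc P.u0 1 := fun u hu =>
    ⟨⟨by linarith [hu.1], hu.2.trans hw2⟩, ⟨hu0.trans hu.1, hu.2.trans hw21⟩⟩
  have hbig01 : Icc (v / 2) (2 * v) ∩ Icc P.u0 1 ⊆ Icc (0 : ℝ) 1 := fun u hu => ⟨hP.u00.trans hu.2.1, hu.2.2⟩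
  have h3 : ∫ u in Icc w1 w2, X.D u ^ 2 ≤ ∫ u in Icc (v / 2) (2 * v) ∩ Icc P.u0 1, X.D u ^ 2 :=
    setIntegral_mono_set (cm6b_D2_int hX (measurableSet_Icc.inter measurableSet_Icc) hbig01)
      (Filter.Eventually.of_forall fun u => sq_nonneg _) (Filter.Eventually.of_forall hsub)
  have hR0 : 0 ≤ P.R18 lam v := cm6o_R18_nonneg hK.cE0 hP hS.base.lam0 hv0.le
  have hxW0 : 0 < x ^ 2 / cmW P lam x := by positivity
  have hxWv : x ^ 2 / cmW P lam x ≤ v := (cm6o_xW_le P lam hx).trans hvW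
  have h4 : P.R18 lam v ^ 2 ≤ (K2 * P.N ^ (-(3 * P.m / 2)) * v) ^ 2 :=
    pow_le_pow_left₀ hR0 (h2.trans (mul_le_mul_of_nonneg_left hxWv (by positivity))) 2
  have e1 : P.N ^ (2 * (K.mm / 4)) * (P.N ^ (-(3 * P.m / 2))) ^ 2 * P.N ^ (5 * P.m / 2) = 1 := by
    rw [← hmP, ← Real.rpow_natCast, ← Real.rpow_mul hN.le, ← Real.rpow_add hN, ← Real.rpow_add hN]
    have : 2 * (P.m / 4) + -(3 * P.m / 2) * ((2 : ℕ) : ℝ) + 5 * P.m / 2 = 0 := by push_cast; ring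
    rw [this, Real.rpow_zero]
  have hI : ∫ u in Icc w1 w2, X.D u ^ 2 < t ^ 2 * (w2 - w1 - P.N ^ (-P.dl) * P.us) := by
    set Y : ℝ := P.N ^ (2 * (K.mm / 4)) * (P.N ^ (-(3 * P.m / 2))) ^ 2 with hY
    have hY0 : 0 < Y := by positivity
    have h5 : 320 * K1 * K2 ^ 2 * K.Kg ^ 2 * K.CL ^ 2 / K.c ^ 2 * P.Lam ^ 2 * Y < 1 := by
      have := mul_lt_mul_of_pos_right hL3 hY0
      rwa [mul_comm (P.N ^ (5 * P.m / 2)), e1] at this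
    have h6 : K1 * K2 ^ 2 * Y < K.c ^ 2 / (320 * K.Kg ^ 2 * K.CL ^ 2 * P.Lam ^ 2) := by
      rw [lt_div_iff₀ (by positivity)]
      have h7 : 320 * K1 * K2 ^ 2 * K.Kg ^ 2 * K.CL ^ 2 / K.c ^ 2 * P.Lam ^ 2 * Y * K.c ^ 2 < 1 * K.c ^ 2 :=
        mul_lt_mul_of_pos_right h5 (by positivity)
      have h8 : 320 * K1 * K2 ^ 2 * K.Kg ^ 2 * K.CL ^ 2 / K.c ^ 2 * P.Lam ^ 2 * Y * K.c ^ 2
          = K1 * K2 ^ 2 * Y * (320 * K.Kg ^ 2 * K.CL ^ 2 * P.Lam ^ 2) := by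
        field_simp
      linarith
    calc ∫ u in Icc w1 w2, X.D u ^ 2 ≤ K1 * P.N ^ (2 * (K.mm / 4)) * v * P.R18 lam v ^ 2 := h3.trans h1
      _ ≤ K1 * P.N ^ (2 * (K.mm / 4)) * v * (K2 * P.N ^ (-(3 * P.m / 2)) * v) ^ 2 := mul_le_mul_of_nonneg_left h4 (by positivity)
      _ = (K1 * K2 ^ 2 * Y) * v ^ 3 := by rw [hY]; ring
      _ < K.c ^ 2 / (320 * K.Kg ^ 2 * K.CL ^ 2 * P.Lam ^ 2) * v ^ 3 := mul_lt_mul_of_pos_right h6 (by positivity)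
      _ = t ^ 2 * (v / 20) := by rw [ht]; field_simp; ring
      _ ≤ t ^ 2 * (w2 - w1 - P.N ^ (-P.dl) * P.us) := mul_le_mul_of_nonneg_left (by linarith) (sq_nonneg _)
  obtain ⟨u, hu, hu', hDu⟩ := cm6b_select hK.cE0 hP hX hG hu0 hw12' hw21 ht0 hI
  refine ⟨u, hu, ?_⟩
  have hu01 : u ∈ Icc (0 : ℝ) 1 := ⟨hP.u00.trans (hu0.trans hu.1), hu.2.trans hw21⟩
  have hmis := cm6b_mis_pt hK.cE0 hP hG hu' (hlen P lam q X Z K.Kg Lp hP hG)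
  have hLp0 : 0 < Lp := by linarith [hG.Lp1]
  have hLp : Lp ^ 2 ≤ (K.CL * P.Lam) ^ 2 := pow_le_pow_left₀ hLp0.le hS.base.Lp_le 2
  have hD2 : X.D u ^ 2 ≤ t ^ 2 := pow_le_pow_left₀ (hX.D_nn u hu01) hDu 2
  -- the length term
  have hl0 : Cn * P.Lam * (P.N ^ (-P.dl) * P.L) ≤ Cn * P.Lam * (B * P.N ^ (-(3 * P.m)) * v) := by
    refine mul_le_mul_of_nonneg_left ?_ (by positivity)
    calc P.N ^ (-P.dl) * P.L ≤ 1 * P.us := mul_le_mul hNd cm_L_le_us (cm_L_pos hK.cE0 hP).le zero_le_one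
      _ ≤ _ := by rw [one_mul]; exact hus
  have hl00 : 0 ≤ Cn * P.Lam * (P.N ^ (-P.dl) * P.L) := by have := cm_L_pos hK.cE0 hP; positivity
  have hl2 : (Cn * P.Lam * (P.N ^ (-P.dl) * P.L)) ^ 2 ≤ (Cn * P.Lam * (B * P.N ^ (-(3 * P.m)) * v)) ^ 2 := pow_le_pow_left₀ hl00 hl0 2
  have e6 : (P.N ^ (-(3 * P.m))) ^ 2 * P.N ^ (6 * P.m) = 1 := by
    rw [← Real.rpow_natCast, ← Real.rpow_mul hN.le, ← Real.rpow_add hN]
    have : -(3 * P.m) * ((2 : ℕ) : ℝ) + 6 * P.m = 0 := by push_cast; ring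
    rw [this, Real.rpow_zero]
  have hA : K.Kg * (K.CL * P.Lam) ^ 2 * (Cn * P.Lam * (B * P.N ^ (-(3 * P.m)) * v)) ^ 2 ≤ K.c ^ 2 * v ^ 2 / 16 := by
    set Y : ℝ := (P.N ^ (-(3 * P.m))) ^ 2 with hY
    have hY0 : 0 < Y := by positivity
    have h5 : 16 * K.Kg * K.CL ^ 2 * Cn ^ 2 * B ^ 2 / K.c ^ 2 * P.Lam ^ 4 * Y < 1 := by
      have := mul_lt_mul_of_pos_right hL2 hY0
      rwa [mul_comm (P.N ^ (6 * P.m)), e6] at this
    have h7 : 16 * K.Kg * K.CL ^ 2 * Cn ^ 2 * B ^ 2 / K.c ^ 2 * P.Lam ^ 4 * Y * (K.c ^ 2 * v ^ 2 / 16) ≤ 1 * (K.c ^ 2 * v ^ 2 / 16) :=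
      mul_le_mul_of_nonneg_right h5.le (by positivity)
    have h8 : 16 * K.Kg * K.CL ^ 2 * Cn ^ 2 * B ^ 2 / K.c ^ 2 * P.Lam ^ 4 * Y * (K.c ^ 2 * v ^ 2 / 16)
        = K.Kg * (K.CL * P.Lam) ^ 2 * (Cn * P.Lam * (B * P.N ^ (-(3 * P.m)) * v)) ^ 2 := by
      rw [hY]; field_simp
    linarith
  have hT : K.Kg * (K.CL * P.Lam) ^ 2 * t ^ 2 ≤ K.c ^ 2 * v ^ 2 / 16 := by
    have h9 : K.Kg * (K.CL * P.Lam) ^ 2 * t ^ 2 = K.c ^ 2 * v ^ 2 / 16 / K.Kg := by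
      rw [ht]; field_simp; ring
    rw [h9]
    exact div_le_self (by positivity) hK.Kg1
  have hfin : (X.S u - q.r u) ^ 2 ≤ (K.c / 2 * v) ^ 2 := by
    calc (X.S u - q.r u) ^ 2 ≤ K.Kg * Lp ^ 2 * (X.D u ^ 2 + (Cn * P.Lam * (P.N ^ (-P.dl) * P.L)) ^ 2) := hmis
      _ ≤ K.Kg * (K.CL * P.Lam) ^ 2 * (t ^ 2 + (Cn * P.Lam * (B * P.N ^ (-(3 * P.m)) * v)) ^ 2) := by
          refine mul_le_mul (mul_le_mul_of_nonneg_left hLp hKg.le) (add_le_add hD2 hl2) (by positivity) (by positivity)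
      _ ≤ K.c ^ 2 * v ^ 2 / 16 + K.c ^ 2 * v ^ 2 / 16 := by rw [mul_add]; exact add_le_add hT hA
      _ ≤ (K.c / 2 * v) ^ 2 := by
          have h10 : (K.c / 2 * v) ^ 2 = K.c ^ 2 * v ^ 2 / 4 := by ring
          have h11 : 0 ≤ K.c ^ 2 * v ^ 2 := by positivity
          rw [h10]; linarith
  exact abs_le_of_sq_le_sq hfin (by positivity)

/-- **`S ≍ v` on the middle of a regular dyad** `[v,2v]`, `v ≥ C1 W` (l.1203-1207) -/
theorem cm_x_Sband (K : CmK) (hK : K.Ok) {cd : ℝ} (hd : 0 < cd) :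
    ∃ (C1 : ℝ) (n0 : ℕ), 1 ≤ C1 ∧ ∀ (P : CmCall) (lam : ℝ) (q : CmQ P) (X : CmNum) (Z : CmCaps) (Lp x : ℝ),
      CmStd K P lam q X Z Lp x → n0 ≤ P.n → cd * x ^ 2 ≤ P.e lam x → ∀ v : ℝ, C1 * cmW P lam x ≤ v → 2 * v ≤ 1 →
        ∀ u ∈ Icc (11 / 10 * v) (19 / 10 * v), K.c / 2 * v ≤ X.S u ∧ X.S u ≤ 3 * K.C * v := by
  obtain ⟨C1, n0, hC1, hC0, hgood⟩ := cm6o_good K hK hd
  refine ⟨C1, n0, hC1, ?_⟩
  intro P lam q X Z Lp x hS hn hcd v hv hv1 u hu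
  have hP := hS.base.ok
  have hX := hS.base.num
  have hx := hS.x0
  have hW := cm6o_W_pos P lam hx
  have hWx := cm6o_W_ge P lam x
  have hvW : cmW P lam x ≤ v := le_trans (by nlinarith) hv
  have hv0 : 0 < v := lt_of_lt_of_le hW hvW
  have hxv : x ≤ v := hWx.trans hvW
  have hC0v : K.C0 * x ≤ v := le_trans (mul_le_mul hC0 hWx hx.le (by linarith)) hv
  have hc0 := hK.c0
  have hc1 := hK.c1
  have hCC := hK.C1
  obtain ⟨a, ha, ha'⟩ := hgood P lam q X Z Lp x hS hn hcd v hv hv1 v (11 / 10 * v) le_rfl (by linarith) (by linarith)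
  obtain ⟨b, hb, hb'⟩ := hgood P lam q X Z Lp x hS hn hcd v hv hv1 (19 / 10 * v) (2 * v) (by linarith) (by linarith) le_rfl
  have h01 : ∀ w, v ≤ w → w ≤ 2 * v → w ∈ Icc (0 : ℝ) 1 := fun w h1 h2 => ⟨by linarith, by linarith⟩
  have hra := hS.reg a (hC0v.trans ha.1) (by linarith [ha.2]) (hS.u0x.trans (hxv.trans ha.1))
  have hrb := hS.reg b (hC0v.trans (by linarith [hb.1])) (by linarith [hb.2]) (hS.u0x.trans (hxv.trans (by linarith [hb.1])))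
  have hSa := hX.S_mono (h01 a ha.1 (by linarith [ha.2])) (h01 u (by linarith [hu.1]) (by linarith [hu.2])) (ha.2.trans hu.1)
  have hSb := hX.S_mono (h01 u (by linarith [hu.1]) (by linarith [hu.2])) (h01 b (by linarith [hb.1]) hb.2) (hu.2.trans hb.1)
  have ha2 := abs_le.1 ha'
  have hb2 := abs_le.1 hb'
  constructor
  · have : K.c * v ≤ K.c * a := mul_le_mul_of_nonneg_left ha.1 hc0.le
    linarith [ha2.1, hra.1]
  · have h1 : K.C * b ≤ K.C * (2 * v) := mul_le_mul_of_nonneg_left hb.2 (by linarith)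
    have h2 : K.c / 2 * v ≤ K.C * v := by nlinarith
    linarith [hb2.2, hrb.2]

/-- **selection of a point with small `D`** in a window of mass at least `n^(-m) v` inside a regular band at the scale `v ≥ C1 W` (l.1208-1216) -/
theorem cm_x_select (K : CmK) (hK : K.Ok) {cd Gam : ℝ} (hd : 0 < cd) (hGam : 1 ≤ Gam) :
    ∃ (C1 : ℝ) (n0 : ℕ), 1 ≤ C1 ∧ ∀ (P : CmCall) (lam : ℝ) (q : CmQ P) (X : CmNum) (Z : CmCaps) (Lp x : ℝ),
      CmStd K P lam q X Z Lp x → n0 ≤ P.n → cd * x ^ 2 ≤ P.e lam x → ∀ v : ℝ, C1 * cmW P lam x ≤ v → v ≤ 1 →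
        ∀ w1 w2 : ℝ, v / Gam ≤ w1 → w2 ≤ Gam * v → w2 ≤ 1 → P.N ^ (-P.m) * v ≤ w2 - w1 →
          ∃ u ∈ Icc w1 w2, X.D u ≤ P.N ^ (-(P.m / 2)) * (x ^ 2 / cmW P lam x) := by
  have hm := hK.mm0
  obtain ⟨K1, C1, n0, hK1, hC1, h18⟩ := cm_x18 K hK (ε := K.mm / 4) (Gam := Gam) (by positivity) hGam
  obtain ⟨K2, hK2, hdt⟩ := cm_x_dt1_hi (cE := K.cE) (D0 := K.D0) (ca := K.ca) (cd := cd) (c' := 1) hK.cE0 hK.D00 hK.ca0 hd one_pos
  obtain ⟨n1, hn1⟩ := cm6b_large (K1 * K2 ^ 2) (c := K.mm / 2) (by positivity)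
  refine ⟨max C1 Gam, max n0 n1, le_max_of_le_left hC1, ?_⟩
  intro P lam q X Z Lp x hS hn hcd v hv hv1 w1 w2 hw1 hw2 hw21 hww
  have hP := hS.base.ok
  have hX := hS.base.num
  have hN := cm_N_pos hP
  have hx := hS.x0
  have hW := cm6o_W_pos P lam hx
  have hWx := cm6o_W_ge P lam x
  have hmP : P.m = K.mm := hS.base.m_eq
  have hGam0 : 0 < Gam := by linarith
  have hvW1 : C1 * cmW P lam x ≤ v := le_trans (mul_le_mul_of_nonneg_right (le_max_left _ _) hW.le) hv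
  have hvW2 : Gam * cmW P lam x ≤ v := le_trans (mul_le_mul_of_nonneg_right (le_max_right _ _) hW.le) hv
  have hv0 : 0 < v := lt_of_lt_of_le (by positivity) hvW2
  have hvx : C1 * x ≤ v := le_trans (mul_le_mul_of_nonneg_left hWx (by linarith)) hvW1
  have hvW : 1 * cmW P lam x ≤ v := le_trans (mul_le_mul_of_nonneg_right hGam hW.le) hvW2
  have h1 := h18 P lam q X Z Lp x hS (le_trans (le_max_left _ _) hn) v hvx hv1
  have h2 := hdt P lam x v hP hS.base.lam0 hS.base.lam1 hx hS.xa hcd hvW hv1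
  have hw1W : cmW P lam x ≤ w1 := by
    refine le_trans ?_ hw1
    rw [le_div_iff₀ hGam0, mul_comm]; exact hvW2
  have hu0 : P.u0 ≤ w1 := le_trans hS.u0x (le_trans hWx hw1W)
  have hw10 : 0 ≤ w1 := le_trans hW.le hw1W
  have hNm : 0 < P.N ^ (-P.m) * v := by positivity
  have hw12 : w1 ≤ w2 := by linarith
  set t : ℝ := P.N ^ (-(P.m / 2)) * (x ^ 2 / cmW P lam x) with ht
  have hxW0 : 0 < x ^ 2 / cmW P lam x := by positivity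
  have ht0 : 0 < t := by positivity
  refine cm6b_cheb hX hw10 hw12 hw21 ht0.le ?_
  -- the integral over the window
  have hsub : Icc w1 w2 ⊆ Icc (v / Gam) (Gam * v) ∩ Icc P.u0 1 := fun u hu =>
    ⟨⟨hw1.trans hu.1, hu.2.trans hw2⟩, ⟨hu0.trans hu.1, hu.2.trans hw21⟩⟩
  have hbig01 : Icc (v / Gam) (Gam * v) ∩ Icc P.u0 1 ⊆ Icc (0 : ℝ) 1 := fun u hu => ⟨hP.u00.trans hu.2.1, hu.2.2⟩
  have h3 : ∫ u in Icc w1 w2, X.D u ^ 2 ≤ ∫ u in Icc (v / Gam) (Gam * v) ∩ Icc P.u0 1, X.D u ^ 2 :=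
    setIntegral_mono_set (cm6b_D2_int hX (measurableSet_Icc.inter measurableSet_Icc) hbig01)
      (Filter.Eventually.of_forall fun u => sq_nonneg _) (Filter.Eventually.of_forall hsub)
  have hR0 : 0 ≤ P.R18 lam v := cm6o_R18_nonneg hK.cE0 hP hS.base.lam0 hv0.le
  have h4 : P.R18 lam v ^ 2 ≤ (K2 * P.N ^ (-(3 * P.m / 2)) * (x ^ 2 / cmW P lam x)) ^ 2 := pow_le_pow_left₀ hR0 h2 2
  have hlarge : K1 * K2 ^ 2 < P.N ^ (P.m / 2) := by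
    have := hn1 P.n (le_trans (le_max_right _ _) hn)
    rw [hmP]; exact this
  -- exponents
  have e1 : P.N ^ (2 * (K.mm / 4)) * (P.N ^ (-(3 * P.m / 2))) ^ 2 * P.N ^ (P.m / 2) = P.N ^ (-P.m) * (P.N ^ (-(P.m / 2))) ^ 2 := by
    rw [← hmP, ← Real.rpow_natCast, ← Real.rpow_natCast, ← Real.rpow_mul hN.le, ← Real.rpow_mul hN.le, ← Real.rpow_add hN, ← Real.rpow_add hN,
      ← Real.rpow_add hN]
    congr 1
    push_cast
    ring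
  calc ∫ u in Icc w1 w2, X.D u ^ 2 ≤ K1 * P.N ^ (2 * (K.mm / 4)) * v * P.R18 lam v ^ 2 := h3.trans h1
    _ ≤ K1 * P.N ^ (2 * (K.mm / 4)) * v * (K2 * P.N ^ (-(3 * P.m / 2)) * (x ^ 2 / cmW P lam x)) ^ 2 :=
        mul_le_mul_of_nonneg_left h4 (by positivity)
    _ = (K1 * K2 ^ 2) * (P.N ^ (2 * (K.mm / 4)) * (P.N ^ (-(3 * P.m / 2))) ^ 2) * (v * (x ^ 2 / cmW P lam x) ^ 2) := by ring
    _ < P.N ^ (P.m / 2) * (P.N ^ (2 * (K.mm / 4)) * (P.N ^ (-(3 * P.m / 2))) ^ 2) * (v * (x ^ 2 / cmW P lam x) ^ 2) := by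
        refine mul_lt_mul_of_pos_right (mul_lt_mul_of_pos_right hlarge (by positivity)) (by positivity)
    _ = (P.N ^ (-P.m) * (P.N ^ (-(P.m / 2))) ^ 2) * (v * (x ^ 2 / cmW P lam x) ^ 2) := by rw [← e1]; ring
    _ = t ^ 2 * (P.N ^ (-P.m) * v) := by rw [ht]; ring
    _ ≤ t ^ 2 * (w2 - w1) := mul_le_mul_of_nonneg_left hww (sq_nonneg _)

/-- **Prop. 3.9, `A_λ` small**: regular outer region and raw moments above `A_λ` -/
theorem cm_x_ce_small (K : CmK) (hK : K.Ok) :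
    ∃ (κ0 : ℝ) (n0 : ℕ), 0 < κ0 ∧ ∀ (P : CmCall) (lam : ℝ) (q : CmQ P) (X : CmNum) (Z : CmCaps) (Lp : ℝ),
      CmBase K P lam q X Z Lp → n0 ≤ P.n → P.N ^ (-(10 : ℝ)) ≤ lam → P.Al lam ≤ κ0 → P.u0 ≤ P.Al lam →
      q.Reg K.c K.C K.C0 (P.Al lam) → X.Raw (P.Al lam) K.Cp →
        (1 / 4) * ∫ u in P.u0..1, P.e lam (q.r u) * (X.D u ^ 2 + (X.S u - q.r u) ^ 2) ≤ P.N ^ (10 * P.dl) * P.E :=
  cm6e_small K hK

/-- **Prop. 3.9, `A_λ` bounded below**: no regularity hypothesis -/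
theorem cm_x_ce_large (K : CmK) (hK : K.Ok) {κ0 : ℝ} (hκ : 0 < κ0) :
    ∃ n0 : ℕ, ∀ (P : CmCall) (lam : ℝ) (q : CmQ P) (X : CmNum) (Z : CmCaps) (Lp : ℝ),
      CmBase K P lam q X Z Lp → n0 ≤ P.n → P.N ^ (-(10 : ℝ)) ≤ lam → κ0 ≤ P.Al lam →
        (1 / 4) * ∫ u in P.u0..1, P.e lam (q.r u) * (X.D u ^ 2 + (X.S u - q.r u) ^ 2) ≤ P.N ^ (10 * P.dl) * P.E :=
  cm6e_large K hK hκ

end

end Claimed.Agent.R286
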