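import Mathlib

/-!
# Row 286 (S0533), PE Section 3: THE HIERARCHY-FREE TOOLKIT of package P05      (owner helper175; prefix `cm_tk_`; Mathlib only; COMPLETE)

Numbering = notes of helper247 (`origin/helper247:notes/R286/P05_helper247.md`, "Toolkit").
* **T1** `cm_tk_odd`, `cm_tk_odd_even`   uniform monotonicity of odd powers: `|a-b|^p ≤ 2^(p-2) (a^(p-1) - b^(p-1)) (a-b)`, `p` even.
* **T2** `cm_tk_rec`, `cm_tk_rec_e`      the recursion of Lemma 3.5: `a_{k+1}^p ≤ K a_k^{p-1}`, `a_0 ≤ K R` ⇒ `a_N ≤ K R^{(1-1/p)^N}`; `≤ e K` once `log R ≤ e^{N/p}`.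
* **T3** `cm_tk_comp`                    compensator bound `E A_N^(p+1) ≤ (p+1)^(p+1) E U_N^(p+1)`, model free (the conditional expectation enters
                                         only through `E[A_{j+1}^p q_j] ≤ E[A_{j+1}^p (U_{j+1} - U_j)]`); pointwise parts `cm_tk_tele`, `cm_tk_abel`.
* **T4** `cm_tk_grid`, `cm_tk_grid_Icc`  shifted-grid identity; `cm_tk_jensen`, `cm_tk_mink`: Jensen for powers, Minkowski in the form used with the grids.
* **T7** `cm_tk_exp_mom`, `cm_tk_subg_mom`   even moments from exponential moments: `E e^{θX} ≤ M e^{θ² s/2}` (all `θ`) ⇒ `E X^(2k) ≤ 2 M e^{1/2} (2k)! s^k`.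
* **T8** `cm_tk_holder`                  Hölder for `k` factors, natural exponent: `|E ∏_{i∈s} f_i|^k ≤ ∏ E |f_i|^k`, `k = card s`; `cm_tk_amgm`.
* **T9** `cm_tk_window`, `cm_tk_window_osc`   window pigeonhole of Lemma 3.7.
* elementary: `cm_tk_pow_sub_le`, `cm_tk_le_pow_sub`, `cm_tk_young` (`(p+1) a^p b ≤ p a^(p+1) + b^(p+1)`).
-/

set_option autoImplicit false

namespace Claimed.Agent.R286

open MeasureTheory Set Finset

/-- **T1** (uniform monotonicity of odd powers), exponent `2k+1` -/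
theorem cm_tk_odd (k : ℕ) : ∀ a b : ℝ, (a - b) ^ (2 * k + 2) ≤ 4 ^ k * ((a ^ (2 * k + 1) - b ^ (2 * k + 1)) * (a - b)) := by
  induction k with
  | zero => intro a b; simp; nlinarith [sq_nonneg (a - b)]
  | succ k ih =>
    intro a b
    have h1 := ih a b
    have h2 := ih a (-b)
    have hneg : (-b) ^ (2 * k + 1) = - b ^ (2 * k + 1) := by
      rw [Odd.neg_pow ⟨k, rfl⟩]
    rw [hneg] at h2
    have h3 : 0 ≤ (a - -b) ^ (2 * k + 2) := by
      have : (a - -b) ^ (2 * k + 2) = ((a - -b) ^ (k + 1)) ^ 2 := by rw [← pow_mul]; ring_nf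
      rw [this]; positivity
    have h4 : 0 ≤ (a ^ (2 * k + 1) + b ^ (2 * k + 1)) * (a + b) := by
      have h5 : (0:ℝ) ≤ 4 ^ k * ((a ^ (2 * k + 1) - -b ^ (2 * k + 1)) * (a - -b)) := le_trans h3 h2
      have h6 : (0:ℝ) < 4 ^ k := by positivity
      have h7 := nonneg_of_mul_nonneg_right h5 h6
      have : (a ^ (2 * k + 1) + b ^ (2 * k + 1)) * (a + b) = (a ^ (2 * k + 1) - -b ^ (2 * k + 1)) * (a - -b) := by ring
      rw [this]; exact h7
    obtain ⟨f, hf⟩ : ∃ f, f = (a ^ (2 * k + 1) - b ^ (2 * k + 1)) * (a - b) := ⟨_, rfl⟩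
    rw [← hf] at h1
    have hid : (a ^ (2 * (k + 1) + 1) - b ^ (2 * (k + 1) + 1)) * (a - b)
        = (a ^ 2 + b ^ 2) / 2 * f + (a - b) ^ 2 / 2 * ((a ^ (2 * k + 1) + b ^ (2 * k + 1)) * (a + b)) := by
      rw [hf]; ring
    rw [hid]
    have h8 : (a - b) ^ (2 * (k + 1) + 2) = (a - b) ^ 2 * (a - b) ^ (2 * k + 2) := by ring
    rw [h8]
    have h9 : (0:ℝ) ≤ (a - b) ^ (2 * k + 2) := by
      have : (a - b) ^ (2 * k + 2) = ((a - b) ^ (k + 1)) ^ 2 := by rw [← pow_mul]; ring_nf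
      rw [this]; positivity
    have h6 : (0:ℝ) < 4 ^ k := by positivity
    have hf0 : 0 ≤ f := nonneg_of_mul_nonneg_right (le_trans h9 h1) h6
    have h10 : (a - b) ^ 2 * (a - b) ^ (2 * k + 2) ≤ (a - b) ^ 2 * (4 ^ k * f) :=
      mul_le_mul_of_nonneg_left h1 (sq_nonneg _)
    have h11 : (a - b) ^ 2 ≤ 4 * ((a ^ 2 + b ^ 2) / 2) := by nlinarith [sq_nonneg (a + b)]
    have h12 : (a - b) ^ 2 * (4 ^ k * f) ≤ 4 * ((a ^ 2 + b ^ 2) / 2) * (4 ^ k * f) :=
      mul_le_mul_of_nonneg_right h11 (by positivity)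
    have h13 : 0 ≤ (4:ℝ) ^ (k + 1) * ((a - b) ^ 2 / 2 * ((a ^ (2 * k + 1) + b ^ (2 * k + 1)) * (a + b))) := by positivity
    calc (a - b) ^ 2 * (a - b) ^ (2 * k + 2) ≤ 4 * ((a ^ 2 + b ^ 2) / 2) * (4 ^ k * f) := le_trans h10 h12
      _ = 4 ^ (k + 1) * ((a ^ 2 + b ^ 2) / 2 * f) := by ring
      _ ≤ 4 ^ (k + 1) * ((a ^ 2 + b ^ 2) / 2 * f) + (4:ℝ) ^ (k + 1) * ((a - b) ^ 2 / 2 * ((a ^ (2 * k + 1) + b ^ (2 * k + 1)) * (a + b))) := le_add_of_nonneg_right h13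
      _ = _ := by ring

/-- **T1**, even exponent `p ≥ 2`: `|a-b|^p ≤ 2^(p-2) (a^(p-1) - b^(p-1)) (a-b)` -/
theorem cm_tk_odd_even (p : ℕ) (hp : Even p) (h2 : 2 ≤ p) (a b : ℝ) :
    |a - b| ^ p ≤ 2 ^ (p - 2) * ((a ^ (p - 1) - b ^ (p - 1)) * (a - b)) := by
  obtain ⟨j, hj⟩ := hp
  obtain ⟨k, rfl⟩ : ∃ k, j = k + 1 := ⟨j - 1, by omega⟩
  have hp' : p = 2 * k + 2 := by omega
  subst hp'
  have h := cm_tk_odd k a b
  have e1 : |a - b| ^ (2 * k + 2) = (a - b) ^ (2 * k + 2) := by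
    have : Even (2 * k + 2) := ⟨k + 1, by ring⟩
    exact this.pow_abs _
  rw [e1]
  have e2 : 2 * k + 2 - 2 = 2 * k := by omega
  have e3 : 2 * k + 2 - 1 = 2 * k + 1 := by omega
  rw [e2, e3, pow_mul]
  norm_num
  exact h

/-- **T2** (the recursion of the projection lemma): `a_{k+1}^p ≤ K a_k^{p-1}`, `a_0 ≤ K R` ⇒ `a_N ≤ K R^{(1-1/p)^N}` -/
theorem cm_tk_rec (p : ℕ) (hp : 1 ≤ p) (K R : ℝ) (hK : 0 < K) (hR : 1 ≤ R) (a : ℕ → ℝ) (ha : ∀ k, 0 ≤ a k)
    (N : ℕ) (h0 : a 0 ≤ K * R) (hrec : ∀ k < N, a (k + 1) ^ p ≤ K * a k ^ (p - 1)) :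
    a N ≤ K * R ^ ((1 - 1 / (p : ℝ)) ^ N) := by
  have hR0 : 0 < R := by linarith
  have hp0 : (p : ℝ) ≠ 0 := by positivity
  induction N with
  | zero => simpa using h0
  | succ k ih =>
    have ihk := ih (fun j hj => hrec j (by omega))
    have h1 := hrec k (by omega)
    have h2 : a k ^ (p - 1) ≤ (K * R ^ ((1 - 1 / (p : ℝ)) ^ k)) ^ (p - 1) := pow_le_pow_left₀ (ha k) ihk _
    have h3 : K * (K * R ^ ((1 - 1 / (p : ℝ)) ^ k)) ^ (p - 1) = (K * R ^ ((1 - 1 / (p : ℝ)) ^ (k + 1))) ^ p := by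
      rw [mul_pow, mul_pow, ← mul_assoc, ← pow_succ', Nat.sub_add_cancel hp]
      congr 1
      rw [← Real.rpow_mul_natCast hR0.le, ← Real.rpow_mul_natCast hR0.le]
      congr 1
      rw [Nat.cast_sub hp, pow_succ]
      have : (1 - 1 / (p:ℝ)) * p = p - 1 := by field_simp
      push_cast
      rw [mul_assoc, this]
    have h4 : a (k + 1) ^ p ≤ (K * R ^ ((1 - 1 / (p : ℝ)) ^ (k + 1))) ^ p := by
      rw [← h3]; exact le_trans h1 (mul_le_mul_of_nonneg_left h2 hK.le)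
    exact le_of_pow_le_pow_left₀ (by omega) (by positivity) h4

/-- **T2**, final form: after `N` steps with `log R ≤ e^{N/p}` the bound is `e K` -/
theorem cm_tk_rec_e (p : ℕ) (hp : 1 ≤ p) (K R : ℝ) (hK : 0 < K) (hR : 1 ≤ R) (a : ℕ → ℝ) (ha : ∀ k, 0 ≤ a k)
    (N : ℕ) (h0 : a 0 ≤ K * R) (hrec : ∀ k < N, a (k + 1) ^ p ≤ K * a k ^ (p - 1))
    (hN : Real.log R ≤ Real.exp ((N : ℝ) / p)) :
    a N ≤ K * Real.exp 1 := by
  have h := cm_tk_rec p hp K R hK hR a ha N h0 hrec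
  refine le_trans h (mul_le_mul_of_nonneg_left ?_ hK.le)
  have hR0 : 0 < R := by linarith
  have hp0 : (0:ℝ) < p := by positivity
  rw [Real.rpow_def_of_pos hR0]
  apply Real.exp_le_exp.mpr
  have h1 : (1 - 1 / (p : ℝ)) ≤ Real.exp (-(1 / (p:ℝ))) := by
    have := Real.add_one_le_exp (-(1 / (p:ℝ))); linarith
  have h0' : 0 ≤ 1 - 1 / (p : ℝ) := by
    have : 1 / (p:ℝ) ≤ 1 := by
      rw [div_le_one hp0]; exact_mod_cast hp
    linarith
  have h2 : (1 - 1 / (p : ℝ)) ^ N ≤ Real.exp (-((N:ℝ) / p)) := by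
    calc (1 - 1 / (p : ℝ)) ^ N ≤ (Real.exp (-(1 / (p:ℝ)))) ^ N := pow_le_pow_left₀ h0' h1 N
      _ = Real.exp (-((N:ℝ) / p)) := by rw [← Real.exp_nat_mul]; congr 1; ring
  have hl : 0 ≤ Real.log R := Real.log_nonneg hR
  calc Real.log R * (1 - 1 / (p : ℝ)) ^ N ≤ Real.exp ((N : ℝ) / p) * Real.exp (-((N:ℝ) / p)) :=
        mul_le_mul hN h2 (pow_nonneg h0' N) (Real.exp_pos _).le
    _ = 1 := by rw [← Real.exp_add]; simp

/-- `x^(p+1) - y^(p+1) ≤ (p+1) x^p (x-y)` for `0 ≤ y ≤ x` -/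
theorem cm_tk_pow_sub_le (p : ℕ) (x y : ℝ) (hy : 0 ≤ y) (hxy : y ≤ x) :
    x ^ (p + 1) - y ^ (p + 1) ≤ (p + 1) * x ^ p * (x - y) := by
  have hx : 0 ≤ x := le_trans hy hxy
  induction p with
  | zero => simp
  | succ p ih =>
    have h1 : x ^ (p + 1 + 1) - y ^ (p + 1 + 1) = x * (x ^ (p + 1) - y ^ (p + 1)) + y ^ (p + 1) * (x - y) := by ring
    have h2 : x * (x ^ (p + 1) - y ^ (p + 1)) ≤ x * ((p + 1) * x ^ p * (x - y)) := mul_le_mul_of_nonneg_left ih hx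
    have h3 : y ^ (p + 1) * (x - y) ≤ x ^ (p + 1) * (x - y) :=
      mul_le_mul_of_nonneg_right (pow_le_pow_left₀ hy hxy _) (by linarith)
    rw [h1]; push_cast
    calc x * (x ^ (p + 1) - y ^ (p + 1)) + y ^ (p + 1) * (x - y)
        ≤ x * ((p + 1) * x ^ p * (x - y)) + x ^ (p + 1) * (x - y) := add_le_add h2 h3
      _ = _ := by ring

/-- `(p+1) y^p (x-y) ≤ x^(p+1) - y^(p+1)` for `0 ≤ y ≤ x` -/
theorem cm_tk_le_pow_sub (p : ℕ) (x y : ℝ) (hy : 0 ≤ y) (hxy : y ≤ x) :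
    (p + 1) * y ^ p * (x - y) ≤ x ^ (p + 1) - y ^ (p + 1) := by
  have hx : 0 ≤ x := le_trans hy hxy
  induction p with
  | zero => simp
  | succ p ih =>
    have h1 : x ^ (p + 1 + 1) - y ^ (p + 1 + 1) = x * (x ^ (p + 1) - y ^ (p + 1)) + y ^ (p + 1) * (x - y) := by ring
    have h0 : 0 ≤ (p + 1) * y ^ p * (x - y) := by
      have : 0 ≤ x - y := by linarith
      positivity
    have h2 : y * ((p + 1) * y ^ p * (x - y)) ≤ x * (x ^ (p + 1) - y ^ (p + 1)) :=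
      mul_le_mul hxy ih h0 hx
    rw [h1]; push_cast
    calc ((p:ℝ) + 1 + 1) * y ^ (p + 1) * (x - y) = y * ((p + 1) * y ^ p * (x - y)) + y ^ (p + 1) * (x - y) := by ring
      _ ≤ _ := by linarith

/-- Young's inequality in the form `(p+1) a^p b ≤ p a^(p+1) + b^(p+1)` -/
theorem cm_tk_young (p : ℕ) (a b : ℝ) (ha : 0 ≤ a) (hb : 0 ≤ b) :
    (p + 1) * a ^ p * b ≤ p * a ^ (p + 1) + b ^ (p + 1) := by
  rcases le_total a b with h | h
  · have := cm_tk_le_pow_sub p b a ha h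
    have e : (p + 1) * a ^ p * (b - a) = (p + 1) * a ^ p * b - (p + 1) * a ^ (p + 1) := by ring
    rw [e] at this; linarith
  · have := cm_tk_pow_sub_le p a b hb h
    have e : (p + 1) * a ^ p * (a - b) = (p + 1) * a ^ (p + 1) - (p + 1) * a ^ p * b := by ring
    rw [e] at this; linarith

/-- telescoping: `A_N^(p+1) ≤ (p+1) ∑_{j<N} A_{j+1}^p q_j`, `A_j = ∑_{i<j} q_i`, `q ≥ 0` -/
theorem cm_tk_tele (p : ℕ) (q : ℕ → ℝ) (hq : ∀ j, 0 ≤ q j) (N : ℕ) :
    (∑ i ∈ range N, q i) ^ (p + 1) ≤ (p + 1) * ∑ j ∈ range N, (∑ i ∈ range (j + 1), q i) ^ p * q j := by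
  induction N with
  | zero => simp
  | succ N ih =>
    have h0 : 0 ≤ ∑ i ∈ range N, q i := Finset.sum_nonneg fun i _ => hq i
    have h1 := cm_tk_pow_sub_le p (∑ i ∈ range (N + 1), q i) (∑ i ∈ range N, q i) h0
      (by rw [Finset.sum_range_succ]; linarith [hq N])
    have h2 : (∑ i ∈ range (N + 1), q i) - ∑ i ∈ range N, q i = q N := by rw [Finset.sum_range_succ]; ring
    rw [h2] at h1
    rw [Finset.sum_range_succ (fun j => (∑ i ∈ range (j + 1), q i) ^ p * q j), mul_add]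
    linarith

/-- Abel summation: `∑_{j<N} c_{j+1} (U_{j+1} - U_j) ≤ c_N U_N` for `c ≥ 0` nondecreasing, `U ≥ 0` -/
theorem cm_tk_abel (c U : ℕ → ℝ) (hc0 : 0 ≤ c 0) (hc : ∀ j, c j ≤ c (j + 1)) (hU : ∀ j, 0 ≤ U j) (N : ℕ) :
    ∑ j ∈ range N, c (j + 1) * (U (j + 1) - U j) ≤ c N * U N := by
  induction N with
  | zero => simpa using mul_nonneg hc0 (hU 0)
  | succ N ih =>
    rw [Finset.sum_range_succ]
    have := mul_le_mul_of_nonneg_right (hc N) (hU N)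
    nlinarith

/-- **T3** (compensator bound, model free).  `U_j ≥ 0`, `q_j ≥ 0` bounded; `A_j = ∑_{i<j} q_i`;
the only probabilistic input is `E[A_{j+1}^p q_j] ≤ E[A_{j+1}^p (U_{j+1} - U_j)]`
(equality when `q_j = E[U_{j+1} - U_j | F_j]`, since `A_{j+1}` is `F_j`-measurable).
Then `E A_N^(p+1) ≤ (p+1)^(p+1) E U_N^(p+1)`, whatever `N`. -/
theorem cm_tk_comp {Ω : Type*} [MeasurableSpace Ω] (μ : Measure Ω) [IsFiniteMeasure μ] (p N : ℕ) (U q : ℕ → Ω → ℝ) (C : ℝ)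
    (hUm : ∀ j, AEStronglyMeasurable (U j) μ) (hqm : ∀ j, AEStronglyMeasurable (q j) μ)
    (hU0 : ∀ j ω, 0 ≤ U j ω) (hq0 : ∀ j ω, 0 ≤ q j ω) (hUb : ∀ j ω, U j ω ≤ C) (hqb : ∀ j ω, q j ω ≤ C)
    (hid : ∀ j < N, ∫ ω, (∑ i ∈ range (j + 1), q i ω) ^ p * q j ω ∂μ
      ≤ ∫ ω, (∑ i ∈ range (j + 1), q i ω) ^ p * (U (j + 1) ω - U j ω) ∂μ) :
    ∫ ω, (∑ i ∈ range N, q i ω) ^ (p + 1) ∂μ ≤ ((p : ℝ) + 1) ^ (p + 1) * ∫ ω, U N ω ^ (p + 1) ∂μ := by
  have hC : 0 ≤ C ∨ IsEmpty Ω := by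
    by_cases h : Nonempty Ω
    · obtain ⟨ω⟩ := h; exact Or.inl (le_trans (hU0 0 ω) (hUb 0 ω))
    · exact Or.inr (not_nonempty_iff.mp h)
  rcases hC with hC | hE
  swap
  · simp [integral_of_isEmpty]
  -- the partial sums
  have hAm : ∀ j, AEStronglyMeasurable (fun ω => ∑ i ∈ range j, q i ω) μ := by
    intro j
    have := Finset.aestronglyMeasurable_fun_sum (range j) (fun i _ => hqm i)
    exact this
  have hA0 : ∀ j ω, 0 ≤ ∑ i ∈ range j, q i ω := fun j ω => Finset.sum_nonneg fun i _ => hq0 i ω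
  have hAb : ∀ j ω, ∑ i ∈ range j, q i ω ≤ j * C := by
    intro j ω
    calc ∑ i ∈ range j, q i ω ≤ ∑ i ∈ range j, C := Finset.sum_le_sum fun i _ => hqb i ω
      _ = j * C := by simp
  have hint : ∀ (f : Ω → ℝ) (B : ℝ), AEStronglyMeasurable f μ → (∀ ω, |f ω| ≤ B) → Integrable f μ := by
    intro f B hf hB
    exact Integrable.of_bound hf B (Filter.Eventually.of_forall fun ω => by simpa using hB ω)
  have hApi : ∀ j k : ℕ, ∀ (g : Ω → ℝ) (B : ℝ), AEStronglyMeasurable g μ → (∀ ω, |g ω| ≤ B) →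
      Integrable (fun ω => (∑ i ∈ range j, q i ω) ^ k * g ω) μ := by
    intro j k g B hg hB
    refine hint _ ((j * C) ^ k * B) (((hAm j).pow k).mul hg) fun ω => ?_
    rw [abs_mul, abs_of_nonneg (pow_nonneg (hA0 j ω) k)]
    exact mul_le_mul (pow_le_pow_left₀ (hA0 j ω) (hAb j ω) k) (hB ω) (abs_nonneg _) (by positivity)
  have hqabs : ∀ j ω, |q j ω| ≤ C := fun j ω => by rw [abs_of_nonneg (hq0 j ω)]; exact hqb j ω
  have hUabs : ∀ j ω, |U j ω| ≤ C := fun j ω => by rw [abs_of_nonneg (hU0 j ω)]; exact hUb j ω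
  have hdabs : ∀ j ω, |U (j + 1) ω - U j ω| ≤ C := fun j ω => by
    rw [abs_le]; constructor <;> linarith [hU0 j ω, hU0 (j + 1) ω, hUb j ω, hUb (j + 1) ω]
  obtain ⟨I, hI⟩ : ∃ I, I = ∫ ω, (∑ i ∈ range N, q i ω) ^ (p + 1) ∂μ := ⟨_, rfl⟩
  obtain ⟨J, hJ⟩ : ∃ J, J = ∫ ω, U N ω ^ (p + 1) ∂μ := ⟨_, rfl⟩
  have hIint : Integrable (fun ω => (∑ i ∈ range N, q i ω) ^ (p + 1)) μ := by
    have := hApi N (p + 1) (fun _ => 1) 1 aestronglyMeasurable_const (fun _ => by simp)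
    simpa using this
  have hJint : Integrable (fun ω => U N ω ^ (p + 1)) μ := by
    refine hint _ (C ^ (p + 1)) ((hUm N).pow _) fun ω => ?_
    rw [abs_of_nonneg (pow_nonneg (hU0 N ω) _)]
    exact pow_le_pow_left₀ (hU0 N ω) (hUb N ω) _
  -- step 1
  have s1 : I ≤ (p + 1) * ∑ j ∈ range N, ∫ ω, (∑ i ∈ range (j + 1), q i ω) ^ p * q j ω ∂μ := by
    rw [hI, ← integral_finsetSum _ (fun j _ => hApi (j + 1) p (q j) C (hqm j) (hqabs j)), ← integral_const_mul]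
    refine integral_mono hIint ?_ fun ω => cm_tk_tele p (fun j => q j ω) (fun j => hq0 j ω) N
    exact (integrable_finsetSum _ (fun j _ => hApi (j + 1) p (q j) C (hqm j) (hqabs j))).const_mul _
  have s2 : ∑ j ∈ range N, ∫ ω, (∑ i ∈ range (j + 1), q i ω) ^ p * q j ω ∂μ
      ≤ ∑ j ∈ range N, ∫ ω, (∑ i ∈ range (j + 1), q i ω) ^ p * (U (j + 1) ω - U j ω) ∂μ :=
    Finset.sum_le_sum fun j hj => hid j (Finset.mem_range.mp hj)
  have s3 : ∑ j ∈ range N, ∫ ω, (∑ i ∈ range (j + 1), q i ω) ^ p * (U (j + 1) ω - U j ω) ∂μ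
      ≤ ∫ ω, (∑ i ∈ range N, q i ω) ^ p * U N ω ∂μ := by
    have hdi : ∀ j ∈ range N, Integrable (fun ω => (∑ i ∈ range (j + 1), q i ω) ^ p * (U (j + 1) ω - U j ω)) μ :=
      fun j _ => hApi (j + 1) p (fun ω => U (j + 1) ω - U j ω) C ((hUm (j + 1)).sub (hUm j)) (hdabs j)
    rw [← integral_finsetSum _ hdi]
    refine integral_mono (integrable_finsetSum _ hdi)
      (hApi N p (U N) C (hUm N) (hUabs N)) fun ω => ?_
    exact cm_tk_abel (fun j => (∑ i ∈ range j, q i ω) ^ p) (fun j => U j ω) (pow_nonneg (hA0 0 ω) p)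
      (fun j => pow_le_pow_left₀ (hA0 j ω) (by rw [Finset.sum_range_succ]; linarith [hq0 j ω]) p) (fun j => hU0 j ω) N
  -- step 4: Young with the constant p+1
  have s4 : (p + 1) * ∫ ω, (∑ i ∈ range N, q i ω) ^ p * U N ω ∂μ ≤ p / (p + 1) * I + (p + 1) ^ p * J := by
    rw [hI, hJ, ← integral_const_mul, ← integral_const_mul, ← integral_const_mul, ← integral_add (hIint.const_mul _) (hJint.const_mul _)]
    refine integral_mono ((hApi N p (U N) C (hUm N) (hUabs N)).const_mul _) ((hIint.const_mul _).add (hJint.const_mul _)) fun ω => ?_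
    have hy := cm_tk_young p (∑ i ∈ range N, q i ω) ((p + 1) * U N ω) (hA0 N ω) (mul_nonneg (by positivity) (hU0 N ω))
    have hp1 : (0:ℝ) < p + 1 := by positivity
    show (p + 1) * ((∑ i ∈ range N, q i ω) ^ p * U N ω) ≤ p / (p + 1) * (∑ i ∈ range N, q i ω) ^ (p + 1) + (p + 1) ^ p * U N ω ^ (p + 1)
    have e1 : (p + 1) * ((∑ i ∈ range N, q i ω) ^ p * U N ω) = ((p + 1) * (∑ i ∈ range N, q i ω) ^ p * ((p + 1) * U N ω)) / (p + 1) := by
      field_simp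
    have e2 : p / (p + 1) * (∑ i ∈ range N, q i ω) ^ (p + 1) + (p + 1) ^ p * U N ω ^ (p + 1)
        = (p * (∑ i ∈ range N, q i ω) ^ (p + 1) + ((p + 1) * U N ω) ^ (p + 1)) / (p + 1) := by
      rw [mul_pow, pow_succ ((p:ℝ) + 1) p]; field_simp
    rw [e1, e2]
    exact div_le_div_of_nonneg_right hy hp1.le
  have hp1 : (0:ℝ) < p + 1 := by positivity
  have s5 : I ≤ p / (p + 1) * I + (p + 1) ^ p * J := by
    refine le_trans s1 (le_trans ?_ s4)
    exact mul_le_mul_of_nonneg_left (le_trans s2 s3) hp1.le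
  have e3 : I - p / (p + 1) * I = I / (p + 1) := by field_simp; ring
  have s6 : I / (p + 1) ≤ (p + 1) ^ p * J := by rw [← e3]; linarith
  rw [div_le_iff₀ hp1] at s6
  rw [← hI, ← hJ, pow_succ]
  linarith

/-- **T4** (shifted-grid identity), full grid -/
theorem cm_tk_grid (q : ℝ → ℝ) (a η : ℝ) (K : ℕ) (hq : ∀ j < K, IntervalIntegrable q volume (a + j * η) (a + (j + 1 : ℕ) * η)) :
    ∫ s in a..(a + K * η), q s = ∫ ξ in (0:ℝ)..η, ∑ j ∈ range K, q (a + ξ + j * η) := by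
  have h1 := intervalIntegral.sum_integral_adjacent_intervals (f := q) (μ := volume) (a := fun j : ℕ => a + j * η) (n := K) hq
  simp only [Nat.cast_zero, zero_mul, add_zero] at h1
  rw [← h1, intervalIntegral.integral_finsetSum]
  · refine Finset.sum_congr rfl fun j _ => ?_
    have := intervalIntegral.integral_comp_add_right (a := (0:ℝ)) (b := η) (fun x => q x) (a + j * η)
    have e : ∀ ξ : ℝ, a + ξ + j * η = ξ + (a + j * η) := fun ξ => by ring
    simp_rw [e]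
    rw [this]
    congr 1
    · ring
    · push_cast; ring
  · intro j hj
    have h := hq j (Finset.mem_range.mp hj)
    have e : (fun ξ : ℝ => q (a + ξ + j * η)) = fun ξ => q (ξ + (a + j * η)) := by
      funext ξ; congr 1; ring
    rw [e]
    have h2 := h.comp_add_right (a + j * η)
    convert h2 using 1
    · ring
    · push_cast; ring

/-- **T4** (shifted-grid identity) on `[a,b]`, `b ≤ a + K η`: only the starting points `≤ b` are retained -/
theorem cm_tk_grid_Icc (q : ℝ → ℝ) (a b η : ℝ) (hη : 0 ≤ η) (K : ℕ) (hab : a ≤ b) (hb : b ≤ a + K * η)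
    (hq : IntervalIntegrable q volume a b) :
    ∫ s in a..b, q s = ∫ ξ in (0:ℝ)..η, ∑ j ∈ range K, (if a + ξ + j * η ≤ b then q (a + ξ + j * η) else 0) := by
  obtain ⟨g, hg⟩ : ∃ g : ℝ → ℝ, g = fun s => if s ≤ b then q s else 0 := ⟨_, rfl⟩
  have hgI : IntegrableOn g (Ioc a (a + K * η)) volume := by
    have h1 : IntegrableOn q (Ioc a b) volume := (intervalIntegrable_iff_integrableOn_Ioc_of_le hab).mp hq
    have h2 : g = (Iic b).indicator q := by
      rw [hg]; funext s; simp [Set.indicator, Set.mem_Iic]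
    rw [h2, IntegrableOn, integrable_indicator_iff measurableSet_Iic, IntegrableOn, Measure.restrict_restrict measurableSet_Iic]
    refine h1.mono_set ?_
    intro s hs; exact ⟨hs.2.1, hs.1⟩
  have h0 : ∫ s in a..b, q s = ∫ s in a..(a + K * η), g s := by
    have hI1 : IntervalIntegrable g volume a b :=
      (intervalIntegrable_iff_integrableOn_Ioc_of_le hab).mpr (hgI.mono_set (Ioc_subset_Ioc_right hb))
    have hI2 : IntervalIntegrable g volume b (a + K * η) :=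
      (intervalIntegrable_iff_integrableOn_Ioc_of_le hb).mpr (hgI.mono_set (Ioc_subset_Ioc_left hab))
    rw [← intervalIntegral.integral_add_adjacent_intervals hI1 hI2]
    have e1 : ∫ s in a..b, g s = ∫ s in a..b, q s := by
      refine intervalIntegral.integral_congr_ae (Filter.Eventually.of_forall fun s hs => ?_)
      rw [uIoc_of_le hab] at hs
      simp [hg, hs.2]
    have e2 : ∫ s in b..(a + K * η), g s = 0 := by
      have : ∫ s in b..(a + K * η), g s = ∫ s in b..(a + K * η), (0:ℝ) := by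
        refine intervalIntegral.integral_congr_ae (Filter.Eventually.of_forall fun s hs => ?_)
        rw [uIoc_of_le hb] at hs
        simp [hg, not_le.mpr hs.1]
      rw [this]; simp
    rw [e1, e2, add_zero]
  rw [h0, cm_tk_grid g a η K]
  · simp only [hg]
  · intro j hj
    have l1 : a + (j:ℝ) * η ≤ a + ((j + 1 : ℕ) : ℝ) * η := by push_cast; nlinarith
    rw [intervalIntegrable_iff_integrableOn_Ioc_of_le l1]
    refine hgI.mono_set (Ioc_subset_Ioc ?_ ?_)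
    · have : 0 ≤ (j:ℝ) * η := by positivity
      linarith
    · have : ((j + 1 : ℕ) : ℝ) ≤ K := by exact_mod_cast hj
      nlinarith

/-- Jensen for powers on a finite measure: `(∫ f)^(p+1) ≤ (mass)^p ∫ f^(p+1)` -/
theorem cm_tk_jensen {X : Type*} [MeasurableSpace X] (ν : Measure X) [IsFiniteMeasure ν] (p : ℕ) (f : X → ℝ)
    (hf0 : ∀ x, 0 ≤ f x) (hf : Integrable f ν) (hfp : Integrable (fun x => f x ^ (p + 1)) ν) :
    (∫ x, f x ∂ν) ^ (p + 1) ≤ ν.real univ ^ p * ∫ x, f x ^ (p + 1) ∂ν := by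
  obtain ⟨η, hη⟩ : ∃ η, η = ν.real univ := ⟨_, rfl⟩
  rw [← hη]
  have hη0 : 0 ≤ η := by rw [hη]; exact measureReal_nonneg
  rcases hη0.eq_or_lt with h0 | hpos
  · have : ν = 0 := by
      have : ν.real univ = 0 := by rw [← hη, ← h0]
      rw [measureReal_def, ENNReal.toReal_eq_zero_iff] at this
      rcases this with h | h
      · exact Measure.measure_univ_eq_zero.mp h
      · exact absurd h (measure_ne_top _ _)
    subst this; simp
  obtain ⟨I, hI⟩ : ∃ I, I = ∫ x, f x ∂ν := ⟨_, rfl⟩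
  have hI0 : 0 ≤ I := by rw [hI]; exact integral_nonneg hf0
  obtain ⟨m, hm⟩ : ∃ m, m = I / η := ⟨_, rfl⟩
  have hm0 : 0 ≤ m := by rw [hm]; positivity
  have h1 : ∫ x, ((p + 1) * m ^ p * f x) ∂ν ≤ ∫ x, (p * m ^ (p + 1) + f x ^ (p + 1)) ∂ν :=
    integral_mono (hf.const_mul _) ((integrable_const _).add hfp) fun x => cm_tk_young p m (f x) hm0 (hf0 x)
  rw [integral_const_mul, integral_add (integrable_const _) hfp, integral_const, ← hI, ← hη, smul_eq_mul] at h1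
  have hIm : I = η * m := by rw [hm]; field_simp
  rw [← hI, hIm, mul_pow]
  have h2 : η * m ^ (p + 1) ≤ ∫ x, f x ^ (p + 1) ∂ν := by
    have e : (p + 1) * m ^ p * (η * m) = (p + 1) * (η * m ^ (p + 1)) := by ring
    rw [hIm, e] at h1
    nlinarith
  calc η ^ (p + 1) * m ^ (p + 1) = η ^ p * (η * m ^ (p + 1)) := by ring
    _ ≤ _ := mul_le_mul_of_nonneg_left h2 (by positivity)

/-- **T4'** (Minkowski in the form used for shifted grids): if `E F(x,·)^(p+1) ≤ B` for every `x`, then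
`E (∫ F(x,·) dν(x))^(p+1) ≤ (mass ν)^(p+1) B` -/
theorem cm_tk_mink {X Ω : Type*} [MeasurableSpace X] [MeasurableSpace Ω] (ν : Measure X) [IsFiniteMeasure ν]
    (μ : Measure Ω) [IsFiniteMeasure μ] (p : ℕ) (F : X → Ω → ℝ) (C B : ℝ)
    (hFm : AEStronglyMeasurable (Function.uncurry F) (ν.prod μ))
    (hF0 : ∀ x ω, 0 ≤ F x ω) (hFb : ∀ x ω, F x ω ≤ C)
    (hB : ∀ x, ∫ ω, F x ω ^ (p + 1) ∂μ ≤ B) :
    ∫ ω, (∫ x, F x ω ∂ν) ^ (p + 1) ∂μ ≤ ν.real univ ^ (p + 1) * B := by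
  have hint : ∀ k : ℕ, Integrable (fun z : X × Ω => F z.1 z.2 ^ k) (ν.prod μ) := by
    intro k
    refine Integrable.of_bound (hFm.pow k) (|C| ^ k) (Filter.Eventually.of_forall fun z => ?_)
    rw [Real.norm_eq_abs, abs_pow]
    refine pow_le_pow_left₀ (abs_nonneg _) ?_ k
    rw [abs_of_nonneg (hF0 _ _)]
    exact le_trans (hFb _ _) (le_abs_self _)
  have hint1 : Integrable (fun z : X × Ω => F z.1 z.2) (ν.prod μ) := by simpa using hint 1
  -- sections in ω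
  have hs1 : ∀ᵐ ω ∂μ, Integrable (fun x => F x ω) ν := hint1.prod_left_ae
  have hsp : ∀ᵐ ω ∂μ, Integrable (fun x => F x ω ^ (p + 1)) ν := (hint (p + 1)).prod_left_ae
  have hJ : ∀ᵐ ω ∂μ, (∫ x, F x ω ∂ν) ^ (p + 1) ≤ ν.real univ ^ p * ∫ x, F x ω ^ (p + 1) ∂ν := by
    filter_upwards [hs1, hsp] with ω h1 h2
    exact cm_tk_jensen ν p (fun x => F x ω) (fun x => hF0 x ω) h1 h2
  have hR : Integrable (fun ω => ∫ x, F x ω ^ (p + 1) ∂ν) μ := (hint (p + 1)).integral_prod_right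
  have hLm : AEStronglyMeasurable (fun ω => (∫ x, F x ω ∂ν) ^ (p + 1)) μ :=
    (hint1.integral_prod_right).aestronglyMeasurable.pow _
  have hL : Integrable (fun ω => (∫ x, F x ω ∂ν) ^ (p + 1)) μ := by
    refine Integrable.mono' (hR.const_mul (ν.real univ ^ p)) hLm ?_
    filter_upwards [hJ] with ω h
    rw [Real.norm_eq_abs, abs_of_nonneg (pow_nonneg (integral_nonneg fun x => hF0 x ω) _)]
    exact h
  calc ∫ ω, (∫ x, F x ω ∂ν) ^ (p + 1) ∂μ ≤ ∫ ω, ν.real univ ^ p * ∫ x, F x ω ^ (p + 1) ∂ν ∂μ :=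
        integral_mono_ae hL (hR.const_mul _) hJ
    _ = ν.real univ ^ p * ∫ x, ∫ ω, F x ω ^ (p + 1) ∂μ ∂ν := by
        rw [integral_const_mul, integral_integral_swap (f := fun x ω => F x ω ^ (p + 1)) (hint (p + 1))]
    _ ≤ ν.real univ ^ p * ∫ _x : X, B ∂ν := by
        refine mul_le_mul_of_nonneg_left ?_ (by positivity)
        exact integral_mono (hint (p + 1)).integral_prod_left (integrable_const _) hB
    _ = ν.real univ ^ (p + 1) * B := by
        rw [integral_const, smul_eq_mul]; ring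

/-- pointwise: `x^(2k) ≤ (2k)! (e^x + e^{-x})` -/
theorem cm_tk_pow_le_exp (k : ℕ) (x : ℝ) : x ^ (2 * k) ≤ (2 * k).factorial * (Real.exp x + Real.exp (-x)) := by
  have h1 : x ^ (2 * k) = |x| ^ (2 * k) := by
    have : Even (2 * k) := ⟨k, by ring⟩
    exact (this.pow_abs x).symm
  have h2 := Real.pow_div_factorial_le_exp |x| (abs_nonneg x) (2 * k)
  have hf : (0:ℝ) < (2 * k).factorial := by positivity
  rw [div_le_iff₀ hf] at h2
  have h3 : Real.exp |x| ≤ Real.exp x + Real.exp (-x) := by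
    rcases abs_cases x with ⟨h, _⟩ | ⟨h, _⟩ <;> rw [h] <;> linarith [Real.exp_pos x, Real.exp_pos (-x)]
  rw [h1]
  calc |x| ^ (2 * k) ≤ Real.exp |x| * (2 * k).factorial := h2
    _ ≤ (Real.exp x + Real.exp (-x)) * (2 * k).factorial := mul_le_mul_of_nonneg_right h3 hf.le
    _ = _ := by ring

/-- **T7** even moments from two exponential moments -/
theorem cm_tk_exp_mom {Ω : Type*} [MeasurableSpace Ω] (μ : Measure Ω) (X : Ω → ℝ) (t : ℝ) (ht : 0 < t) (k : ℕ)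
    (hX : AEStronglyMeasurable X μ)
    (h1 : Integrable (fun ω => Real.exp (t * X ω)) μ) (h2 : Integrable (fun ω => Real.exp (-(t * X ω))) μ) :
    Integrable (fun ω => X ω ^ (2 * k)) μ ∧
    ∫ ω, X ω ^ (2 * k) ∂μ ≤ (2 * k).factorial / t ^ (2 * k) * (∫ ω, Real.exp (t * X ω) ∂μ + ∫ ω, Real.exp (-(t * X ω)) ∂μ) := by
  have hpt : ∀ ω, X ω ^ (2 * k) ≤ (2 * k).factorial / t ^ (2 * k) * (Real.exp (t * X ω) + Real.exp (-(t * X ω))) := by
    intro ω
    have h := cm_tk_pow_le_exp k (t * X ω)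
    rw [mul_pow] at h
    have ht' : 0 < t ^ (2 * k) := by positivity
    rw [div_mul_eq_mul_div, le_div_iff₀ ht']
    linarith
  have hnn : ∀ ω, 0 ≤ X ω ^ (2 * k) := fun ω => by rw [pow_mul]; positivity
  have hI : Integrable (fun ω => (2 * k).factorial / t ^ (2 * k) * (Real.exp (t * X ω) + Real.exp (-(t * X ω)))) μ :=
    (h1.add h2).const_mul _
  have hint : Integrable (fun ω => X ω ^ (2 * k)) μ := by
    refine Integrable.mono' hI (hX.pow _) (Filter.Eventually.of_forall fun ω => ?_)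
    rw [Real.norm_eq_abs, abs_of_nonneg (hnn ω)]; exact hpt ω
  refine ⟨hint, ?_⟩
  calc ∫ ω, X ω ^ (2 * k) ∂μ ≤ ∫ ω, (2 * k).factorial / t ^ (2 * k) * (Real.exp (t * X ω) + Real.exp (-(t * X ω))) ∂μ :=
        integral_mono hint hI hpt
    _ = _ := by rw [integral_const_mul, integral_add h1 h2]

/-- **T7'** subgaussian ⇒ even moments: `E e^{θX} ≤ M e^{θ² s/2}` for all `θ` ⇒ `E X^(2k) ≤ 2 M e^{1/2} (2k)! s^k` -/
theorem cm_tk_subg_mom {Ω : Type*} [MeasurableSpace Ω] (μ : Measure Ω) (X : Ω → ℝ) (s M : ℝ) (hs : 0 < s) (k : ℕ)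
    (hX : AEStronglyMeasurable X μ) (hi : ∀ θ : ℝ, Integrable (fun ω => Real.exp (θ * X ω)) μ)
    (hb : ∀ θ : ℝ, ∫ ω, Real.exp (θ * X ω) ∂μ ≤ M * Real.exp (θ ^ 2 * s / 2)) :
    Integrable (fun ω => X ω ^ (2 * k)) μ ∧
    ∫ ω, X ω ^ (2 * k) ∂μ ≤ 2 * M * Real.exp (1 / 2) * (2 * k).factorial * s ^ k := by
  obtain ⟨t, ht⟩ : ∃ t, t = (Real.sqrt s)⁻¹ := ⟨_, rfl⟩
  have hsq : 0 < Real.sqrt s := Real.sqrt_pos.mpr hs
  have ht0 : 0 < t := by rw [ht]; positivity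
  have ht2 : t ^ 2 * s = 1 := by
    rw [ht, inv_pow, Real.sq_sqrt hs.le]; field_simp
  have e2 : (fun ω => Real.exp (-(t * X ω))) = fun ω => Real.exp ((-t) * X ω) := by funext ω; congr 1; ring
  have h2 : Integrable (fun ω => Real.exp (-(t * X ω))) μ := by rw [e2]; exact hi (-t)
  obtain ⟨hI, hle⟩ := cm_tk_exp_mom μ X t ht0 k hX (hi t) h2
  refine ⟨hI, le_trans hle ?_⟩
  have b1 := hb t
  have b2 := hb (-t)
  rw [e2]
  have e3 : (-t) ^ 2 * s / 2 = 1 / 2 := by rw [neg_sq, ht2]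
  have e4 : t ^ 2 * s / 2 = 1 / 2 := by rw [ht2]
  rw [e3] at b2; rw [e4] at b1
  have e5 : (1:ℝ) / t ^ (2 * k) = s ^ k := by
    rw [pow_mul]
    have : t ^ 2 = s⁻¹ := by rw [ht, inv_pow, Real.sq_sqrt hs.le]
    rw [this, inv_pow]; simp
  have hf : (0:ℝ) ≤ (2 * k).factorial / t ^ (2 * k) := by positivity
  calc (2 * k).factorial / t ^ (2 * k) * (∫ ω, Real.exp (t * X ω) ∂μ + ∫ ω, Real.exp (-t * X ω) ∂μ)
      ≤ (2 * k).factorial / t ^ (2 * k) * (M * Real.exp (1 / 2) + M * Real.exp (1 / 2)) :=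
        mul_le_mul_of_nonneg_left (add_le_add b1 b2) hf
    _ = (2 * k).factorial * (1 / t ^ (2 * k)) * (2 * M * Real.exp (1 / 2)) := by ring
    _ = _ := by rw [e5]; ring

/-- AM-GM with natural exponents: `∏_{i∈s} x_i ≤ (1/k) ∑ x_i^k`, `k = card s` -/
theorem cm_tk_amgm {ι : Type*} (s : Finset ι) (hs : s.Nonempty) (x : ι → ℝ) (hx : ∀ i ∈ s, 0 ≤ x i) :
    ∏ i ∈ s, x i ≤ (s.card : ℝ)⁻¹ * ∑ i ∈ s, x i ^ s.card := by
  have hk : s.card ≠ 0 := Finset.card_ne_zero.mpr hs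
  have hk' : (s.card : ℝ) ≠ 0 := by exact_mod_cast hk
  have h := Real.geom_mean_le_arith_mean_weighted s (fun _ => (s.card : ℝ)⁻¹) (fun i => x i ^ s.card)
    (fun _ _ => by positivity) (by simp [hk']) (fun i hi => pow_nonneg (hx i hi) _)
  have e1 : ∏ i ∈ s, (x i ^ s.card) ^ ((s.card : ℝ)⁻¹) = ∏ i ∈ s, x i :=
    Finset.prod_congr rfl fun i hi => Real.pow_rpow_inv_natCast (hx i hi) hk
  rw [e1, ← Finset.mul_sum] at h
  exact h

/-- **T8** Hölder for `k` factors with the natural exponent `k = card s`:  `|E ∏ f_i|^k ≤ ∏ E |f_i|^k` -/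
theorem cm_tk_holder {Ω : Type*} [MeasurableSpace Ω] (μ : Measure Ω) {ι : Type*} (s : Finset ι) (hs : s.Nonempty) (f : ι → Ω → ℝ)
    (hm : ∀ i ∈ s, AEStronglyMeasurable (f i) μ) (hi : ∀ i ∈ s, Integrable (fun ω => |f i ω| ^ s.card) μ) :
    Integrable (fun ω => ∏ i ∈ s, f i ω) μ ∧
    |∫ ω, ∏ i ∈ s, f i ω ∂μ| ^ s.card ≤ ∏ i ∈ s, ∫ ω, |f i ω| ^ s.card ∂μ := by
  have hk : s.card ≠ 0 := Finset.card_ne_zero.mpr hs
  have hk' : (0:ℝ) < s.card := by exact_mod_cast Nat.pos_of_ne_zero hk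
  have hmP : AEStronglyMeasurable (fun ω => ∏ i ∈ s, f i ω) μ := Finset.aestronglyMeasurable_fun_prod s hm
  have hsum : Integrable (fun ω => (s.card : ℝ)⁻¹ * ∑ i ∈ s, |f i ω| ^ s.card) μ :=
    (integrable_finsetSum s hi).const_mul _
  have hP : Integrable (fun ω => ∏ i ∈ s, f i ω) μ := by
    refine Integrable.mono' hsum hmP (Filter.Eventually.of_forall fun ω => ?_)
    rw [Real.norm_eq_abs, Finset.abs_prod]
    exact cm_tk_amgm s hs (fun i => |f i ω|) fun i _ => abs_nonneg _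
  refine ⟨hP, ?_⟩
  have hA0 : ∀ i, 0 ≤ ∫ ω, |f i ω| ^ s.card ∂μ := fun i => integral_nonneg fun ω => by positivity
  by_cases hz : ∃ i ∈ s, ∫ ω, |f i ω| ^ s.card ∂μ = 0
  · obtain ⟨i, his, hi0⟩ := hz
    have h0 : (fun ω => |f i ω| ^ s.card) =ᵐ[μ] 0 :=
      (integral_eq_zero_iff_of_nonneg (fun ω => by positivity) (hi i his)).mp hi0
    have h1 : (fun ω => ∏ j ∈ s, f j ω) =ᵐ[μ] 0 := by
      filter_upwards [h0] with ω hω
      have : f i ω = 0 := by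
        have : |f i ω| ^ s.card = 0 := hω
        exact abs_eq_zero.mp (pow_eq_zero_iff hk |>.mp this)
      exact Finset.prod_eq_zero his this
    rw [integral_congr_ae h1]
    simp only [Pi.zero_apply, integral_zero, abs_zero]
    rw [zero_pow hk]
    exact Finset.prod_nonneg fun i _ => hA0 i
  · push Not at hz
    have hApos : ∀ i ∈ s, 0 < ∫ ω, |f i ω| ^ s.card ∂μ := fun i his => lt_of_le_of_ne (hA0 i) (Ne.symm (hz i his))
    obtain ⟨a, ha⟩ : ∃ a : ι → ℝ, a = fun i => (∫ ω, |f i ω| ^ s.card ∂μ) ^ ((s.card : ℝ)⁻¹) := ⟨_, rfl⟩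
    have hapos : ∀ i ∈ s, 0 < a i := fun i his => by rw [ha]; exact Real.rpow_pos_of_pos (hApos i his) _
    have hapow : ∀ i, a i ^ s.card = ∫ ω, |f i ω| ^ s.card ∂μ := fun i => by
      rw [ha]; exact Real.rpow_inv_natCast_pow (hA0 i) hk
    have hprod_pos : 0 < ∏ i ∈ s, a i := Finset.prod_pos hapos
    have key : ∀ ω, ∏ i ∈ s, |f i ω| ≤ (∏ i ∈ s, a i) * ((s.card : ℝ)⁻¹ * ∑ i ∈ s, |f i ω| ^ s.card / a i ^ s.card) := by
      intro ω
      have h := cm_tk_amgm s hs (fun i => |f i ω| / a i) fun i his => div_nonneg (abs_nonneg _) (hapos i his).le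
      simp only [div_pow, Finset.prod_div_distrib] at h
      rw [div_le_iff₀ hprod_pos] at h
      linarith
    have hI2 : Integrable (fun ω => (∏ i ∈ s, a i) * ((s.card : ℝ)⁻¹ * ∑ i ∈ s, |f i ω| ^ s.card / a i ^ s.card)) μ :=
      ((integrable_finsetSum s fun i his => (hi i his).div_const _).const_mul _).const_mul _
    have h1 : |∫ ω, ∏ i ∈ s, f i ω ∂μ| ≤ ∏ i ∈ s, a i := by
      calc |∫ ω, ∏ i ∈ s, f i ω ∂μ| ≤ ∫ ω, |∏ i ∈ s, f i ω| ∂μ := abs_integral_le_integral_abs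
        _ ≤ ∫ ω, (∏ i ∈ s, a i) * ((s.card : ℝ)⁻¹ * ∑ i ∈ s, |f i ω| ^ s.card / a i ^ s.card) ∂μ := by
            refine integral_mono hP.abs hI2 fun ω => ?_
            show |∏ i ∈ s, f i ω| ≤ _
            rw [Finset.abs_prod]; exact key ω
        _ = (∏ i ∈ s, a i) * ((s.card : ℝ)⁻¹ * ∑ i ∈ s, (∫ ω, |f i ω| ^ s.card ∂μ) / a i ^ s.card) := by
            rw [integral_const_mul, integral_const_mul, integral_finsetSum s fun i his => (hi i his).div_const _]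
            congr 2
            exact Finset.sum_congr rfl fun i _ => integral_div _ _
        _ = (∏ i ∈ s, a i) * ((s.card : ℝ)⁻¹ * ∑ i ∈ s, (1:ℝ)) := by
            congr 2
            refine Finset.sum_congr rfl fun i his => ?_
            rw [hapow i]; exact div_self (hApos i his).ne'
        _ = ∏ i ∈ s, a i := by
            simp only [Finset.sum_const, nsmul_eq_mul, mul_one]
            rw [inv_mul_cancel₀ hk'.ne', mul_one]
    calc |∫ ω, ∏ i ∈ s, f i ω ∂μ| ^ s.card ≤ (∏ i ∈ s, a i) ^ s.card := pow_le_pow_left₀ (abs_nonneg _) h1 _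
      _ = ∏ i ∈ s, ∫ ω, |f i ω| ^ s.card ∂μ := by
          rw [← Finset.prod_pow]; exact Finset.prod_congr rfl fun i _ => hapow i

/-- **T9** (window pigeonhole of Lemma 3.7): among `K` consecutive blocks of length `w` one carries at most the fraction `1/K` of the increase -/
theorem cm_tk_window (S : ℝ → ℝ) (a w : ℝ) (K : ℕ) (hK : 0 < K) :
    ∃ i < K, S (a + (i + 1 : ℕ) * w) - S (a + i * w) ≤ (S (a + K * w) - S a) / K := by
  by_contra hcon
  push Not at hcon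
  have hK' : (0:ℝ) < K := by exact_mod_cast hK
  have h1 : ∑ i ∈ range K, (S (a + (i + 1 : ℕ) * w) - S (a + i * w)) = S (a + K * w) - S a := by
    have := Finset.sum_range_sub (fun i : ℕ => S (a + i * w)) K
    simpa using this
  have h2 : ∑ i ∈ range K, (S (a + K * w) - S a) / K < ∑ i ∈ range K, (S (a + (i + 1 : ℕ) * w) - S (a + i * w)) :=
    Finset.sum_lt_sum_of_nonempty ⟨0, Finset.mem_range.mpr hK⟩ fun i hi => hcon i (Finset.mem_range.mp hi)
  rw [h1] at h2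
  simp only [Finset.sum_const, Finset.card_range, nsmul_eq_mul] at h2
  rw [mul_div_cancel₀ _ hK'.ne'] at h2
  exact lt_irrefl _ h2

/-- **T9'** the same with the oscillation of a monotone function on the block -/
theorem cm_tk_window_osc (S : ℝ → ℝ) (a w V : ℝ) (hw : 0 ≤ w) (K : ℕ) (hK : 0 < K) (hS : MonotoneOn S (Icc a (a + K * w)))
    (hV : S (a + K * w) - S a ≤ V) :
    ∃ i < K, ∀ s ∈ Icc (a + i * w) (a + (i + 1 : ℕ) * w), ∀ t ∈ Icc (a + i * w) (a + (i + 1 : ℕ) * w), |S s - S t| ≤ V / K := by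
  obtain ⟨i, hi, h⟩ := cm_tk_window S a w K hK
  have hK' : (0:ℝ) < K := by exact_mod_cast hK
  refine ⟨i, hi, ?_⟩
  have l0 : a ≤ a + (i:ℝ) * w := by have : 0 ≤ (i:ℝ) * w := by positivity
                                    linarith
  have l1 : a + ((i + 1 : ℕ) : ℝ) * w ≤ a + K * w := by
    have : ((i + 1 : ℕ) : ℝ) ≤ K := by exact_mod_cast hi
    nlinarith
  have l2 : a + (i:ℝ) * w ≤ a + ((i + 1 : ℕ) : ℝ) * w := by push_cast; nlinarith
  have hle : (S (a + K * w) - S a) / K ≤ V / K := div_le_div_of_nonneg_right hV hK'.le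
  have hsub : ∀ s ∈ Icc (a + (i:ℝ) * w) (a + ((i + 1 : ℕ) : ℝ) * w), s ∈ Icc a (a + K * w) :=
    fun s hs => ⟨le_trans l0 hs.1, le_trans hs.2 l1⟩
  have hlo : ∀ s ∈ Icc (a + (i:ℝ) * w) (a + ((i + 1 : ℕ) : ℝ) * w), S (a + i * w) ≤ S s :=
    fun s hs => hS (hsub _ ⟨le_rfl, l2⟩) (hsub s hs) hs.1
  have hhi : ∀ s ∈ Icc (a + (i:ℝ) * w) (a + ((i + 1 : ℕ) : ℝ) * w), S s ≤ S (a + (i + 1 : ℕ) * w) :=
    fun s hs => hS (hsub s hs) (hsub _ ⟨l2, le_rfl⟩) hs.2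
  intro s hs t ht
  rw [abs_le]
  constructor <;> linarith [hlo s hs, hlo t ht, hhi s hs, hhi t ht]

end Claimed.Agent.R286
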