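import Claimed.Agent.R286.Cmp.P5Sus
import Claimed.Agent.R286.Cmp.P5Tbl
import Claimed.Agent.R286.Cmp.Tk

/-!
owner helper182 (co-architect of P05 under helper247, posted by helper82; adversary helper38).      prefix `cm5s_`
R286 / P05: PE Lemma 3.7 (GOOD SPLIT, comparisons.tex l.637-727) on the abstract path model `CmPath` of Cmp/P5Mod.      TEX[PE:comp:good-split]
EXITS (statements typed by helper247, unchanged):  `cm5_split_pf`, `cm5_window_pf`;   `cm5_split_sq_pf` (square norm at the cut, for `cmkMXc`; right side `C v (ηS + ζ)`, smaller than the one of `cm5_split_pf`).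
`cm5_split_pf` is PROVED here from `cm5_sus_pf` (l = p), `cm5_tbl_pf` (w0 = 4 v, both branches via the swap), `Proj`, `Pin` and the leaves `cm5s_*` below.
ALL LEAVES PROVED (helper164, helper38, helper175, helper182): the file has no open leaf of its own.

LAYOUT (mass coordinate).   past buffer `J₋ = [t0 - ϑ v, t0]`, star cuts `s` with `mass s ∈ [t0, t0 + ϑ v/3]`, clock interval `[t0 + ϑ v/3, t0 + 2 ϑ v/3]`
(nodes `j1 = nd (t0 + ϑ v/3) < j2 = nd (t0 + 2 ϑ v/3)`), central projection at `j2`, future buffer `J₊ = [t0 + ϑ v, t0 + 2 ϑ v]`, far node `i* = nd (4 Γ v)`.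
STEPS.   (A) `cm5s_pin_avg`: (1) line 3 for the normalised window average `avL` of `L`.   (B) `cm5s_sq_conc`: `2 E_t A₋ ≤ |X_t|² ≤ 2 E_t A₊`, `|X_t|² - 2 E_t A₋ = avD`.
(C) `cm5s_dist`: triangle-square through the past buffer.   (D) (13) under the two-leaf law, anchor on the other branch = `CmPath.proj_snd`, `proj_fst` of helper38 (Cmp/P5Tbl).
(E) `cm5s_far`: `R - X^a_{j2}·X^b_{j2}` = 4 terms.   (F) `cm5s_near`: `X^a_{j2}·X^b_{j2} - |X_s|²`.   (N) numerics `cm5s_num_*`.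
-/

set_option autoImplicit false

namespace Claimed.Agent.R286

open MeasureTheory ProbabilityTheory
open scoped ENNReal NNReal

variable {n : ℕ} {Ω : Type} [MeasurableSpace Ω]

namespace CmPath

/-- normalised average of `L` over the mass window `[t1,t2]` -/
noncomputable def avL (M : CmPath n Ω) (t1 t2 : ℝ) (ω : Ω) : ℝ := M.intg M.Lf t1 t2 ω / (t2 - t1)

/-- centred window average -/
noncomputable def avLc (M : CmPath n Ω) (t1 t2 : ℝ) (ω : Ω) : ℝ := M.avL t1 t2 ω - ∫ ω', M.avL t1 t2 ω' ∂M.P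

/-- normalised average of `|X_t - X_i|²` over the mass window `[t1,t2]` -/
noncomputable def avD (M : CmPath n Ω) (t : ℕ) (t1 t2 : ℝ) (ω : Ω) : ℝ :=
  (∑ i ∈ Finset.range (M.L + 1), M.ov i t1 t2 * ‖M.X t ω - M.X i ω‖ ^ 2) / (t2 - t1)

end CmPath

variable {M : CmPath n Ω}

/-! ### 0. the window (pigeonhole) -/

/-- PE Lemma 3.7, choice of the window (pigeonhole on the monotone function `S`), inside a given interval `[s1,s2]`.   TEX[PE:comp:good-split] -/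
theorem cm5_window_pf {n : ℕ} {Ω : Type} [MeasurableSpace Ω] (M : CmPath n Ω) (hM : M.Ok) (v ϑ CS s1 s2 : ℝ) (hv : 0 < v) (hϑ : 0 < ϑ)
    (hs1 : 0 ≤ s1) (h12 : 12 * ϑ * v ≤ s2 - s1) (hS : M.S (M.nd s2) ≤ CS * v) :
    ∃ t0 : ℝ, s1 ≤ t0 - ϑ * v ∧ t0 + 2 * ϑ * v ≤ s2 ∧
      M.S (M.nd (t0 + 2 * ϑ * v)) - M.S (M.nd (t0 - ϑ * v)) ≤ 4 * CS * ϑ * v ^ 2 / (s2 - s1) := by
  obtain ⟨w, hw⟩ : ∃ w, w = 3 * ϑ * v := ⟨_, rfl⟩
  have hw0 : 0 < w := by rw [hw]; positivity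
  have hlen : 0 < s2 - s1 := by nlinarith [mul_pos hϑ hv]
  obtain ⟨K, hK⟩ : ∃ K : ℕ, K = ⌊(s2 - s1) / w⌋₊ := ⟨_, rfl⟩
  have hq4 : 4 ≤ (s2 - s1) / w := by rw [le_div_iff₀ hw0, hw]; linarith
  have hK1 : (K : ℝ) ≤ (s2 - s1) / w := by rw [hK]; exact Nat.floor_le (by positivity)
  have hK2 : (s2 - s1) / w < K + 1 := by rw [hK]; exact Nat.lt_floor_add_one _
  have hK3 : (3:ℝ) < K := by linarith
  have hKpos : 0 < K := by
    have : (0:ℝ) < K := by linarith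
    exact_mod_cast this
  have hKw : K * w ≤ s2 - s1 := by rwa [le_div_iff₀ hw0] at hK1
  obtain ⟨i, hi, h⟩ := cm_tk_window (fun t => M.S (M.nd t)) s1 w K hKpos
  have hmono : ∀ s t, 0 ≤ s → s ≤ t → M.S (M.nd s) ≤ M.S (M.nd t) := fun s t hs hst =>
    CmPath.S_mono hM (CmPath.nd_mono hM hs hst) ((CmPath.nd_le M t).trans (Nat.le_succ _))
  refine ⟨s1 + i * w + ϑ * v, ?_, ?_, ?_⟩
  · have : 0 ≤ (i:ℝ) * w := by positivity
    linarith
  · have h1 : ((i + 1 : ℕ) : ℝ) ≤ K := by exact_mod_cast hi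
    have h2 : ((i + 1 : ℕ) : ℝ) * w ≤ K * w := mul_le_mul_of_nonneg_right h1 hw0.le
    push_cast at h2
    rw [hw] at h2 hKw ⊢
    linarith
  · have e1 : s1 + i * w + ϑ * v + 2 * ϑ * v = s1 + ((i + 1 : ℕ) : ℝ) * w := by push_cast; rw [hw]; ring
    have e2 : s1 + i * w + ϑ * v - ϑ * v = s1 + i * w := by ring
    rw [e1, e2]
    refine le_trans h ?_
    have hK' : (0:ℝ) < K := by linarith
    have hnum : M.S (M.nd (s1 + K * w)) - M.S (M.nd s1) ≤ CS * v := by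
      have h1 := hmono (s1 + K * w) s2 (by positivity) (by linarith)
      have h2 := CmPath.S_nonneg M (M.nd s1)
      linarith
    have hCS : 0 ≤ CS * v := le_trans (CmPath.S_nonneg M _) hS
    rw [div_le_div_iff₀ hK' hlen]
    have h3 : (s2 - s1) ≤ (K + 1) * w := by
      rw [div_lt_iff₀ hw0] at hK2; exact hK2.le
    have h4 : (s2 - s1) ≤ 4 * ϑ * v * K := by
      have : (K + 1 : ℝ) * w ≤ 4 * ϑ * v * K := by
        rw [hw]
        have : 0 < ϑ * v := mul_pos hϑ hv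
        nlinarith
      linarith
    calc (M.S (M.nd (s1 + K * w)) - M.S (M.nd s1)) * (s2 - s1) ≤ CS * v * (s2 - s1) :=
          mul_le_mul_of_nonneg_right hnum hlen.le
      _ ≤ CS * v * (4 * ϑ * v * K) := mul_le_mul_of_nonneg_left h4 hCS
      _ = 4 * CS * ϑ * v ^ 2 * K := by ring

/-! ### 1. indices of the cells which meet a window -/

theorem cm5s_ov_lt (hM : M.Ok) {i t : ℕ} {t1 t2 : ℝ} (h : 0 < M.ov i t1 t2) (ht : t2 ≤ M.mass t) : i < t := by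
  have h1 := (CmPath.ov_pos_iff M i t1 t2).mp h
  have h2 : M.mass i < M.mass t := ((le_max_left _ _).trans_lt h1).trans_le ((min_le_right _ _).trans ht)
  by_contra hc
  exact absurd (hM.mass_mono (not_lt.mp hc)) (not_le.mpr h2)

theorem cm5s_ov_ge (hM : M.Ok) {i t : ℕ} {t1 t2 : ℝ} (h : 0 < M.ov i t1 t2) (ht : M.mass t ≤ t1) : t ≤ i := by
  have h1 := (CmPath.ov_pos_iff M i t1 t2).mp h
  have h2 : M.mass t < M.mass (i + 1) := (ht.trans (le_max_right _ _)).trans_lt (h1.trans_le (min_le_left _ _))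
  by_contra hc
  have : i + 1 ≤ t := by omega
  exact absurd (hM.mass_mono this) (not_le.mpr h2)

theorem cm5s_ov_nd (hM : M.Ok) {i : ℕ} (hi : i ≤ M.L) {t1 t2 : ℝ} (h1 : 0 ≤ t1) (h : 0 < M.ov i t1 t2) :
    M.nd t1 ≤ i ∧ i ≤ M.nd t2 := by
  refine ⟨cm5s_ov_ge hM h (CmPath.mass_nd_le hM h1), ?_⟩
  have h3 := (CmPath.ov_pos_iff M i t1 t2).mp h
  exact CmPath.le_nd hM hi (((le_max_left _ _).trans_lt h3).trans_le (min_le_right _ _)).le

/-! ### 2. measurability and bounds -/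

theorem cm5s_Lf_meas (hM : M.Ok) (j : ℕ) : Measurable (M.Lf j) := by
  unfold CmPath.Lf
  exact (CmPath.cm5k_yX_meas hM j).sub (((hM.meas j).norm.pow_const 2).div_const 2)

theorem cm5s_Lf_bound (hM : M.Ok) (j : ℕ) (ω : Ω) : |M.Lf j ω| ≤ 2 := by
  unfold CmPath.Lf
  have h1 := CmPath.cm5k_yX_le hM j ω
  have h2 := CmPath.cm5k_sq_le hM j ω
  rw [abs_le] at *
  constructor <;> linarith [h1.1, h1.2, h2.1, h2.2]

theorem cm5s_intg_meas (M : CmPath n Ω) {g : ℕ → Ω → ℝ} (hg : ∀ j, Measurable (g j)) (t1 t2 : ℝ) : Measurable (M.intg g t1 t2) := by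
  unfold CmPath.intg
  exact Finset.measurable_fun_sum _ fun i _ => (hg i).const_mul _

theorem cm5s_avL_meas (hM : M.Ok) (t1 t2 : ℝ) : Measurable (M.avL t1 t2) := by
  unfold CmPath.avL
  exact (cm5s_intg_meas M (cm5s_Lf_meas hM) t1 t2).div_const _

/-- a normalised window average of a bounded node function is bounded -/
theorem cm5s_avg_bound (hM : M.Ok) {t1 t2 : ℝ} (h1 : 0 ≤ t1) (h12 : t1 < t2) (h2 : t2 ≤ 1) {g : ℕ → ℝ} {C : ℝ} (hg : ∀ i, |g i| ≤ C) :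
    |(∑ i ∈ Finset.range (M.L + 1), M.ov i t1 t2 * g i) / (t2 - t1)| ≤ C := by
  have h0 : 0 < t2 - t1 := by linarith
  rw [abs_div, abs_of_pos h0, div_le_iff₀ h0]
  calc |∑ i ∈ Finset.range (M.L + 1), M.ov i t1 t2 * g i| ≤ ∑ i ∈ Finset.range (M.L + 1), |M.ov i t1 t2 * g i| :=
        Finset.abs_sum_le_sum_abs _ _
    _ ≤ ∑ i ∈ Finset.range (M.L + 1), M.ov i t1 t2 * C := by
        refine Finset.sum_le_sum fun i _ => ?_
        rw [abs_mul, abs_of_nonneg (CmPath.ov_nonneg M i t1 t2)]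
        exact mul_le_mul_of_nonneg_left (hg i) (CmPath.ov_nonneg M i t1 t2)
    _ = C * (t2 - t1) := by rw [← Finset.sum_mul, CmPath.sum_ov hM h1 h12.le h2]; ring

theorem cm5s_avL_bound (hM : M.Ok) {t1 t2 : ℝ} (h1 : 0 ≤ t1) (h12 : t1 < t2) (h2 : t2 ≤ 1) (ω : Ω) : |M.avL t1 t2 ω| ≤ 2 := by
  unfold CmPath.avL CmPath.intg
  exact cm5s_avg_bound hM h1 h12 h2 (g := fun i => M.Lf i ω) fun i => cm5s_Lf_bound hM i ω

theorem cm5s_avLc_meas (hM : M.Ok) (t1 t2 : ℝ) : Measurable (M.avLc t1 t2) := by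
  unfold CmPath.avLc
  exact (cm5s_avL_meas hM t1 t2).sub_const _

theorem cm5s_avLc_bound (hM : M.Ok) {t1 t2 : ℝ} (h1 : 0 ≤ t1) (h12 : t1 < t2) (h2 : t2 ≤ 1) (ω : Ω) : |M.avLc t1 t2 ω| ≤ 4 := by
  have := hM.prob
  unfold CmPath.avLc
  have ha := cm5s_avL_bound hM h1 h12 h2 ω
  have hb : |∫ ω', M.avL t1 t2 ω' ∂M.P| ≤ 2 := by
    have := norm_integral_le_of_norm_le_const (μ := M.P) (f := M.avL t1 t2) (C := 2)
      (Filter.Eventually.of_forall fun ω' => by simpa using cm5s_avL_bound hM h1 h12 h2 ω')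
    simpa using this
  calc |M.avL t1 t2 ω - ∫ ω', M.avL t1 t2 ω' ∂M.P| ≤ |M.avL t1 t2 ω| + |∫ ω', M.avL t1 t2 ω' ∂M.P| := abs_sub _ _
    _ ≤ 4 := by linarith

theorem cm5s_avD_meas (hM : M.Ok) (t : ℕ) (t1 t2 : ℝ) : Measurable (M.avD t t1 t2) := by
  unfold CmPath.avD
  exact (Finset.measurable_fun_sum _ fun i _ => ((((hM.meas t).sub (hM.meas i)).norm.pow_const 2).const_mul _)).div_const _

theorem cm5s_avD_nonneg (M : CmPath n Ω) (t : ℕ) {t1 t2 : ℝ} (h12 : t1 < t2) (ω : Ω) : 0 ≤ M.avD t t1 t2 ω := by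
  unfold CmPath.avD
  exact div_nonneg (Finset.sum_nonneg fun i _ => mul_nonneg (CmPath.ov_nonneg M i t1 t2) (by positivity)) (by linarith)

theorem cm5s_avD_bound (hM : M.Ok) (t : ℕ) {t1 t2 : ℝ} (h1 : 0 ≤ t1) (h12 : t1 < t2) (h2 : t2 ≤ 1) (ω : Ω) : |M.avD t t1 t2 ω| ≤ 4 := by
  unfold CmPath.avD
  exact cm5s_avg_bound hM h1 h12 h2 (g := fun i => ‖M.X t ω - M.X i ω‖ ^ 2) fun i => CmPath.cmp_bound_le4 hM i t ω

/-! ### (A) the pinned moment bound for a window average -/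

/-- PE (1) line 3 with `k = 1_J / |J|` (cells cut by the end points of `J` included).   TEX[PE:comp:good-split] -/
theorem cm5s_pin_avg (hM : M.Ok) {l : ℕ} (hl : 1 ≤ l) {c : ℝ} (hc : 0 ≤ c) (hPin : M.Pin l c) {t1 t2 : ℝ}
    (h1 : 0 ≤ t1) (h12 : t1 < t2) (h2 : t2 ≤ 1) :
    cmN M.P (2 * l) (M.avLc t1 t2) ≤ Real.sqrt (c * cmN M.P l (M.intg M.W t1 t2)) / (t2 - t1) := by
  have := hM.prob
  have hlen : 0 < t2 - t1 := by linarith
  set len := t2 - t1 with hlend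
  set k : ℕ → ℝ := fun i => M.ov i t1 t2 / ((M.mass (i + 1) - M.mass i) * len) with hk
  have hΔ : ∀ i, 0 ≤ M.mass (i + 1) - M.mass i := fun i => sub_nonneg.mpr (hM.mass_mono (Nat.le_succ i))
  have hov0 := fun i => CmPath.ov_nonneg M i t1 t2
  have hovΔ := fun i => CmPath.ov_le hM i t1 t2
  have hk1 : ∀ i, (M.mass (i + 1) - M.mass i) * k i = M.ov i t1 t2 / len := by
    intro i
    rcases (hΔ i).eq_or_lt with h0 | hpos
    · have : M.ov i t1 t2 = 0 := le_antisymm (by rw [h0]; exact hovΔ i) (hov0 i)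
      rw [← h0, this]; simp
    · simp only [hk]; field_simp
  have hk2 : ∀ i, (M.mass (i + 1) - M.mass i) * k i ^ 2 ≤ M.ov i t1 t2 / len ^ 2 := by
    intro i
    rcases (hΔ i).eq_or_lt with h0 | hpos
    · rw [← h0]; simp only [zero_mul]; exact div_nonneg (hov0 i) (by positivity)
    · have e : (M.mass (i + 1) - M.mass i) * k i ^ 2 = M.ov i t1 t2 / len ^ 2 * (M.ov i t1 t2 / (M.mass (i + 1) - M.mass i)) := by
        simp only [hk]; field_simp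
      rw [e]
      have h3 : M.ov i t1 t2 / (M.mass (i + 1) - M.mass i) ≤ 1 := (div_le_one hpos).mpr (hovΔ i)
      have h4 : 0 ≤ M.ov i t1 t2 / len ^ 2 := div_nonneg (hov0 i) (by positivity)
      nlinarith
  have hP := hPin k
  have hintL : ∀ i ∈ Finset.range (M.L + 1), Integrable (fun ω => M.ov i t1 t2 * M.Lf i ω) M.P := fun i _ =>
    (CmPath.cm5k_integrable M.P (cm5s_Lf_meas hM i).aestronglyMeasurable (C := 2)
      (fun ω => by rw [Real.norm_eq_abs]; exact cm5s_Lf_bound hM i ω)).const_mul _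
  have eA : ∀ ω, ∑ i ∈ Finset.range (M.L + 1), (M.mass (i + 1) - M.mass i) * k i * (M.Lf i ω - ∫ ω', M.Lf i ω' ∂M.P)
      = M.avLc t1 t2 ω := by
    intro ω
    unfold CmPath.avLc CmPath.avL CmPath.intg
    rw [integral_div, integral_finsetSum _ hintL, ← sub_div, ← Finset.sum_sub_distrib, Finset.sum_div]
    apply Finset.sum_congr rfl
    intro i _
    rw [hk1 i, integral_const_mul]
    ring
  simp only [eA] at hP
  have hWBM : CmBM M.P (M.intg M.W t1 t2) := by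
    unfold CmPath.intg
    exact CmPath.su_BM_sum _ fun i hi => CmPath.su_BM_cmul _ (CmPath.su_BM_of (CmPath.W_meas hM i) (C := 16) fun ω => by
      rw [abs_of_nonneg (CmPath.W_nonneg hM i ω)]
      exact CmPath.W_le hM (by have := Finset.mem_range.mp hi; omega) ω)
  have hW0 : ∀ ω, 0 ≤ M.intg M.W t1 t2 ω := fun ω =>
    Finset.sum_nonneg fun i _ => mul_nonneg (hov0 i) (CmPath.W_nonneg hM i ω)
  have eB : ∀ ω, ∑ i ∈ Finset.range (M.L + 1), (M.mass (i + 1) - M.mass i) * k i ^ 2 * M.W i ω ≤ M.intg M.W t1 t2 ω / len ^ 2 := by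
    intro ω
    unfold CmPath.intg
    rw [Finset.sum_div]
    apply Finset.sum_le_sum
    intro i _
    calc (M.mass (i + 1) - M.mass i) * k i ^ 2 * M.W i ω ≤ M.ov i t1 t2 / len ^ 2 * M.W i ω :=
          mul_le_mul_of_nonneg_right (hk2 i) (CmPath.W_nonneg hM i ω)
      _ = _ := by ring
  have eB0 : ∀ ω, 0 ≤ ∑ i ∈ Finset.range (M.L + 1), (M.mass (i + 1) - M.mass i) * k i ^ 2 * M.W i ω := fun ω =>
    Finset.sum_nonneg fun i _ => mul_nonneg (mul_nonneg (hΔ i) (by positivity)) (CmPath.W_nonneg hM i ω)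
  have hl0 : l ≠ 0 := by omega
  have hintW : Integrable (fun ω => ‖M.intg M.W t1 t2 ω‖ ^ l) M.P := (hWBM.memLp l).integrable_norm_pow hl0
  have hR : ∫ ω, (∑ i ∈ Finset.range (M.L + 1), (M.mass (i + 1) - M.mass i) * k i ^ 2 * M.W i ω) ^ l ∂M.P
      ≤ (1 / len ^ 2) ^ l * cmN M.P l (M.intg M.W t1 t2) ^ l := by
    rw [cmN_pow_eq hWBM l hl, ← integral_const_mul]
    apply integral_mono_of_nonneg (Filter.Eventually.of_forall fun ω => pow_nonneg (eB0 ω) l) (hintW.const_mul _)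
    filter_upwards with ω
    rw [Real.norm_eq_abs, abs_of_nonneg (hW0 ω), ← mul_pow]
    apply pow_le_pow_left₀ (eB0 ω)
    refine (eB ω).trans (le_of_eq ?_)
    ring
  have hN0 := cmN_nonneg M.P l (M.intg M.W t1 t2)
  have hBM : CmBM M.P (M.avLc t1 t2) := CmPath.su_BM_of (cm5s_avLc_meas hM t1 t2) (cm5s_avLc_bound hM h1 h12 h2)
  apply cmN_le_of_int_le hBM (2 * l) (by omega) _ (by positivity)
  have e1 : ∀ ω, ‖M.avLc t1 t2 ω‖ ^ (2 * l) = M.avLc t1 t2 ω ^ (2 * l) := fun ω => by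
    rw [Real.norm_eq_abs, pow_mul, sq_abs, ← pow_mul]
  simp only [e1]
  refine hP.trans ((mul_le_mul_of_nonneg_left hR (by positivity)).trans (le_of_eq ?_))
  rw [div_pow (Real.sqrt _) len, pow_mul (Real.sqrt _), Real.sq_sqrt (by positivity), mul_pow, pow_mul len, one_div, inv_pow]
  ring

/-- `2 E A_J` is an average of `S` -/
theorem cm5s_mean_bounds (hM : M.Ok) {t1 t2 lo hi : ℝ} (h1 : 0 ≤ t1) (h12 : t1 < t2) (h2 : t2 ≤ 1)
    (h : ∀ i, i ≤ M.L → 0 < M.ov i t1 t2 → lo ≤ M.S i ∧ M.S i ≤ hi) :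
    lo ≤ 2 * ∫ ω, M.avL t1 t2 ω ∂M.P ∧ 2 * ∫ ω, M.avL t1 t2 ω ∂M.P ≤ hi := by
  have := hM.prob
  have hlen : 0 < t2 - t1 := by linarith
  have hsum := CmPath.sum_ov hM h1 h12.le h2
  have hint : ∀ i ∈ Finset.range (M.L + 1), Integrable (fun ω => M.ov i t1 t2 * M.Lf i ω) M.P := fun i _ =>
    (CmPath.cm5k_integrable M.P (cm5s_Lf_meas hM i).aestronglyMeasurable (C := 2)
      (fun ω => by rw [Real.norm_eq_abs]; exact cm5s_Lf_bound hM i ω)).const_mul _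
  have e : 2 * ∫ ω, M.avL t1 t2 ω ∂M.P = (∑ i ∈ Finset.range (M.L + 1), M.ov i t1 t2 * M.S i) / (t2 - t1) := by
    unfold CmPath.avL CmPath.intg
    rw [integral_div, integral_finsetSum _ hint]
    have : ∀ i ∈ Finset.range (M.L + 1), ∫ ω, M.ov i t1 t2 * M.Lf i ω ∂M.P = M.ov i t1 t2 * M.S i / 2 := by
      intro i hi
      rw [integral_const_mul, CmPath.int_Lf hM (by have := Finset.mem_range.mp hi; omega)]
      ring
    rw [Finset.sum_congr rfl this, ← Finset.sum_div]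
    ring
  rw [e]
  constructor
  · rw [le_div_iff₀ hlen, ← hsum, Finset.mul_sum]
    apply Finset.sum_le_sum
    intro i hi
    rcases (CmPath.ov_nonneg M i t1 t2).eq_or_lt with h0 | hpos
    · rw [← h0]; simp
    · rw [mul_comm]
      exact mul_le_mul_of_nonneg_left (h i (by have := Finset.mem_range.mp hi; omega) hpos).1 hpos.le
  · rw [div_le_iff₀ hlen, ← hsum, Finset.mul_sum]
    apply Finset.sum_le_sum
    intro i hir
    rcases (CmPath.ov_nonneg M i t1 t2).eq_or_lt with h0 | hpos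
    · rw [← h0]; simp
    · rw [mul_comm hi]
      exact mul_le_mul_of_nonneg_left (h i (by have := Finset.mem_range.mp hir; omega) hpos).2 hpos.le

/-! ### (B) the two conditional identities -/

/-- `E_t` of a window average -/
theorem cm5s_cE_avL (hM : M.Ok) (t : ℕ) (t1 t2 : ℝ) (ω : Ω) :
    M.cE t (M.avL t1 t2) ω = (∑ i ∈ Finset.range (M.L + 1), M.ov i t1 t2 * M.cE t (M.Lf i) ω) / (t2 - t1) := by
  have := hM.markov t
  have hint : ∀ i ∈ Finset.range (M.L + 1), Integrable (fun ω' => M.ov i t1 t2 * M.Lf i ω') (M.κ t ω) := fun i _ =>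
    (CmPath.cm5k_intK hM t ω (cm5s_Lf_meas hM i) (cm5s_Lf_bound hM i)).const_mul _
  unfold CmPath.cE CmPath.avL CmPath.intg
  rw [integral_div, integral_finsetSum _ hint]
  congr 1
  apply Finset.sum_congr rfl
  intro i _
  rw [integral_const_mul]

/-- past buffer: `2 E_t A₋ = |X_t|² - avg |X_t - X_s|²` -/
theorem cm5s_cE_past (hM : M.Ok) {t : ℕ} (ht : t ≤ M.L) {a1 a2 : ℝ} (ha1 : 0 ≤ a1) (ha : a1 < a2) (hat : a2 ≤ M.mass t) (ω : Ω) :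
    2 * M.cE t (M.avL a1 a2) ω = ‖M.X t ω‖ ^ 2 - M.avD t a1 a2 ω := by
  have hlen : 0 < a2 - a1 := by linarith
  have ha2 : a2 ≤ 1 := hat.trans (CmPath.mass_mem hM (by omega)).2
  have hsum := CmPath.sum_ov hM ha1 ha.le ha2
  rw [cm5s_cE_avL hM t a1 a2 ω]
  unfold CmPath.avD
  rw [eq_sub_iff_add_eq, mul_div_assoc', ← add_div, div_eq_iff hlen.ne', ← hsum, Finset.mul_sum, Finset.mul_sum, ← Finset.sum_add_distrib]
  apply Finset.sum_congr rfl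
  intro i hi
  rcases (CmPath.ov_nonneg M i a1 a2).eq_or_lt with h0 | hpos
  · rw [← h0]; simp
  · have hit : i < t := cm5s_ov_lt hM hpos hat
    have := CmPath.cE_Lf_le hM hit.le ht ω
    linear_combination (M.ov i a1 a2) * this

/-- future buffer: `|X_t|² ≤ 2 E_t A₊` -/
theorem cm5s_cE_future (hM : M.Ok) {t : ℕ} (ht : t ≤ M.L) {b1 b2 : ℝ} (htb : M.mass t ≤ b1) (hb : b1 < b2) (hb2 : b2 ≤ 1) (ω : Ω) :
    ‖M.X t ω‖ ^ 2 ≤ 2 * M.cE t (M.avL b1 b2) ω := by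
  have hlen : 0 < b2 - b1 := by linarith
  have hb1 : 0 ≤ b1 := (CmPath.mass_mem hM (j := t) (by omega)).1.trans htb
  have hsum := CmPath.sum_ov hM hb1 hb.le hb2
  rw [cm5s_cE_avL hM t b1 b2 ω, mul_div_assoc', le_div_iff₀ hlen, ← hsum, Finset.mul_sum, Finset.mul_sum]
  apply Finset.sum_le_sum
  intro i hi
  rcases (CmPath.ov_nonneg M i b1 b2).eq_or_lt with h0 | hpos
  · rw [← h0]; simp
  · have hit : t ≤ i := cm5s_ov_ge hM hpos htb
    have := CmPath.cE_Lf_ge hM hit (by have := Finset.mem_range.mp hi; omega) ω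
    nlinarith

/-- three-term bound of an `L^q` norm -/
theorem cm5s_norm3 {α : Type} [MeasurableSpace α] {μ : Measure α} [IsProbabilityMeasure μ] {f u v : α → ℝ} (hu : CmBM μ u) (hv : CmBM μ v)
    {c : ℝ} (hc : 0 ≤ c) (q : ℕ) (hq : 1 ≤ q) (h : ∀ a, |f a| ≤ 2 * |u a| + 2 * |v a| + c) :
    cmN μ q f ≤ 2 * cmN μ q u + 2 * cmN μ q v + c := by
  have hu' : CmBM μ (fun a => 2 * ‖u a‖) := CmPath.su_BM_cmul 2 hu.norm
  have hv' : CmBM μ (fun a => 2 * ‖v a‖) := CmPath.su_BM_cmul 2 hv.norm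
  have huv := CmPath.su_BM_add hu' hv'
  have hg := CmPath.su_BM_add huv (CmPath.su_BM_const (μ := μ) c)
  have h1 : cmN μ q f ≤ cmN μ q (fun a => 2 * ‖u a‖ + 2 * ‖v a‖ + c) := by
    apply cmN_mono hg
    filter_upwards with a
    rw [Real.norm_eq_abs, Real.norm_eq_abs]
    exact (h a).trans (le_abs_self _)
  have h2 := cmN_add_le huv (CmPath.su_BM_const (μ := μ) c) q hq
  have h3 := cmN_add_le hu' hv' q hq
  rw [cmN_const c q hq, abs_of_nonneg hc] at h2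
  rw [cmN_const_mul, cmN_const_mul, cmN_norm, cmN_norm, abs_of_nonneg (by norm_num : (0:ℝ) ≤ 2)] at h3
  linarith

/-- square-norm concentration and distance to the past buffer at a deterministic cut `t` between the two buffers.   TEX[PE:comp:good-split] -/
theorem cm5s_sq_conc (hM : M.Ok) {t : ℕ} (ht : t ≤ M.L) {a1 a2 b1 b2 lo hi : ℝ} (ha1 : 0 ≤ a1) (ha : a1 < a2) (hat : a2 ≤ M.mass t)
    (htb : M.mass t ≤ b1) (hb : b1 < b2) (hb2 : b2 ≤ 1)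
    (hSa : ∀ i, i ≤ M.L → 0 < M.ov i a1 a2 → lo ≤ M.S i ∧ M.S i ≤ hi)
    (hSb : ∀ i, i ≤ M.L → 0 < M.ov i b1 b2 → lo ≤ M.S i ∧ M.S i ≤ hi) (hSt : lo ≤ M.S t ∧ M.S t ≤ hi) (q : ℕ) (hq : 1 ≤ q) :
    cmN M.P q (fun ω => ‖M.X t ω‖ ^ 2 - M.S t) ≤ 2 * cmN M.P q (M.avLc a1 a2) + 2 * cmN M.P q (M.avLc b1 b2) + (hi - lo) ∧
    cmN M.P q (M.avD t a1 a2) ≤ 4 * cmN M.P q (M.avLc a1 a2) + 2 * cmN M.P q (M.avLc b1 b2) + 2 * (hi - lo) := by
  have := hM.prob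
  have := hM.markov t
  have ha2 : a2 ≤ 1 := hat.trans (CmPath.mass_mem hM (by omega)).2
  have hb1 : 0 ≤ b1 := (CmPath.mass_mem hM (j := t) (by omega)).1.trans htb
  obtain ⟨ma1, ma2⟩ := cm5s_mean_bounds hM ha1 ha ha2 hSa
  obtain ⟨mb1, mb2⟩ := cm5s_mean_bounds hM hb1 hb hb2 hSb
  have ecE : ∀ (s1 s2 : ℝ), 0 ≤ s1 → s1 < s2 → s2 ≤ 1 → ∀ ω,
      M.cE t (M.avLc s1 s2) ω = M.cE t (M.avL s1 s2) ω - ∫ ω', M.avL s1 s2 ω' ∂M.P := by
    intro s1 s2 g1 g2 g3 ω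
    unfold CmPath.cE CmPath.avLc
    rw [integral_sub (CmPath.cm5k_intK hM t ω (cm5s_avL_meas hM s1 s2) (cm5s_avL_bound hM g1 g2 g3)) (integrable_const _)]
    simp
  have hEa : CmBM M.P (M.cE t (M.avLc a1 a2)) :=
    CmPath.su_BM_of (CmPath.cE_meas hM t (cm5s_avLc_meas hM a1 a2)) (CmPath.cE_bound hM t (cm5s_avLc_bound hM ha1 ha ha2))
  have hEb : CmBM M.P (M.cE t (M.avLc b1 b2)) :=
    CmPath.su_BM_of (CmPath.cE_meas hM t (cm5s_avLc_meas hM b1 b2)) (CmPath.cE_bound hM t (cm5s_avLc_bound hM hb1 hb hb2))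
  have na := CmPath.cmN_cE_le hM t (cm5s_avLc_meas hM a1 a2) (cm5s_avLc_bound hM ha1 ha ha2) q hq
  have nb := CmPath.cmN_cE_le hM t (cm5s_avLc_meas hM b1 b2) (cm5s_avLc_bound hM hb1 hb hb2) q hq
  have hlh : 0 ≤ hi - lo := by linarith [hSt.1, hSt.2]
  have p1 : ∀ ω, |‖M.X t ω‖ ^ 2 - M.S t| ≤ 2 * |M.cE t (M.avLc a1 a2) ω| + 2 * |M.cE t (M.avLc b1 b2) ω| + (hi - lo) := by
    intro ω
    have e1 := ecE a1 a2 ha1 ha ha2 ω
    have e2 := ecE b1 b2 hb1 hb hb2 ω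
    have f1 := cm5s_cE_past hM ht ha1 ha hat ω
    have f2 := cm5s_cE_future hM ht htb hb hb2 ω
    have f3 := cm5s_avD_nonneg M t ha ω
    have g1 := neg_abs_le (M.cE t (M.avLc a1 a2) ω)
    have g2 := le_abs_self (M.cE t (M.avLc b1 b2) ω)
    have g3 := abs_nonneg (M.cE t (M.avLc a1 a2) ω)
    have g4 := abs_nonneg (M.cE t (M.avLc b1 b2) ω)
    rw [abs_le]
    constructor <;> linarith [hSt.1, hSt.2]
  have p2 : ∀ ω, |M.avD t a1 a2 ω| ≤ 2 * |M.cE t (M.avLc a1 a2) ω| + 2 * |M.cE t (M.avLc b1 b2) ω| + (hi - lo) := by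
    intro ω
    have e1 := ecE a1 a2 ha1 ha ha2 ω
    have e2 := ecE b1 b2 hb1 hb hb2 ω
    have f1 := cm5s_cE_past hM ht ha1 ha hat ω
    have f2 := cm5s_cE_future hM ht htb hb hb2 ω
    have f3 := cm5s_avD_nonneg M t ha ω
    have g1 := neg_abs_le (M.cE t (M.avLc a1 a2) ω)
    have g2 := le_abs_self (M.cE t (M.avLc b1 b2) ω)
    rw [abs_of_nonneg f3]
    linarith
  have q1 := cm5s_norm3 hEa hEb hlh q hq p1
  have q2 := cm5s_norm3 hEa hEb hlh q hq p2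
  have n0 := cmN_nonneg M.P q (M.avLc a1 a2)
  constructor <;> linarith

/-! ### (C) two cuts on the same branch -/

theorem cm5s_bm_add {α : Type} [MeasurableSpace α] {μ : Measure α} {f g : α → ℝ} (hf : CmBM μ f) (hg : CmBM μ g) :
    CmBM μ (fun a => f a + g a) := by
  obtain ⟨m1, C1, c1⟩ := hf
  obtain ⟨m2, C2, c2⟩ := hg
  exact ⟨m1.add m2, C1 + C2, fun z => (norm_add_le _ _).trans (add_le_add (c1 z) (c2 z))⟩

theorem cm5s_bm_sub {α : Type} [MeasurableSpace α] {μ : Measure α} {f g : α → ℝ} (hf : CmBM μ f) (hg : CmBM μ g) :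
    CmBM μ (fun a => f a - g a) := by
  obtain ⟨m1, C1, c1⟩ := hf
  obtain ⟨m2, C2, c2⟩ := hg
  exact ⟨m1.sub m2, C1 + C2, fun z => (norm_sub_le _ _).trans (add_le_add (c1 z) (c2 z))⟩

theorem cm5s_dist_pt (hM : M.Ok) (t t' : ℕ) {a1 a2 : ℝ} (ha1 : 0 ≤ a1) (ha : a1 < a2) (h2 : a2 ≤ 1) (ω : Ω) :
    ‖M.X t' ω - M.X t ω‖ ^ 2 ≤ 2 * M.avD t a1 a2 ω + 2 * M.avD t' a1 a2 ω := by
  have hd : 0 < a2 - a1 := by linarith
  have hsum := CmPath.sum_ov hM ha1 ha.le h2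
  unfold CmPath.avD
  rw [← mul_div_assoc, ← mul_div_assoc, ← add_div, le_div_iff₀ hd, ← hsum, Finset.mul_sum, Finset.mul_sum, Finset.mul_sum,
    ← Finset.sum_add_distrib]
  apply Finset.sum_le_sum
  intro i _
  have h0 := CmPath.ov_nonneg M i a1 a2
  have key : ‖M.X t' ω - M.X t ω‖ ^ 2 ≤ 2 * ‖M.X t ω - M.X i ω‖ ^ 2 + 2 * ‖M.X t' ω - M.X i ω‖ ^ 2 := by
    have e : M.X t' ω - M.X t ω = (M.X t' ω - M.X i ω) - (M.X t ω - M.X i ω) := by abel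
    have h1 := norm_sub_le (M.X t' ω - M.X i ω) (M.X t ω - M.X i ω)
    rw [← e] at h1
    have h3 := norm_nonneg (M.X t' ω - M.X t ω)
    nlinarith [sq_nonneg (‖M.X t' ω - M.X i ω‖ - ‖M.X t ω - M.X i ω‖)]
  calc ‖M.X t' ω - M.X t ω‖ ^ 2 * M.ov i a1 a2
      ≤ (2 * ‖M.X t ω - M.X i ω‖ ^ 2 + 2 * ‖M.X t' ω - M.X i ω‖ ^ 2) * M.ov i a1 a2 := mul_le_mul_of_nonneg_right key h0
    _ = _ := by ring

theorem cm5s_dist (hM : M.Ok) (t t' : ℕ) {a1 a2 : ℝ} (ha1 : 0 ≤ a1) (ha : a1 < a2) (h2 : a2 ≤ 1) (q : ℕ) (hq : 1 ≤ q) :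
    cmN M.P (2 * q) (fun ω => M.X t' ω - M.X t ω) ^ 2 ≤ 2 * cmN M.P q (M.avD t a1 a2) + 2 * cmN M.P q (M.avD t' a1 a2) := by
  have := hM.prob
  have hbm : CmBM M.P (fun ω => M.X t' ω - M.X t ω) :=
    ⟨(CmPath.t_Xsub_meas hM t' t).aestronglyMeasurable, 2, CmPath.t_Xsub_le hM t' t⟩
  rw [← cmN_sq hbm q hq]
  have b1 : CmBM M.P (M.avD t a1 a2) :=
    ⟨(cm5s_avD_meas hM t a1 a2).aestronglyMeasurable, 4, fun ω => by
      rw [Real.norm_eq_abs]; exact cm5s_avD_bound hM t ha1 ha h2 ω⟩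
  have b2 : CmBM M.P (M.avD t' a1 a2) :=
    ⟨(cm5s_avD_meas hM t' a1 a2).aestronglyMeasurable, 4, fun ω => by
      rw [Real.norm_eq_abs]; exact cm5s_avD_bound hM t' ha1 ha h2 ω⟩
  have c1 : CmBM M.P (fun ω => 2 * M.avD t a1 a2 ω) :=
    ⟨b1.1.const_mul 2, 8, fun ω => by
      rw [Real.norm_eq_abs, abs_mul, abs_two]; linarith [cm5s_avD_bound hM t ha1 ha h2 ω]⟩
  have c2 : CmBM M.P (fun ω => 2 * M.avD t' a1 a2 ω) :=
    ⟨b2.1.const_mul 2, 8, fun ω => by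
      rw [Real.norm_eq_abs, abs_mul, abs_two]; linarith [cm5s_avD_bound hM t' ha1 ha h2 ω]⟩
  have hm : cmN M.P q (fun ω => ‖M.X t' ω - M.X t ω‖ ^ 2)
      ≤ cmN M.P q (fun ω => 2 * M.avD t a1 a2 ω + 2 * M.avD t' a1 a2 ω) := by
    apply cmN_mono (cm5s_bm_add c1 c2) q
    refine Filter.Eventually.of_forall fun ω => ?_
    have h := cm5s_dist_pt hM t t' ha1 ha h2 ω
    rw [Real.norm_eq_abs, Real.norm_eq_abs, abs_of_nonneg (by positivity)]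
    exact h.trans (le_abs_self _)
  refine hm.trans ((cmN_add_le c1 c2 q hq).trans ?_)
  rw [cmN_const_mul, cmN_const_mul, abs_two]

/-! ### (E) from the leaves to the central projections -/

theorem cm5s_R2_bm (hM : M.Ok) (s : ℕ) : CmBM (M.P2 s) M.R2 :=
  CmPath.t_bm2 (g1 := M.X (M.L + 1)) (g2 := M.X (M.L + 1)) s (hM.meas _) (hM.meas _) (hM.norm_le _) (hM.norm_le _)

theorem cm5s_XX_bm (hM : M.Ok) (s a b : ℕ) : CmBM (M.P2 s) (fun z : Ω × Ω => inner ℝ (M.X a z.1) (M.X b z.2)) :=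
  CmPath.t_bm2 (g1 := M.X a) (g2 := M.X b) s (hM.meas _) (hM.meas _) (hM.norm_le _) (hM.norm_le _)

theorem cm5s_dX_bm (hM : M.Ok) (s a b c : ℕ) :
    CmBM (M.P2 s) (fun z : Ω × Ω => inner ℝ (M.X a z.1 - M.X b z.1) (M.X c z.2)) :=
  CmPath.t_bm2 (g1 := fun ω => M.X a ω - M.X b ω) (g2 := M.X c) s (CmPath.t_Xsub_meas hM _ _) (hM.meas _)
    (CmPath.t_Xsub_le hM _ _) (hM.norm_le _)

theorem cm5s_Xd_bm (hM : M.Ok) (s a b c : ℕ) :
    CmBM (M.P2 s) (fun z : Ω × Ω => inner ℝ (M.X a z.1) (M.X b z.2 - M.X c z.2)) :=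
  CmPath.t_bm2 (g1 := M.X a) (g2 := fun ω => M.X b ω - M.X c ω) s (hM.meas _) (CmPath.t_Xsub_meas hM _ _)
    (hM.norm_le _) (CmPath.t_Xsub_le hM _ _)

theorem cm5s_swap (hM : M.Ok) (p s a b c : ℕ) :
    cmN (M.P2 s) p (fun z : Ω × Ω => inner ℝ (M.X c z.1) (M.X a z.2 - M.X b z.2))
      = cmN (M.P2 s) p (fun z : Ω × Ω => inner ℝ (M.X a z.1 - M.X b z.1) (M.X c z.2)) := by
  have hm : Measurable (fun z : Ω × Ω => inner ℝ (M.X a z.1 - M.X b z.1) (M.X c z.2)) :=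
    ((CmPath.t_Xsub_meas hM _ _).comp measurable_fst).inner ((hM.meas _).comp measurable_snd)
  have h := CmPath.cmN_P2_swap hM s hm p
  have e : (fun z : Ω × Ω => inner ℝ (M.X c z.1) (M.X a z.2 - M.X b z.2))
      = fun z : Ω × Ω => (fun z : Ω × Ω => inner ℝ (M.X a z.1 - M.X b z.1) (M.X c z.2)) z.swap := by
    funext z; simp [real_inner_comm]
  rw [e, h]

/-- abstract form: `T` bounds the three far terms (two-branch layer lemma), `B` is the coefficient of (13) on the short clock.   TEX[PE:comp:good-split] -/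
theorem cm5s_far (hM : M.Ok) {p : ℕ} (hp1 : 1 ≤ p) {s j2 is : ℕ} {T B1 B2 : ℝ}
    (hT1 : cmN (M.P2 s) p (fun z : Ω × Ω => inner ℝ (M.X (M.L + 1) z.1 - M.X is z.1) (M.X (M.L + 1) z.2)) ≤ T)
    (hT2 : cmN (M.P2 s) p (fun z : Ω × Ω => inner ℝ (M.X (M.L + 1) z.1 - M.X is z.1) (M.X is z.2)) ≤ T)
    (hT3 : cmN (M.P2 s) p (fun z : Ω × Ω => inner ℝ (M.X (M.L + 1) z.1 - M.X is z.1) (M.X j2 z.2)) ≤ T)
    (hB1 : cmN (M.P2 s) p (fun z : Ω × Ω => inner ℝ (M.X is z.1 - M.X j2 z.1) (M.X is z.2)) ≤ B1)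
    (hB2 : cmN (M.P2 s) p (fun z : Ω × Ω => inner ℝ (M.X j2 z.1) (M.X (M.L + 1) z.2 - M.X j2 z.2)) ≤ B2) :
    cmN (M.P2 s) p (fun z : Ω × Ω => M.R2 z - inner ℝ (M.X j2 z.1) (M.X j2 z.2)) ≤ 3 * T + B1 + B2 := by
  have := CmPath.P2_prob hM s
  have e : (fun z : Ω × Ω => M.R2 z - inner ℝ (M.X j2 z.1) (M.X j2 z.2)) = fun z : Ω × Ω =>
      ((((inner ℝ (M.X (M.L + 1) z.1 - M.X is z.1) (M.X (M.L + 1) z.2)
        + inner ℝ (M.X is z.1) (M.X (M.L + 1) z.2 - M.X is z.2))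
        + inner ℝ (M.X is z.1 - M.X j2 z.1) (M.X is z.2))
        - inner ℝ (M.X j2 z.1) (M.X (M.L + 1) z.2 - M.X is z.2))
        + inner ℝ (M.X j2 z.1) (M.X (M.L + 1) z.2 - M.X j2 z.2)) := by
    funext z
    simp only [CmPath.R2, CmPath.y, inner_sub_left, inner_sub_right]
    ring
  rw [e]
  have b1 := cm5s_dX_bm hM s (M.L + 1) is (M.L + 1)
  have b2 := cm5s_Xd_bm hM s is (M.L + 1) is
  have b3 := cm5s_dX_bm hM s is j2 is
  have b4 := cm5s_Xd_bm hM s j2 (M.L + 1) is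
  have b5 := cm5s_Xd_bm hM s j2 (M.L + 1) j2
  have k1 := cmN_add_le (cm5s_bm_sub (cm5s_bm_add (cm5s_bm_add b1 b2) b3) b4) b5 p hp1
  have k2 := cmN_sub_le (cm5s_bm_add (cm5s_bm_add b1 b2) b3) b4 p hp1
  have k3 := cmN_add_le (cm5s_bm_add b1 b2) b3 p hp1
  have k4 := cmN_add_le b1 b2 p hp1
  have s2 := cm5s_swap hM p s (M.L + 1) is is
  have s3 := cm5s_swap hM p s (M.L + 1) is j2
  linarith

/-! ### (F) from the central projections to `|X_s|²` -/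

theorem cm5s_near (hM : M.Ok) {p : ℕ} (hp1 : 1 ≤ p) {s j2 : ℕ} (hs : s ≤ M.L) :
    cmN (M.P2 s) p (fun z : Ω × Ω => inner ℝ (M.X j2 z.1) (M.X j2 z.2) - ‖M.X s z.1‖ ^ 2)
      ≤ 2 * cmN M.P (2 * p) (M.X s) * cmN M.P (2 * p) (fun ω => M.X j2 ω - M.X s ω)
        + cmN M.P (2 * p) (fun ω => M.X j2 ω - M.X s ω) ^ 2 := by
  have := CmPath.P2_prob hM s
  have hpre := CmPath.P2_pre hM (hM.meas s) (CmPath.X_pre hM (le_refl s) hs)
  have md := CmPath.t_Xsub_meas hM j2 s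
  -- the three terms
  have b1 : CmBM (M.P2 s) (fun z : Ω × Ω => inner ℝ (M.X s z.1) (M.X j2 z.2 - M.X s z.2)) := cm5s_Xd_bm hM s s j2 s
  have b2 : CmBM (M.P2 s) (fun z : Ω × Ω => inner ℝ (M.X j2 z.1 - M.X s z.1) (M.X s z.2)) := cm5s_dX_bm hM s j2 s s
  have b3 : CmBM (M.P2 s) (fun z : Ω × Ω => inner ℝ (M.X j2 z.1 - M.X s z.1) (M.X j2 z.2 - M.X s z.2)) :=
    CmPath.t_bm2 (g1 := fun ω => M.X j2 ω - M.X s ω) (g2 := fun ω => M.X j2 ω - M.X s ω) s md md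
      (CmPath.t_Xsub_le hM _ _) (CmPath.t_Xsub_le hM _ _)
  have hmono : cmN (M.P2 s) p (fun z : Ω × Ω => inner ℝ (M.X j2 z.1) (M.X j2 z.2) - ‖M.X s z.1‖ ^ 2)
      ≤ cmN (M.P2 s) p (fun z : Ω × Ω => (inner ℝ (M.X s z.1) (M.X j2 z.2 - M.X s z.2)
        + inner ℝ (M.X j2 z.1 - M.X s z.1) (M.X s z.2))
        + inner ℝ (M.X j2 z.1 - M.X s z.1) (M.X j2 z.2 - M.X s z.2)) := by
    apply cmN_mono (cm5s_bm_add (cm5s_bm_add b1 b2) b3) p
    filter_upwards [hpre] with z hz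
    apply le_of_eq
    congr 1
    have h1 : ‖M.X s z.1‖ ^ 2 = inner ℝ (M.X s z.1) (M.X s z.2) := by
      rw [hz, real_inner_self_eq_norm_sq]
    rw [h1]
    simp only [inner_sub_left, inner_sub_right]
    ring
  have fS1 : CmBM (M.P2 s) (fun z : Ω × Ω => M.X s z.1) :=
    ⟨((hM.meas s).comp measurable_fst).aestronglyMeasurable, 1, fun z => hM.norm_le s z.1⟩
  have fS2 : CmBM (M.P2 s) (fun z : Ω × Ω => M.X s z.2) :=
    ⟨((hM.meas s).comp measurable_snd).aestronglyMeasurable, 1, fun z => hM.norm_le s z.2⟩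
  have fd1 : CmBM (M.P2 s) (fun z : Ω × Ω => M.X j2 z.1 - M.X s z.1) :=
    ⟨(md.comp measurable_fst).aestronglyMeasurable, 2, fun z => CmPath.t_Xsub_le hM j2 s z.1⟩
  have fd2 : CmBM (M.P2 s) (fun z : Ω × Ω => M.X j2 z.2 - M.X s z.2) :=
    ⟨(md.comp measurable_snd).aestronglyMeasurable, 2, fun z => CmPath.t_Xsub_le hM j2 s z.2⟩
  have i1 := cmN_inner_le fS1 fd2 p hp1
  have i2 := cmN_inner_le fd1 fS2 p hp1
  have i3 := cmN_inner_le fd1 fd2 p hp1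
  have eS1 := CmPath.cmN_P2_fst hM s (hM.meas s) (2 * p)
  have eS2 := CmPath.cmN_P2_snd hM s (hM.meas s) (2 * p)
  have ed1 := CmPath.cmN_P2_fst hM s md (2 * p)
  have ed2 := CmPath.cmN_P2_snd hM s md (2 * p)
  rw [eS1, ed2] at i1
  rw [ed1, eS2] at i2
  rw [ed1, ed2] at i3
  have k1 := cmN_add_le (cm5s_bm_add b1 b2) b3 p hp1
  have k2 := cmN_add_le b1 b2 p hp1
  nlinarith

/-- the three pieces together -/
theorem cm5s_three (hM : M.Ok) {p : ℕ} (hp1 : 1 ≤ p) {s j2 : ℕ} {A1 A2 A3 : ℝ}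
    (h1 : cmN (M.P2 s) p (fun z : Ω × Ω => M.R2 z - inner ℝ (M.X j2 z.1) (M.X j2 z.2)) ≤ A1)
    (h2 : cmN (M.P2 s) p (fun z : Ω × Ω => inner ℝ (M.X j2 z.1) (M.X j2 z.2) - ‖M.X s z.1‖ ^ 2) ≤ A2)
    (h3 : cmN M.P p (fun ω => ‖M.X s ω‖ ^ 2 - M.S s) ≤ A3) :
    cmN (M.P2 s) p (fun z => M.R2 z - M.S s) ≤ A1 + A2 + A3 := by
  have := CmPath.P2_prob hM s
  have bsq : CmBM (M.P2 s) (fun z : Ω × Ω => ‖M.X s z.1‖ ^ 2) :=
    ⟨(((hM.meas s).comp measurable_fst).norm.pow_const 2).aestronglyMeasurable, 1, fun z => by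
      rw [Real.norm_eq_abs]; exact CmPath.cm5k_sq_le hM s z.1⟩
  have bc : CmBM (M.P2 s) (fun _ : Ω × Ω => M.S s) := ⟨aestronglyMeasurable_const, ‖M.S s‖, fun _ => le_rfl⟩
  have b1 := cm5s_bm_sub (cm5s_R2_bm hM s) (cm5s_XX_bm hM s j2 j2)
  have b2 := cm5s_bm_sub (cm5s_XX_bm hM s j2 j2) bsq
  have b3 := cm5s_bm_sub bsq bc
  have e : (fun z : Ω × Ω => M.R2 z - M.S s) = fun z : Ω × Ω =>
      ((M.R2 z - inner ℝ (M.X j2 z.1) (M.X j2 z.2)) + (inner ℝ (M.X j2 z.1) (M.X j2 z.2) - ‖M.X s z.1‖ ^ 2))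
        + (‖M.X s z.1‖ ^ 2 - M.S s) := by
    funext z; ring
  rw [e]
  have k1 := cmN_add_le (cm5s_bm_add b1 b2) b3 p hp1
  have k2 := cmN_add_le b1 b2 p hp1
  have k3 := CmPath.cmN_P2_fst hM s (f := fun ω => ‖M.X s ω‖ ^ 2 - M.S s)
    (((hM.meas s).norm.pow_const 2).sub_const _) p
  linarith

/-! ### (N) numerics -/

theorem cm5s_num_dev {c Cs Q Pi v G ϑ : ℝ} (K : ℕ) (hc : 0 < c) (hCs : 0 < Cs) (hQ : 1 ≤ Q) (hPi : 1 ≤ Pi) (hv : 0 < v) (hG : 1 ≤ G)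
    (hϑ : 0 < ϑ) {N : ℝ} (hN : N ≤ Cs * ((K : ℝ) + 1) ^ 3 * Pi ^ 2 * Q ^ 4 * v ^ 4 / G) :
    Real.sqrt (c * N) / (ϑ * v) ≤ Real.sqrt (c * Cs) * Q ^ 2 * (((K : ℝ) + 1) ^ 2 * Pi / (ϑ * Real.sqrt G)) * v := by
  have hG0 : 0 < G := by linarith
  have hsG : 0 < Real.sqrt G := Real.sqrt_pos.mpr hG0
  have hQ0 : 0 < Q := by linarith
  have hPi0 : 0 < Pi := by linarith
  have hK1 : (1:ℝ) ≤ (K : ℝ) + 1 := by have : (0:ℝ) ≤ K := Nat.cast_nonneg K; linarith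
  have hs : Real.sqrt (c * N) ≤ Real.sqrt (c * Cs) * ((K : ℝ) + 1) ^ 2 * Pi * Q ^ 2 * v ^ 2 / Real.sqrt G := by
    rw [Real.sqrt_le_iff]
    refine ⟨by positivity, ?_⟩
    have e : (Real.sqrt (c * Cs) * ((K : ℝ) + 1) ^ 2 * Pi * Q ^ 2 * v ^ 2 / Real.sqrt G) ^ 2
        = c * (Cs * ((K : ℝ) + 1) ^ 4 * Pi ^ 2 * Q ^ 4 * v ^ 4 / G) := by
      rw [div_pow, Real.sq_sqrt hG0.le]
      have : Real.sqrt (c * Cs) ^ 2 = c * Cs := Real.sq_sqrt (by positivity)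
      calc (Real.sqrt (c * Cs) * ((K : ℝ) + 1) ^ 2 * Pi * Q ^ 2 * v ^ 2) ^ 2 / G
          = Real.sqrt (c * Cs) ^ 2 * (((K : ℝ) + 1) ^ 4 * Pi ^ 2 * Q ^ 4 * v ^ 4) / G := by ring
        _ = _ := by rw [this]; ring
    rw [e]
    refine mul_le_mul_of_nonneg_left (hN.trans ?_) hc.le
    have h34 : ((K : ℝ) + 1) ^ 3 ≤ ((K : ℝ) + 1) ^ 4 := pow_le_pow_right₀ hK1 (by norm_num)
    gcongr
  calc Real.sqrt (c * N) / (ϑ * v) ≤ (Real.sqrt (c * Cs) * ((K : ℝ) + 1) ^ 2 * Pi * Q ^ 2 * v ^ 2 / Real.sqrt G) / (ϑ * v) := by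
        gcongr
    _ = _ := by field_simp

theorem cm5s_num_proj {nn sg v G ϑ Pi : ℝ} (hv : 0 < v) (hG : 1 ≤ G) (hϑ : 0 < ϑ) (hPi : 0 ≤ Pi) (hG2 : G ^ 2 ≤ nn * sg * v ^ 4) :
    2 * Pi / (v * Real.sqrt (nn * (sg * (ϑ * v / 3)))) ≤ 2 * Pi * Real.sqrt (3 * v) / (Real.sqrt ϑ * G) := by
  have hG0 : 0 < G := by linarith
  have hns : 0 < nn * sg := by
    by_contra hcon
    have h1 : nn * sg * v ^ 4 ≤ 0 := mul_nonpos_of_nonpos_of_nonneg (not_lt.mp hcon) (by positivity)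
    nlinarith
  have harg : 0 < nn * (sg * (ϑ * v / 3)) := by
    have : nn * (sg * (ϑ * v / 3)) = nn * sg * (ϑ * v / 3) := by ring
    rw [this]; positivity
  have hs : 0 < Real.sqrt (nn * (sg * (ϑ * v / 3))) := Real.sqrt_pos.mpr harg
  have hsϑ : 0 < Real.sqrt ϑ := Real.sqrt_pos.mpr hϑ
  have h3v : 0 < Real.sqrt (3 * v) := Real.sqrt_pos.mpr (by positivity)
  have key : Real.sqrt ϑ * G ≤ v * Real.sqrt (nn * (sg * (ϑ * v / 3))) * Real.sqrt (3 * v) := by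
    apply le_of_sq_le_sq _ (by positivity)
    rw [mul_pow, mul_pow, mul_pow, Real.sq_sqrt hϑ.le, Real.sq_sqrt harg.le, Real.sq_sqrt (by positivity)]
    calc ϑ * G ^ 2 ≤ ϑ * (nn * sg * v ^ 4) := mul_le_mul_of_nonneg_left hG2 hϑ.le
      _ = _ := by ring
  rw [div_le_div_iff₀ (by positivity) (by positivity)]
  calc 2 * Pi * (Real.sqrt ϑ * G) ≤ 2 * Pi * (v * Real.sqrt (nn * (sg * (ϑ * v / 3))) * Real.sqrt (3 * v)) :=
        mul_le_mul_of_nonneg_left key (by positivity)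
    _ = _ := by ring

theorem cm5s_num_tbl {nn sg v G th4 : ℝ} (hv : 0 < v) (hG : 1 ≤ G) (hG2 : G ^ 2 ≤ nn * sg * v ^ 4) (hnn : 0 ≤ nn) (hth : sg * v ≤ th4) :
    1 / Real.sqrt (nn * (4 * v) * th4) ≤ v / (2 * G) := by
  have hG0 : 0 < G := by linarith
  have h1 : (2 * G / v) ^ 2 ≤ nn * (4 * v) * th4 := by
    calc (2 * G / v) ^ 2 = 4 * G ^ 2 / v ^ 2 := by ring
      _ ≤ 4 * (nn * sg * v ^ 4) / v ^ 2 := by gcongr
      _ = nn * (4 * v) * (sg * v) := by field_simp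
      _ ≤ nn * (4 * v) * th4 := mul_le_mul_of_nonneg_left hth (by positivity)
  have h2 : 2 * G / v ≤ Real.sqrt (nn * (4 * v) * th4) := Real.le_sqrt_of_sq_le h1
  have h3 : 0 < 2 * G / v := by positivity
  calc 1 / Real.sqrt (nn * (4 * v) * th4) ≤ 1 / (2 * G / v) := one_div_le_one_div_of_le h3 h2
    _ = v / (2 * G) := by field_simp

/-- the constant of `cm5_split_pf` -/
noncomputable def cm5sC (Ct Q Γ D0 : ℝ) : ℝ :=
  3 / 2 * Ct * Q + 4 * Q * Real.sqrt (3 * (1 + 4 * Γ)) + 2 * Q * Real.sqrt (3 * (24 * D0 + 8)) + (28 * D0 + 9)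

theorem cm5s_C_pos {Ct Q Γ D0 : ℝ} (hCt : 0 < Ct) (hQ : 1 ≤ Q) (hD0 : 0 ≤ D0) : 0 < cm5sC Ct Q Γ D0 := by
  unfold cm5sC
  have h1 : 0 ≤ Real.sqrt (3 * (1 + 4 * Γ)) := Real.sqrt_nonneg _
  have h2 : 0 ≤ Real.sqrt (3 * (24 * D0 + 8)) := Real.sqrt_nonneg _
  have hQ0 : 0 < Q := by linarith
  positivity

/-- `√(3 v) · √(x + m) ≤ √(3 a) · v` when `x + m ≤ a v` -/
theorem cm5s_num_sqrt {v y a : ℝ} (hv : 0 < v) (ha : 0 ≤ a) (hy : y ≤ a * v) :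
    Real.sqrt (3 * v) * Real.sqrt y ≤ Real.sqrt (3 * a) * v := by
  calc Real.sqrt (3 * v) * Real.sqrt y ≤ Real.sqrt (3 * v) * Real.sqrt (a * v) :=
        mul_le_mul_of_nonneg_left (Real.sqrt_le_sqrt hy) (Real.sqrt_nonneg _)
    _ = Real.sqrt (3 * a * v ^ 2) := by
        rw [← Real.sqrt_mul (by positivity)]; congr 1; ring
    _ = Real.sqrt (3 * a) * v := by
        rw [Real.sqrt_mul (by positivity), Real.sqrt_sq hv.le]

/-- the final sum (pure real arithmetic) -/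
theorem cm5s_num_final {Ct Q Γ D0 Pi v G ϑ ηS x T B1 B2 δ A3 Xs mi mj ms : ℝ} (K : ℕ)
    (hCt : 0 < Ct) (hQ : 1 ≤ Q) (hΓ : 2 ≤ Γ) (hD0 : 0 ≤ D0) (hPi : 1 ≤ Pi) (hv : 0 < v) (hG : 1 ≤ G) (hϑ : 0 < ϑ) (hϑ1 : ϑ ≤ 1)
    (hηS : 0 ≤ ηS) (hx : 0 < x) (hxv : x ≤ v)
    (hT : T ≤ Ct * ((K : ℝ) + 2) ^ 2 * Q * Pi * (v / (2 * G)))
    (hB1 : B1 ≤ 2 * Pi * Real.sqrt (3 * v) / (Real.sqrt ϑ * G) * (Q * Real.sqrt (x + mi))) (hmi : mi ≤ 4 * Γ * v)
    (hB2 : B2 ≤ 2 * Pi * Real.sqrt (3 * v) / (Real.sqrt ϑ * G) * (Q * Real.sqrt (x + mj))) (hmj : mj ≤ 2 * v)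
    (hδ0 : 0 ≤ δ) (hδ : δ ^ 2 ≤ (24 * D0 + 8) * (ηS + ((K : ℝ) + 1) ^ 2 * Pi / (ϑ * Real.sqrt G)) * v)
    (hA3 : A3 ≤ (4 * D0 + 1) * (ηS + ((K : ℝ) + 1) ^ 2 * Pi / (ϑ * Real.sqrt G)) * v)
    (hXs0 : 0 ≤ Xs) (hXs : Xs ≤ Q * Real.sqrt (x + ms)) (hms : ms ≤ 2 * v) :
    (3 * T + B1 + B2) + (2 * Xs * δ + δ ^ 2) + A3
      ≤ cm5sC Ct Q Γ D0 * v * (((K : ℝ) + 2) ^ 2 * Pi / (Real.sqrt ϑ * G)
                + Real.sqrt (ηS + ((K : ℝ) + 1) ^ 2 * Pi / (ϑ * Real.sqrt G))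
                + (ηS + ((K : ℝ) + 1) ^ 2 * Pi / (ϑ * Real.sqrt G))) := by
  have hG0 : 0 < G := by linarith
  have hsG : 0 < Real.sqrt G := Real.sqrt_pos.mpr hG0
  have hsϑ : 0 < Real.sqrt ϑ := Real.sqrt_pos.mpr hϑ
  have hsϑ1 : Real.sqrt ϑ ≤ 1 := by simpa using Real.sqrt_le_sqrt hϑ1
  have hQ0 : 0 < Q := by linarith
  have hPi0 : 0 < Pi := by linarith
  have hK0 : (0:ℝ) ≤ K := Nat.cast_nonneg K
  obtain ⟨E, hE⟩ : ∃ E, E = ηS + ((K : ℝ) + 1) ^ 2 * Pi / (ϑ * Real.sqrt G) := ⟨_, rfl⟩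
  obtain ⟨E1, hE1⟩ : ∃ E1, E1 = ((K : ℝ) + 2) ^ 2 * Pi / (Real.sqrt ϑ * G) := ⟨_, rfl⟩
  obtain ⟨r1, hr1⟩ : ∃ r, r = Real.sqrt (3 * (1 + 4 * Γ)) := ⟨_, rfl⟩
  obtain ⟨r2, hr2⟩ : ∃ r, r = Real.sqrt (3 * (24 * D0 + 8)) := ⟨_, rfl⟩
  have hE0 : 0 ≤ E := by rw [hE]; positivity
  have hE10 : 0 ≤ E1 := by rw [hE1]; positivity
  have hr10 : 0 ≤ r1 := by rw [hr1]; positivity
  have hr20 : 0 ≤ r2 := by rw [hr2]; positivity
  rw [← hE] at hδ hA3 ⊢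
  rw [← hE1]
  unfold cm5sC
  rw [← hr1, ← hr2]
  -- the unit `Pi / (√ϑ G) ≤ E1`
  have hu : Pi / (Real.sqrt ϑ * G) ≤ E1 := by
    rw [hE1]
    have : (1:ℝ) ≤ ((K : ℝ) + 2) ^ 2 := by nlinarith
    calc Pi / (Real.sqrt ϑ * G) = 1 * Pi / (Real.sqrt ϑ * G) := by ring
      _ ≤ _ := by gcongr
  have hu0 : 0 ≤ Pi / (Real.sqrt ϑ * G) := by positivity
  -- T
  have hT' : 3 * T ≤ 3 / 2 * Ct * Q * v * E1 := by
    have h1 : ((K : ℝ) + 2) ^ 2 * Pi / G ≤ E1 := by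
      rw [hE1]
      apply div_le_div_of_nonneg_left (by positivity) (by positivity)
      calc Real.sqrt ϑ * G ≤ 1 * G := by gcongr
        _ = G := one_mul G
    calc 3 * T ≤ 3 * (Ct * ((K : ℝ) + 2) ^ 2 * Q * Pi * (v / (2 * G))) := by linarith
      _ = 3 / 2 * Ct * Q * v * (((K : ℝ) + 2) ^ 2 * Pi / G) := by field_simp
      _ ≤ _ := mul_le_mul_of_nonneg_left h1 (by positivity)
  -- B
  have hB : ∀ (B m : ℝ), B ≤ 2 * Pi * Real.sqrt (3 * v) / (Real.sqrt ϑ * G) * (Q * Real.sqrt (x + m)) → m ≤ 4 * Γ * v →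
      B ≤ 2 * Q * r1 * v * E1 := by
    intro B m hB hm
    have h1 := cm5s_num_sqrt (v := v) (y := x + m) (a := 1 + 4 * Γ) hv (by linarith) (by linarith)
    rw [← hr1] at h1
    calc B ≤ 2 * Pi * Real.sqrt (3 * v) / (Real.sqrt ϑ * G) * (Q * Real.sqrt (x + m)) := hB
      _ = 2 * Q * (Pi / (Real.sqrt ϑ * G)) * (Real.sqrt (3 * v) * Real.sqrt (x + m)) := by ring
      _ ≤ 2 * Q * (Pi / (Real.sqrt ϑ * G)) * (r1 * v) := mul_le_mul_of_nonneg_left h1 (by positivity)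
      _ = 2 * Q * r1 * v * (Pi / (Real.sqrt ϑ * G)) := by ring
      _ ≤ _ := mul_le_mul_of_nonneg_left hu (by positivity)
  have hB1' := hB B1 mi hB1 hmi
  have hB2' := hB B2 mj hB2 (hmj.trans (by nlinarith))
  -- X δ
  have hδ' : δ ≤ Real.sqrt ((24 * D0 + 8) * E * v) := Real.le_sqrt_of_sq_le hδ
  have hX' : Xs ≤ Q * Real.sqrt (3 * v) := hXs.trans (mul_le_mul_of_nonneg_left (Real.sqrt_le_sqrt (by linarith)) hQ0.le)
  have hXδ : 2 * Xs * δ ≤ 2 * Q * r2 * v * Real.sqrt E := by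
    have e : Real.sqrt (3 * v) * Real.sqrt ((24 * D0 + 8) * E * v) = r2 * v * Real.sqrt E := by
      rw [← Real.sqrt_mul (by positivity), hr2]
      have : 3 * v * ((24 * D0 + 8) * E * v) = (3 * (24 * D0 + 8)) * v ^ 2 * E := by ring
      rw [this, Real.sqrt_mul (by positivity), Real.sqrt_mul (by positivity), Real.sqrt_sq hv.le]
    calc 2 * Xs * δ ≤ 2 * (Q * Real.sqrt (3 * v)) * Real.sqrt ((24 * D0 + 8) * E * v) := by gcongr
      _ = 2 * Q * (Real.sqrt (3 * v) * Real.sqrt ((24 * D0 + 8) * E * v)) := by ring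
      _ = _ := by rw [e]; ring
  have hsE : 0 ≤ Real.sqrt E := Real.sqrt_nonneg E
  -- sum
  have hc1 : 0 ≤ 3 / 2 * Ct * Q + 4 * Q * r1 := by positivity
  have hc2 : 0 ≤ 2 * Q * r2 := by positivity
  have hc3 : 0 ≤ 28 * D0 + 9 := by positivity
  have hfin : (3 / 2 * Ct * Q + 4 * Q * r1) * v * E1 + 2 * Q * r2 * v * Real.sqrt E + (28 * D0 + 9) * v * E
      ≤ (3 / 2 * Ct * Q + 4 * Q * r1 + 2 * Q * r2 + (28 * D0 + 9)) * v * (E1 + Real.sqrt E + E) := by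
    have a1 : 0 ≤ (3 / 2 * Ct * Q + 4 * Q * r1) * v * (Real.sqrt E + E) := by positivity
    have a2 : 0 ≤ 2 * Q * r2 * v * (E1 + E) := by positivity
    have a3 : 0 ≤ (28 * D0 + 9) * v * (E1 + Real.sqrt E) := by positivity
    linarith
  refine le_trans ?_ hfin
  linarith

/-! ### raw bounds -/

theorem cm5s_X_bm (hM : M.Ok) (j : ℕ) : CmBM M.P (M.X j) :=
  ⟨(hM.meas j).aestronglyMeasurable, 1, hM.norm_le j⟩

theorem cm5s_raw_mono (hM : M.Ok) {p q : ℕ} (hp : 1 ≤ p) (hpq : p ≤ q) {Q x : ℝ} (h : M.Raw q Q x) : M.Raw p Q x := by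
  intro j hj
  have := hM.prob
  exact (cmN_exp_mono (cm5s_X_bm hM j) hp hpq).trans (h j hj)

/-! ### the good split -/

set_option maxHeartbeats 800000 in
/-- **PE Lemma 3.7 (good split), analytic part** (statement of helper247).   TEX[PE:comp:good-split] -/
theorem cm5_split_pf (p : ℕ) (hp : Even p) (hp2 : 2 ≤ p) (Γ Q c : ℝ) (hQ : 1 ≤ Q) (hc : 0 < c) : ∃ C : ℝ, 0 < C ∧
    ∀ (n : ℕ) (Ω : Type) [MeasurableSpace Ω] (M : CmPath n Ω) (x0 um ηm : ℝ) (th sg : ℝ → ℝ) (Pi x : ℝ) (K : ℕ),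
      M.Ok → Cm5Clk M x0 um Γ ηm th sg → M.Proj p Pi → M.Proj (2 * p) Pi → M.Pin p c → 1 ≤ Pi → 0 < x → x ≤ x0 →
      M.Raw (4 * p) Q x → 1 ≤ Γ ^ K * x0 →
      ∀ v G ϑ ηS t0 : ℝ, x0 ≤ v → v ≤ um → 1 ≤ G → G ^ 2 ≤ n * sg v * v ^ 4 → ηm ≤ v / G → 0 < ϑ → ηm ≤ ϑ * v / 3 → 0 ≤ ηS →
        v ≤ t0 - ϑ * v → t0 + 2 * ϑ * v ≤ 2 * v →
        M.S (M.nd (t0 + 2 * ϑ * v)) - M.S (M.nd (t0 - ϑ * v)) ≤ ηS * v →
        ∀ s, s ≤ M.L → t0 ≤ M.mass s → M.mass s ≤ t0 + ϑ * v / 3 →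
          cmN (M.P2 s) p (fun z => M.R2 z - M.S s)
            ≤ C * v * (((K : ℝ) + 2) ^ 2 * Pi / (Real.sqrt ϑ * G)
                + Real.sqrt (ηS + ((K : ℝ) + 1) ^ 2 * Pi / (ϑ * Real.sqrt G))
                + (ηS + ((K : ℝ) + 1) ^ 2 * Pi / (ϑ * Real.sqrt G))) := by
  obtain ⟨Cs, hCs, hsus⟩ := cm5_sus_pf p (by omega) Γ
  obtain ⟨Ct, hCt, htbl⟩ := cm5_tbl_pf p hp hp2 Γ
  have hD0 : 0 ≤ Real.sqrt (c * Cs) * Q ^ 2 := by positivity
  refine ⟨cm5sC Ct Q Γ (Real.sqrt (c * Cs) * Q ^ 2), cm5s_C_pos hCt hQ hD0, ?_⟩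
  intro n Ω _ M x0 um ηm th sg Pi x K hM hClk hProj hProj2 hPin hPi hx hxx0 hRaw hK v G ϑ ηS t0 hx0v hvum hG hG2 hηG hϑ hηϑ hηS
    hlo hhi hosc s hs hs1 hs2
  have hprob := hM.prob
  have hp1 : 1 ≤ p := by omega
  have hΓ := hClk.hΓ
  have hx0 := hClk.hx0
  have hv : 0 < v := lt_of_lt_of_le hx0 hx0v
  have hϑv : 0 < ϑ * v := mul_pos hϑ hv
  have hϑ3 : ϑ ≤ 1 / 3 := by
    have : 3 * (ϑ * v) ≤ 1 * v := by linarith
    have h3 : (3 * ϑ) * v ≤ 1 * v := by linarith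
    have := le_of_mul_le_mul_right h3 hv
    linarith
  have hΓv : Γ * (4 * v) ≤ 1 := by
    have h1 := hClk.hum
    have h2 : 8 * Γ ^ 2 * v ≤ 8 * Γ ^ 2 * um := by gcongr
    nlinarith
  have hv1 : 8 * v ≤ 1 := by nlinarith
  set D0 := Real.sqrt (c * Cs) * Q ^ 2 with hD0def
  set ζ := ((K : ℝ) + 1) ^ 2 * Pi / (ϑ * Real.sqrt G) with hζ
  have hζ0 : 0 ≤ ζ := by positivity
  -- the nodes
  set j1 := M.nd (t0 + ϑ * v / 3) with hj1
  set j2 := M.nd (t0 + ϑ * v / 3 + ϑ * v / 3) with hj2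
  set is := M.nd (Γ * (4 * v)) with his
  have hsj1 : s ≤ j1 := CmPath.le_nd hM hs hs2
  have hclock := hClk.sh v hx0v hvum (t0 + ϑ * v / 3) (ϑ * v / 3) (by linarith) hηϑ (by linarith)
  have hsg := hClk.sg_pos v hx0v hvum
  have hclock' : sg v * (ϑ * v / 3) ≤ M.hck j2 - M.hck j1 := hclock
  have hh : M.hck j1 < M.hck j2 := by
    have : 0 < sg v * (ϑ * v / 3) := by positivity
    linarith
  have hj12 : j1 < j2 := by
    by_contra hcon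
    have := hM.hck_mono (not_lt.mp hcon)
    linarith
  have hm1 : v ≤ M.mass (j1 + 1) := by
    have := CmPath.lt_mass_nd_succ hM (t := t0 + ϑ * v / 3) (by linarith)
    linarith
  have hm1pos : 0 < M.mass (j1 + 1) := lt_of_lt_of_le hv hm1
  have hj2L : j2 ≤ M.L := CmPath.nd_le M _
  have hisL : is ≤ M.L := CmPath.nd_le M _
  have hmj2 : M.mass j2 ≤ t0 + ϑ * v / 3 + ϑ * v / 3 := CmPath.mass_nd_le hM (by linarith)
  have hmis : M.mass is ≤ Γ * (4 * v) := CmPath.mass_nd_le hM (by positivity)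
  have hj2is : j2 ≤ is := CmPath.le_nd hM hj2L (by nlinarith)
  have hsj2 : s ≤ j2 := hsj1.trans hj12.le
  have hmsj2 : M.mass s ≤ M.mass j2 := hM.mass_mono hsj2
  -- raw bounds
  have hRawp : M.Raw p Q x := cm5s_raw_mono hM hp1 (by omega) hRaw
  have hRaw2p : M.Raw (2 * p) Q x := cm5s_raw_mono hM (by omega) (by omega) hRaw
  -- far terms
  have hth4 : sg v * v ≤ th (4 * v) :=
    (hClk.sg_th v hx0v hvum).trans (hClk.th_mono v (4 * v) hx0v (by linarith) hΓv)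
  have hnn : (0 : ℝ) ≤ n := Nat.cast_nonneg n
  have hTnum := cm5s_num_tbl hv hG hG2 hnn hth4
  have hTb : ∀ i', s ≤ i' → i' ≤ M.L + 1 →
      cmN (M.P2 s) p (fun z : Ω × Ω => inner ℝ (M.X (M.L + 1) z.1 - M.X is z.1) (M.X i' z.2))
        ≤ Ct * ((K : ℝ) + 2) ^ 2 * Q * Pi * (v / (2 * G)) := by
    intro i' h1 h2
    have := htbl n Ω M x0 um ηm th sg Pi Q x K hM hClk hProj hPi hQ hx hxx0 hRawp hK s is (M.L + 1) i' (4 * v) hs (by linarith)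
      (by linarith) hΓv le_rfl (by omega) le_rfl h1 h2
    refine this.trans ?_
    rw [div_eq_mul_one_div]
    gcongr
  -- short clock terms
  have hBnum := cm5s_num_proj (Pi := Pi) hv hG hϑ (by linarith) hG2
  have hθpos : 0 < sg v * (ϑ * v / 3) := by positivity
  have hB1 : cmN (M.P2 s) p (fun z : Ω × Ω => inner ℝ (M.X is z.1 - M.X j2 z.1) (M.X is z.2))
      ≤ 2 * Pi * Real.sqrt (3 * v) / (Real.sqrt ϑ * G) * (Q * Real.sqrt (x + M.mass is)) := by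
    refine (CmPath.proj_fst hM hp hp1 hProj (by linarith) hsj1 hj12 le_rfl (by omega) hj2is (by omega) hv hm1 hθpos hclock'
      (hM.meas is) (hM.norm_le is)).trans ?_
    exact mul_le_mul hBnum (hRawp is (by omega)) (cmN_nonneg _ _ _) (by positivity)
  have hB2 : cmN (M.P2 s) p (fun z : Ω × Ω => inner ℝ (M.X j2 z.1) (M.X (M.L + 1) z.2 - M.X j2 z.2))
      ≤ 2 * Pi * Real.sqrt (3 * v) / (Real.sqrt ϑ * G) * (Q * Real.sqrt (x + M.mass j2)) := by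
    refine (CmPath.proj_snd hM hp hp1 hProj (by linarith) hsj1 hj12 le_rfl (by omega) (by omega) le_rfl hv hm1 hθpos hclock'
      (hM.meas j2) (hM.norm_le j2)).trans ?_
    exact mul_le_mul hBnum (hRawp j2 (by omega)) (cmN_nonneg _ _ _) (by positivity)
  have hfar := cm5s_far hM hp1 (hTb (M.L + 1) (by omega) le_rfl) (hTb is (hsj2.trans hj2is) (by omega)) (hTb j2 hsj2 (by omega)) hB1 hB2
  -- the two buffers
  have hdev : ∀ t1 t2 : ℝ, v ≤ t1 → t2 - t1 = ϑ * v → t2 ≤ 2 * v → cmN M.P p (M.avLc t1 t2) ≤ D0 * ζ * v := by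
    intro t1 t2 h1 h12 h2
    have h12' : t1 < t2 := by linarith
    have hA := cm5s_pin_avg hM hp1 hc.le hPin (t1 := t1) (t2 := t2) (by linarith) h12' (by linarith)
    have hW := hsus n Ω M x0 um ηm th sg Pi Q x K hM hClk hProj2 hPi hQ hx hxx0 hRaw hK v G t1 t2 hx0v hvum hG hG2 hηG h1 h12'.le h2
    rw [h12] at hA
    have hN := cm5s_num_dev K hc hCs hQ hPi hv hG hϑ hW
    have hbm : CmBM M.P (M.avLc t1 t2) :=
      ⟨(cm5s_avLc_meas hM t1 t2).aestronglyMeasurable, 4, fun ω => by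
        rw [Real.norm_eq_abs]; exact cm5s_avLc_bound hM (by linarith) h12' (by linarith) ω⟩
    exact (cmN_exp_mono hbm hp1 (by omega)).trans (hA.trans hN)
  have hda := hdev (t0 - ϑ * v) t0 hlo (by ring) (by linarith)
  have hdb := hdev (t0 + ϑ * v) (t0 + 2 * ϑ * v) (by linarith) (by ring) hhi
  -- oscillation of `S`
  have hSrange : ∀ i, M.nd (t0 - ϑ * v) ≤ i → i ≤ M.nd (t0 + 2 * ϑ * v) →
      M.S (M.nd (t0 - ϑ * v)) ≤ M.S i ∧ M.S i ≤ M.S (M.nd (t0 + 2 * ϑ * v)) := by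
    intro i h1 h2
    have hL := CmPath.nd_le M (t0 + 2 * ϑ * v)
    exact ⟨CmPath.S_mono hM h1 (by omega), CmPath.S_mono hM h2 (by omega)⟩
  have hSa : ∀ i, i ≤ M.L → 0 < M.ov i (t0 - ϑ * v) t0 →
      M.S (M.nd (t0 - ϑ * v)) ≤ M.S i ∧ M.S i ≤ M.S (M.nd (t0 + 2 * ϑ * v)) := by
    intro i hi h
    obtain ⟨h1, h2⟩ := cm5s_ov_nd hM hi (by linarith) h
    exact hSrange i h1 (h2.trans (CmPath.nd_mono hM (by linarith) (by linarith)))
  have hSb : ∀ i, i ≤ M.L → 0 < M.ov i (t0 + ϑ * v) (t0 + 2 * ϑ * v) →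
      M.S (M.nd (t0 - ϑ * v)) ≤ M.S i ∧ M.S i ≤ M.S (M.nd (t0 + 2 * ϑ * v)) := by
    intro i hi h
    obtain ⟨h1, h2⟩ := cm5s_ov_nd hM hi (by linarith) h
    exact hSrange i ((CmPath.nd_mono hM (by linarith) (by linarith)).trans h1) h2
  have hnds : M.nd (t0 - ϑ * v) ≤ s := by
    by_contra hcon
    have h1 := hM.mass_mono (not_le.mp hcon).le
    have h2 := CmPath.mass_nd_le hM (t := t0 - ϑ * v) (by linarith)
    linarith
  have hSs := hSrange s hnds (CmPath.le_nd hM hs (by linarith))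
  have hSj2 := hSrange j2 (hnds.trans hsj2) (CmPath.le_nd hM hj2L (by linarith))
  have hcs := cm5s_sq_conc hM hs (a1 := t0 - ϑ * v) (a2 := t0) (b1 := t0 + ϑ * v) (b2 := t0 + 2 * ϑ * v) (by linarith) (by linarith) hs1
    (by linarith) (by linarith) (by linarith) hSa hSb hSs p hp1
  have hcj := cm5s_sq_conc hM hj2L (a1 := t0 - ϑ * v) (a2 := t0) (b1 := t0 + ϑ * v) (b2 := t0 + 2 * ϑ * v) (by linarith) (by linarith)
    (hs1.trans hmsj2) (by linarith) (by linarith) (by linarith) hSa hSb hSj2 p hp1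
  have hdist := cm5s_dist hM s j2 (a1 := t0 - ϑ * v) (a2 := t0) (by linarith) (by linarith) (by linarith) p hp1
  have hδ : cmN M.P (2 * p) (fun ω => M.X j2 ω - M.X s ω) ^ 2 ≤ (24 * D0 + 8) * (ηS + ζ) * v := by
    have e1 := hcs.2
    have e2 := hcj.2
    have h1 : 0 ≤ D0 * ηS * v := by positivity
    have h2 : 0 ≤ ζ * v := by positivity
    have e : (24 * D0 + 8) * (ηS + ζ) * v = 24 * (D0 * ηS * v) + 24 * (D0 * ζ * v) + 8 * (ηS * v) + 8 * (ζ * v) := by ring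
    rw [e]
    linarith
  have hA3 : cmN M.P p (fun ω => ‖M.X s ω‖ ^ 2 - M.S s) ≤ (4 * D0 + 1) * (ηS + ζ) * v := by
    have e1 := hcs.1
    have h1 : 0 ≤ D0 * ηS * v := by positivity
    have h2 : 0 ≤ ζ * v := by positivity
    have e : (4 * D0 + 1) * (ηS + ζ) * v = 4 * (D0 * ηS * v) + 4 * (D0 * ζ * v) + ηS * v + ζ * v := by ring
    rw [e]
    linarith
  have hnear := cm5s_near (j2 := j2) hM hp1 hs
  have htot := cm5s_three hM hp1 hfar hnear le_rfl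
  refine htot.trans ?_
  exact cm5s_num_final K hCt hQ hΓ hD0 hPi hv hG hϑ (by linarith) hηS hx (hxx0.trans hx0v) le_rfl le_rfl (by linarith) le_rfl (by linarith)
    (cmN_nonneg _ _ _) hδ hA3 (cmN_nonneg _ _ _) (hRaw2p s (by omega)) (by linarith)

set_option maxHeartbeats 400000 in
/-- **PE Lemma 3.7 (good split), square norm at the cut**: same hypotheses and same right side as `cm5_split_pf` (asked by helper247 for `cmkMXc`); valid at every cut between the two buffers.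
TEX[PE:comp:good-split] -/
theorem cm5_split_sq_pf (p : ℕ) (hp2 : 1 ≤ p) (Γ Q c : ℝ) (hQ : 1 ≤ Q) (hc : 0 < c) : ∃ C : ℝ, 0 < C ∧
    ∀ (n : ℕ) (Ω : Type) [MeasurableSpace Ω] (M : CmPath n Ω) (x0 um ηm : ℝ) (th sg : ℝ → ℝ) (Pi x : ℝ) (K : ℕ),
      M.Ok → Cm5Clk M x0 um Γ ηm th sg → M.Proj (2 * p) Pi → M.Pin p c → 1 ≤ Pi → 0 < x → x ≤ x0 →
      M.Raw (4 * p) Q x → 1 ≤ Γ ^ K * x0 →
      ∀ v G ϑ ηS t0 : ℝ, x0 ≤ v → v ≤ um → 1 ≤ G → G ^ 2 ≤ n * sg v * v ^ 4 → ηm ≤ v / G → 0 < ϑ → 0 ≤ ηS →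
        v ≤ t0 - ϑ * v → t0 + 2 * ϑ * v ≤ 2 * v →
        M.S (M.nd (t0 + 2 * ϑ * v)) - M.S (M.nd (t0 - ϑ * v)) ≤ ηS * v →
        ∀ s, s ≤ M.L → t0 ≤ M.mass s → M.mass s ≤ t0 + ϑ * v →
          cmN M.P p (fun ω => ‖M.X s ω‖ ^ 2 - M.S s) ≤ C * v * (ηS + ((K : ℝ) + 1) ^ 2 * Pi / (ϑ * Real.sqrt G)) := by
  obtain ⟨Cs, hCs, hsus⟩ := cm5_sus_pf p hp2 Γ
  have hD0 : 0 ≤ Real.sqrt (c * Cs) * Q ^ 2 := by positivity
  refine ⟨4 * (Real.sqrt (c * Cs) * Q ^ 2) + 1, by positivity, ?_⟩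
  intro n Ω _ M x0 um ηm th sg Pi x K hM hClk hProj2 hPin hPi hx hxx0 hRaw hK v G ϑ ηS t0 hx0v hvum hG hG2 hηG hϑ hηS
    hlo hhi hosc s hs hs1 hs2
  have hprob := hM.prob
  have hp1 : 1 ≤ p := hp2
  have hΓ := hClk.hΓ
  have hx0 := hClk.hx0
  have hv : 0 < v := lt_of_lt_of_le hx0 hx0v
  have hϑv : 0 < ϑ * v := mul_pos hϑ hv
  have hΓv : Γ * (4 * v) ≤ 1 := by
    have h1 := hClk.hum
    have h2 : 8 * Γ ^ 2 * v ≤ 8 * Γ ^ 2 * um := by gcongr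
    nlinarith
  have hv1 : 8 * v ≤ 1 := by nlinarith
  set D0 := Real.sqrt (c * Cs) * Q ^ 2 with hD0def
  set ζ := ((K : ℝ) + 1) ^ 2 * Pi / (ϑ * Real.sqrt G) with hζ
  have hζ0 : 0 ≤ ζ := by positivity
  have hdev : ∀ t1 t2 : ℝ, v ≤ t1 → t2 - t1 = ϑ * v → t2 ≤ 2 * v → cmN M.P p (M.avLc t1 t2) ≤ D0 * ζ * v := by
    intro t1 t2 h1 h12 h2
    have h12' : t1 < t2 := by linarith
    have hA := cm5s_pin_avg hM hp1 hc.le hPin (t1 := t1) (t2 := t2) (by linarith) h12' (by linarith)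
    have hW := hsus n Ω M x0 um ηm th sg Pi Q x K hM hClk hProj2 hPi hQ hx hxx0 hRaw hK v G t1 t2 hx0v hvum hG hG2 hηG h1 h12'.le h2
    rw [h12] at hA
    have hN := cm5s_num_dev K hc hCs hQ hPi hv hG hϑ hW
    have hbm : CmBM M.P (M.avLc t1 t2) :=
      ⟨(cm5s_avLc_meas hM t1 t2).aestronglyMeasurable, 4, fun ω => by
        rw [Real.norm_eq_abs]; exact cm5s_avLc_bound hM (by linarith) h12' (by linarith) ω⟩
    exact (cmN_exp_mono hbm hp1 (by omega)).trans (hA.trans hN)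
  have hda := hdev (t0 - ϑ * v) t0 hlo (by ring) (by linarith)
  have hdb := hdev (t0 + ϑ * v) (t0 + 2 * ϑ * v) (by linarith) (by ring) hhi
  have hSrange : ∀ i, M.nd (t0 - ϑ * v) ≤ i → i ≤ M.nd (t0 + 2 * ϑ * v) →
      M.S (M.nd (t0 - ϑ * v)) ≤ M.S i ∧ M.S i ≤ M.S (M.nd (t0 + 2 * ϑ * v)) := by
    intro i h1 h2
    have hL := CmPath.nd_le M (t0 + 2 * ϑ * v)
    exact ⟨CmPath.S_mono hM h1 (by omega), CmPath.S_mono hM h2 (by omega)⟩
  have hSa : ∀ i, i ≤ M.L → 0 < M.ov i (t0 - ϑ * v) t0 →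
      M.S (M.nd (t0 - ϑ * v)) ≤ M.S i ∧ M.S i ≤ M.S (M.nd (t0 + 2 * ϑ * v)) := by
    intro i hi h
    obtain ⟨h1, h2⟩ := cm5s_ov_nd hM hi (by linarith) h
    exact hSrange i h1 (h2.trans (CmPath.nd_mono hM (by linarith) (by linarith)))
  have hSb : ∀ i, i ≤ M.L → 0 < M.ov i (t0 + ϑ * v) (t0 + 2 * ϑ * v) →
      M.S (M.nd (t0 - ϑ * v)) ≤ M.S i ∧ M.S i ≤ M.S (M.nd (t0 + 2 * ϑ * v)) := by
    intro i hi h
    obtain ⟨h1, h2⟩ := cm5s_ov_nd hM hi (by linarith) h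
    exact hSrange i ((CmPath.nd_mono hM (by linarith) (by linarith)).trans h1) h2
  have hnds : M.nd (t0 - ϑ * v) ≤ s := by
    by_contra hcon
    have h1 := hM.mass_mono (not_le.mp hcon).le
    have h2 := CmPath.mass_nd_le hM (t := t0 - ϑ * v) (by linarith)
    linarith
  have hSs := hSrange s hnds (CmPath.le_nd hM hs (by linarith))
  have hcs := cm5s_sq_conc hM hs (a1 := t0 - ϑ * v) (a2 := t0) (b1 := t0 + ϑ * v) (b2 := t0 + 2 * ϑ * v) (by linarith) (by linarith) hs1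
    hs2 (by linarith) (by linarith) hSa hSb hSs p hp1
  have e1 := hcs.1
  have h1 : 0 ≤ D0 * ηS * v := by positivity
  have h2 : 0 ≤ ζ * v := by positivity
  have e : (4 * D0 + 1) * v * (ηS + ζ) = 4 * (D0 * ηS * v) + 4 * (D0 * ζ * v) + ηS * v + ζ * v := by ring
  rw [e]
  linarith

end Claimed.Agent.R286
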