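import Claimed.Agent.R286.Cmp.P5L8
import Claimed.Agent.R286.Cmp.P5Split
import Claimed.Agent.R286.Cmp.InstNum
import Claimed.Agent.R286.L08.SPI
import Claimed.Agent.R286.Brg.Path

/-!
# Row 286 (S0533), PE Section 3, package P05: THE SK INSTANCE OF THE PATH MODEL `CmPath`, part A = DICTIONARY      (owner helper192, deputy of helper295; prover helper59; prefix `cmi_`, defs `cmi*`, `Cmi*`)

INSTANCE CHAIN of P05 (debt of the abstract record `CmPath` of helper247):   `Cmp/I5A` (this file: dictionary)  →  `Cmp/I5B` (P05 for ANY admissible pair of clocks)  →  `Cmp/I5C` (the clocks of a comparison instance)  →  `Exit/CmpRaw`, `Exit/CmpSplit`, `Exit/CmpRes`.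
* `cmiM n P`        the `CmPath` of a STEP path `P` (`= cm5OfL8 (skSP n 1 P)`: terminal mass `1`, zero root field);      `cmiC n b h F` the one of the chain of the clocks `b, h` through the positions of `F`.
* `cmiH h t`        the field clock after the jump at the mass `t`.
* section A         finite level: `Ok`, `Pin`, `Proj` (from `cm5_l8_*`, `l8i_*`), nodes / masses / clocks / `S` / moments of `cmiM` in the vocabulary `ob*`, `sk*`.
* section B         chains: the node of a position of `F`, the clock `H` of the chain between the values of `cmiH`, `S` at the nodes, tree numbers `ckNuF` of stars = integrals on `cmiC`.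
* section C         limits: a bound valid on all fine chains passes to `skCNu`.
LEAVES: free for provers (claim by Lean name in claim286; replace ONLY your sorry, helpers just above it).      TEX[PE:comp:raw-moments]
-/

set_option autoImplicit false

namespace Claimed.Agent.R286

open MeasureTheory ProbabilityTheory Set
open scoped ENNReal NNReal

noncomputable section

/-- the `CmPath` of a step path -/
def cmiM (n : ℕ) (P : SkStp) : CmPath n (SkOm n) := cm5OfL8 (skSP n 1 P)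

/-- the `CmPath` of the chain of the clocks `b, h` through the positions of `F` -/
def cmiC (n : ℕ) (b h : ℝ → ℝ) (F : Finset GhPos) : CmPath n (SkOm n) := cmiM n (ckStp 1 b h (ghPs 1 F))

/-- the field clock after the jump at the mass `t` -/
def cmiH (h : ℝ → ℝ) (t : ℝ) : ℝ := ghAt 1 h (ghPosA t)

theorem cmi_a_eqns_cite : True := by
  have := @cmiM.eq_1; have := @cmiC.eq_1; have := @cmiH.eq_1
  trivial

/-! ## A. finite level -/

section fin

variable (n : ℕ) (P : SkStp)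

theorem cmi_ok (hn : 1 ≤ n) (hP : SkAdm 1 P) : (cmiM n P).Ok :=
  cm5_l8_ok _ (l8i_ok n hn 1 one_pos P hP) rfl

/-- the constant of (1) line 3 at the exponent `2 l` -/
def cmiPc (l : ℕ) : ℝ := 1 + (2 * l : ℝ) ^ 2 / 3

theorem cmi_pin (hn : 1 ≤ n) (hP : SkAdm 1 P) (l : ℕ) (hl : 1 ≤ l) : (cmiM n P).Pin l (cmiPc l) :=
  cm5_l8_pin _ (l8i_ok n hn 1 one_pos P hP) rfl l hl _ (l8i_pin n hn 1 one_pos P hP l hl)

theorem cmi_L : (cmiM n P).L = P.length := rfl

theorem cmi_mass_zero : (cmiM n P).mass 0 = 0 := rfl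

theorem cmi_mass_succ (j : ℕ) : (cmiM n P).mass (j + 1) = skMs 1 P j := rfl

/-- the clock of the node `j` (`cmj_sum_getD`) -/
theorem cmi_hck (j : ℕ) : (cmiM n P).hck j = skCumH P j := cm5_sk_hck n P j

/-- sorted masses: the revelation number `i` has mass `≤ t` iff `i` is below the cut -/
theorem cmi_cut_iff (t : ℝ) : ∀ (P : SkStp), P.Pairwise (fun e e' => e.m ≤ e'.m) → ∀ i, i < P.length →
    ((P.map SkInc.m).getD i 1 ≤ t ↔ i < cmkCut P t)
  | [], _, i, hi => absurd hi (Nat.not_lt_zero _)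
  | e :: P, hs, i, hi => by
      have hs' := List.pairwise_cons.1 hs
      unfold cmkCut
      rw [List.filter_cons]
      by_cases he : e.m ≤ t
      · simp only [he, decide_true, if_true, List.length_cons]
        cases i with
        | zero => simpa using he
        | succ i =>
          have := cmi_cut_iff t P hs'.2 i (by simpa using hi)
          unfold cmkCut at this
          simpa using this
      · simp only [he, decide_false, Bool.false_eq_true, if_false]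
        have hnil : P.filter (fun e => decide (e.m ≤ t)) = [] := by
          rw [List.filter_eq_nil_iff]
          intro x hx
          have := hs'.1 x hx
          simp only [decide_eq_true_eq, not_le]
          linarith [not_le.1 he]
        rw [hnil]
        simp only [List.length_nil, Nat.not_lt_zero, iff_false, not_le]
        cases i with
        | zero => simpa using not_le.1 he
        | succ i =>
          have hi' : i < P.length := by simpa using hi
          have h1 : ((e :: P).map SkInc.m).getD (i + 1) 1 = (P[i]).m := by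
            simp [hi']
          rw [h1]
          have := hs'.1 (P[i]) (List.getElem_mem hi')
          linarith [not_le.1 he]

/-- the last node of mass `≤ t` = the number of revelations of mass `≤ t` (sorted masses) -/
theorem cmi_nd (hP : SkAdm 1 P) {t : ℝ} (ht : 0 ≤ t) : (cmiM n P).nd t = cmkCut P t := by
  classical
  unfold CmPath.nd
  have hle : cmkCut P t ≤ P.length := List.length_filter_le _ _
  rw [Nat.findGreatest_eq_iff]
  refine ⟨hle, fun h0 => ?_, fun j hj hjL => ?_⟩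
  · obtain ⟨c, hc⟩ := Nat.exists_eq_succ_of_ne_zero h0
    rw [hc]
    show (P.map SkInc.m).getD c 1 ≤ t
    exact (cmi_cut_iff t P hP.1 c (by omega)).2 (by omega)
  · obtain ⟨c, rfl⟩ := Nat.exists_eq_succ_of_ne_zero (Nat.ne_of_gt (Nat.zero_lt_of_lt hj))
    show ¬ (P.map SkInc.m).getD c 1 ≤ t
    have hcL : c < P.length := hjL
    rw [cmi_cut_iff t P hP.1 c hcL]
    omega

theorem cmi_norm_sq (j : ℕ) (ω : SkOm n) : ‖(cmiM n P).X j ω‖ ^ 2 = ∑ i, (skSP n 1 P).X j i ω ^ 2 := by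
  rw [EuclideanSpace.real_norm_sq_eq]
  rfl

/-- functions of `|X_j|²` (`l8i_path`, `l8i_X`; `|X_j|² ∈ [0,1]`) -/
theorem cmi_int_X (hn : 1 ≤ n) (hP : SkAdm 1 P) {j : ℕ} (hj : j ≤ P.length) (φ : ℝ → ℝ) (hφ : Continuous φ) :
    ∫ ω, φ (‖(cmiM n P).X j ω‖ ^ 2) ∂(cmiM n P).P = obE n 1 P 0 fun ξ _ => φ (∑ k, obXp n 1 P 0 j ξ k ^ 2) := by
  have hM := cmi_ok n P hn hP
  have e : ∀ ω : SkOm n, ‖(cmiM n P).X j ω‖ ^ 2 = ∑ k, obXp n 1 P 0 j ω.1 k ^ 2 := fun ω => by
    rw [cmi_norm_sq]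
    exact Finset.sum_congr rfl fun k _ => by rw [l8i_X n 1 one_pos P hP j hj k ω]
  obtain ⟨C, hC⟩ := isCompact_Icc.exists_bound_of_continuousOn (s := Icc (0 : ℝ) 1) hφ.continuousOn
  have hm : Measurable fun ω : SkOm n => φ (‖(cmiM n P).X j ω‖ ^ 2) := hφ.measurable.comp ((hM.meas j).norm.pow_const 2)
  have hb : ∀ ω : SkOm n, |φ (‖(cmiM n P).X j ω‖ ^ 2)| ≤ C := fun ω =>
    hC _ ⟨by positivity, pow_le_one₀ (norm_nonneg _) (hM.norm_le j ω)⟩
  simp only [e] at hm hb ⊢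
  exact l8i_path n 1 one_pos P hP (fun ξ _ => φ (∑ k, obXp n 1 P 0 j ξ k ^ 2)) hm C fun ξ σ => hb (ξ, σ)

theorem cmi_S (hn : 1 ≤ n) (hP : SkAdm 1 P) {j : ℕ} (hj : j ≤ P.length) : (cmiM n P).S j = obS n 1 P 0 j :=
  cmi_int_X n P hn hP hj (fun x => x) continuous_id

/-- the overlap of the two leaves -/
theorem cmi_R2 (hn : 1 ≤ n) (z : SkOm n × SkOm n) : (cmiM n P).R2 z = skOv z.1.2 z.2.2 := cm5_sk_R2 n hn P z

/-- functions of the overlap of two continuations forked at the node `j` (`l8i_fork`) -/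
theorem cmi_int_R (hn : 1 ≤ n) (hP : SkAdm 1 P) {j : ℕ} (hj : j ≤ P.length) (φ : ℝ → ℝ) (hφ : Continuous φ) :
    ∫ z, φ ((cmiM n P).R2 z) ∂(cmiM n P).P2 j = (obT2 j).nu (skBase n 1) (skLvs n P) 0 fun _ σ => φ (skOv (σ 0) (σ 1)) :=
  (cm5_sk_two n hn P hP j hj (fun _ _ => j) (fun _ _ _ => rfl) φ).symm

end fin

/-- (13) on every step path, constant before the path (`l8i_proj` + `cm5_l8_proj`) -/
theorem cmi_proj (r : ℕ) (hr : 1 ≤ r) : ∃ Pi : ℝ, 1 ≤ Pi ∧ ∀ (n : ℕ) (P : SkStp), 1 ≤ n → SkAdm 1 P → (cmiM n P).Proj (2 * r) Pi :=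
  cm5_sk_proj r hr

/-- **star identity with a shift** (finite level; `s = 0`: `cmk_star_id`): the `2 l` labels share exactly the first `j` revelations -/
theorem cmi_star_shift (n : ℕ) (hn : 0 < n) (P : SkStp) (hP : SkAdm 1 P) (l j : ℕ) (hj : j ≤ P.length) (sh : ℕ → ℕ → ℕ)
    (hsh : ∀ x y, x ≠ y → sh x y = j) (hd : ∀ x, P.length < sh x x) (s : ℝ) :
    ghNu (skBase n 1) (skLvs n P) (ghRepN (2 * l) sh) (fun _ => 0) (fun _ σ =>
        ∏ i : Fin l, (skOv (σ ⟨2 * i.1, by have := i.2; omega⟩) (σ ⟨2 * i.1 + 1, by have := i.2; omega⟩) - s))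
      = obE n 1 P 0 fun ξ _ => (∑ k, obXp n 1 P 0 j ξ k ^ 2 - s) ^ l := by
  rw [cm5_sk_star n hn P hP l j hj sh hsh s]
  exact cmi_int_X n P hn hP hj (fun x => (x - s) ^ l) (by fun_prop)

/-! ## B. chains -/

section chain

variable (n : ℕ) (b h : ℝ → ℝ) (F : Finset GhPos)

theorem cmi_ch_len (ps : List GhPos) : (ckStp 1 b h ps).length = ps.length := cmk_stp_length 1 b h ps 0 0

theorem cmi_c_L : (cmiC n b h F).L = (ghPs 1 F).length := cmi_ch_len b h _

theorem cmi_c_ok (hn : 1 ≤ n) (H : CkAdm 1 b h) : (cmiC n b h F).Ok := cmi_ok n _ hn (cmk_chain_adm H F)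

theorem cmi_c_idx_le (p : GhPos) : ghIdx (ghPs 1 F) p ≤ (cmiC n b h F).L := by
  rw [cmi_c_L]; exact brg_t_idx_coe_le _ _

/-- the node of a position of a strictly sorted chain -/
theorem cmi_node_aux (a : ℝ) (b h : ℝ → ℝ) (p : GhPos) : ∀ (ps : List GhPos) (b0 h0 : ℝ), ps.Pairwise (· < ·) → p ∈ ps →
    ∃ j, (ps.filter fun x : GhPos => decide ((x : WithTop GhPos) ≤ (p : WithTop GhPos))).length = j + 1 ∧
      ((skCStp a b h b0 h0 ps).map SkInc.m).getD j 1 = p.u ∧ skCumH (skCStp a b h b0 h0 ps) (j + 1) = ghAt a h p - h0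
  | [], _, _, _, hp => absurd hp (by simp)
  | x :: ps, b0, h0, hs, hp => by
      have hs' := List.pairwise_cons.1 hs
      rcases List.mem_cons.1 hp with rfl | hp'
      · refine ⟨0, ?_, ?_, ?_⟩
        · rw [List.filter_cons]
          have hnil : ps.filter (fun x : GhPos => decide ((x : WithTop GhPos) ≤ (p : WithTop GhPos))) = [] := by
            rw [List.filter_eq_nil_iff]
            intro y hy
            simp only [WithTop.coe_le_coe, decide_eq_true_eq, not_le]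
            exact hs'.1 y hy
          rw [hnil]
          simp only [le_refl, decide_true, if_true, List.length_cons, List.length_nil]
        · simp [skCStp]
        · simp [skCStp, skCumH]
      · obtain ⟨j, h1, h2, h3⟩ := cmi_node_aux a b h p ps (ghAt a b x) (ghAt a h x) hs'.2 hp'
        refine ⟨j + 1, ?_, ?_, ?_⟩
        · rw [List.filter_cons]
          have hx : ((x : WithTop GhPos) ≤ (p : WithTop GhPos)) := WithTop.coe_le_coe.2 (hs'.1 p hp').le
          simp only [hx, decide_true, if_true, List.length_cons, h1]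
        · rw [skCStp]
          simpa using h2
        · rw [skCStp]
          unfold skCumH at h3 ⊢
          rw [List.take_succ_cons, List.map_cons, List.sum_cons, h3]
          ring

/-- the node of a position of the chain: its number is `≥ 1`, its mass and its clock are those of the position (strictly sorted list, telescoping sum) -/
theorem cmi_c_node {p : GhPos} (hpF : p ∈ F) (hp : p.Ok 1) :
    1 ≤ ghIdx (ghPs 1 F) p ∧ (cmiC n b h F).mass (ghIdx (ghPs 1 F) p) = p.u ∧ (cmiC n b h F).hck (ghIdx (ghPs 1 F) p) = ghAt 1 h p := by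
  obtain ⟨j, h1, h2, h3⟩ := cmi_node_aux 1 b h p (ghPs 1 F) 0 0 (gh_os_ps_lt 1 F) (gh_os_ps_mem.2 ⟨hpF, hp⟩)
  have hidx : ghIdx (ghPs 1 F) p = j + 1 := by
    rw [gh_idx_eq, if_neg WithTop.coe_ne_top, add_zero, h1]
  rw [hidx]
  refine ⟨Nat.succ_le_succ (Nat.zero_le _), h2, ?_⟩
  rw [cmiC, cmi_hck]
  show skCumH (skCStp 1 b h 0 0 (ghPs 1 F)) (j + 1) = _
  rw [h3, sub_zero]

/-- every node `≥ 1` of the form `ghIdx q` is the node of the last position of the chain which is `≤ q` -/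
theorem cmi_c_last (q : GhPos) (hq : 1 ≤ ghIdx (ghPs 1 F) q) :
    ∃ p ∈ F, p.Ok 1 ∧ p ≤ q ∧ ghIdx (ghPs 1 F) p = ghIdx (ghPs 1 F) q := by
  classical
  rw [gh_idx_eq, if_neg WithTop.coe_ne_top, add_zero] at hq
  obtain ⟨x, hx⟩ := List.exists_mem_of_length_pos (Nat.lt_of_lt_of_le Nat.zero_lt_one hq)
  have hx' := List.mem_filter.1 hx
  have hxq : x ≤ q := by simpa using hx'.2
  have hxF := gh_os_ps_mem.1 hx'.1
  have hne : (F.filter fun y => y.Ok 1 ∧ y ≤ q).Nonempty := ⟨x, Finset.mem_filter.2 ⟨hxF.1, hxF.2, hxq⟩⟩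
  have hmem := Finset.mem_filter.1 (Finset.max'_mem _ hne)
  refine ⟨_, hmem.1, hmem.2.1, hmem.2.2, ?_⟩
  rw [gh_idx_eq, gh_idx_eq, if_neg WithTop.coe_ne_top, if_neg WithTop.coe_ne_top]
  congr 2
  refine List.filter_congr fun y hy => ?_
  have hy' := gh_os_ps_mem.1 hy
  simp only [WithTop.coe_le_coe, decide_eq_decide]
  exact ⟨fun hh => hh.trans hmem.2.2, fun hh => Finset.le_max' _ _ (Finset.mem_filter.2 ⟨hy'.1, hy'.2, hh⟩)⟩

/-- the last node of mass `≤ t` (`cmi_nd`, `cmk_cut_idx`) -/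
theorem cmi_c_nd (H : CkAdm 1 b h) {t : ℝ} (ht : 0 ≤ t) : (cmiC n b h F).nd t = ghIdx (ghPs 1 F) (ghPosA t) := by
  rw [cmiC, cmi_nd n _ (cmk_chain_adm H F) ht, cmk_cut_idx]

/-- the clock of the chain is below the clock of the path (`cmi_c_last`, `cmi_c_node`, `gh_os_at_mono`; node `0`: `hck 0 = 0 ≤`, `gh_os_at_nonneg`) -/
theorem cmi_c_H_le (H : CkAdm 1 b h) {t : ℝ} (ht : t ∈ Icc (0 : ℝ) 1) : (cmiC n b h F).H t ≤ cmiH h t := by
  unfold CmPath.H cmiH
  rw [cmi_c_nd n b h F H ht.1]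
  rcases Nat.eq_zero_or_pos (ghIdx (ghPs 1 F) (ghPosA t)) with h0 | h0
  · rw [h0, cmiC, cmi_hck]
    have : skCumH (ckStp 1 b h (ghPs 1 F)) 0 = 0 := by simp [skCumH]
    rw [this]
    exact gh_os_at_nonneg zero_le_one H.2 (cmk_posA_ok ht).2.2.1
  · obtain ⟨p, hpF, hp, hpt, hidx⟩ := cmi_c_last F (ghPosA t) h0
    rw [← hidx, (cmi_c_node n b h F hpF hp).2.2]
    exact gh_os_at_mono zero_le_one H.2 hp.2.2.2 (cmk_posA_ok ht).2.2.1 hpt

/-- ... and above its value at every earlier position `ghPosA s` of the chain -/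
theorem cmi_c_H_ge (hn : 1 ≤ n) (H : CkAdm 1 b h) {s t : ℝ} (hs : 0 ≤ s) (hst : s ≤ t) (ht : t ≤ 1) (hsF : ghPosA s ∈ F) :
    cmiH h s ≤ (cmiC n b h F).H t := by
  unfold CmPath.H cmiH
  rw [cmi_c_nd n b h F H (hs.trans hst), ← (cmi_c_node n b h F hsF (cmk_posA_ok ⟨hs, hst.trans ht⟩)).2.2]
  exact (cmi_c_ok n b h F hn H).hck_mono (gh_tk_idx_mono _ (WithTop.coe_le_coe.2 (cmk_posA_le hst)))

/-- a point of the dyadic grid just below `t` -/
theorem cmi_grid (k : ℕ) {t : ℝ} (ht : t ∈ Icc (0 : ℝ) 1) : ∃ s : ℝ, 0 ≤ s ∧ s ≤ t ∧ t - (1 / 2) ^ k < s ∧ ghPosA s ∈ ghGrid 1 k := by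
  have h2 : (0 : ℝ) < 2 ^ k := by positivity
  have hfl : (⌊t * 2 ^ k⌋₊ : ℝ) ≤ t * 2 ^ k := Nat.floor_le (mul_nonneg ht.1 h2.le)
  have hfl2 : t * 2 ^ k < (⌊t * 2 ^ k⌋₊ : ℝ) + 1 := Nat.lt_floor_add_one _
  refine ⟨(⌊t * 2 ^ k⌋₊ : ℝ) / 2 ^ k, by positivity, (div_le_iff₀ h2).2 hfl, ?_, ?_⟩
  · rw [lt_div_iff₀ h2, sub_mul, one_div, inv_pow, inv_mul_cancel₀ h2.ne']
    linarith
  · unfold ghGrid
    refine Finset.mem_image.2 ⟨⌊t * 2 ^ k⌋₊, Finset.mem_range.2 ?_, by rw [one_mul]⟩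
    have : ⌊t * 2 ^ k⌋₊ ≤ 2 ^ k := by
      have h3 : t * 2 ^ k ≤ ((2 ^ k : ℕ) : ℝ) := by
        push_cast
        nlinarith [ht.2]
      exact (Nat.floor_le_floor h3).trans (by rw [Nat.floor_natCast])
    omega

/-- `S` at the node of a position of the chain -/
theorem cmi_c_S_idx (hn : 1 ≤ n) (H : CkAdm 1 b h) (p : GhPos) :
    (cmiC n b h F).S (ghIdx (ghPs 1 F) p) = obS n 1 (ckStp 1 b h (ghPs 1 F)) 0 (ghIdx (ghPs 1 F) p) :=
  cmi_S n _ hn (cmk_chain_adm H F) (by rw [cmi_ch_len]; exact brg_t_idx_coe_le _ _)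

/-- `S` of the chain at the mass `t` is below `S` of the path, up to the error `δ` of the chain (`cmi_c_last`, `exit_clk_SB`; `ghPosB 0 ∈ F`: the node is `≥ 1`) -/
theorem cmi_c_S_le (hn : 1 ≤ n) (H : CkAdm 1 b h) (h0 : ghPosB 0 ∈ F) {δ : ℝ}
    (hst : ∀ p ∈ F, p.Ok 1 → |obS n 1 (ckStp 1 b h (ghPs 1 F)) 0 (ghIdx (ghPs 1 F) p) - skCS n 1 b h p| ≤ δ) {t : ℝ} (ht : t ∈ Icc (0 : ℝ) 1) :
    (cmiC n b h F).S ((cmiC n b h F).nd t) ≤ skCS n 1 b h (ghPosA t) + δ := by
  rw [cmi_c_nd n b h F H ht.1]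
  have h1 : 1 ≤ ghIdx (ghPs 1 F) (ghPosA t) :=
    (cmi_c_node n b h F h0 (cmk_posB0_ok zero_le_one)).1.trans
      (gh_tk_idx_mono _ (WithTop.coe_le_coe.2 (cmk_posB0_le (cmk_posA_ok ht))))
  obtain ⟨p, hpF, hp, hpt, hidx⟩ := cmi_c_last F (ghPosA t) h1
  rw [← hidx, cmi_c_S_idx n b h F hn H p]
  have e1 := (abs_le.1 (hst p hpF hp)).2
  have e2 := (exit_clk_SB hn one_pos H hp (cmk_posA_ok ht) hpt).2.1
  linarith

/-- moments of `|X|² - s` at the node of `p` = tree numbers of the star on the chain (`cmi_star_shift`, `cmi_int_X`) -/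
theorem cmi_c_MX (hn : 1 ≤ n) (H : CkAdm 1 b h) (p : GhPos) (l : ℕ) (s : ℝ) :
    ckNuF n 1 b h (2 * l) (cmkStar p) (fun σ =>
        ∏ i : Fin l, (skOv (σ ⟨2 * i.1, by have := i.2; omega⟩) (σ ⟨2 * i.1 + 1, by have := i.2; omega⟩) - s)) (ghPs 1 F)
      = ∫ ω, (‖(cmiC n b h F).X (ghIdx (ghPs 1 F) p) ω‖ ^ 2 - s) ^ l ∂(cmiC n b h F).P :=
  cm5_sk_star n hn _ (cmk_chain_adm H F) l (ghIdx (ghPs 1 F) p) (by rw [cmi_ch_len]; exact gh_tk_idx_coe_le _ _)
    (ghDisc (ghPs 1 F) (cmkStar p)) (fun x y hxy => by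
      show ghIdx (ghPs 1 F) (cmkStar p x y) = _
      rw [cmkStar, ghR2, if_neg hxy]) s

/-- functions of the overlap of two continuations split at `p` (`cmi_int_R`; `ghRepN 2 (ghDisc ps (ghR2 p)) = (obT2 j).rep`) -/
theorem cmi_c_MR (hn : 1 ≤ n) (H : CkAdm 1 b h) (p : GhPos) (φ : ℝ → ℝ) (hφ : Continuous φ) :
    ckNuF n 1 b h 2 (cmkStar p) (fun σ => φ (skOv (σ 0) (σ 1))) (ghPs 1 F)
      = ∫ z, φ ((cmiC n b h F).R2 z) ∂(cmiC n b h F).P2 (ghIdx (ghPs 1 F) p) :=
  cm5_sk_two n hn _ (cmk_chain_adm H F) (ghIdx (ghPs 1 F) p) (by rw [cmi_ch_len]; exact gh_tk_idx_coe_le _ _)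
    (ghDisc (ghPs 1 F) (cmkStar p)) (fun x y hxy => by
      show ghIdx (ghPs 1 F) (cmkStar p x y) = _
      rw [cmkStar, ghR2, if_neg hxy]) φ

end chain

/-! ## C. limits -/

/-- a bound valid on all fine chains passes to the number of the path (`gh_pt_ex_nu`, `gh_nt_le_const`, `sk_c_nu_eq`, `sk_c_chain`) -/
theorem cmi_lim_le {n : ℕ} {b h : ℝ → ℝ} (H : CkAdm 1 b h) {q : ℕ} {τ : ℕ → ℕ → WithTop GhPos} (hτ : GhIsRT 1 q τ)
    (T : (Fin q → SkCfg n) → ℝ) {c : ℝ} (F₀ : Finset GhPos) (hF : ∀ F, F₀ ⊆ F → ckNuF n 1 b h q τ T (ghPs 1 F) ≤ c) :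
    skCNu n 1 b h q τ T ≤ c := by
  have hB : (skBase n 1).Ok := sk_stp_base_ok n one_pos
  have hv : GhClk (skBase n 1).a (skClk n b h) := cmk_clk_adm H
  have hτ' : GhIsRT (skBase n 1).a q τ := hτ
  have hex := gh_pt_ex_nu hB (skPhi n) hv 0 hτ' T
  rw [sk_c_nu_eq]
  refine le_of_tendsto hex ((Filter.eventually_ge_atTop F₀).mono fun F hFF => ?_)
  have := hF F hFF
  rwa [cmk_nuF_eq] at this

/-- trivial bound of a tree number (`gh_pt_abs_le`) -/
theorem cmi_nu_abs_le {n : ℕ} {b h : ℝ → ℝ} (H : CkAdm 1 b h) {q : ℕ} {τ : ℕ → ℕ → WithTop GhPos} (hτ : GhIsRT 1 q τ)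
    (T : (Fin q → SkCfg n) → ℝ) {K : ℝ} (hK : ∀ σ, |T σ| ≤ K) : |skCNu n 1 b h q τ T| ≤ K := by
  rw [sk_c_nu_eq]
  exact gh_pt_abs_le (sk_stp_base_ok n one_pos) (skPhi n) (cmk_clk_adm H) 0 hτ hK

end

end Claimed.Agent.R286
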