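import Mathlib

/-!
# Row 286, PE Section 3: MODEL-FREE MARTINGALE / POWER TOOLKIT in TEST-FUNCTION FORM      (helper164; namespace `Claimed.Agent.R286.Kit164`)

No filtration, no conditional expectation: the (sub)martingale property enters only through the integrals against the test functions that the proof really uses, so any
vocabulary (explicit kernels, Markov chains, `condExp`) can consume these lemmas.    Toolkit numbering of helper247 (notes/R286/P05_helper247.md).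
* `pow_tangent`, `young_nat`       `x^(p+1) + (p+1) x^p (y-x) ≤ y^(p+1)`,   `(p+1) x^p y ≤ p x^(p+1) + y^(p+1)`   (`x, y ≥ 0`)
* `odd_pow_monotone`   (T1)        `(a-b)^(2k+2) ≤ 2^(2k) (a^(2k+1) - b^(2k+1)) (a-b)`
* `recursion_bound`, `recursion_bound_exp`   (T2)      `a_{k+1}^(q+1) ≤ K a_k^q`, `a_0 ≤ R K`  ⇒  `a_N ≤ K exp((q/(q+1))^N log R)`,  `≤ e K` once `log R ≤ exp(N/(q+1))`
* `BM μ f`                         bounded + a.e. strongly measurable (closed under `+ - * ^ max ∑`), integrable on finite measures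
* `closing`                        `c ∫ a^(p+1) ≤ (p+1) ∫ a^p u  ⇒  c^(p+1) ∫ a^(p+1) ≤ (p+1)^(p+1) ∫ u^(p+1)`
* `compensator_step`, `compensator_bound`   (T3)       `‖∑_{j<N} q_j‖_{p+1} ≤ (p+1) ‖U_N‖_{p+1}`, any `N`
* `runMax`, `doob_pathwise`, `doob_Lp`      (T5)       `p^(p+1) ∫ (f*_N)^(p+1) ≤ (p+1)^(p+1) ∫ f_N^(p+1)`
-/

set_option autoImplicit false
set_option linter.unusedSectionVars false

namespace Claimed.Agent.R286.Kit164

open MeasureTheory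
open scoped BigOperators

/-- tangent line inequality for natural powers on `[0,∞)` -/
theorem pow_tangent (p : ℕ) {x y : ℝ} (hx : 0 ≤ x) (hy : 0 ≤ y) :
    x ^ (p + 1) + (p + 1) * x ^ p * (y - x) ≤ y ^ (p + 1) := by
  induction p with
  | zero => simp
  | succ p ih =>
    have h1 : 0 ≤ x ^ p := pow_nonneg hx p
    have h2 : y ^ (p + 1 + 1) = y ^ (p + 1) * y := pow_succ _ _
    have h3 : (x ^ (p + 1) + (p + 1) * x ^ p * (y - x)) * y ≤ y ^ (p + 1) * y :=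
      mul_le_mul_of_nonneg_right ih hy
    have h4 : x ^ (p + 1 + 1) = x ^ p * x * x := by ring
    have h5 : x ^ (p + 1) = x ^ p * x := by ring
    push_cast
    rw [h2, h4, h5]
    rw [h5] at h3
    nlinarith [mul_nonneg h1 (sq_nonneg (y - x)), mul_nonneg (Nat.cast_nonneg p : (0:ℝ) ≤ p) (mul_nonneg h1 (sq_nonneg (y - x)))]

/-- Young's inequality, natural powers: `(p+1) x^p y ≤ p x^(p+1) + y^(p+1)` -/
theorem young_nat (p : ℕ) {x y : ℝ} (hx : 0 ≤ x) (hy : 0 ≤ y) :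
    (p + 1) * x ^ p * y ≤ p * x ^ (p + 1) + y ^ (p + 1) := by
  have := pow_tangent p hx hy
  have h5 : x ^ (p + 1) = x ^ p * x := by ring
  rw [h5] at this ⊢
  nlinarith

/-- auxiliary form of T1 in the variables `s = (a+b)/2`, `t = (a-b)/2` -/
theorem odd_pow_diff_aux (k : ℕ) (s t : ℝ) :
    2 * t ^ (2 * k + 2) ≤ t * ((s + t) ^ (2 * k + 1) - (s - t) ^ (2 * k + 1)) := by
  induction k with
  | zero => simp only [Nat.mul_zero, Nat.zero_add, pow_one]; apply le_of_eq; ring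
  | succ k ih =>
    have hodd : Odd (2 * k + 1) := ⟨k, rfl⟩
    have hsum : 0 ≤ s * ((s + t) ^ (2 * k + 1) + (s - t) ^ (2 * k + 1)) := by
      rcases le_total 0 s with hs | hs
      · apply mul_nonneg hs
        have : (-(s - t)) ^ (2 * k + 1) ≤ (s + t) ^ (2 * k + 1) :=
          hodd.strictMono_pow.monotone (by linarith)
        rw [hodd.neg_pow] at this
        linarith
      · apply mul_nonneg_of_nonpos_of_nonpos hs
        have : (s + t) ^ (2 * k + 1) ≤ (-(s - t)) ^ (2 * k + 1) :=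
          hodd.strictMono_pow.monotone (by linarith)
        rw [hodd.neg_pow] at this
        linarith
    have heven : 0 ≤ t ^ (2 * k + 2) := by
      have : t ^ (2 * k + 2) = (t ^ (k + 1)) ^ 2 := by ring
      rw [this]; positivity
    have e1 : t * ((s + t) ^ (2 * (k + 1) + 1) - (s - t) ^ (2 * (k + 1) + 1))
        = (s ^ 2 + t ^ 2) * (t * ((s + t) ^ (2 * k + 1) - (s - t) ^ (2 * k + 1)))
          + 2 * t ^ 2 * (s * ((s + t) ^ (2 * k + 1) + (s - t) ^ (2 * k + 1))) := by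
      ring
    have e2 : 2 * t ^ (2 * (k + 1) + 2) = t ^ 2 * (2 * t ^ (2 * k + 2)) := by ring
    rw [e1, e2]
    have h1 : t ^ 2 * (2 * t ^ (2 * k + 2)) ≤ (s ^ 2 + t ^ 2) * (2 * t ^ (2 * k + 2)) := by
      apply mul_le_mul_of_nonneg_right _ (by positivity)
      nlinarith [sq_nonneg s]
    have h2 : (s ^ 2 + t ^ 2) * (2 * t ^ (2 * k + 2))
        ≤ (s ^ 2 + t ^ 2) * (t * ((s + t) ^ (2 * k + 1) - (s - t) ^ (2 * k + 1))) :=
      mul_le_mul_of_nonneg_left ih (by positivity)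
    have h3 : 0 ≤ 2 * t ^ 2 * (s * ((s + t) ^ (2 * k + 1) + (s - t) ^ (2 * k + 1))) :=
      mul_nonneg (by positivity) hsum
    linarith

/-- **T1** uniform monotonicity of the odd power `p - 1 = 2k+1`:
`(a^(p-1) - b^(p-1)) (a - b) ≥ 2^(2-p) (a-b)^p`, `p = 2k+2`. -/
theorem odd_pow_monotone (k : ℕ) (a b : ℝ) :
    (a - b) ^ (2 * k + 2) ≤ 2 ^ (2 * k) * ((a ^ (2 * k + 1) - b ^ (2 * k + 1)) * (a - b)) := by
  have h := odd_pow_diff_aux k ((a + b) / 2) ((a - b) / 2)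
  have e1 : (a + b) / 2 + (a - b) / 2 = a := by ring
  have e2 : (a + b) / 2 - (a - b) / 2 = b := by ring
  rw [e1, e2] at h
  have e3 : ((a - b) / 2) ^ (2 * k + 2) = (a - b) ^ (2 * k + 2) / (2 ^ (2 * k) * 4) := by
    rw [div_pow]; congr 1; ring
  rw [e3] at h
  have hpos : (0:ℝ) < 2 ^ (2 * k) := by positivity
  have h' : 2 * ((a - b) ^ (2 * k + 2) / (2 ^ (2 * k) * 4)) * (2 ^ (2 * k) * 2)
      ≤ ((a - b) / 2 * (a ^ (2 * k + 1) - b ^ (2 * k + 1))) * (2 ^ (2 * k) * 2) :=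
    mul_le_mul_of_nonneg_right h (by positivity)
  have e4 : 2 * ((a - b) ^ (2 * k + 2) / (2 ^ (2 * k) * 4)) * (2 ^ (2 * k) * 2) = (a - b) ^ (2 * k + 2) := by
    field_simp
    ring
  rw [e4] at h'
  calc (a - b) ^ (2 * k + 2) ≤ _ := h'
    _ = _ := by ring

/-- **T2** the recursion `a_{k+1}^p ≤ K a_k^{p-1}` (`p = q+1`), started from `a_0 ≤ R K`. -/
theorem recursion_bound (q : ℕ) {K R : ℝ} (hK : 0 < K) (a : ℕ → ℝ) (ha : ∀ k, 0 ≤ a k)
    (h0 : a 0 ≤ R * K) (hR : 0 < R) (hrec : ∀ k, a (k + 1) ^ (q + 1) ≤ K * a k ^ q) (N : ℕ) :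
    a N ≤ K * Real.exp (((q : ℝ) / (q + 1)) ^ N * Real.log R) := by
  induction N with
  | zero =>
    simp only [pow_zero, one_mul, Real.exp_log hR]
    linarith
  | succ N ih =>
    have hq : (0:ℝ) < (q : ℝ) + 1 := by positivity
    have h1 : a (N + 1) ^ (q + 1) ≤ K * (K * Real.exp (((q : ℝ) / (q + 1)) ^ N * Real.log R)) ^ q :=
      (hrec N).trans (mul_le_mul_of_nonneg_left (pow_le_pow_left₀ (ha N) ih q) hK.le)
    have h2 : K * (K * Real.exp (((q : ℝ) / (q + 1)) ^ N * Real.log R)) ^ q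
        = (K * Real.exp (((q : ℝ) / (q + 1)) ^ (N + 1) * Real.log R)) ^ (q + 1) := by
      rw [mul_pow, mul_pow, ← Real.exp_nat_mul, ← Real.exp_nat_mul, ← mul_assoc, ← pow_succ']
      congr 2
      push_cast
      rw [pow_succ]
      field_simp
    rw [h2] at h1
    exact le_of_pow_le_pow_left₀ (Nat.succ_ne_zero q) (by positivity) h1

/-- **T2'** after `N ≥ p log log R` steps the bound is `e K`. -/
theorem recursion_bound_exp (q : ℕ) {K R : ℝ} (hK : 0 < K) (a : ℕ → ℝ) (ha : ∀ k, 0 ≤ a k)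
    (h0 : a 0 ≤ R * K) (hR : 0 < R) (hrec : ∀ k, a (k + 1) ^ (q + 1) ≤ K * a k ^ q) (N : ℕ)
    (hN : Real.log R ≤ Real.exp ((N : ℝ) / (q + 1))) :
    a N ≤ K * Real.exp 1 := by
  refine (recursion_bound q hK a ha h0 hR hrec N).trans ?_
  apply mul_le_mul_of_nonneg_left _ hK.le
  apply Real.exp_le_exp.mpr
  have hq : (0:ℝ) < (q : ℝ) + 1 := by positivity
  have hθ0 : 0 ≤ (q : ℝ) / (q + 1) := by positivity
  have hθ : (q : ℝ) / (q + 1) ≤ Real.exp (-(1 / ((q : ℝ) + 1))) := by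
    have := Real.add_one_le_exp (-(1 / ((q : ℝ) + 1)))
    have e : (q : ℝ) / (q + 1) = -(1 / ((q : ℝ) + 1)) + 1 := by field_simp; ring
    rw [e]; exact this
  have hθN : ((q : ℝ) / (q + 1)) ^ N ≤ Real.exp (-((N : ℝ) / (q + 1))) := by
    calc ((q : ℝ) / (q + 1)) ^ N ≤ (Real.exp (-(1 / ((q : ℝ) + 1)))) ^ N := pow_le_pow_left₀ hθ0 hθ N
      _ = Real.exp (-((N : ℝ) / (q + 1))) := by
        rw [← Real.exp_nat_mul]; congr 1; ring
  have hpow0 : 0 ≤ ((q : ℝ) / (q + 1)) ^ N := pow_nonneg hθ0 N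
  calc ((q : ℝ) / (q + 1)) ^ N * Real.log R
      ≤ ((q : ℝ) / (q + 1)) ^ N * Real.exp ((N : ℝ) / (q + 1)) := mul_le_mul_of_nonneg_left hN hpow0
    _ ≤ Real.exp (-((N : ℝ) / (q + 1))) * Real.exp ((N : ℝ) / (q + 1)) :=
        mul_le_mul_of_nonneg_right hθN (Real.exp_pos _).le
    _ = 1 := by rw [← Real.exp_add]; simp

variable {Ω : Type*} [MeasurableSpace Ω] {μ : Measure Ω}

/-- bounded and (a.e. strongly) measurable -/
def BM (μ : Measure Ω) (f : Ω → ℝ) : Prop :=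
  AEStronglyMeasurable f μ ∧ ∃ C : ℝ, ∀ ω, |f ω| ≤ C

theorem BM.of_bounds {f : Ω → ℝ} (hm : AEStronglyMeasurable f μ) {C : ℝ} (h0 : ∀ ω, 0 ≤ f ω)
    (hC : ∀ ω, f ω ≤ C) : BM μ f :=
  ⟨hm, C, fun ω => by rw [abs_of_nonneg (h0 ω)]; exact hC ω⟩

theorem BM.integrable [IsFiniteMeasure μ] {f : Ω → ℝ} (h : BM μ f) : Integrable f μ := by
  obtain ⟨hm, C, hC⟩ := h
  exact Integrable.of_bound hm C (Filter.Eventually.of_forall fun ω => by simpa using hC ω)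

theorem BM.const (c : ℝ) : BM μ (fun _ : Ω => c) := ⟨aestronglyMeasurable_const, |c|, fun _ => le_rfl⟩

theorem BM.add {f g : Ω → ℝ} (hf : BM μ f) (hg : BM μ g) : BM μ (fun ω => f ω + g ω) := by
  obtain ⟨hfm, C, hC⟩ := hf
  obtain ⟨hgm, D, hD⟩ := hg
  exact ⟨hfm.add hgm, C + D, fun ω => (abs_add_le _ _).trans (add_le_add (hC ω) (hD ω))⟩

theorem BM.sub {f g : Ω → ℝ} (hf : BM μ f) (hg : BM μ g) : BM μ (fun ω => f ω - g ω) := by
  obtain ⟨hfm, C, hC⟩ := hf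
  obtain ⟨hgm, D, hD⟩ := hg
  exact ⟨hfm.sub hgm, C + D, fun ω => (abs_sub _ _).trans (add_le_add (hC ω) (hD ω))⟩

theorem BM.mul {f g : Ω → ℝ} (hf : BM μ f) (hg : BM μ g) : BM μ (fun ω => f ω * g ω) := by
  obtain ⟨hfm, C, hC⟩ := hf
  obtain ⟨hgm, D, hD⟩ := hg
  refine ⟨hfm.mul hgm, C * D, fun ω => ?_⟩
  rw [abs_mul]
  exact mul_le_mul (hC ω) (hD ω) (abs_nonneg _) ((abs_nonneg _).trans (hC ω))

theorem BM.pow {f : Ω → ℝ} (hf : BM μ f) (k : ℕ) : BM μ (fun ω => f ω ^ k) := by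
  obtain ⟨hfm, C, hC⟩ := hf
  refine ⟨hfm.pow k, C ^ k, fun ω => ?_⟩
  rw [abs_pow]
  exact pow_le_pow_left₀ (abs_nonneg _) (hC ω) k

theorem BM.maxf {f g : Ω → ℝ} (hf : BM μ f) (hg : BM μ g) : BM μ (fun ω => max (f ω) (g ω)) := by
  obtain ⟨hfm, C, hC⟩ := hf
  obtain ⟨hgm, D, hD⟩ := hg
  refine ⟨hfm.sup hgm, max C D, fun ω => ?_⟩
  exact abs_max_le_max_abs_abs.trans (max_le_max (hC ω) (hD ω))

theorem BM.sum {ι : Type*} (s : Finset ι) {f : ι → Ω → ℝ} (hf : ∀ i ∈ s, BM μ (f i)) :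
    BM μ (fun ω => ∑ i ∈ s, f i ω) := by
  classical
  induction s using Finset.induction_on with
  | empty => simpa using BM.const (μ := μ) 0
  | insert a s ha ih =>
    simp only [Finset.sum_insert ha]
    exact (hf a (Finset.mem_insert_self a s)).add (ih fun i hi => hf i (Finset.mem_insert_of_mem hi))

/-- **closing lemma** `c ∫ a^(p+1) ≤ (p+1) ∫ a^p u  ⇒  c^(p+1) ∫ a^(p+1) ≤ (p+1)^(p+1) ∫ u^(p+1)` -/
theorem closing [IsFiniteMeasure μ] (p : ℕ) {a u : Ω → ℝ} (ha : BM μ a) (hu : BM μ u)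
    (ha0 : ∀ ω, 0 ≤ a ω) (hu0 : ∀ ω, 0 ≤ u ω) {c : ℝ} (hc : 0 ≤ c)
    (h : c * ∫ ω, a ω ^ (p + 1) ∂μ ≤ (p + 1) * ∫ ω, a ω ^ p * u ω ∂μ) :
    c ^ (p + 1) * ∫ ω, a ω ^ (p + 1) ∂μ ≤ ((p : ℝ) + 1) ^ (p + 1) * ∫ ω, u ω ^ (p + 1) ∂μ := by
  have hp : (0:ℝ) < (p : ℝ) + 1 := by positivity
  have hpt : ∀ ω, ((p : ℝ) + 1) * (c ^ p * ((p + 1) * (a ω ^ p * u ω)))
      ≤ p * (c ^ (p + 1) * a ω ^ (p + 1)) + ((p : ℝ) + 1) ^ (p + 1) * u ω ^ (p + 1) := by
    intro ω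
    have := young_nat p (mul_nonneg hc (ha0 ω)) (mul_nonneg hp.le (hu0 ω))
    rw [mul_pow, mul_pow, mul_pow] at this
    calc ((p : ℝ) + 1) * (c ^ p * ((p + 1) * (a ω ^ p * u ω)))
        = (p + 1) * (c ^ p * a ω ^ p) * ((p + 1) * u ω) := by ring
      _ ≤ _ := this
  have hint := integral_mono
    (((BM.const (μ := μ) ((p : ℝ) + 1)).mul ((BM.const (μ := μ) (c ^ p)).mul
      ((BM.const (μ := μ) ((p : ℝ) + 1)).mul ((ha.pow p).mul hu)))).integrable)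
    ((((BM.const (μ := μ) (p : ℝ)).mul ((BM.const (μ := μ) (c ^ (p + 1))).mul (ha.pow (p + 1)))).add
      ((BM.const (μ := μ) (((p : ℝ) + 1) ^ (p + 1))).mul (hu.pow (p + 1)))).integrable) hpt
  rw [integral_add (((BM.const (μ := μ) (p : ℝ)).mul ((BM.const (μ := μ) (c ^ (p + 1))).mul (ha.pow (p + 1)))).integrable)
      (((BM.const (μ := μ) (((p : ℝ) + 1) ^ (p + 1))).mul (hu.pow (p + 1))).integrable)] at hint
  simp only [integral_const_mul] at hint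
  have h' : c ^ p * (c * ∫ ω, a ω ^ (p + 1) ∂μ) ≤ c ^ p * ((p + 1) * ∫ ω, a ω ^ p * u ω ∂μ) :=
    mul_le_mul_of_nonneg_left h (pow_nonneg hc p)
  have e : c ^ (p + 1) = c ^ p * c := pow_succ _ _
  rw [e] at hint ⊢
  nlinarith

/-- Abel summation inequality: `∑_{j<N} c_{j+1} (U_{j+1} - U_j) ≤ c_N U_N` for `c` nondecreasing, `c, U ≥ 0`. -/
theorem abel_le (c U : ℕ → ℝ) (hc : Monotone c) (hc0 : 0 ≤ c 0) (hU : ∀ j, 0 ≤ U j) (N : ℕ) :
    ∑ j ∈ Finset.range N, c (j + 1) * (U (j + 1) - U j) ≤ c N * U N := by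
  induction N with
  | zero => simpa using mul_nonneg hc0 (hU 0)
  | succ N ih =>
    rw [Finset.sum_range_succ]
    have h1 : c N ≤ c (N + 1) := hc (Nat.le_succ N)
    nlinarith [hU N, hU (N + 1), mul_le_mul_of_nonneg_right h1 (hU N)]

/-- telescoping: `A_N^(p+1) ≤ (p+1) ∑_{j<N} A_{j+1}^p q_j`, `A_j = ∑_{i<j} q_i`, `q ≥ 0`. -/
theorem pow_sum_le (p : ℕ) (q : ℕ → ℝ) (hq : ∀ j, 0 ≤ q j) (N : ℕ) :
    (∑ i ∈ Finset.range N, q i) ^ (p + 1)
      ≤ (p + 1) * ∑ j ∈ Finset.range N, (∑ i ∈ Finset.range (j + 1), q i) ^ p * q j := by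
  induction N with
  | zero => simp
  | succ N ih =>
    rw [Finset.sum_range_succ (fun j => (∑ i ∈ Finset.range (j + 1), q i) ^ p * q j), mul_add]
    have hA : 0 ≤ ∑ i ∈ Finset.range N, q i := Finset.sum_nonneg fun i _ => hq i
    have hA' : 0 ≤ ∑ i ∈ Finset.range (N + 1), q i := Finset.sum_nonneg fun i _ => hq i
    have ht := pow_tangent p hA' hA
    have e : (∑ i ∈ Finset.range N, q i) - ∑ i ∈ Finset.range (N + 1), q i = - q N := by
      rw [Finset.sum_range_succ]; ring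
    rw [e] at ht
    nlinarith

/-- **T3** (compensator bound, test-function form).  `U_j ≥ 0`, `q_j ≥ 0` bounded measurable, `A_j = ∑_{i<j} q_i`, and
`∫ A_{j+1}^p q_j ≤ ∫ A_{j+1}^p (U_{j+1} - U_j)` (true with equality if `q_j = E[U_{j+1} - U_j | F_j]` and the `q_i`, `i ≤ j`, are
`F_j`-measurable).  Then `∫ A_N^(p+1) ≤ (p+1) ∫ A_N^p U_N`. -/
theorem compensator_step [IsFiniteMeasure μ] (p : ℕ) (U q : ℕ → Ω → ℝ) (N : ℕ)
    (hU : ∀ j, BM μ (U j)) (hq : ∀ j, BM μ (q j)) (hU0 : ∀ j ω, 0 ≤ U j ω) (hq0 : ∀ j ω, 0 ≤ q j ω)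
    (htest : ∀ j < N, ∫ ω, (∑ i ∈ Finset.range (j + 1), q i ω) ^ p * q j ω ∂μ
      ≤ ∫ ω, (∑ i ∈ Finset.range (j + 1), q i ω) ^ p * (U (j + 1) ω - U j ω) ∂μ) :
    ∫ ω, (∑ i ∈ Finset.range N, q i ω) ^ (p + 1) ∂μ
      ≤ (p + 1) * ∫ ω, (∑ i ∈ Finset.range N, q i ω) ^ p * U N ω ∂μ := by
  have hA : ∀ j, BM μ (fun ω => ∑ i ∈ Finset.range j, q i ω) := fun j => BM.sum _ fun i _ => hq i
  have h1 : ∫ ω, (∑ i ∈ Finset.range N, q i ω) ^ (p + 1) ∂μ
      ≤ ∫ ω, ((p : ℝ) + 1) * ∑ j ∈ Finset.range N, (∑ i ∈ Finset.range (j + 1), q i ω) ^ p * q j ω ∂μ := by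
    apply integral_mono ((hA N).pow (p + 1)).integrable
    · exact ((BM.const (μ := μ) ((p : ℝ) + 1)).mul
        (BM.sum _ fun j _ => ((hA (j + 1)).pow p).mul (hq j))).integrable
    · intro ω
      exact pow_sum_le p (fun j => q j ω) (fun j => hq0 j ω) N
  rw [integral_const_mul, integral_finsetSum _ fun j _ => (((hA (j + 1)).pow p).mul (hq j)).integrable] at h1
  have h2 : ∑ j ∈ Finset.range N, ∫ ω, (∑ i ∈ Finset.range (j + 1), q i ω) ^ p * q j ω ∂μ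
      ≤ ∑ j ∈ Finset.range N, ∫ ω, (∑ i ∈ Finset.range (j + 1), q i ω) ^ p * (U (j + 1) ω - U j ω) ∂μ :=
    Finset.sum_le_sum fun j hj => htest j (Finset.mem_range.mp hj)
  rw [← integral_finsetSum _ fun j _ => (((hA (j + 1)).pow p).mul ((hU (j + 1)).sub (hU j))).integrable] at h2
  have h3 : ∫ ω, ∑ j ∈ Finset.range N, (∑ i ∈ Finset.range (j + 1), q i ω) ^ p * (U (j + 1) ω - U j ω) ∂μ
      ≤ ∫ ω, (∑ i ∈ Finset.range N, q i ω) ^ p * U N ω ∂μ := by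
    apply integral_mono
      (BM.sum _ fun j _ => ((hA (j + 1)).pow p).mul ((hU (j + 1)).sub (hU j))).integrable
      (((hA N).pow p).mul (hU N)).integrable
    intro ω
    refine abel_le (fun j => (∑ i ∈ Finset.range j, q i ω) ^ p) (fun j => U j ω) ?_ ?_ (fun j => hU0 j ω) N
    · intro i j hij
      apply pow_le_pow_left₀ (Finset.sum_nonneg fun i _ => hq0 i ω)
      exact Finset.sum_le_sum_of_subset_of_nonneg (Finset.range_mono hij) fun i _ _ => hq0 i ω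
    · positivity
  have hp : (0:ℝ) ≤ (p : ℝ) + 1 := by positivity
  calc _ ≤ _ := h1
    _ ≤ _ := mul_le_mul_of_nonneg_left (h2.trans h3) hp

/-- **T3** `‖∑_{j<N} q_j‖_{p+1} ≤ (p+1) ‖U_N‖_{p+1}` (in the form of `(p+1)`-th powers), independently of `N`. -/
theorem compensator_bound [IsFiniteMeasure μ] (p : ℕ) (U q : ℕ → Ω → ℝ) (N : ℕ)
    (hU : ∀ j, BM μ (U j)) (hq : ∀ j, BM μ (q j)) (hU0 : ∀ j ω, 0 ≤ U j ω) (hq0 : ∀ j ω, 0 ≤ q j ω)
    (htest : ∀ j < N, ∫ ω, (∑ i ∈ Finset.range (j + 1), q i ω) ^ p * q j ω ∂μ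
      ≤ ∫ ω, (∑ i ∈ Finset.range (j + 1), q i ω) ^ p * (U (j + 1) ω - U j ω) ∂μ) :
    ∫ ω, (∑ i ∈ Finset.range N, q i ω) ^ (p + 1) ∂μ
      ≤ ((p : ℝ) + 1) ^ (p + 1) * ∫ ω, U N ω ^ (p + 1) ∂μ := by
  have h := compensator_step p U q N hU hq hU0 hq0 htest
  have := closing (μ := μ) p (BM.sum (Finset.range N) fun i _ => hq i) (hU N)
    (fun ω => Finset.sum_nonneg fun i _ => hq0 i ω) (hU0 N) (c := 1) zero_le_one (by simpa using h)
  simpa using this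

/-- running maximum -/
def runMax (f : ℕ → Ω → ℝ) : ℕ → Ω → ℝ
  | 0 => f 0
  | j + 1 => fun ω => max (runMax f j ω) (f (j + 1) ω)

theorem le_runMax (f : ℕ → Ω → ℝ) {i j : ℕ} (hij : i ≤ j) (ω : Ω) : f i ω ≤ runMax f j ω := by
  induction j with
  | zero => obtain rfl : i = 0 := by omega
            exact le_rfl
  | succ j ih =>
    rcases Nat.lt_or_ge i (j + 1) with h | h
    · exact (ih (by omega)).trans (le_max_left _ _)
    · obtain rfl : i = j + 1 := by omega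
      exact le_max_right _ _

theorem runMax_le (f : ℕ → Ω → ℝ) (j : ℕ) (ω : Ω) {C : ℝ} (h : ∀ i ≤ j, f i ω ≤ C) : runMax f j ω ≤ C := by
  induction j with
  | zero => exact h 0 le_rfl
  | succ j ih => exact max_le (ih fun i hi => h i (by omega)) (h (j + 1) le_rfl)

theorem runMax_nonneg (f : ℕ → Ω → ℝ) (hf : ∀ j ω, 0 ≤ f j ω) (j : ℕ) (ω : Ω) : 0 ≤ runMax f j ω :=
  (hf j ω).trans (le_runMax f le_rfl ω)

theorem BM.runMax {f : ℕ → Ω → ℝ} (hf : ∀ j, BM μ (f j)) (j : ℕ) : BM μ (Kit164.runMax f j) := by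
  induction j with
  | zero => exact hf 0
  | succ j ih => exact ih.maxf (hf (j + 1))

/-- pathwise Doob inequality -/
theorem doob_pathwise (p : ℕ) (s m : ℕ → ℝ) (hs : ∀ j, 0 ≤ s j) (hm0 : m 0 = s 0)
    (hm : ∀ j, m (j + 1) = max (m j) (s (j + 1))) (N : ℕ) :
    (p + 1) * ∑ j ∈ Finset.range N, m j ^ p * (s (j + 1) - s j)
      ≤ (p + 1) * (m N ^ p * s N) - p * m N ^ (p + 1) := by
  have hmn : ∀ j, 0 ≤ m j := by
    intro j
    cases j with
    | zero => rw [hm0]; exact hs 0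
    | succ j => rw [hm]; exact (hs (j + 1)).trans (le_max_right _ _)
  induction N with
  | zero =>
    simp only [Finset.range_zero, Finset.sum_empty, mul_zero, hm0]
    have : s 0 ^ (p + 1) = s 0 ^ p * s 0 := pow_succ _ _
    rw [this]
    nlinarith [mul_nonneg (pow_nonneg (hs 0) p) (hs 0)]
  | succ N ih =>
    rw [Finset.sum_range_succ, mul_add]
    rcases le_total (s (N + 1)) (m N) with h | h
    · rw [hm N, max_eq_left h]
      nlinarith
    · rw [hm N, max_eq_right h]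
      have hy := young_nat p (hmn N) (hs (N + 1))
      have : s (N + 1) ^ (p + 1) = s (N + 1) ^ p * s (N + 1) := pow_succ _ _
      nlinarith

/-- **T5** (Doob's `L^p` inequality, test-function form).   `f_j ≥ 0` bounded measurable, `f*_j` the running maximum, and
`∫ (f*_j)^p (f_{j+1} - f_j) ≥ 0` for `j < N` (true for a nonnegative submartingale).   Then
`p^(p+1) ∫ (f*_N)^(p+1) ≤ (p+1)^(p+1) ∫ f_N^(p+1)`. -/
theorem doob_Lp [IsFiniteMeasure μ] (p : ℕ) (f : ℕ → Ω → ℝ) (N : ℕ) (hf : ∀ j, BM μ (f j))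
    (hf0 : ∀ j ω, 0 ≤ f j ω)
    (htest : ∀ j < N, 0 ≤ ∫ ω, runMax f j ω ^ p * (f (j + 1) ω - f j ω) ∂μ) :
    (p : ℝ) ^ (p + 1) * ∫ ω, runMax f N ω ^ (p + 1) ∂μ
      ≤ ((p : ℝ) + 1) ^ (p + 1) * ∫ ω, f N ω ^ (p + 1) ∂μ := by
  have hM : ∀ j, BM μ (runMax f j) := fun j => BM.runMax hf j
  apply closing p (hM N) (hf N) (runMax_nonneg f hf0 N) (hf0 N) (Nat.cast_nonneg p)
  have h1 : ∫ ω, ((p : ℝ) + 1) * ∑ j ∈ Finset.range N, runMax f j ω ^ p * (f (j + 1) ω - f j ω) ∂μ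
      ≤ ∫ ω, (((p : ℝ) + 1) * (runMax f N ω ^ p * f N ω) - p * runMax f N ω ^ (p + 1)) ∂μ := by
    apply integral_mono
    · exact ((BM.const (μ := μ) ((p : ℝ) + 1)).mul
        (BM.sum _ fun j _ => ((hM j).pow p).mul ((hf (j + 1)).sub (hf j)))).integrable
    · exact (((BM.const (μ := μ) ((p : ℝ) + 1)).mul (((hM N).pow p).mul (hf N))).sub
        ((BM.const (μ := μ) (p : ℝ)).mul ((hM N).pow (p + 1)))).integrable
    · intro ω
      exact doob_pathwise p (fun j => f j ω) (fun j => runMax f j ω) (fun j => hf0 j ω) rfl (fun j => rfl) N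
  rw [integral_const_mul, integral_finsetSum _ fun j _ => (((hM j).pow p).mul ((hf (j + 1)).sub (hf j))).integrable,
    integral_sub ((BM.const (μ := μ) ((p : ℝ) + 1)).mul (((hM N).pow p).mul (hf N))).integrable
      ((BM.const (μ := μ) (p : ℝ)).mul ((hM N).pow (p + 1))).integrable,
    integral_const_mul, integral_const_mul] at h1
  have h2 : 0 ≤ ∑ j ∈ Finset.range N, ∫ ω, runMax f j ω ^ p * (f (j + 1) ω - f j ω) ∂μ :=
    Finset.sum_nonneg fun j hj => htest j (Finset.mem_range.mp hj)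
  have hp : (0:ℝ) ≤ (p : ℝ) + 1 := by positivity
  nlinarith [mul_nonneg hp h2]

end Claimed.Agent.R286.Kit164
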