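import Mathlib

/-!
# Row 286, PE Section 3 (package P04): the class of inverse quantiles      (architect helper255; OWNER of the leaves: helper165; prefix `cm4_`)

`CmBox` = data of a density box `k(r) ≤ α'(r) ≤ M(α(r))` for increasing maps `α : [r0,r1] → [u0,u1]` onto
(PE (5); PE l.611-630 of profile.tex; LL (G), LL (C5) are instances: floor measurable in the radius, cap convex in the mass).
The class `CmBox.Q` is defined by the INTEGRATED inequalities; its elements are normalised to be constant outside `[r0,r1]`.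
STATUS (165, 02:50Z): 0 sorry.  Extra API: `cm4_proj_eq/_mem/_mono/_lip`, `cm4_M_pos`, `cm4_M_bdd`, `cm4_inv_clamp`, `cm4_lo_abs`, `cm4_ac`, `cm4_closed` (pointwise limits stay in the class).
-/

set_option autoImplicit false

namespace Claimed.Agent.R286

open MeasureTheory Set Filter Topology
open scoped NNReal

/-- data of a density box -/
structure CmBox where
  r0 : ℝ
  r1 : ℝ
  u0 : ℝ
  u1 : ℝ
  k : ℝ → ℝ
  M : ℝ → ℝ
  M' : ℝ → ℝ

/-- standing assumptions on a density box -/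
structure CmBox.Ok (X : CmBox) : Prop where
  hr : X.r0 < X.r1
  hu : X.u0 < X.u1
  k_meas : Measurable X.k
  k_lo : ∃ c : ℝ, 0 < c ∧ ∀ r ∈ Icc X.r0 X.r1, c ≤ X.k r
  M_deriv : ∀ u, HasDerivAt X.M (X.M' u) u
  M'_cont : Continuous X.M'
  M_convex : ConvexOn ℝ univ X.M
  gap : ∃ γ : ℝ, 0 < γ ∧ ∀ r ∈ Icc X.r0 X.r1, ∀ u ∈ Icc X.u0 X.u1, X.k r + γ ≤ X.M u

/-- the class of inverse quantiles -/
def CmBox.Q (X : CmBox) : Set (ℝ → ℝ) :=
  {α | (∀ r, r ≤ X.r0 → α r = X.u0) ∧ (∀ r, X.r1 ≤ r → α r = X.u1) ∧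
    ∀ s t, X.r0 ≤ s → s ≤ t → t ≤ X.r1 →
      (∫ x in s..t, X.k x) ≤ α t - α s ∧ α t - α s ≤ ∫ x in s..t, X.M (α x)}

/-- the forward quantile of `α` -/
noncomputable def CmBox.inv (X : CmBox) (α : ℝ → ℝ) (u : ℝ) : ℝ :=
  sSup {r | r ∈ Icc X.r0 X.r1 ∧ α r ≤ max u X.u0}

theorem cm4_cls_eqns_cite : True := by
  have := @CmBox.Q.eq_1; have := @CmBox.inv.eq_1
  trivial

variable {X : CmBox} {α β : ℝ → ℝ}

theorem cm4_M_cont (hX : X.Ok) : Continuous X.M :=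
  continuous_iff_continuousAt.2 fun u => (hX.M_deriv u).continuousAt

theorem cm4_k_bdd (hX : X.Ok) : ∃ C, ∀ r ∈ Icc X.r0 X.r1, X.k r ≤ C := by
  obtain ⟨γ, hγ, h⟩ := hX.gap
  exact ⟨X.M X.u0, fun r hr => by have := h r hr X.u0 ⟨le_rfl, hX.hu.le⟩; linarith⟩

theorem cm4_k_int (hX : X.Ok) {s t : ℝ} (hs : X.r0 ≤ s) (hst : s ≤ t) (ht : t ≤ X.r1) :
    IntervalIntegrable X.k volume s t := by
  obtain ⟨C, hC⟩ := cm4_k_bdd hX
  obtain ⟨c, hc0, hc⟩ := hX.k_lo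
  rw [intervalIntegrable_iff, uIoc_of_le hst]
  refine Measure.integrableOn_of_bounded (M := C) (by simp) hX.k_meas.aestronglyMeasurable ?_
  refine (ae_restrict_iff' measurableSet_Ioc).2 (Eventually.of_forall fun x hx => ?_)
  have hx' : x ∈ Icc X.r0 X.r1 := ⟨hs.trans hx.1.le, hx.2.trans ht⟩
  rw [Real.norm_eq_abs, abs_of_nonneg (hc0.le.trans (hc x hx'))]
  exact hC x hx'

theorem cm4_lo (hX : X.Ok) {c : ℝ} (hc : ∀ r ∈ Icc X.r0 X.r1, c ≤ X.k r) (hα : α ∈ X.Q) {s t : ℝ}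
    (hs : X.r0 ≤ s) (hst : s ≤ t) (ht : t ≤ X.r1) : c * (t - s) ≤ α t - α s := by
  refine le_trans ?_ (hα.2.2 s t hs hst ht).1
  have := intervalIntegral.integral_mono_on (μ := volume) hst (intervalIntegrable_const (c := c)) (cm4_k_int hX hs hst ht)
    (fun x hx => hc x ⟨hs.trans hx.1, hx.2.trans ht⟩)
  simpa [mul_comm] using this

/-- the projection on the interval of radii -/
theorem cm4_proj_mem (hX : X.Ok) (r : ℝ) : max X.r0 (min r X.r1) ∈ Icc X.r0 X.r1 :=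
  ⟨le_max_left _ _, max_le hX.hr.le (min_le_right _ _)⟩

theorem cm4_proj_eq (hX : X.Ok) (hα : α ∈ X.Q) (r : ℝ) : α (max X.r0 (min r X.r1)) = α r := by
  rcases le_total r X.r0 with h | h
  · rw [min_eq_left (h.trans hX.hr.le), max_eq_left h, hα.1 r h, hα.1 _ le_rfl]
  · rcases le_total r X.r1 with h' | h'
    · rw [min_eq_left h', max_eq_right h]
    · rw [min_eq_right h', max_eq_right hX.hr.le, hα.2.1 r h', hα.2.1 _ le_rfl]

theorem cm4_proj_mono (X : CmBox) : Monotone fun r => max X.r0 (min r X.r1) :=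
  fun _ _ h => max_le_max le_rfl (min_le_min h le_rfl)

theorem cm4_clamp_lip (a b x y : ℝ) : |max a (min x b) - max a (min y b)| ≤ |x - y| := by
  rw [max_comm a, max_comm a]
  exact (abs_max_sub_max_le_abs _ _ _).trans ((abs_min_sub_min_le_max x b y b).trans (by simp))

theorem cm4_proj_lip (X : CmBox) (x y : ℝ) :
    |max X.r0 (min x X.r1) - max X.r0 (min y X.r1)| ≤ |x - y| := cm4_clamp_lip _ _ _ _

theorem cm4_mono (hX : X.Ok) (hα : α ∈ X.Q) : Monotone α := by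
  obtain ⟨c, hc0, hc⟩ := hX.k_lo
  intro x y hxy
  rw [← cm4_proj_eq hX hα x, ← cm4_proj_eq hX hα y]
  have := cm4_lo hX hc hα (cm4_proj_mem hX x).1 (cm4_proj_mono X hxy) (cm4_proj_mem hX y).2
  have h2 : 0 ≤ c * (max X.r0 (min y X.r1) - max X.r0 (min x X.r1)) :=
    mul_nonneg hc0.le (sub_nonneg.2 (cm4_proj_mono X hxy))
  linarith

theorem cm4_mem (hX : X.Ok) (hα : α ∈ X.Q) (r : ℝ) : α r ∈ Icc X.u0 X.u1 := by
  rw [← cm4_proj_eq hX hα r]
  have h := cm4_proj_mem hX r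
  exact ⟨hα.1 X.r0 le_rfl ▸ cm4_mono hX hα h.1, hα.2.1 X.r1 le_rfl ▸ cm4_mono hX hα h.2⟩

theorem cm4_M_pos (hX : X.Ok) {u : ℝ} (hu : u ∈ Icc X.u0 X.u1) : 0 < X.M u := by
  obtain ⟨c, hc0, hc⟩ := hX.k_lo
  obtain ⟨γ, hγ, h⟩ := hX.gap
  have h0 : X.r0 ∈ Icc X.r0 X.r1 := ⟨le_rfl, hX.hr.le⟩
  linarith [h X.r0 h0 u hu, hc X.r0 h0]

theorem cm4_hi (hX : X.Ok) {C : ℝ} (hC : ∀ u ∈ Icc X.u0 X.u1, X.M u ≤ C) (hα : α ∈ X.Q) {s t : ℝ}
    (hs : X.r0 ≤ s) (hst : s ≤ t) (ht : t ≤ X.r1) : α t - α s ≤ C * (t - s) := by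
  refine (hα.2.2 s t hs hst ht).2.trans ?_
  have := intervalIntegral.norm_integral_le_of_norm_le_const (a := s) (b := t) (f := fun x => X.M (α x)) (C := C)
    (fun x _ => by
      rw [Real.norm_eq_abs, abs_of_pos (cm4_M_pos hX (cm4_mem hX hα x))]
      exact hC _ (cm4_mem hX hα x))
  rw [abs_of_nonneg (by linarith : 0 ≤ t - s)] at this
  exact (le_abs_self _).trans this

theorem cm4_M_bdd (hX : X.Ok) : ∃ C : ℝ, 0 ≤ C ∧ ∀ u ∈ Icc X.u0 X.u1, X.M u ≤ C := by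
  obtain ⟨C, hC⟩ := (isCompact_Icc (a := X.u0) (b := X.u1)).exists_bound_of_continuousOn (cm4_M_cont hX).continuousOn
  exact ⟨max C 0, le_max_right _ _, fun t ht => (le_abs_self _).trans ((hC t ht).trans (le_max_left _ _))⟩

theorem cm4_lip (hX : X.Ok) : ∃ K : ℝ≥0, ∀ α ∈ X.Q, LipschitzWith K α := by
  obtain ⟨C, hC0, hC⟩ := cm4_M_bdd hX
  refine ⟨⟨C, hC0⟩, fun α hα => LipschitzWith.of_dist_le_mul fun x y => ?_⟩
  rw [Real.dist_eq, Real.dist_eq]
  show |α x - α y| ≤ C * |x - y|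
  wlog hxy : y ≤ x generalizing x y
  · rw [abs_sub_comm, abs_sub_comm x y]
    exact this y x (le_of_not_ge hxy)
  rw [abs_of_nonneg (sub_nonneg.2 (cm4_mono hX hα hxy)), ← cm4_proj_eq hX hα x, ← cm4_proj_eq hX hα y]
  refine (cm4_hi hX hC hα (cm4_proj_mem hX y).1 (cm4_proj_mono X hxy) (cm4_proj_mem hX x).2).trans ?_
  exact mul_le_mul_of_nonneg_left ((le_abs_self _).trans (cm4_proj_lip X x y)) hC0

theorem cm4_cont (hX : X.Ok) (hα : α ∈ X.Q) : Continuous α := by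
  obtain ⟨K, hK⟩ := cm4_lip hX
  exact (hK α hα).continuous

theorem cm4_strict (hX : X.Ok) (hα : α ∈ X.Q) : StrictMonoOn α (Icc X.r0 X.r1) := by
  obtain ⟨c, hc0, hc⟩ := hX.k_lo
  intro x hx y hy hxy
  have := cm4_lo hX hc hα hx.1 hxy.le hy.2
  have h2 : 0 < c * (y - x) := mul_pos hc0 (sub_pos.2 hxy)
  linarith

theorem cm4_surj (hX : X.Ok) (hα : α ∈ X.Q) {u : ℝ} (hu : u ∈ Icc X.u0 X.u1) :
    ∃ r ∈ Icc X.r0 X.r1, α r = u := by
  have := intermediate_value_Icc hX.hr.le (cm4_cont hX hα).continuousOn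
  rw [hα.1 _ le_rfl, hα.2.1 _ le_rfl] at this
  exact this hu

/-! ### the forward quantile -/

theorem cm4_inv_set_ne (hX : X.Ok) (hα : α ∈ X.Q) (u : ℝ) :
    X.r0 ∈ {r | r ∈ Icc X.r0 X.r1 ∧ α r ≤ max u X.u0} :=
  ⟨⟨le_rfl, hX.hr.le⟩, by rw [hα.1 _ le_rfl]; exact le_max_right _ _⟩

theorem cm4_inv_set_bdd (X : CmBox) (α : ℝ → ℝ) (u : ℝ) :
    BddAbove {r | r ∈ Icc X.r0 X.r1 ∧ α r ≤ max u X.u0} :=
  ⟨X.r1, fun _ hr => hr.1.2⟩

theorem cm4_inv_mem (hX : X.Ok) (hα : α ∈ X.Q) (u : ℝ) : X.inv α u ∈ Icc X.r0 X.r1 :=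
  ⟨le_csSup (cm4_inv_set_bdd X α u) (cm4_inv_set_ne hX hα u),
    csSup_le ⟨_, cm4_inv_set_ne hX hα u⟩ fun _ hr => hr.1.2⟩

theorem cm4_inv_left (hX : X.Ok) (hα : α ∈ X.Q) {r : ℝ} (hr : r ∈ Icc X.r0 X.r1) : X.inv α (α r) = r := by
  have e : {r' | r' ∈ Icc X.r0 X.r1 ∧ α r' ≤ max (α r) X.u0} = Icc X.r0 r := by
    ext x
    rw [max_eq_left (cm4_mem hX hα r).1]
    constructor
    · rintro ⟨hx, hx2⟩
      exact ⟨hx.1, ((cm4_strict hX hα).le_iff_le hx hr).1 hx2⟩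
    · intro hx
      exact ⟨⟨hx.1, hx.2.trans hr.2⟩, cm4_mono hX hα hx.2⟩
  unfold CmBox.inv
  rw [e, csSup_Icc hr.1]

theorem cm4_inv_right (hX : X.Ok) (hα : α ∈ X.Q) {u : ℝ} (hu : u ∈ Icc X.u0 X.u1) : α (X.inv α u) = u := by
  obtain ⟨r, hr, rfl⟩ := cm4_surj hX hα hu
  rw [cm4_inv_left hX hα hr]

theorem cm4_inv_below (hX : X.Ok) (hα : α ∈ X.Q) {u : ℝ} (hu : u ≤ X.u0) : X.inv α u = X.r0 := by
  have := cm4_inv_left hX hα (r := X.r0) ⟨le_rfl, hX.hr.le⟩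
  rw [hα.1 _ le_rfl] at this
  unfold CmBox.inv at this ⊢
  rw [max_eq_right hu]
  rwa [max_self] at this

theorem cm4_inv_above (hX : X.Ok) (hα : α ∈ X.Q) {u : ℝ} (hu : X.u1 ≤ u) : X.inv α u = X.r1 := by
  have e : {r' | r' ∈ Icc X.r0 X.r1 ∧ α r' ≤ max u X.u0} = Icc X.r0 X.r1 := by
    ext x
    exact ⟨fun h => h.1, fun h => ⟨h, ((cm4_mem hX hα x).2.trans hu).trans (le_max_left _ _)⟩⟩
  unfold CmBox.inv
  rw [e, csSup_Icc hX.hr.le]

theorem cm4_inv_mono (hX : X.Ok) (hα : α ∈ X.Q) : Monotone (X.inv α) := fun u v huv =>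
  csSup_le_csSup (cm4_inv_set_bdd X α v) ⟨_, cm4_inv_set_ne hX hα u⟩
    fun _ hr => ⟨hr.1, hr.2.trans (max_le_max huv le_rfl)⟩

/-- the forward quantile only sees the clamped mass -/
theorem cm4_inv_clamp (hX : X.Ok) (hα : α ∈ X.Q) (u : ℝ) :
    X.inv α (max X.u0 (min u X.u1)) = X.inv α u := by
  rcases le_total u X.u0 with h | h
  · rw [min_eq_left (h.trans hX.hu.le), max_eq_left h, cm4_inv_below hX hα h, cm4_inv_below hX hα le_rfl]
  · rcases le_total u X.u1 with h' | h'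
    · rw [min_eq_left h', max_eq_right h]
    · rw [min_eq_right h', max_eq_right hX.hu.le, cm4_inv_above hX hα h', cm4_inv_above hX hα le_rfl]

theorem cm4_clamp_mem (hX : X.Ok) (u : ℝ) : max X.u0 (min u X.u1) ∈ Icc X.u0 X.u1 :=
  ⟨le_max_left _ _, max_le hX.hu.le (min_le_right _ _)⟩

/-- two-sided form of the lower bound -/
theorem cm4_lo_abs (hX : X.Ok) {c : ℝ} (hc : ∀ r ∈ Icc X.r0 X.r1, c ≤ X.k r) (hα : α ∈ X.Q) {s t : ℝ}
    (hs : s ∈ Icc X.r0 X.r1) (ht : t ∈ Icc X.r0 X.r1) : c * |t - s| ≤ |α t - α s| := by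
  rcases le_total s t with h | h
  · rw [abs_of_nonneg (sub_nonneg.2 h)]
    exact (cm4_lo hX hc hα hs.1 h ht.2).trans (le_abs_self _)
  · rw [abs_sub_comm, abs_of_nonneg (sub_nonneg.2 h), abs_sub_comm]
    exact (cm4_lo hX hc hα ht.1 h hs.2).trans (le_abs_self _)

theorem cm4_inv_lip (hX : X.Ok) {c : ℝ} (hc0 : 0 < c) (hc : ∀ r ∈ Icc X.r0 X.r1, c ≤ X.k r) (hα : α ∈ X.Q)
    (u v : ℝ) : |X.inv α u - X.inv α v| ≤ |u - v| / c := by
  rw [le_div_iff₀ hc0, mul_comm, ← cm4_inv_clamp hX hα u, ← cm4_inv_clamp hX hα v]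
  refine (cm4_lo_abs hX hc hα (cm4_inv_mem hX hα _) (cm4_inv_mem hX hα _)).trans ?_
  rw [cm4_inv_right hX hα (cm4_clamp_mem hX u), cm4_inv_right hX hα (cm4_clamp_mem hX v)]
  exact cm4_clamp_lip _ _ _ _

/-- stability of the forward quantile -/
theorem cm4_inv_stab (hX : X.Ok) {c : ℝ} (hc0 : 0 < c) (hc : ∀ r ∈ Icc X.r0 X.r1, c ≤ X.k r) (hα : α ∈ X.Q)
    (hβ : β ∈ X.Q) {δ : ℝ} (h : ∀ r ∈ Icc X.r0 X.r1, |α r - β r| ≤ δ) (u : ℝ) :
    |X.inv α u - X.inv β u| ≤ δ / c := by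
  rw [le_div_iff₀ hc0, mul_comm, ← cm4_inv_clamp hX hα u, ← cm4_inv_clamp hX hβ u]
  refine (cm4_lo_abs hX hc hα (cm4_inv_mem hX hβ _) (cm4_inv_mem hX hα _)).trans ?_
  rw [cm4_inv_right hX hα (cm4_clamp_mem hX u)]
  have := h _ (cm4_inv_mem hX hβ (max X.u0 (min u X.u1)))
  rw [cm4_inv_right hX hβ (cm4_clamp_mem hX u)] at this
  rwa [abs_sub_comm]

/-! ### densities -/

theorem cm4_ac (hX : X.Ok) (hα : α ∈ X.Q) (s t : ℝ) : AbsolutelyContinuousOnInterval α s t := by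
  obtain ⟨K, hK⟩ := cm4_lip hX
  exact ((hK α hα).lipschitzOnWith (s := uIcc s t)).absolutelyContinuousOnInterval

theorem cm4_deriv_int (hX : X.Ok) (hα : α ∈ X.Q) (s t : ℝ) : IntervalIntegrable (deriv α) volume s t :=
  (cm4_ac hX hα s t).intervalIntegrable_deriv

theorem cm4_ftc (hX : X.Ok) (hα : α ∈ X.Q) (s t : ℝ) : ∫ x in s..t, deriv α x = α t - α s :=
  (cm4_ac hX hα s t).integral_deriv_eq_sub

theorem cm4_deriv_mem (hX : X.Ok) (hα : α ∈ X.Q) :
    ∀ᵐ r, r ∈ Icc X.r0 X.r1 → X.k r ≤ deriv α r ∧ deriv α r ≤ X.M (α r) := by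
  have h₁ : ∀ᵐ x : ℝ, x ≠ X.r0 := by simp [ae_iff, measure_singleton]
  have h₂ : ∀ᵐ x : ℝ, x ≠ X.r1 := by simp [ae_iff, measure_singleton]
  have hk := cm4_k_int hX le_rfl hX.hr.le le_rfl
  filter_upwards [(cm4_ac hX hα X.r0 X.r1).ae_differentiableAt, h₁, h₂, hk.ae_hasDerivAt_integral] with r hr ha hb hkd hmem
  have hmem' : r ∈ uIcc X.r0 X.r1 := by rwa [uIcc_of_le hX.hr.le]
  have hd := (hr hmem').hasDerivAt
  have hkd' := hkd hmem' X.r0 (by rw [uIcc_of_le hX.hr.le]; exact ⟨le_rfl, hX.hr.le⟩)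
  constructor
  · have hφ : MonotoneOn (fun x => α x - ∫ t in X.r0..x, X.k t) (Icc X.r0 X.r1) := by
      intro x hx y hy hxy
      have := (hα.2.2 x y hx.1 hxy hy.2).1
      have e := intervalIntegral.integral_add_adjacent_intervals (μ := volume)
        (cm4_k_int hX le_rfl hx.1 hx.2) (cm4_k_int hX hx.1 hxy hy.2)
      show α x - ∫ t in X.r0..x, X.k t ≤ α y - ∫ t in X.r0..y, X.k t
      linarith
    have hd2 : HasDerivAt (fun x => α x - ∫ t in X.r0..x, X.k t) (deriv α r - X.k r) r := hd.sub hkd'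
    have := hφ.derivWithin_nonneg (x := r)
    rw [(hd2.hasDerivWithinAt).derivWithin (uniqueDiffOn_Icc hX.hr r hmem)] at this
    linarith
  · have hc : Continuous fun t => X.M (α t) := (cm4_M_cont hX).comp (cm4_cont hX hα)
    have hφ : MonotoneOn (fun x => (∫ t in X.r0..x, X.M (α t)) - α x) (Icc X.r0 X.r1) := by
      intro x hx y hy hxy
      have := (hα.2.2 x y hx.1 hxy hy.2).2
      have e := intervalIntegral.integral_add_adjacent_intervals (μ := volume)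
        (hc.intervalIntegrable X.r0 x) (hc.intervalIntegrable x y)
      show (∫ t in X.r0..x, X.M (α t)) - α x ≤ (∫ t in X.r0..y, X.M (α t)) - α y
      linarith
    have hd2 : HasDerivAt (fun x => (∫ t in X.r0..x, X.M (α t)) - α x) (X.M (α r) - deriv α r) r :=
      (hc.integral_hasStrictDerivAt X.r0 r).hasDerivAt.sub hd
    have := hφ.derivWithin_nonneg (x := r)
    rw [(hd2.hasDerivWithinAt).derivWithin (uniqueDiffOn_Icc hX.hr r hmem)] at this
    linarith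

theorem cm4_of_density (hX : X.Ok) {a : ℝ → ℝ} (h0 : ∀ r, r ≤ X.r0 → β r = X.u0) (h1 : ∀ r, X.r1 ≤ r → β r = X.u1)
    (ha : IntervalIntegrable a volume X.r0 X.r1)
    (hft : ∀ s t, X.r0 ≤ s → s ≤ t → t ≤ X.r1 → β t - β s = ∫ x in s..t, a x)
    (hae : ∀ᵐ r, r ∈ Icc X.r0 X.r1 → X.k r ≤ a r ∧ a r ≤ X.M (β r)) : β ∈ X.Q := by
  have hβc : ContinuousOn β (Icc X.r0 X.r1) := by
    have h := intervalIntegral.continuousOn_primitive_interval (μ := volume) (f := a) (a := X.r0) (b := X.r1)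
      (by rw [uIcc_of_le hX.hr.le]; exact (intervalIntegrable_iff_integrableOn_Icc_of_le hX.hr.le).1 ha)
    rw [uIcc_of_le hX.hr.le] at h
    refine (h.add_const (β X.r0)).congr fun x hx => ?_
    have := hft X.r0 x le_rfl hx.1 hx.2
    show β x = (∫ t in X.r0..x, a t) + β X.r0
    linarith
  refine ⟨h0, h1, fun s t hs hst ht => ?_⟩
  have hsub : uIcc s t ⊆ uIcc X.r0 X.r1 := by
    rw [uIcc_of_le hst, uIcc_of_le hX.hr.le]; exact Icc_subset_Icc hs ht
  have ha' : IntervalIntegrable a volume s t := ha.mono_set hsub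
  have hM : IntervalIntegrable (fun x => X.M (β x)) volume s t := by
    refine ContinuousOn.intervalIntegrable ?_
    rw [uIcc_of_le hst]
    exact (cm4_M_cont hX).comp_continuousOn (hβc.mono (Icc_subset_Icc hs ht))
  rw [hft s t hs hst ht]
  constructor
  · refine intervalIntegral.integral_mono_ae_restrict hst (cm4_k_int hX hs hst ht) ha' ?_
    refine (ae_restrict_iff' measurableSet_Icc).2 ?_
    filter_upwards [hae] with x hx hmem
    exact (hx ⟨hs.trans hmem.1, hmem.2.trans ht⟩).1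
  · refine intervalIntegral.integral_mono_ae_restrict hst ha' hM ?_
    refine (ae_restrict_iff' measurableSet_Icc).2 ?_
    filter_upwards [hae] with x hx hmem
    exact (hx ⟨hs.trans hmem.1, hmem.2.trans ht⟩).2

/-- preimages of null sets are null -/
theorem cm4_null (hX : X.Ok) (hα : α ∈ X.Q) {N : Set ℝ} (hN : volume N = 0) :
    volume {r | r ∈ Icc X.r0 X.r1 ∧ α r ∈ N} = 0 := by
  obtain ⟨c, hc0, hc⟩ := hX.k_lo
  have hL : LipschitzWith ⟨1 / c, (one_div_pos.2 hc0).le⟩ (X.inv α) := by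
    refine LipschitzWith.of_dist_le_mul fun u v => ?_
    rw [Real.dist_eq, Real.dist_eq]
    show |X.inv α u - X.inv α v| ≤ 1 / c * |u - v|
    rw [one_div_mul_eq_div]
    exact cm4_inv_lip hX hc0 hc hα u v
  have hsub : {r | r ∈ Icc X.r0 X.r1 ∧ α r ∈ N} ⊆ X.inv α '' N :=
    fun r hr => ⟨α r, hr.2, cm4_inv_left hX hα hr.1⟩
  have h := hL.hausdorffMeasure_image_le (d := 1) zero_le_one N
  rw [hausdorffMeasure_real, hN, mul_zero] at h
  exact measure_mono_null hsub (nonpos_iff_eq_zero.1 h)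

/-! ### nonemptiness, attainment -/

/-- the linear map is feasible as soon as its slope lies between the floor and the cap -/
theorem cm4_linear_mem (hX : X.Ok)
    (h1 : ∀ r ∈ Icc X.r0 X.r1, X.k r ≤ (X.u1 - X.u0) / (X.r1 - X.r0))
    (h2 : ∀ u ∈ Icc X.u0 X.u1, (X.u1 - X.u0) / (X.r1 - X.r0) ≤ X.M u) :
    (fun r => X.u0 + (X.u1 - X.u0) / (X.r1 - X.r0) * (max X.r0 (min r X.r1) - X.r0)) ∈ X.Q := by
  have hd : 0 < X.r1 - X.r0 := sub_pos.2 hX.hr
  have hsl : 0 < (X.u1 - X.u0) / (X.r1 - X.r0) := div_pos (sub_pos.2 hX.hu) hd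
  refine cm4_of_density hX (a := fun _ => (X.u1 - X.u0) / (X.r1 - X.r0)) ?_ ?_ intervalIntegrable_const ?_ ?_
  · intro r hr
    show X.u0 + (X.u1 - X.u0) / (X.r1 - X.r0) * (max X.r0 (min r X.r1) - X.r0) = X.u0
    rw [min_eq_left (hr.trans hX.hr.le), max_eq_left hr]; ring
  · intro r hr
    show X.u0 + (X.u1 - X.u0) / (X.r1 - X.r0) * (max X.r0 (min r X.r1) - X.r0) = X.u1
    rw [min_eq_right hr, max_eq_right hX.hr.le, div_mul_cancel₀ _ hd.ne']; ring
  · intro s t hs hst ht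
    show X.u0 + (X.u1 - X.u0) / (X.r1 - X.r0) * (max X.r0 (min t X.r1) - X.r0)
      - (X.u0 + (X.u1 - X.u0) / (X.r1 - X.r0) * (max X.r0 (min s X.r1) - X.r0)) = _
    rw [min_eq_left ht, min_eq_left (hst.trans ht), max_eq_right hs, max_eq_right (hs.trans hst),
      intervalIntegral.integral_const, smul_eq_mul]
    ring
  · refine Eventually.of_forall fun r hr => ⟨h1 r hr, h2 _ ?_⟩
    rw [min_eq_left hr.2, max_eq_right hr.1]
    constructor
    · have := mul_nonneg hsl.le (sub_nonneg.2 hr.1)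
      linarith
    · have : (X.u1 - X.u0) / (X.r1 - X.r0) * (r - X.r0) ≤ (X.u1 - X.u0) / (X.r1 - X.r0) * (X.r1 - X.r0) :=
        mul_le_mul_of_nonneg_left (by linarith [hr.2]) hsl.le
      rw [div_mul_cancel₀ _ hd.ne'] at this
      linarith

/-- the class is closed under pointwise limits -/
theorem cm4_closed (hX : X.Ok) {a : ℕ → ℝ → ℝ} (ha : ∀ n, a n ∈ X.Q)
    (hlim : ∀ r, Tendsto (fun n => a n r) atTop (𝓝 (α r))) : α ∈ X.Q := by
  obtain ⟨C, hC0, hC⟩ := cm4_M_bdd hX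
  refine ⟨fun r hr => ?_, fun r hr => ?_, fun s t hs hst ht => ⟨?_, ?_⟩⟩
  · refine tendsto_nhds_unique (hlim r) ?_
    simp only [fun n => (ha n).1 r hr, tendsto_const_nhds]
  · refine tendsto_nhds_unique (hlim r) ?_
    simp only [fun n => (ha n).2.1 r hr, tendsto_const_nhds]
  · exact ge_of_tendsto' ((hlim t).sub (hlim s)) fun n => ((ha n).2.2 s t hs hst ht).1
  · have hI : Tendsto (fun n => ∫ x in s..t, X.M (a n x)) atTop (𝓝 (∫ x in s..t, X.M (α x))) := by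
      refine intervalIntegral.tendsto_integral_filter_of_dominated_convergence (fun _ => C) ?_ ?_
        intervalIntegrable_const ?_
      · exact Eventually.of_forall fun n =>
          ((cm4_M_cont hX).comp (cm4_cont hX (ha n))).aestronglyMeasurable
      · refine Eventually.of_forall fun n => Eventually.of_forall fun x _ => ?_
        rw [Real.norm_eq_abs, abs_of_pos (cm4_M_pos hX (cm4_mem hX (ha n) x))]
        exact hC _ (cm4_mem hX (ha n) x)
      · exact Eventually.of_forall fun x _ => ((cm4_M_cont hX).tendsto _).comp (hlim x)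
    exact le_of_tendsto_of_tendsto' ((hlim t).sub (hlim s)) hI fun n => ((ha n).2.2 s t hs hst ht).2

/-- a functional that is lower semicontinuous for the uniform distance attains its minimum on the class -/
theorem cm4_attain (hX : X.Ok) (hne : X.Q.Nonempty) {Φ : (ℝ → ℝ) → ℝ}
    (hΦ : ∀ α ∈ X.Q, ∀ ε > 0, ∃ δ > 0, ∀ β ∈ X.Q, (∀ r ∈ Icc X.r0 X.r1, |β r - α r| ≤ δ) → Φ α - ε ≤ Φ β) :
    ∃ α ∈ X.Q, ∀ β ∈ X.Q, Φ α ≤ Φ β := by
  classical
  let P : ℝ → Icc X.r0 X.r1 := fun r => ⟨max X.r0 (min r X.r1), cm4_proj_mem hX r⟩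
  have hP : ∀ x : Icc X.r0 X.r1, P x = x := fun x => by
    apply Subtype.ext
    show max X.r0 (min (x : ℝ) X.r1) = x
    rw [min_eq_left x.2.2, max_eq_right x.2.1]
  let E : (BoundedContinuousFunction (Icc X.r0 X.r1) ℝ) → ℝ → ℝ := fun f r => f (P r)
  let A : Set (BoundedContinuousFunction (Icc X.r0 X.r1) ℝ) := {f | E f ∈ X.Q}
  have hclosed : IsClosed A := by
    refine IsSeqClosed.isClosed fun f g hf hlim => ?_
    refine cm4_closed hX (a := fun n => E (f n)) hf fun r => ?_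
    exact (((continuous_apply (P r)).comp BoundedContinuousFunction.continuous_coe).tendsto g).comp hlim
  obtain ⟨K, hK⟩ := cm4_lip hX
  have hcompact : IsCompact A := by
    refine BoundedContinuousFunction.arzela_ascoli₂ (Icc X.u0 X.u1) isCompact_Icc A hclosed
      (fun f x hf => ?_) ?_
    · have := cm4_mem hX hf (x : ℝ)
      show f x ∈ Icc X.u0 X.u1
      rwa [show E f (x : ℝ) = f x from congrArg f (hP x)] at this
    · refine (LipschitzWith.uniformEquicontinuous _ K fun c => ?_).equicontinuous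
      refine LipschitzWith.of_dist_le_mul fun x y => ?_
      have := (hK _ c.2).dist_le_mul (x : ℝ) (y : ℝ)
      rwa [show E c.1 (x : ℝ) = c.1 x from congrArg c.1 (hP x),
        show E c.1 (y : ℝ) = c.1 y from congrArg c.1 (hP y)] at this
  have hlsc : LowerSemicontinuousOn (fun f => Φ (E f)) A := by
    intro f hf y hy
    obtain ⟨δ, hδ, h⟩ := hΦ (E f) hf ((Φ (E f) - y) / 2) (by linarith)
    filter_upwards [mem_nhdsWithin_of_mem_nhds (Metric.ball_mem_nhds f hδ), self_mem_nhdsWithin] with g hg hgA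
    have := h (E g) hgA fun r _ => by
      have h1 := BoundedContinuousFunction.dist_coe_le_dist (f := g) (g := f) (P r)
      rw [Real.dist_eq] at h1
      exact h1.trans (Metric.mem_ball.1 hg).le
    linarith
  have hR : ∀ β ∈ X.Q, ∃ f ∈ A, E f = β := fun β hβ => by
    refine ⟨BoundedContinuousFunction.mkOfCompact ⟨fun x => β x, (cm4_cont hX hβ).comp continuous_subtype_val⟩, ?_, ?_⟩
    · show E _ ∈ X.Q
      convert hβ using 1
      funext r
      exact cm4_proj_eq hX hβ r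
    · funext r
      exact cm4_proj_eq hX hβ r
  obtain ⟨α0, hα0⟩ := hne
  obtain ⟨f0, hf0, -⟩ := hR α0 hα0
  obtain ⟨f, hf, hmin⟩ := hlsc.exists_isMinOn ⟨f0, hf0⟩ hcompact
  refine ⟨E f, hf, fun β hβ => ?_⟩
  obtain ⟨g, hg, rfl⟩ := hR β hβ
  exact hmin hg

end Claimed.Agent.R286
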