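import Claimed.Agent.R286.Cmp.P04Cls

/-!
# Row 286, PE Section 3 (package P04): the multiplier rule (PE Lemma 3.3, first part)      (architect helper255; OWNER: helper164 by ruling of 295, 02:21Z)

EXITS consumed by P04: `cm4_mult`, `cm4_pot_sub`, `cm4_J_cont`, `cm4_J_ratio`, `cm4_ctl_eq`.   STATUS: NO SORRY in this file (it rests on the leaves of `P04Cls.lean`).

A minimiser `α` of a functional `Φ` on the class `X.Q` whose one-sided directional derivatives are `-∫ g η`.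
Because the cap `M` is convex, the straight perturbation `α + ε η`, `η = J ∫ (M(α)-k) ψ / J`, is exactly feasible:
no differential equation has to be solved and the terminal condition is the linear condition `∫ (M(α)-k) ψ / J = 0`.
-/

set_option autoImplicit false

namespace Claimed.Agent.R286

open MeasureTheory Set Filter Topology
open scoped NNReal

/-- the control `w` of `α`: `α' = k + w (M(α) - k)` -/
noncomputable def CmBox.ctl (X : CmBox) (α : ℝ → ℝ) (r : ℝ) : ℝ :=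
  max 0 (min 1 ((deriv α r - X.k r) / (X.M (α r) - X.k r)))

/-- the integrating factor `J` of PE Lemma 3.3 -/
noncomputable def CmBox.J (X : CmBox) (α : ℝ → ℝ) (r : ℝ) : ℝ :=
  Real.exp (∫ x in X.r0..r, X.ctl α x * X.M' (α x))

/-- the weight `(M(α) - k)/J` -/
noncomputable def CmBox.wt (X : CmBox) (α : ℝ → ℝ) (r : ℝ) : ℝ := (X.M (α r) - X.k r) / X.J α r

/-- the direction produced by the variation `ψ` of the control -/
noncomputable def CmBox.dir (X : CmBox) (α ψ : ℝ → ℝ) (r : ℝ) : ℝ :=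
  X.J α r * ∫ x in X.r0..r, X.wt α x * ψ x

/-- the potential `H` of PE Lemma 3.3 (`g = G/4`) -/
noncomputable def CmBox.pot (X : CmBox) (α g : ℝ → ℝ) (c r : ℝ) : ℝ :=
  c - ∫ t in r..X.r1, X.J α t * g t

variable {X : CmBox} {α : ℝ → ℝ}

theorem cm4_ctl_mem (X : CmBox) (α : ℝ → ℝ) (r : ℝ) : 0 ≤ X.ctl α r ∧ X.ctl α r ≤ 1 :=
  ⟨le_max_left _ _, max_le zero_le_one (min_le_left _ _)⟩

/-- a measurable function that is bounded on the interval is interval integrable -/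
theorem cm4_ii_of_bdd {f : ℝ → ℝ} (hf : Measurable f) {C a b : ℝ} (h : ∀ x ∈ uIcc a b, |f x| ≤ C) :
    IntervalIntegrable f volume a b := by
  rw [intervalIntegrable_iff]
  apply Measure.integrableOn_of_bounded (M := C) (by simp) hf.aestronglyMeasurable
  filter_upwards [ae_restrict_mem measurableSet_uIoc] with x hx
  exact h x (uIoc_subset_uIcc hx)

theorem cm4_ctl_meas (hX : X.Ok) (hα : α ∈ X.Q) : Measurable (X.ctl α) := by
  have h1 : Measurable (deriv α) := measurable_deriv α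
  have h2 : Measurable fun r => X.M (α r) := ((cm4_M_cont hX).comp (cm4_cont hX hα)).measurable
  exact measurable_const.max (measurable_const.min ((h1.sub hX.k_meas).div (h2.sub hX.k_meas)))

theorem cm4_ctl_eq (hX : X.Ok) (hα : α ∈ X.Q) :
    ∀ᵐ r, r ∈ Icc X.r0 X.r1 → deriv α r = X.k r + X.ctl α r * (X.M (α r) - X.k r) := by
  obtain ⟨γ, hγ, hgap⟩ := hX.gap
  filter_upwards [cm4_deriv_mem hX hα] with r hr hI
  obtain ⟨h1, h2⟩ := hr hI
  have hg := hgap r hI (α r) (cm4_mem hX hα r)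
  have hpos : 0 < X.M (α r) - X.k r := by linarith
  have hq0 : 0 ≤ (deriv α r - X.k r) / (X.M (α r) - X.k r) := div_nonneg (by linarith) hpos.le
  have hq1 : (deriv α r - X.k r) / (X.M (α r) - X.k r) ≤ 1 := by
    rw [div_le_one hpos]; linarith
  rw [CmBox.ctl, min_eq_right hq1, max_eq_right hq0]
  field_simp
  ring

/-- the exponent rate `w M'(α)` -/
theorem cm4_rate_meas (hX : X.Ok) (hα : α ∈ X.Q) : Measurable fun x => X.ctl α x * X.M' (α x) :=
  (cm4_ctl_meas hX hα).mul (hX.M'_cont.comp (cm4_cont hX hα)).measurable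

theorem cm4_M'_bdd (hX : X.Ok) : ∃ C : ℝ, 0 ≤ C ∧ ∀ u ∈ Icc X.u0 X.u1, |X.M' u| ≤ C := by
  obtain ⟨C, hC⟩ := isCompact_Icc.exists_bound_of_continuousOn (hX.M'_cont.continuousOn (s := Icc X.u0 X.u1))
  refine ⟨max C 0, le_max_right _ _, fun u hu => ?_⟩
  exact (by simpa using hC u hu : |X.M' u| ≤ C).trans (le_max_left _ _)

theorem cm4_rate_bdd (hX : X.Ok) (hα : α ∈ X.Q) : ∃ C : ℝ, 0 ≤ C ∧ ∀ x, |X.ctl α x * X.M' (α x)| ≤ C := by
  obtain ⟨C, hC0, hC⟩ := cm4_M'_bdd hX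
  refine ⟨C, hC0, fun x => ?_⟩
  rw [abs_mul, abs_of_nonneg (cm4_ctl_mem X α x).1]
  calc X.ctl α x * |X.M' (α x)| ≤ 1 * C :=
        mul_le_mul (cm4_ctl_mem X α x).2 (hC _ (cm4_mem hX hα x)) (abs_nonneg _) zero_le_one
    _ = C := one_mul C

theorem cm4_rate_ii (hX : X.Ok) (hα : α ∈ X.Q) (a b : ℝ) :
    IntervalIntegrable (fun x => X.ctl α x * X.M' (α x)) volume a b := by
  obtain ⟨C, -, hC⟩ := cm4_rate_bdd hX hα
  exact cm4_ii_of_bdd (cm4_rate_meas hX hα) fun x _ => hC x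

theorem cm4_J_pos (X : CmBox) (α : ℝ → ℝ) (r : ℝ) : 0 < X.J α r := Real.exp_pos _

theorem cm4_J_cont (hX : X.Ok) (hα : α ∈ X.Q) : Continuous (X.J α) :=
  Real.continuous_exp.comp (intervalIntegral.continuous_primitive (cm4_rate_ii hX hα) X.r0)

theorem cm4_J_deriv (hX : X.Ok) (hα : α ∈ X.Q) :
    ∀ᵐ r, r ∈ Icc X.r0 X.r1 → HasDerivAt (X.J α) (X.ctl α r * X.M' (α r) * X.J α r) r := by
  have hloc : LocallyIntegrable (fun x => X.ctl α x * X.M' (α x)) volume := by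
    obtain ⟨C, -, hC⟩ := cm4_rate_bdd hX hα
    apply (locallyIntegrable_const C).mono (cm4_rate_meas hX hα).aestronglyMeasurable
    filter_upwards with x
    simpa using (hC x).trans (le_abs_self C)
  filter_upwards [LocallyIntegrable.ae_hasDerivAt_integral hloc] with r hr _
  have h1 := (hr X.r0).exp
  have e : X.J α = fun x => Real.exp (∫ (t : ℝ) in X.r0..x, X.ctl α t * X.M' (α t)) := by
    ext x; rfl
  rw [e]
  convert h1 using 1
  ring

theorem cm4_J_ratio (hX : X.Ok) (hα : α ∈ X.Q) (s t : ℝ) :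
    X.J α t / X.J α s = Real.exp (∫ x in s..t, X.ctl α x * X.M' (α x)) := by
  rw [CmBox.J, CmBox.J, ← Real.exp_sub,
    intervalIntegral.integral_interval_sub_left (cm4_rate_ii hX hα _ _) (cm4_rate_ii hX hα _ _)]

theorem cm4_J_lip (hX : X.Ok) (hα : α ∈ X.Q) : ∃ K : ℝ≥0, LipschitzOnWith K (X.J α) (Icc X.r0 X.r1) := by
  obtain ⟨C, hC0, hC⟩ := cm4_rate_bdd hX hα
  -- the exponent is `C`-Lipschitz, and bounded by `C (r1-r0)` on the interval
  set A : ℝ → ℝ := fun r => ∫ x in X.r0..r, X.ctl α x * X.M' (α x) with hA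
  have hAl : ∀ s t, |A t - A s| ≤ C * |t - s| := by
    intro s t
    rw [hA]
    simp only
    rw [intervalIntegral.integral_interval_sub_left (cm4_rate_ii hX hα _ _) (cm4_rate_ii hX hα _ _)]
    have := intervalIntegral.norm_integral_le_of_norm_le_const (a := s) (b := t) (C := C)
      (f := fun x => X.ctl α x * X.M' (α x)) (fun x _ => by simpa using hC x)
    simpa using this
  have hAb : ∀ r ∈ Icc X.r0 X.r1, A r ≤ C * (X.r1 - X.r0) := by
    intro r hr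
    have h1 := hAl X.r0 r
    have h0 : A X.r0 = 0 := by simp [hA]
    rw [h0, sub_zero, abs_of_nonneg (by linarith [hr.1] : 0 ≤ r - X.r0)] at h1
    calc A r ≤ |A r| := le_abs_self _
      _ ≤ C * (r - X.r0) := h1
      _ ≤ C * (X.r1 - X.r0) := mul_le_mul_of_nonneg_left (by linarith [hr.2]) hC0
  set B : ℝ := Real.exp (C * (X.r1 - X.r0)) with hB
  have hB0 : 0 ≤ B * C := mul_nonneg (Real.exp_pos _).le hC0
  refine ⟨⟨B * C, hB0⟩, LipschitzOnWith.of_dist_le_mul fun s hs t ht => ?_⟩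
  rw [Real.dist_eq, Real.dist_eq]
  show |Real.exp (A s) - Real.exp (A t)| ≤ B * C * |s - t|
  -- |e^x - e^y| ≤ e^{max} |x - y|
  have hexp : ∀ x y : ℝ, x ≤ C * (X.r1 - X.r0) → y ≤ C * (X.r1 - X.r0) → |Real.exp x - Real.exp y| ≤ B * |x - y| := by
    intro x y hx hy
    wlog hxy : y ≤ x generalizing x y
    · rw [abs_sub_comm, abs_sub_comm x y]
      exact this y x hy hx (le_of_not_ge hxy)
    rw [abs_of_nonneg (sub_nonneg.mpr (Real.exp_le_exp.mpr hxy)), abs_of_nonneg (sub_nonneg.mpr hxy)]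
    have h1 : Real.exp y ≥ Real.exp x * (1 - (x - y)) := by
      have := Real.add_one_le_exp (y - x)
      have e : Real.exp y = Real.exp x * Real.exp (y - x) := by rw [← Real.exp_add]; congr 1; ring
      rw [e]
      apply mul_le_mul_of_nonneg_left _ (Real.exp_pos x).le
      linarith
    have h2 : Real.exp x ≤ B := Real.exp_le_exp.mpr hx
    nlinarith [Real.exp_pos x, sub_nonneg.mpr hxy]
  calc |Real.exp (A s) - Real.exp (A t)| ≤ B * |A s - A t| := hexp _ _ (hAb s hs) (hAb t ht)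
    _ ≤ B * (C * |s - t|) := mul_le_mul_of_nonneg_left (hAl t s) (Real.exp_pos _).le
    _ = B * C * |s - t| := by ring

theorem cm4_wt_meas (hX : X.Ok) (hα : α ∈ X.Q) : Measurable (X.wt α) :=
  ((((cm4_M_cont hX).comp (cm4_cont hX hα)).measurable).sub hX.k_meas).div (cm4_J_cont hX hα).measurable

theorem cm4_wt_pos (hX : X.Ok) (hα : α ∈ X.Q) {r : ℝ} (hr : r ∈ Icc X.r0 X.r1) : 0 < X.wt α r := by
  obtain ⟨γ, hγ, hgap⟩ := hX.gap
  have hg := hgap r hr (α r) (cm4_mem hX hα r)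
  exact div_pos (by linarith) (cm4_J_pos X α r)

theorem cm4_wt_bdd (hX : X.Ok) (hα : α ∈ X.Q) : ∃ C, ∀ r ∈ Icc X.r0 X.r1, X.wt α r ≤ C := by
  obtain ⟨c, hc0, hc⟩ := hX.k_lo
  obtain ⟨CM, hCM⟩ := isCompact_Icc.exists_bound_of_continuousOn ((cm4_M_cont hX).continuousOn (s := Icc X.u0 X.u1))
  have hJc : ContinuousOn (fun r => (X.J α r)⁻¹) (Icc X.r0 X.r1) :=
    ((cm4_J_cont hX hα).inv₀ fun r => (cm4_J_pos X α r).ne').continuousOn
  obtain ⟨CJ, hCJ⟩ := isCompact_Icc.exists_bound_of_continuousOn hJc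
  refine ⟨|CM| * |CJ|, fun r hr => ?_⟩
  have h1 : X.M (α r) - X.k r ≤ |CM| := by
    have := hCM (α r) (cm4_mem hX hα r)
    rw [Real.norm_eq_abs] at this
    have h2 := hc r hr
    calc X.M (α r) - X.k r ≤ X.M (α r) := by linarith
      _ ≤ |X.M (α r)| := le_abs_self _
      _ ≤ CM := this
      _ ≤ |CM| := le_abs_self _
  have h2 : (X.J α r)⁻¹ ≤ |CJ| := by
    have := hCJ r hr
    rw [Real.norm_eq_abs] at this
    exact (le_abs_self _).trans (this.trans (le_abs_self _))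
  rw [CmBox.wt, div_eq_mul_inv]
  exact mul_le_mul h1 h2 (inv_nonneg.mpr (cm4_J_pos X α r).le) (abs_nonneg _)

/-- the tangent line inequality of the convex cap -/
theorem cm4_tangent (hX : X.Ok) (x y : ℝ) : X.M x + X.M' x * (y - x) ≤ X.M y := by
  rcases lt_trichotomy x y with h | h | h
  · have := hX.M_convex.le_slope_of_hasDerivAt (mem_univ x) (mem_univ y) h (hX.M_deriv x)
    rw [slope_def_field, le_div_iff₀ (sub_pos.mpr h)] at this
    linarith
  · subst h; simp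
  · have := hX.M_convex.slope_le_of_hasDerivAt (mem_univ y) (mem_univ x) h (hX.M_deriv x)
    rw [slope_def_field, div_le_iff₀ (sub_pos.mpr h)] at this
    linarith

/-- the density `wt ψ` of the inner integral of a direction is bounded -/
theorem cm4_wψ_bdd (hX : X.Ok) (hα : α ∈ X.Q) {ψ : ℝ → ℝ} (hψb : ∃ C, ∀ r, |ψ r| ≤ C)
    (hψ0 : ∀ r, r ∉ Icc X.r0 X.r1 → ψ r = 0) : ∃ C : ℝ, 0 ≤ C ∧ ∀ x, |X.wt α x * ψ x| ≤ C := by
  obtain ⟨Cψ, hCψ⟩ := hψb
  obtain ⟨Cw, hCw⟩ := cm4_wt_bdd hX hα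
  have hCψ0 : 0 ≤ Cψ := (abs_nonneg _).trans (hCψ 0)
  refine ⟨|Cw| * Cψ, by positivity, fun x => ?_⟩
  by_cases hx : x ∈ Icc X.r0 X.r1
  · rw [abs_mul, abs_of_pos (cm4_wt_pos hX hα hx)]
    exact mul_le_mul ((hCw x hx).trans (le_abs_self _)) (hCψ x) (abs_nonneg _) (abs_nonneg _)
  · rw [hψ0 x hx, mul_zero, abs_zero]; positivity

theorem cm4_wψ_ii (hX : X.Ok) (hα : α ∈ X.Q) {ψ : ℝ → ℝ} (hψ : Measurable ψ) (hψb : ∃ C, ∀ r, |ψ r| ≤ C)
    (hψ0 : ∀ r, r ∉ Icc X.r0 X.r1 → ψ r = 0) (a b : ℝ) :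
    IntervalIntegrable (fun x => X.wt α x * ψ x) volume a b := by
  obtain ⟨C, -, hC⟩ := cm4_wψ_bdd hX hα hψb hψ0
  exact cm4_ii_of_bdd ((cm4_wt_meas hX hα).mul hψ) fun x _ => hC x

theorem cm4_dir_cont (hX : X.Ok) (hα : α ∈ X.Q) {ψ : ℝ → ℝ} (hψ : Measurable ψ) (hψb : ∃ C, ∀ r, |ψ r| ≤ C)
    (hψ0 : ∀ r, r ∉ Icc X.r0 X.r1 → ψ r = 0) : Continuous (X.dir α ψ) :=
  (cm4_J_cont hX hα).mul (intervalIntegral.continuous_primitive (cm4_wψ_ii hX hα hψ hψb hψ0) X.r0)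

theorem cm4_dir_below (X : CmBox) (α : ℝ → ℝ) {ψ : ℝ → ℝ} (hψ0 : ∀ r, r ∉ Icc X.r0 X.r1 → ψ r = 0) {r : ℝ} (hr : r ≤ X.r0) :
    X.dir α ψ r = 0 := by
  have : ∫ x in X.r0..r, X.wt α x * ψ x = 0 := by
    rw [intervalIntegral.integral_symm, neg_eq_zero]
    have : ∫ x in r..X.r0, X.wt α x * ψ x = ∫ x in r..X.r0, (0:ℝ) := by
      apply intervalIntegral.integral_congr_ae
      have hne : ∀ᵐ x : ℝ, x ≠ X.r0 := by simp [ae_iff, measure_singleton]
      filter_upwards [hne] with x hx hI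
      rw [uIoc_of_le hr] at hI
      rw [hψ0 x (fun h => hx (le_antisymm hI.2 h.1)), mul_zero]
    rw [this]; simp
  rw [CmBox.dir, this, mul_zero]

theorem cm4_dir_above (hX : X.Ok) (hα : α ∈ X.Q) {ψ : ℝ → ℝ} (hψ : Measurable ψ) (hψb : ∃ C, ∀ r, |ψ r| ≤ C)
    (hψ0 : ∀ r, r ∉ Icc X.r0 X.r1 → ψ r = 0) (hend : ∫ r in X.r0..X.r1, ψ r * X.wt α r = 0) {r : ℝ} (hr : X.r1 ≤ r) :
    X.dir α ψ r = 0 := by
  have h1 : ∫ x in X.r1..r, X.wt α x * ψ x = 0 := by
    have : ∫ x in X.r1..r, X.wt α x * ψ x = ∫ x in X.r1..r, (0:ℝ) := by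
      apply intervalIntegral.integral_congr_ae
      filter_upwards with x hI
      rw [uIoc_of_le hr] at hI
      rw [hψ0 x (fun h => absurd h.2 (not_le.mpr hI.1)), mul_zero]
    rw [this]; simp
  have h2 : ∫ x in X.r0..X.r1, X.wt α x * ψ x = 0 := by
    rw [← hend]; congr 1; ext x; ring
  have : ∫ x in X.r0..r, X.wt α x * ψ x = 0 := by
    rw [← intervalIntegral.integral_add_adjacent_intervals (cm4_wψ_ii hX hα hψ hψb hψ0 X.r0 X.r1)
      (cm4_wψ_ii hX hα hψ hψb hψ0 X.r1 r), h1, h2, add_zero]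
  rw [CmBox.dir, this, mul_zero]

/-- the density of a direction -/
noncomputable def CmBox.ddir (X : CmBox) (α ψ : ℝ → ℝ) (x : ℝ) : ℝ :=
  X.ctl α x * X.M' (α x) * X.dir α ψ x + X.J α x * (X.wt α x * ψ x)

theorem cm4_ddir_eq (X : CmBox) (α ψ : ℝ → ℝ) (x : ℝ) :
    X.ddir α ψ x = X.ctl α x * X.M' (α x) * X.dir α ψ x + (X.M (α x) - X.k x) * ψ x := by
  rw [CmBox.ddir, CmBox.wt]
  have := (cm4_J_pos X α x).ne'
  field_simp

theorem cm4_ddir_ii (hX : X.Ok) (hα : α ∈ X.Q) {ψ : ℝ → ℝ} (hψ : Measurable ψ) (hψb : ∃ C, ∀ r, |ψ r| ≤ C)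
    (hψ0 : ∀ r, r ∉ Icc X.r0 X.r1 → ψ r = 0) (a b : ℝ) : IntervalIntegrable (X.ddir α ψ) volume a b :=
  ((cm4_rate_ii hX hα a b).mul_continuousOn (cm4_dir_cont hX hα hψ hψb hψ0).continuousOn).add
    ((cm4_wψ_ii hX hα hψ hψb hψ0 a b).continuousOn_mul (cm4_J_cont hX hα).continuousOn)

/-- the fundamental theorem of calculus for a direction -/
theorem cm4_dir_ftc (hX : X.Ok) (hα : α ∈ X.Q) {ψ : ℝ → ℝ} (hψ : Measurable ψ) (hψb : ∃ C, ∀ r, |ψ r| ≤ C)
    (hψ0 : ∀ r, r ∉ Icc X.r0 X.r1 → ψ r = 0) {s t : ℝ} (hs : X.r0 ≤ s) (hst : s ≤ t) (ht : t ≤ X.r1) :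
    X.dir α ψ t - X.dir α ψ s = ∫ x in s..t, X.ddir α ψ x := by
  obtain ⟨K, hK⟩ := cm4_J_lip hX hα
  have hsub : uIcc s t ⊆ Icc X.r0 X.r1 := by
    rw [uIcc_of_le hst]; exact Icc_subset_Icc hs ht
  have hJ : AbsolutelyContinuousOnInterval (X.J α) s t := (hK.mono hsub).absolutelyContinuousOnInterval
  have hI0 : AbsolutelyContinuousOnInterval (fun r => ∫ x in X.r0..r, X.wt α x * ψ x) X.r0 X.r1 :=
    (cm4_wψ_ii hX hα hψ hψb hψ0 X.r0 X.r1).absolutelyContinuousOnInterval_intervalIntegral (by simp)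
  have hI : AbsolutelyContinuousOnInterval (fun r => ∫ x in X.r0..r, X.wt α x * ψ x) s t :=
    hI0.mono (by rw [uIcc_of_le hX.hr.le]; exact hsub)
  have key := AbsolutelyContinuousOnInterval.integral_deriv_mul_eq_sub hJ hI
  simp only [CmBox.dir]
  rw [← key]
  apply intervalIntegral.integral_congr_ae
  have hd2 := (cm4_wψ_ii hX hα hψ hψb hψ0 X.r0 X.r1).ae_hasDerivAt_integral
  filter_upwards [cm4_J_deriv hX hα, hd2] with x hx1 hx2 hxI
  have hxI' : x ∈ Icc X.r0 X.r1 := hsub (uIoc_subset_uIcc hxI)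
  rw [(hx1 hxI').deriv, ((hx2 (by rw [uIcc_of_le hX.hr.le]; exact hxI')) X.r0 (by simp)).deriv, CmBox.ddir, CmBox.dir]
  ring

/-- the algebra behind the feasibility of a direction (one side) -/
theorem cm4_feas_alg {m w ψ q γ τ Cψ Q ε : ℝ} (hγ : 0 < γ) (hm : γ ≤ m) (hw0 : 0 ≤ w) (hw1 : w ≤ 1) (hψ : |ψ| ≤ Cψ) (hq : |q| ≤ Q)
    (hτ : 0 < τ) (hsg : w < τ → 0 ≤ ψ) (hε : 0 < ε) (h1 : ε * Q ≤ γ) (h2 : ε * Q ≤ γ * τ / 2) (h3 : ε * Cψ ≤ τ / 2) :
    0 ≤ w * m + ε * (w * q + m * ψ) := by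
  have hq' : -Q ≤ q := (abs_le.mp hq).1
  have hψ' : -Cψ ≤ ψ := (abs_le.mp hψ).1
  have hm0 : 0 < m := lt_of_lt_of_le hγ hm
  have hεq : -(ε * Q) ≤ ε * q := by nlinarith
  rcases lt_or_ge w τ with hlt | hge
  · have hψ0 := hsg hlt
    have a1 : 0 ≤ w * (m + ε * q) := mul_nonneg hw0 (by linarith)
    have a2 : 0 ≤ ε * (m * ψ) := by positivity
    nlinarith
  · have hεψ : -(τ / 2) ≤ ε * ψ := by nlinarith
    have a1 : γ * (τ / 2) ≤ m * (w + ε * ψ) := by
      have : τ / 2 ≤ w + ε * ψ := by linarith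
      calc γ * (τ / 2) ≤ m * (τ / 2) := mul_le_mul_of_nonneg_right hm (by positivity)
        _ ≤ m * (w + ε * ψ) := mul_le_mul_of_nonneg_left this hm0.le
    have hQ0 : 0 ≤ ε * Q := by
      have : 0 ≤ Q := (abs_nonneg q).trans hq
      positivity
    have a2 : -(ε * Q) ≤ w * (ε * q) := by
      have : w * (-(ε * Q)) ≤ w * (ε * q) := mul_le_mul_of_nonneg_left hεq hw0
      nlinarith
    nlinarith

/-- the directions `dir ψ` are feasible (this is where the convexity of the cap is used) -/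
theorem cm4_dir_feasible (hX : X.Ok) (hα : α ∈ X.Q) {ψ : ℝ → ℝ} (hψ : Measurable ψ) (hψb : ∃ C, ∀ r, |ψ r| ≤ C)
    (hψ0 : ∀ r, r ∉ Icc X.r0 X.r1 → ψ r = 0)
    (hsg : ∃ τ : ℝ, 0 < τ ∧ (∀ r, 1 - τ < X.ctl α r → ψ r ≤ 0) ∧ (∀ r, X.ctl α r < τ → 0 ≤ ψ r))
    (hend : ∫ r in X.r0..X.r1, ψ r * X.wt α r = 0) :
    ∀ᶠ ε in 𝓝[>] (0:ℝ), (fun r => α r + ε * X.dir α ψ r) ∈ X.Q := by
  obtain ⟨γ, hγ, hgap⟩ := hX.gap
  obtain ⟨C', hC'0, hC'⟩ := cm4_M'_bdd hX
  obtain ⟨Cψ, hCψ⟩ := id hψb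
  obtain ⟨τ, hτ, hsg1, hsg2⟩ := hsg
  have hCψ0 : 0 ≤ Cψ := (abs_nonneg _).trans (hCψ 0)
  obtain ⟨CD, hCD⟩ := isCompact_Icc.exists_bound_of_continuousOn
    ((cm4_dir_cont hX hα hψ hψb hψ0).continuousOn (s := Icc X.r0 X.r1))
  have hCD0 : 0 ≤ CD := (norm_nonneg _).trans (hCD X.r0 ⟨le_rfl, hX.hr.le⟩)
  set Q : ℝ := C' * CD with hQ
  have hQ0 : 0 ≤ Q := by positivity
  set ε0 : ℝ := min (γ / (Q + 1)) (min (τ / (2 * (Cψ + 1))) (γ * τ / (2 * (Q + 1)))) with hε0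
  have hε0pos : 0 < ε0 := by
    refine lt_min (by positivity) (lt_min (by positivity) (by positivity))
  filter_upwards [Ioo_mem_nhdsGT hε0pos] with ε hε
  have hεpos : 0 < ε := hε.1
  have e1 : ε * Q ≤ γ := by
    have : ε ≤ γ / (Q + 1) := hε.2.le.trans (min_le_left _ _)
    rw [le_div_iff₀ (by positivity)] at this
    nlinarith
  have e2 : ε * Q ≤ γ * τ / 2 := by
    have : ε ≤ γ * τ / (2 * (Q + 1)) := hε.2.le.trans ((min_le_right _ _).trans (min_le_right _ _))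
    rw [le_div_iff₀ (by positivity)] at this
    nlinarith
  have e3 : ε * Cψ ≤ τ / 2 := by
    have : ε ≤ τ / (2 * (Cψ + 1)) := hε.2.le.trans ((min_le_right _ _).trans (min_le_left _ _))
    rw [le_div_iff₀ (by positivity)] at this
    nlinarith
  apply cm4_of_density hX (a := fun x => deriv α x + ε * X.ddir α ψ x)
  · intro r hr
    rw [cm4_dir_below X α hψ0 hr, hα.1 r hr]; ring
  · intro r hr
    rw [cm4_dir_above hX hα hψ hψb hψ0 hend hr, hα.2.1 r hr]; ring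
  · exact (cm4_deriv_int hX hα _ _).add ((cm4_ddir_ii hX hα hψ hψb hψ0 _ _).const_mul ε)
  · intro s t hs hst ht
    rw [intervalIntegral.integral_add (cm4_deriv_int hX hα _ _) ((cm4_ddir_ii hX hα hψ hψb hψ0 _ _).const_mul ε),
      intervalIntegral.integral_const_mul, cm4_ftc hX hα, ← cm4_dir_ftc hX hα hψ hψb hψ0 hs hst ht]
    ring
  · filter_upwards [cm4_ctl_eq hX hα] with r hr hI
    have hd := hr hI
    have hg := hgap r hI (α r) (cm4_mem hX hα r)
    have hw := cm4_ctl_mem X α r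
    set w := X.ctl α r with hwdef
    set m := X.M (α r) - X.k r with hmdef
    set q := X.M' (α r) * X.dir α ψ r with hqdef
    have hm : γ ≤ m := by rw [hmdef]; linarith
    have hq : |q| ≤ Q := by
      rw [hqdef, abs_mul]
      exact mul_le_mul (hC' _ (cm4_mem hX hα r)) (by simpa using hCD r hI) (abs_nonneg _) hC'0
    have hdd : X.ddir α ψ r = w * q + m * ψ r := by
      rw [cm4_ddir_eq]; ring
    have lo := cm4_feas_alg hγ hm hw.1 hw.2 (hCψ r) hq hτ (hsg2 r) hεpos e1 e2 e3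
    have hi := cm4_feas_alg (w := 1 - w) (ψ := -ψ r) hγ hm (by linarith [hw.2]) (by linarith [hw.1])
      (by rw [abs_neg]; exact hCψ r) hq hτ (fun h => by have := hsg1 r (by linarith); linarith) hεpos e1 e2 e3
    have htan := cm4_tangent hX (α r) (α r + ε * X.dir α ψ r)
    constructor
    · rw [hd, hdd]
      linarith
    · rw [hd, hdd]
      have : X.M' (α r) * (α r + ε * X.dir α ψ r - α r) = ε * q := by rw [hqdef]; ring
      rw [this] at htan
      have e : X.M (α r) = X.k r + m := by rw [hmdef]; ring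
      nlinarith

theorem cm4_Jg_ii (hX : X.Ok) (hα : α ∈ X.Q) {g : ℝ → ℝ} {a b : ℝ} (hg : IntervalIntegrable g volume a b) :
    IntervalIntegrable (fun t => X.J α t * g t) volume a b :=
  hg.continuousOn_mul (cm4_J_cont hX hα).continuousOn

/-- sub-intervals -/
theorem cm4_ii_sub {f : ℝ → ℝ} {a b s t : ℝ} (hf : IntervalIntegrable f volume a b) (hab : a ≤ b) (hs : s ∈ Icc a b) (ht : t ∈ Icc a b) :
    IntervalIntegrable f volume s t :=
  hf.mono_set (by
    rw [uIcc_of_le hab]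
    exact uIcc_subset_Icc hs ht)

/-- integration by parts -/
theorem cm4_dir_ibp (hX : X.Ok) (hα : α ∈ X.Q) {ψ g : ℝ → ℝ} (hψ : Measurable ψ) (hψb : ∃ C, ∀ r, |ψ r| ≤ C)
    (hg : IntervalIntegrable g volume X.r0 X.r1) :
    ∫ r in X.r0..X.r1, g r * X.dir α ψ r
      = ∫ r in X.r0..X.r1, ψ r * X.wt α r * ∫ t in r..X.r1, X.J α t * g t := by
  obtain ⟨Cψ, hCψ⟩ := hψb
  obtain ⟨Cw, hCw⟩ := cm4_wt_bdd hX hα
  have hle := hX.hr.le
  have hF : IntervalIntegrable (fun x => X.wt α x * ψ x) volume X.r0 X.r1 := by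
    apply cm4_ii_of_bdd ((cm4_wt_meas hX hα).mul hψ) (C := |Cw| * Cψ)
    intro x hx
    rw [uIcc_of_le hle] at hx
    show |X.wt α x * ψ x| ≤ |Cw| * Cψ
    rw [abs_mul, abs_of_pos (cm4_wt_pos hX hα hx)]
    exact mul_le_mul ((hCw x hx).trans (le_abs_self _)) (hCψ x) (abs_nonneg _) (abs_nonneg _)
  have hJg := cm4_Jg_ii hX hα hg
  have hI : AbsolutelyContinuousOnInterval (fun r => ∫ x in X.r0..r, X.wt α x * ψ x) X.r0 X.r1 :=
    hF.absolutelyContinuousOnInterval_intervalIntegral (by simp)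
  have hG : AbsolutelyContinuousOnInterval (fun r => ∫ t in X.r1..r, X.J α t * g t) X.r0 X.r1 :=
    hJg.absolutelyContinuousOnInterval_intervalIntegral (by simp)
  have key := AbsolutelyContinuousOnInterval.integral_deriv_mul_eq_sub hG hI
  simp only [intervalIntegral.integral_same, zero_mul, mul_zero, sub_self] at key
  have hcongr : ∫ x in X.r0..X.r1, (deriv (fun r => ∫ t in X.r1..r, X.J α t * g t) x * (∫ y in X.r0..x, X.wt α y * ψ y)
        + (∫ t in X.r1..x, X.J α t * g t) * deriv (fun r => ∫ y in X.r0..r, X.wt α y * ψ y) x)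
      = ∫ x in X.r0..X.r1, (g x * X.dir α ψ x - ψ x * X.wt α x * ∫ t in x..X.r1, X.J α t * g t) := by
    apply intervalIntegral.integral_congr_ae
    filter_upwards [hJg.ae_hasDerivAt_integral, hF.ae_hasDerivAt_integral] with x hx1 hx2 hxI
    have hxI' : x ∈ uIcc X.r0 X.r1 := uIoc_subset_uIcc hxI
    rw [((hx1 hxI') X.r1 (by simp)).deriv, ((hx2 hxI') X.r0 (by simp)).deriv, CmBox.dir,
      intervalIntegral.integral_symm x X.r1]
    ring
  rw [hcongr] at key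
  have i1 : IntervalIntegrable (fun x => g x * X.dir α ψ x) volume X.r0 X.r1 := by
    apply hg.mul_continuousOn
    exact ((cm4_J_cont hX hα).continuousOn).mul hI.continuousOn
  have i2 : IntervalIntegrable (fun x => ψ x * X.wt α x * ∫ t in x..X.r1, X.J α t * g t) volume X.r0 X.r1 := by
    have hc : ContinuousOn (fun x => ∫ t in x..X.r1, X.J α t * g t) (uIcc X.r0 X.r1) := by
      have : (fun x => ∫ t in x..X.r1, X.J α t * g t) = fun x => -∫ t in X.r1..x, X.J α t * g t := by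
        ext x; rw [intervalIntegral.integral_symm]
      rw [this]
      exact hG.continuousOn.neg
    have := hF.mul_continuousOn hc
    refine this.congr ?_
    intro x _
    show X.wt α x * ψ x * _ = ψ x * X.wt α x * _
    ring
  rw [intervalIntegral.integral_sub i1 i2] at key
  linarith

theorem cm4_bathtub_claim {a b : ℝ} (hab : a < b) {w ρ φ : ℝ → ℝ} (hw : Measurable w)
    (hρ : Measurable ρ) (hρ0 : ∀ r ∈ Icc a b, 0 < ρ r) (hρ1 : ∃ C, ∀ r ∈ Icc a b, ρ r ≤ C) (hφ : Continuous φ)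
    (h : ∀ ψ : ℝ → ℝ, Measurable ψ → (∃ C, ∀ r, |ψ r| ≤ C) → (∀ r, r ∉ Icc a b → ψ r = 0) →
      (∃ τ : ℝ, 0 < τ ∧ (∀ r, 1 - τ < w r → ψ r ≤ 0) ∧ (∀ r, w r < τ → 0 ≤ ψ r)) →
      ∫ r in a..b, ψ r * ρ r = 0 → ∫ r in a..b, ψ r * ρ r * φ r ≤ 0)
    {α β τ : ℝ} (hαβ : α < β) (hτ : 0 < τ)
    (h1 : 0 < volume ({r | w r ≤ 1 - τ ∧ β < φ r} ∩ Ioc a b))
    (h2 : 0 < volume ({r | τ ≤ w r ∧ φ r < α} ∩ Ioc a b)) : False := by
  set S1 : Set ℝ := {r | w r ≤ 1 - τ ∧ β < φ r} ∩ Ioc a b with hS1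
  set S2 : Set ℝ := {r | τ ≤ w r ∧ φ r < α} ∩ Ioc a b with hS2
  have hS1m : MeasurableSet S1 :=
    ((measurableSet_le hw measurable_const).inter (measurableSet_lt measurable_const hφ.measurable)).inter measurableSet_Ioc
  have hS2m : MeasurableSet S2 :=
    ((measurableSet_le measurable_const hw).inter (measurableSet_lt hφ.measurable measurable_const)).inter measurableSet_Ioc
  have hS1sub : S1 ⊆ Ioc a b := inter_subset_right
  have hS2sub : S2 ⊆ Ioc a b := inter_subset_right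
  obtain ⟨C, hC⟩ := hρ1
  have hρI : IntegrableOn ρ (Icc a b) volume := by
    apply Measure.integrableOn_of_bounded (M := C) (by simp) hρ.aestronglyMeasurable
    filter_upwards [ae_restrict_mem measurableSet_Icc] with r hr
    rw [Real.norm_eq_abs, abs_of_pos (hρ0 r hr)]
    exact hC r hr
  have hρφI : IntegrableOn (fun r => ρ r * φ r) (Icc a b) volume :=
    hρI.mul_continuousOn hφ.continuousOn isCompact_Icc
  have sub1 : S1 ⊆ Icc a b := hS1sub.trans Ioc_subset_Icc_self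
  have sub2 : S2 ⊆ Icc a b := hS2sub.trans Ioc_subset_Icc_self
  set m1 : ℝ := ∫ x in S1, ρ x with hm1
  set m2 : ℝ := ∫ x in S2, ρ x with hm2
  have pos_of : ∀ S : Set ℝ, MeasurableSet S → S ⊆ Icc a b → 0 < volume S → 0 < ∫ x in S, ρ x := by
    intro S hSm hS hpos
    rw [setIntegral_pos_iff_support_of_nonneg_ae _ (hρI.mono_set hS)]
    · have : Function.support ρ ∩ S = S := by
        apply inter_eq_self_of_subset_right
        intro x hx
        exact (hρ0 x (hS hx)).ne'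
      rw [this]; exact hpos
    · filter_upwards [ae_restrict_mem hSm] with x hx
      exact (hρ0 x (hS hx)).le
  have hm1pos : 0 < m1 := pos_of S1 hS1m sub1 h1
  have hm2pos : 0 < m2 := pos_of S2 hS2m sub2 h2
  set ψ : ℝ → ℝ := fun r => S1.indicator (fun _ => 1 / m1) r - S2.indicator (fun _ => 1 / m2) r with hψ
  have hψm : Measurable ψ := (measurable_const.indicator hS1m).sub (measurable_const.indicator hS2m)
  have hψb : ∃ C, ∀ r, |ψ r| ≤ C := by
    refine ⟨1 / m1 + 1 / m2, fun r => ?_⟩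
    have e1 : |S1.indicator (fun _ => 1 / m1) r| ≤ 1 / m1 := by
      by_cases hr : r ∈ S1
      · rw [indicator_of_mem hr, abs_of_pos (by positivity)]
      · rw [indicator_of_notMem hr, abs_zero]; positivity
    have e2 : |S2.indicator (fun _ => 1 / m2) r| ≤ 1 / m2 := by
      by_cases hr : r ∈ S2
      · rw [indicator_of_mem hr, abs_of_pos (by positivity)]
      · rw [indicator_of_notMem hr, abs_zero]; positivity
    exact (abs_sub _ _).trans (add_le_add e1 e2)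
  have hψ0 : ∀ r, r ∉ Icc a b → ψ r = 0 := by
    intro r hr
    simp only [hψ]
    rw [indicator_of_notMem (fun h' => hr (sub1 h')), indicator_of_notMem (fun h' => hr (sub2 h'))]
    simp
  have hsg : ∃ τ : ℝ, 0 < τ ∧ (∀ r, 1 - τ < w r → ψ r ≤ 0) ∧ (∀ r, w r < τ → 0 ≤ ψ r) := by
    refine ⟨τ, hτ, fun r hr => ?_, fun r hr => ?_⟩
    · have : r ∉ S1 := fun h' => absurd h'.1.1 (not_le.mpr hr)
      simp only [hψ]
      rw [indicator_of_notMem this]
      have : 0 ≤ S2.indicator (fun _ => 1 / m2) r := indicator_nonneg (fun _ _ => by positivity) r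
      linarith
    · have : r ∉ S2 := fun h' => absurd h'.1.1 (not_le.mpr hr)
      simp only [hψ]
      rw [indicator_of_notMem this]
      have : 0 ≤ S1.indicator (fun _ => 1 / m1) r := indicator_nonneg (fun _ _ => by positivity) r
      linarith
  -- integral of ψ * F
  have key : ∀ F : ℝ → ℝ, IntegrableOn F (Icc a b) volume →
      ∫ r in a..b, ψ r * F r = (∫ x in S1, F x) / m1 - (∫ x in S2, F x) / m2 := by
    intro F hF
    have e : ∀ r, ψ r * F r = S1.indicator (fun r => F r / m1) r - S2.indicator (fun r => F r / m2) r := by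
      intro r
      simp only [hψ, indicator_apply]
      split_ifs <;> ring
    simp only [e]
    have hF' : IntegrableOn F (Ioc a b) volume := hF.mono_set Ioc_subset_Icc_self
    rw [intervalIntegral.integral_of_le hab.le, integral_sub, setIntegral_indicator hS1m, setIntegral_indicator hS2m,
      inter_eq_self_of_subset_right hS1sub, inter_eq_self_of_subset_right hS2sub, integral_div, integral_div]
    · exact (hF'.div_const m1).indicator hS1m
    · exact (hF'.div_const m2).indicator hS2m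
  have hend : ∫ r in a..b, ψ r * ρ r = 0 := by
    rw [key ρ hρI, ← hm1, ← hm2, div_self hm1pos.ne', div_self hm2pos.ne', sub_self]
  have hfin := h ψ hψm hψb hψ0 hsg hend
  have e3 : ∫ r in a..b, ψ r * ρ r * φ r = (∫ x in S1, ρ x * φ x) / m1 - (∫ x in S2, ρ x * φ x) / m2 := by
    rw [← key (fun r => ρ r * φ r) hρφI]
    congr 1
    ext r
    ring
  rw [e3] at hfin
  have l1 : β * m1 ≤ ∫ x in S1, ρ x * φ x := by
    rw [hm1, ← integral_const_mul]
    apply setIntegral_mono_on ((hρI.mono_set sub1).const_mul β) (hρφI.mono_set sub1) hS1m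
    intro x hx
    have := hρ0 x (sub1 hx)
    have hb : β < φ x := hx.1.2
    nlinarith
  have l2 : ∫ x in S2, ρ x * φ x ≤ α * m2 := by
    rw [hm2, ← integral_const_mul]
    apply setIntegral_mono_on (hρφI.mono_set sub2) ((hρI.mono_set sub2).const_mul α) hS2m
    intro x hx
    have := hρ0 x (sub2 hx)
    have hb : φ x < α := hx.1.2
    nlinarith
  have l1' : β ≤ (∫ x in S1, ρ x * φ x) / m1 := by rw [le_div_iff₀ hm1pos]; exact l1
  have l2' : (∫ x in S2, ρ x * φ x) / m2 ≤ α := by rw [div_le_iff₀ hm2pos]; exact l2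
  linarith

/-- the bathtub principle -/
theorem cm4_bathtub {a b : ℝ} (hab : a < b) {w ρ φ : ℝ → ℝ} (hw : Measurable w) (hw01 : ∀ r, 0 ≤ w r ∧ w r ≤ 1)
    (hρ : Measurable ρ) (hρ0 : ∀ r ∈ Icc a b, 0 < ρ r) (hρ1 : ∃ C, ∀ r ∈ Icc a b, ρ r ≤ C) (hφ : ContinuousOn φ (Icc a b))
    (h : ∀ ψ : ℝ → ℝ, Measurable ψ → (∃ C, ∀ r, |ψ r| ≤ C) → (∀ r, r ∉ Icc a b → ψ r = 0) →
      (∃ τ : ℝ, 0 < τ ∧ (∀ r, 1 - τ < w r → ψ r ≤ 0) ∧ (∀ r, w r < τ → 0 ≤ ψ r)) →
      ∫ r in a..b, ψ r * ρ r = 0 → ∫ r in a..b, ψ r * ρ r * φ r ≤ 0) :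
    ∃ c, (∀ᵐ r, r ∈ Icc a b → c < φ r → w r = 1) ∧ (∀ᵐ r, r ∈ Icc a b → φ r < c → w r = 0) := by
  -- continuous extension of φ
  set φ' : ℝ → ℝ := fun r => φ (max a (min r b)) with hφ'
  have hproj : ∀ r, max a (min r b) ∈ Icc a b := fun r => ⟨le_max_left _ _, max_le hab.le (min_le_right _ _)⟩
  have hφ'c : Continuous φ' := hφ.comp_continuous (by fun_prop) hproj
  have hφ'eq : ∀ r ∈ Icc a b, φ' r = φ r := by
    intro r hr
    simp only [hφ']
    rw [min_eq_left hr.2, max_eq_right hr.1]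
  have h' : ∀ ψ : ℝ → ℝ, Measurable ψ → (∃ C, ∀ r, |ψ r| ≤ C) → (∀ r, r ∉ Icc a b → ψ r = 0) →
      (∃ τ : ℝ, 0 < τ ∧ (∀ r, 1 - τ < w r → ψ r ≤ 0) ∧ (∀ r, w r < τ → 0 ≤ ψ r)) →
      ∫ r in a..b, ψ r * ρ r = 0 → ∫ r in a..b, ψ r * ρ r * φ' r ≤ 0 := by
    intro ψ h1 h2 h3 h4 h5
    have : ∫ r in a..b, ψ r * ρ r * φ' r = ∫ r in a..b, ψ r * ρ r * φ r := by
      apply intervalIntegral.integral_congr
      intro r hr
      rw [uIcc_of_le hab.le] at hr
      simp only [hφ'eq r hr]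
    rw [this]
    exact h ψ h1 h2 h3 h4 h5
  have claim : ∀ α β τ : ℝ, α < β → 0 < τ → 0 < volume ({r | w r ≤ 1 - τ ∧ β < φ' r} ∩ Ioc a b) →
      0 < volume ({r | τ ≤ w r ∧ φ' r < α} ∩ Ioc a b) → False :=
    fun α β τ hαβ hτ => cm4_bathtub_claim hab hw hρ hρ0 hρ1 hφ'c h' hαβ hτ
  -- version without τ
  have claim2 : ∀ α β : ℝ, α < β → volume ({r | w r < 1 ∧ β < φ' r} ∩ Ioc a b) = 0 ∨
      volume ({r | 0 < w r ∧ φ' r < α} ∩ Ioc a b) = 0 := by
    intro α β hαβ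
    by_contra hcon
    push Not at hcon
    obtain ⟨hc1, hc2⟩ := hcon
    have u1 : {r | w r < 1 ∧ β < φ' r} ∩ Ioc a b
        = ⋃ k : ℕ, {r | w r ≤ 1 - 1 / ((k : ℝ) + 1) ∧ β < φ' r} ∩ Ioc a b := by
      ext r
      simp only [mem_inter_iff, mem_ofPred_eq, mem_iUnion]
      constructor
      · rintro ⟨⟨hw1, hb⟩, hI⟩
        obtain ⟨k, hk⟩ := exists_nat_one_div_lt (sub_pos.mpr hw1)
        exact ⟨k, ⟨by linarith, hb⟩, hI⟩
      · rintro ⟨k, ⟨hw1, hb⟩, hI⟩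
        have : (0:ℝ) < 1 / ((k : ℝ) + 1) := by positivity
        exact ⟨⟨by linarith, hb⟩, hI⟩
    have u2 : {r | 0 < w r ∧ φ' r < α} ∩ Ioc a b
        = ⋃ k : ℕ, {r | 1 / ((k : ℝ) + 1) ≤ w r ∧ φ' r < α} ∩ Ioc a b := by
      ext r
      simp only [mem_inter_iff, mem_ofPred_eq, mem_iUnion]
      constructor
      · rintro ⟨⟨hw1, hb⟩, hI⟩
        obtain ⟨k, hk⟩ := exists_nat_one_div_lt hw1
        exact ⟨k, ⟨hk.le, hb⟩, hI⟩
      · rintro ⟨k, ⟨hw1, hb⟩, hI⟩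
        have : (0:ℝ) < 1 / ((k : ℝ) + 1) := by positivity
        exact ⟨⟨by linarith, hb⟩, hI⟩
    rw [u1] at hc1
    rw [u2] at hc2
    obtain ⟨k1, hk1⟩ : ∃ k : ℕ, volume ({r | w r ≤ 1 - 1 / ((k : ℝ) + 1) ∧ β < φ' r} ∩ Ioc a b) ≠ 0 := by
      by_contra hno
      push Not at hno
      exact hc1 (measure_iUnion_null hno)
    obtain ⟨k2, hk2⟩ : ∃ k : ℕ, volume ({r | 1 / ((k : ℝ) + 1) ≤ w r ∧ φ' r < α} ∩ Ioc a b) ≠ 0 := by
      by_contra hno
      push Not at hno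
      exact hc2 (measure_iUnion_null hno)
    set τ : ℝ := min (1 / ((k1 : ℝ) + 1)) (1 / ((k2 : ℝ) + 1)) with hτ
    have hτpos : 0 < τ := lt_min (by positivity) (by positivity)
    refine claim α β τ hαβ hτpos ?_ ?_
    · refine lt_of_lt_of_le (pos_iff_ne_zero.mpr hk1) (measure_mono ?_)
      rintro r ⟨⟨hw1, hb⟩, hI⟩
      exact ⟨⟨by have := min_le_left (1 / ((k1 : ℝ) + 1)) (1 / ((k2 : ℝ) + 1)); linarith, hb⟩, hI⟩
    · refine lt_of_lt_of_le (pos_iff_ne_zero.mpr hk2) (measure_mono ?_)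
      rintro r ⟨⟨hw1, hb⟩, hI⟩
      exact ⟨⟨by have := min_le_right (1 / ((k1 : ℝ) + 1)) (1 / ((k2 : ℝ) + 1)); linarith, hb⟩, hI⟩
  -- reduction of the conclusion to sets in Ioc
  have reduce : ∀ c : ℝ, volume ({r | w r < 1 ∧ c < φ' r} ∩ Ioc a b) = 0 →
      volume ({r | 0 < w r ∧ φ' r < c} ∩ Ioc a b) = 0 →
      (∀ᵐ r, r ∈ Icc a b → c < φ r → w r = 1) ∧ (∀ᵐ r, r ∈ Icc a b → φ r < c → w r = 0) := by
    intro c z1 z2
    have hne : ∀ᵐ r : ℝ, r ≠ a := by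
      have : volume ({a} : Set ℝ) = 0 := Real.volume_singleton
      exact measure_eq_zero_iff_ae_notMem.mp this
    constructor
    · filter_upwards [measure_eq_zero_iff_ae_notMem.mp z1, hne] with r hr hra hI hc
      by_contra hw1
      apply hr
      refine ⟨⟨lt_of_le_of_ne (hw01 r).2 hw1, by rw [hφ'eq r hI]; exact hc⟩, lt_of_le_of_ne hI.1 (Ne.symm hra), hI.2⟩
    · filter_upwards [measure_eq_zero_iff_ae_notMem.mp z2, hne] with r hr hra hI hc
      by_contra hw1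
      apply hr
      refine ⟨⟨lt_of_le_of_ne (hw01 r).1 (Ne.symm hw1), by rw [hφ'eq r hI]; exact hc⟩, lt_of_le_of_ne hI.1 (Ne.symm hra), hI.2⟩
  -- bounds of φ'
  obtain ⟨Cφ, hCφ⟩ := isCompact_Icc.exists_bound_of_continuousOn (hφ'c.continuousOn (s := Icc a b))
  have hCφ' : ∀ r ∈ Ioc a b, |φ' r| ≤ Cφ := fun r hr => by
    simpa using hCφ r (Ioc_subset_Icc_self hr)
  by_cases hU : volume ({r | w r < 1} ∩ Ioc a b) = 0
  · -- pure cap
    refine ⟨-Cφ - 1, reduce _ ?_ ?_⟩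
    · refine measure_mono_null ?_ hU
      rintro r ⟨⟨hw1, -⟩, hI⟩
      exact ⟨hw1, hI⟩
    · have : {r | 0 < w r ∧ φ' r < -Cφ - 1} ∩ Ioc a b = ∅ := by
        ext r
        simp only [mem_inter_iff, mem_ofPred_eq, mem_empty_iff_false, iff_false]
        rintro ⟨⟨-, hlt⟩, hI⟩
        have := abs_le.mp (hCφ' r hI)
        linarith [this.1]
      rw [this]; simp
  · set Bs : Set ℝ := {β | volume ({r | w r < 1 ∧ β < φ' r} ∩ Ioc a b) = 0} with hBs
    have hBne : Bs.Nonempty := by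
      refine ⟨Cφ, ?_⟩
      have : {r | w r < 1 ∧ Cφ < φ' r} ∩ Ioc a b = ∅ := by
        ext r
        simp only [mem_inter_iff, mem_ofPred_eq, mem_empty_iff_false, iff_false]
        rintro ⟨⟨-, hlt⟩, hI⟩
        have := abs_le.mp (hCφ' r hI)
        linarith [this.2]
      simp only [hBs, mem_ofPred_eq, this, measure_empty]
    have hBbdd : BddBelow Bs := by
      refine ⟨-Cφ - 1, fun β hβ => ?_⟩
      by_contra hlt
      push Not at hlt
      apply hU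
      refine measure_mono_null ?_ hβ
      rintro r ⟨hw1, hI⟩
      have := abs_le.mp (hCφ' r hI)
      exact ⟨⟨hw1, by linarith [this.1]⟩, hI⟩
    set c : ℝ := sInf Bs with hc
    refine ⟨c, reduce c ?_ ?_⟩
    · have u1 : {r | w r < 1 ∧ c < φ' r} ∩ Ioc a b
          ⊆ ⋃ k : ℕ, {r | w r < 1 ∧ c + 1 / ((k : ℝ) + 1) < φ' r} ∩ Ioc a b := by
        rintro r ⟨⟨hw1, hb⟩, hI⟩
        obtain ⟨k, hk⟩ := exists_nat_one_div_lt (sub_pos.mpr hb)
        exact mem_iUnion.mpr ⟨k, ⟨hw1, by linarith⟩, hI⟩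
      refine measure_mono_null u1 (measure_iUnion_null fun k => ?_)
      have hpos : (0:ℝ) < 1 / ((k : ℝ) + 1) := by positivity
      obtain ⟨β, hβ, hβlt⟩ := exists_lt_of_csInf_lt hBne (show sInf Bs < c + 1 / ((k : ℝ) + 1) by linarith)
      refine measure_mono_null ?_ hβ
      rintro r ⟨⟨hw1, hb⟩, hI⟩
      exact ⟨⟨hw1, by linarith⟩, hI⟩
    · have u2 : {r | 0 < w r ∧ φ' r < c} ∩ Ioc a b
          ⊆ ⋃ k : ℕ, {r | 0 < w r ∧ φ' r < c - 1 / ((k : ℝ) + 1)} ∩ Ioc a b := by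
        rintro r ⟨⟨hw1, hb⟩, hI⟩
        obtain ⟨k, hk⟩ := exists_nat_one_div_lt (sub_pos.mpr hb)
        exact mem_iUnion.mpr ⟨k, ⟨hw1, by linarith⟩, hI⟩
      refine measure_mono_null u2 (measure_iUnion_null fun k => ?_)
      have hpos : (0:ℝ) < 1 / ((k : ℝ) + 1) := by positivity
      rcases claim2 (c - 1 / ((k : ℝ) + 1)) (c - 1 / ((k : ℝ) + 1) / 2) (by linarith) with hz | hz
      · exfalso
        have : c - 1 / ((k : ℝ) + 1) / 2 ∈ Bs := hz
        have := csInf_le hBbdd this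
        linarith
      · exact hz

/-- **the multiplier rule** -/
theorem cm4_mult (hX : X.Ok) {g : ℝ → ℝ} {Φ : (ℝ → ℝ) → ℝ} (hα : α ∈ X.Q) (hmin : ∀ β ∈ X.Q, Φ α ≤ Φ β)
    (hg : IntervalIntegrable g volume X.r0 X.r1)
    (hD : ∀ η : ℝ → ℝ, (∀ᶠ ε in 𝓝[>] (0:ℝ), (fun r => α r + ε * η r) ∈ X.Q) →
      Tendsto (fun ε => (Φ (fun r => α r + ε * η r) - Φ α) / ε) (𝓝[>] 0) (𝓝 (-∫ r in X.r0..X.r1, g r * η r))) :
    ∃ c : ℝ, (∀ᵐ r, r ∈ Icc X.r0 X.r1 → X.pot α g c r < 0 → deriv α r = X.M (α r)) ∧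
      (∀ᵐ r, r ∈ Icc X.r0 X.r1 → 0 < X.pot α g c r → deriv α r = X.k r) := by
  have hJg := cm4_Jg_ii hX hα hg
  have hφ : ContinuousOn (fun r => ∫ t in r..X.r1, X.J α t * g t) (Icc X.r0 X.r1) := by
    have hG : AbsolutelyContinuousOnInterval (fun r => ∫ t in X.r1..r, X.J α t * g t) X.r0 X.r1 :=
      hJg.absolutelyContinuousOnInterval_intervalIntegral (by simp)
    have : (fun x => ∫ t in x..X.r1, X.J α t * g t) = fun x => -∫ t in X.r1..x, X.J α t * g t := by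
      ext x; rw [intervalIntegral.integral_symm]
    rw [this, ← uIcc_of_le hX.hr.le]
    exact hG.continuousOn.neg
  obtain ⟨c, hc1, hc2⟩ := cm4_bathtub hX.hr (cm4_ctl_meas hX hα) (cm4_ctl_mem X α) (cm4_wt_meas hX hα)
    (fun r hr => cm4_wt_pos hX hα hr) (cm4_wt_bdd hX hα) hφ (by
      intro ψ hψ hψb hψ0 hsg hend
      have hfeas := cm4_dir_feasible hX hα hψ hψb hψ0 hsg hend
      have hlim := hD _ hfeas
      have hnn : 0 ≤ -∫ r in X.r0..X.r1, g r * X.dir α ψ r := by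
        apply ge_of_tendsto hlim
        filter_upwards [hfeas, self_mem_nhdsWithin] with ε hε hpos
        exact div_nonneg (sub_nonneg.mpr (hmin _ hε)) (le_of_lt hpos)
      rw [cm4_dir_ibp hX hα hψ hψb hg] at hnn
      linarith)
  refine ⟨c, ?_, ?_⟩
  · filter_upwards [hc1, cm4_ctl_eq hX hα] with r h1 h2 hI hpot
    have hw : X.ctl α r = 1 := h1 hI (by rw [CmBox.pot] at hpot; linarith)
    rw [h2 hI, hw]; ring
  · filter_upwards [hc2, cm4_ctl_eq hX hα] with r h1 h2 hI hpot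
    have hw : X.ctl α r = 0 := h1 hI (by rw [CmBox.pot] at hpot; linarith)
    rw [h2 hI, hw]; ring

/-- the potential is a primitive of `J g` -/
theorem cm4_pot_sub (hX : X.Ok) (hα : α ∈ X.Q) {g : ℝ → ℝ} (hg : IntervalIntegrable g volume X.r0 X.r1) (c : ℝ)
    {s t : ℝ} (hs : s ∈ Icc X.r0 X.r1) (ht : t ∈ Icc X.r0 X.r1) :
    X.pot α g c t - X.pot α g c s = ∫ x in s..t, X.J α x * g x := by
  have hJg := cm4_Jg_ii hX hα hg
  have h1 : X.r1 ∈ Icc X.r0 X.r1 := ⟨hX.hr.le, le_rfl⟩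
  rw [CmBox.pot, CmBox.pot,
    ← intervalIntegral.integral_add_adjacent_intervals (cm4_ii_sub hJg hX.hr.le hs ht) (cm4_ii_sub hJg hX.hr.le ht h1)]
  ring

end Claimed.Agent.R286
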