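import Claimed.Agent.R286.Cmp.P5Mod
import Claimed.Agent.R286.Cmp.Kit164

/-!
owner helper247 (leaves: free for provers, claim by Lean name in claim286).
Model-free tools ALREADY PROVED, cite them: Cmp/Kit164.lean (closing, compensator_bound, doob_Lp in test-function form), Cmp/Tk.lean (cm_tk_*).
R286 / P05: KIT for the abstract path model.  Part A: the real `L^p` norm `cmN`.  Part B: nodes and overlaps.
Part C: kernels (prefix, tower, test identity, two-leaf law, Jensen).  Part D: martingale inequalities (Garsia, compensator, Doob).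
-/

set_option autoImplicit false

namespace Claimed.Agent.R286

open MeasureTheory ProbabilityTheory
open scoped ENNReal NNReal

/-! ### Part A: `cmN` -/
section A
variable {α : Type} [MeasurableSpace α] {F : Type} [NormedAddCommGroup F]

/-- bounded and (a.e. strongly) measurable -/
def CmBM (μ : Measure α) (f : α → F) : Prop := AEStronglyMeasurable f μ ∧ ∃ C : ℝ, ∀ a, ‖f a‖ ≤ C

theorem cmN_nonneg (μ : Measure α) (p : ℕ) (f : α → F) : 0 ≤ cmN μ p f := by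
  exact ENNReal.toReal_nonneg

theorem CmBM.memLp {μ : Measure α} [IsFiniteMeasure μ] {f : α → F} (hf : CmBM μ f) (p : ℕ) : MemLp f (p : ℝ≥0∞) μ := by
  obtain ⟨h1, C, hC⟩ := hf
  exact MemLp.of_bound h1 C (Filter.Eventually.of_forall hC)

theorem cmN_pow_eq {μ : Measure α} [IsFiniteMeasure μ] {f : α → F} (hf : CmBM μ f) (p : ℕ) (hp : 1 ≤ p) :
    cmN μ p f ^ p = ∫ a, ‖f a‖ ^ p ∂μ := by
  have hm := hf.memLp p
  have hp0 : (p : ℝ≥0∞) ≠ 0 := by
    simp only [ne_eq, Nat.cast_eq_zero]; omega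
  have h := hm.eLpNorm_eq_integral_rpow_norm hp0 (ENNReal.natCast_ne_top p)
  have hnn : 0 ≤ ∫ a, ‖f a‖ ^ p ∂μ := integral_nonneg fun a => by positivity
  unfold cmN
  rw [h]
  simp only [ENNReal.toReal_natCast, Real.rpow_natCast]
  rw [ENNReal.toReal_ofReal (by positivity), ← Real.rpow_natCast, ← Real.rpow_mul hnn,
    inv_mul_cancel₀ (by positivity), Real.rpow_one]

theorem cmN_le_of_int_le {μ : Measure α} [IsFiniteMeasure μ] {f : α → F} (hf : CmBM μ f) (p : ℕ) (hp : 1 ≤ p) (B : ℝ) (hB : 0 ≤ B)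
    (h : ∫ a, ‖f a‖ ^ p ∂μ ≤ B ^ p) : cmN μ p f ≤ B := by
  rw [← cmN_pow_eq hf p hp] at h
  exact le_of_pow_le_pow_left₀ (by omega) hB h

theorem cmN_add_le {μ : Measure α} [IsFiniteMeasure μ] {f g : α → F} (hf : CmBM μ f) (hg : CmBM μ g) (p : ℕ) (hp : 1 ≤ p) :
    cmN μ p (fun a => f a + g a) ≤ cmN μ p f + cmN μ p g := by
  unfold cmN
  rw [← ENNReal.toReal_add (hf.memLp p).eLpNorm_ne_top (hg.memLp p).eLpNorm_ne_top]
  apply ENNReal.toReal_mono (ENNReal.add_ne_top.2 ⟨(hf.memLp p).eLpNorm_ne_top, (hg.memLp p).eLpNorm_ne_top⟩)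
  exact eLpNorm_add_le hf.1 hg.1 (by exact_mod_cast hp)

theorem cmN_sub_le {μ : Measure α} [IsFiniteMeasure μ] {f g : α → F} (hf : CmBM μ f) (hg : CmBM μ g) (p : ℕ) (hp : 1 ≤ p) :
    cmN μ p (fun a => f a - g a) ≤ cmN μ p f + cmN μ p g := by
  unfold cmN
  rw [← ENNReal.toReal_add (hf.memLp p).eLpNorm_ne_top (hg.memLp p).eLpNorm_ne_top]
  apply ENNReal.toReal_mono (ENNReal.add_ne_top.2 ⟨(hf.memLp p).eLpNorm_ne_top, (hg.memLp p).eLpNorm_ne_top⟩)
  exact eLpNorm_sub_le hf.1 hg.1 (by exact_mod_cast hp)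

theorem cmN_sum_le {μ : Measure α} [IsFiniteMeasure μ] {ι : Type} (s : Finset ι) (f : ι → α → F) (hf : ∀ i ∈ s, CmBM μ (f i))
    (p : ℕ) (hp : 1 ≤ p) : cmN μ p (fun a => ∑ i ∈ s, f i a) ≤ ∑ i ∈ s, cmN μ p (f i) := by
  unfold cmN
  rw [← ENNReal.toReal_sum (fun i hi => ((hf i hi).memLp p).eLpNorm_ne_top)]
  apply ENNReal.toReal_mono (ENNReal.sum_ne_top.2 fun i hi => ((hf i hi).memLp p).eLpNorm_ne_top)
  have := eLpNorm_sum_le (μ := μ) (s := s) (f := f) (fun i hi => (hf i hi).1) (p := (p : ℝ≥0∞)) (by exact_mod_cast hp)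
  convert this using 2
  funext a; simp

theorem cmN_mono {G : Type} [NormedAddCommGroup G] {μ : Measure α} [IsFiniteMeasure μ] {f : α → F} {g : α → G} (hg : CmBM μ g) (p : ℕ)
    (h : ∀ᵐ a ∂μ, ‖f a‖ ≤ ‖g a‖) : cmN μ p f ≤ cmN μ p g := by
  unfold cmN
  exact ENNReal.toReal_mono (hg.memLp p).eLpNorm_ne_top (eLpNorm_mono_ae h)

theorem cmN_const_mul {μ : Measure α} (c : ℝ) (f : α → ℝ) (p : ℕ) : cmN μ p (fun a => c * f a) = |c| * cmN μ p f := by
  unfold cmN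
  have : (fun a => c * f a) = c • f := by funext a; simp
  rw [this, eLpNorm_const_smul, ENNReal.toReal_mul]
  simp

theorem cmN_const {μ : Measure α} [IsProbabilityMeasure μ] (c : ℝ) (p : ℕ) (hp : 1 ≤ p) : cmN μ p (fun _ : α => c) = |c| := by
  unfold cmN
  have hp0 : (p : ℝ≥0∞) ≠ 0 := by
    simp only [ne_eq, Nat.cast_eq_zero]; omega
  rw [eLpNorm_const c hp0 (IsProbabilityMeasure.ne_zero μ)]
  simp

theorem cmN_norm {μ : Measure α} (f : α → F) (p : ℕ) : cmN μ p (fun a => ‖f a‖) = cmN μ p f := by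
  unfold cmN
  rw [eLpNorm_norm]

theorem CmBM.norm {μ : Measure α} {f : α → F} (hf : CmBM μ f) : CmBM μ (fun a => ‖f a‖) := by
  obtain ⟨h1, C, hC⟩ := hf
  exact ⟨h1.norm, C, fun a => by simpa using hC a⟩

/-- Cauchy-Schwarz form of Hoelder -/
theorem cmN_mul_le {μ : Measure α} [IsFiniteMeasure μ] {f g : α → ℝ} (hf : CmBM μ f) (hg : CmBM μ g) (p : ℕ) (hp : 1 ≤ p) :
    cmN μ p (fun a => f a * g a) ≤ cmN μ (2 * p) f * cmN μ (2 * p) g := by
  unfold cmN
  rw [← ENNReal.toReal_mul]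
  apply ENNReal.toReal_mono (ENNReal.mul_ne_top (hf.memLp (2*p)).eLpNorm_ne_top (hg.memLp (2*p)).eLpNorm_ne_top)
  have : ENNReal.HolderTriple ((2 * p : ℕ) : ℝ≥0∞) ((2 * p : ℕ) : ℝ≥0∞) (p : ℝ≥0∞) := ⟨by
    push_cast
    rw [ENNReal.mul_inv (Or.inl (by norm_num)) (Or.inl (by norm_num)), ← add_mul, ENNReal.inv_two_add_inv_two, one_mul]⟩
  have := eLpNorm_smul_le_mul_eLpNorm (μ := μ) (p := ((2 * p : ℕ) : ℝ≥0∞)) (q := ((2 * p : ℕ) : ℝ≥0∞)) (r := (p : ℝ≥0∞)) hg.1 hf.1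
  have e : (fun a => f a * g a) = f • g := by funext a; simp
  rw [e]; exact this

theorem cmN_exp_mono {μ : Measure α} [IsProbabilityMeasure μ] {f : α → F} (hf : CmBM μ f) {p q : ℕ} (hp : 1 ≤ p) (hpq : p ≤ q) :
    cmN μ p f ≤ cmN μ q f := by
  unfold cmN
  exact ENNReal.toReal_mono (hf.memLp q).eLpNorm_ne_top
    (eLpNorm_le_eLpNorm_of_exponent_le (by exact_mod_cast hpq) hf.1)

theorem cmN_sq {μ : Measure α} [IsFiniteMeasure μ] {f : α → F} (hf : CmBM μ f) (p : ℕ) (hp : 1 ≤ p) :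
    cmN μ p (fun a => ‖f a‖ ^ 2) = cmN μ (2 * p) f ^ 2 := by
  unfold cmN
  have h := eLpNorm_norm_rpow (μ := μ) (p := (p : ℝ≥0∞)) f (q := 2) (by norm_num)
  simp only [Real.rpow_two] at h
  rw [h, ← ENNReal.toReal_pow]
  congr 1
  have : (p : ℝ≥0∞) * ENNReal.ofReal 2 = ((2 * p : ℕ) : ℝ≥0∞) := by
    push_cast
    rw [mul_comm]; congr 1; simp
  rw [this, ENNReal.rpow_two]

theorem cmN_inner_le {n : ℕ} {μ : Measure α} [IsFiniteMeasure μ] {f g : α → EuclideanSpace ℝ (Fin n)} (hf : CmBM μ f) (hg : CmBM μ g)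
    (p : ℕ) (hp : 1 ≤ p) : cmN μ p (fun a => inner ℝ (f a) (g a)) ≤ cmN μ (2 * p) f * cmN μ (2 * p) g := by
  have h1 : CmBM μ (fun a => ‖f a‖ * ‖g a‖) := by
    obtain ⟨m1, C1, hC1⟩ := hf
    obtain ⟨m2, C2, hC2⟩ := hg
    refine ⟨m1.norm.mul m2.norm, C1 * C2, fun a => ?_⟩
    rw [norm_mul, norm_norm, norm_norm]
    exact mul_le_mul (hC1 a) (hC2 a) (norm_nonneg _) (le_trans (norm_nonneg _) (hC1 a))
  calc cmN μ p (fun a => inner ℝ (f a) (g a)) ≤ cmN μ p (fun a => ‖f a‖ * ‖g a‖) := by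
        apply cmN_mono h1 p
        refine Filter.Eventually.of_forall fun a => ?_
        rw [norm_mul, norm_norm, norm_norm]
        exact norm_inner_le_norm _ _
    _ ≤ cmN μ (2 * p) (fun a => ‖f a‖) * cmN μ (2 * p) (fun a => ‖g a‖) := cmN_mul_le hf.norm hg.norm p hp
    _ = cmN μ (2 * p) f * cmN μ (2 * p) g := by rw [cmN_norm, cmN_norm]

/-- from `∫ A^p ≤ c ∫ A^(p-1) U` to `‖A‖_p ≤ c ‖U‖_p` -/
theorem cmN_self_bound {μ : Measure α} [IsFiniteMeasure μ] {A U : α → ℝ} (hA : CmBM μ A) (hU : CmBM μ U) (hA0 : ∀ a, 0 ≤ A a)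
    (hU0 : ∀ a, 0 ≤ U a) (p : ℕ) (hp : 1 ≤ p) (c : ℝ) (hc : 0 ≤ c)
    (h : ∫ a, A a ^ p ∂μ ≤ c * ∫ a, A a ^ (p - 1) * U a ∂μ) : cmN μ p A ≤ c * cmN μ p U := by
  have eA : cmN μ p A ^ p = ∫ a, A a ^ p ∂μ := by
    rw [cmN_pow_eq hA p hp]; congr 1; funext a; rw [Real.norm_of_nonneg (hA0 a)]
  have eU : cmN μ p U ^ p = ∫ a, U a ^ p ∂μ := by
    rw [cmN_pow_eq hU p hp]; congr 1; funext a; rw [Real.norm_of_nonneg (hU0 a)]
  have nA := cmN_nonneg μ p A
  have nU := cmN_nonneg μ p U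
  rcases Nat.eq_or_lt_of_le hp with h1 | h1
  · subst h1
    simp only [pow_one, Nat.sub_self, pow_zero, one_mul] at h eA eU
    rw [eA, eU]; exact h
  -- Hoelder
  have key : ∫ a, A a ^ (p - 1) * U a ∂μ ≤ cmN μ p A ^ (p - 1) * cmN μ p U := by
    have hpq : (( p : ℝ) / ((p:ℝ) - 1)).HolderConjugate (p : ℝ) := by
      have : (1:ℝ) < p := by exact_mod_cast h1
      exact (Real.HolderConjugate.conjExponent this).symm
    have hp1 : (0:ℝ) < (p:ℝ) - 1 := by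
      have : (1:ℝ) < p := by exact_mod_cast h1
      linarith
    have hAm : MemLp (fun a => A a ^ (p - 1)) (ENNReal.ofReal ((p : ℝ) / ((p:ℝ) - 1))) μ := by
      obtain ⟨m1, C1, hC1⟩ := hA
      refine MemLp.of_bound (m1.pow _) (C1 ^ (p - 1)) (Filter.Eventually.of_forall fun a => ?_)
      rw [norm_pow]
      exact pow_le_pow_left₀ (norm_nonneg _) (hC1 a) _
    have hUm : MemLp U (ENNReal.ofReal (p : ℝ)) μ := by
      have := hU.memLp p
      simpa using this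
    have := integral_mul_le_Lp_mul_Lq_of_nonneg hpq (μ := μ) (f := fun a => A a ^ (p - 1)) (g := U)
      (Filter.Eventually.of_forall fun a => pow_nonneg (hA0 a) _) (Filter.Eventually.of_forall hU0) hAm hUm
    refine le_trans this ?_
    have e1 : ∀ a, (A a ^ (p - 1)) ^ ((p : ℝ) / ((p:ℝ) - 1)) = A a ^ p := by
      intro a
      rw [← Real.rpow_natCast (A a) (p - 1), ← Real.rpow_mul (hA0 a), ← Real.rpow_natCast (A a) p]
      congr 1
      rw [Nat.cast_sub hp]; push_cast; field_simp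
    have e2 : ∀ a, U a ^ (p : ℝ) = U a ^ p := fun a => Real.rpow_natCast _ _
    simp only [e1, e2]
    rw [← eA, ← eU]
    apply le_of_eq
    congr 1
    · rw [← Real.rpow_natCast (cmN μ p A) p, ← Real.rpow_mul nA, ← Real.rpow_natCast (cmN μ p A) (p - 1)]
      congr 1
      rw [Nat.cast_sub hp]; push_cast; field_simp
    · rw [← Real.rpow_natCast (cmN μ p U) p, ← Real.rpow_mul nU]
      rw [mul_one_div_cancel (by positivity), Real.rpow_one]
  rcases eq_or_lt_of_le nA with h0 | h0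
  · rw [← h0]; positivity
  have h2 : cmN μ p A ^ (p - 1) * cmN μ p A ≤ cmN μ p A ^ (p - 1) * (c * cmN μ p U) := by
    calc cmN μ p A ^ (p - 1) * cmN μ p A = cmN μ p A ^ p := by
          rw [← pow_succ, Nat.sub_add_cancel hp]
      _ ≤ c * ∫ a, A a ^ (p - 1) * U a ∂μ := by rw [eA]; exact h
      _ ≤ c * (cmN μ p A ^ (p - 1) * cmN μ p U) := mul_le_mul_of_nonneg_left key hc
      _ = cmN μ p A ^ (p - 1) * (c * cmN μ p U) := by ring
  exact le_of_mul_le_mul_left h2 (by positivity)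

end A

variable {n : ℕ} {Ω : Type} [MeasurableSpace Ω]

namespace CmPath
variable {M : CmPath n Ω}

/-! ### Part B: nodes and overlaps -/

theorem nd_le (M : CmPath n Ω) (t : ℝ) : M.nd t ≤ M.L := by
  classical
  unfold nd
  exact Nat.findGreatest_le _

theorem mass_nd_le (hM : M.Ok) {t : ℝ} (ht : 0 ≤ t) : M.mass (M.nd t) ≤ t := by
  classical
  unfold nd
  exact Nat.findGreatest_spec (P := fun j => M.mass j ≤ t) (Nat.zero_le M.L) (by simpa [hM.mass_zero] using ht)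

theorem le_nd (hM : M.Ok) {t : ℝ} {j : ℕ} (hj : j ≤ M.L) (h : M.mass j ≤ t) : j ≤ M.nd t := by
  classical
  unfold nd
  exact Nat.le_findGreatest (P := fun j => M.mass j ≤ t) hj h

theorem lt_mass_nd_succ (hM : M.Ok) {t : ℝ} (ht : t < 1) : t < M.mass (M.nd t + 1) := by
  classical
  rcases (nd_le M t).lt_or_eq with h | h
  · by_contra hc
    have := le_nd hM (t := t) (j := M.nd t + 1) h (not_lt.mp hc)
    omega
  · rw [h, hM.mass_top]; exact ht

theorem nd_mono (hM : M.Ok) {s t : ℝ} (hs : 0 ≤ s) (h : s ≤ t) : M.nd s ≤ M.nd t :=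
  le_nd hM (nd_le M s) ((mass_nd_le hM hs).trans h)

theorem H_mono (hM : M.Ok) {s t : ℝ} (hs : 0 ≤ s) (h : s ≤ t) : M.H s ≤ M.H t :=
  hM.hck_mono (nd_mono hM hs h)

theorem mass_mem (hM : M.Ok) {j : ℕ} (hj : j ≤ M.L + 1) : 0 ≤ M.mass j ∧ M.mass j ≤ 1 :=
  ⟨hM.mass_zero ▸ hM.mass_mono (Nat.zero_le j), hM.mass_top ▸ hM.mass_mono hj⟩

theorem ov_nonneg (M : CmPath n Ω) (i : ℕ) (t1 t2 : ℝ) : 0 ≤ M.ov i t1 t2 :=
  le_max_left _ _

theorem ov_le (hM : M.Ok) (i : ℕ) (t1 t2 : ℝ) : M.ov i t1 t2 ≤ M.mass (i + 1) - M.mass i := by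
  have h := hM.mass_mono (Nat.le_succ i)
  unfold ov
  apply max_le (by simpa using h)
  have h1 := min_le_left (M.mass (i + 1)) t2
  have h2 := le_max_left (M.mass i) t1
  linarith

theorem ov_pos_iff (M : CmPath n Ω) (i : ℕ) (t1 t2 : ℝ) :
    0 < M.ov i t1 t2 ↔ max (M.mass i) t1 < min (M.mass (i + 1)) t2 := by
  unfold ov
  rw [lt_max_iff]
  simp

/-- telescoping form of the overlap -/
theorem ov_eq_clamp (hM : M.Ok) (i : ℕ) {t1 t2 : ℝ} (h12 : t1 ≤ t2) :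
    M.ov i t1 t2 = max t1 (min t2 (M.mass (i + 1))) - max t1 (min t2 (M.mass i)) := by
  have h : M.mass i ≤ M.mass (i + 1) := hM.mass_mono (Nat.le_succ i)
  unfold ov
  generalize M.mass i = a at *
  generalize M.mass (i + 1) = b at *
  rcases le_total b t2 with h1 | h1 <;> rcases le_total a t1 with h2 | h2 <;> rcases le_total a t2 with h3 | h3 <;>
    rcases le_total b t1 with h4 | h4 <;>
    simp only [min_eq_left, min_eq_right, max_eq_left, max_eq_right, h1, h2, h3, h4, h12] <;>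
    first
      | (apply max_eq_right; linarith)
      | (rw [max_eq_left (by linarith)]; linarith)
      | (rw [max_eq_right (by linarith)]; linarith)
      | (have : a = b := by linarith
         subst this; simp) 

theorem sum_ov (hM : M.Ok) {t1 t2 : ℝ} (h1 : 0 ≤ t1) (h12 : t1 ≤ t2) (h2 : t2 ≤ 1) :
    ∑ i ∈ Finset.range (M.L + 1), M.ov i t1 t2 = t2 - t1 := by
  simp only [ov_eq_clamp hM _ h12]
  rw [Finset.sum_range_sub (fun i => max t1 (min t2 (M.mass i))), hM.mass_top, hM.mass_zero,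
    min_eq_left h2, max_eq_right h12, min_eq_right (h1.trans h12), max_eq_left h1]

/-- overlaps of a set of nodes whose cells lie in an interval of length `η` -/
theorem sum_ov_le (hM : M.Ok) (s : Finset ℕ) (t1 t2 a η : ℝ)
    (h : ∀ j ∈ s, a - η ≤ max (M.mass j) t1 ∧ M.mass (j + 1) ≤ a) (hη : 0 ≤ η) : ∑ j ∈ s, M.ov j t1 t2 ≤ η := by
  set g : ℝ → ℝ := fun x => max (a - η) (min a (max x t1)) with hg
  have gmono : Monotone g := fun x y hxy =>
    max_le_max le_rfl (min_le_min le_rfl (max_le_max hxy le_rfl))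
  have glo : ∀ x, a - η ≤ g x := fun x => le_max_left _ _
  have ghi : ∀ x, g x ≤ a := fun x => max_le (by linarith) (min_le_left _ _)
  have hstep : ∀ j, 0 ≤ g (M.mass (j + 1)) - g (M.mass j) := fun j =>
    sub_nonneg.mpr (gmono (hM.mass_mono (Nat.le_succ j)))
  have h1 : ∀ j ∈ s, M.ov j t1 t2 ≤ g (M.mass (j + 1)) - g (M.mass j) := by
    intro j hj
    obtain ⟨ha, hb⟩ := h j hj
    rcases (ov_nonneg M j t1 t2).eq_or_lt with h0 | h0
    · rw [← h0]; exact hstep j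
    · have h2 := (ov_pos_iff M j t1 t2).mp h0
      have h3 : max (M.mass j) t1 < M.mass (j + 1) := h2.trans_le (min_le_left _ _)
      have h4 : t1 ≤ M.mass (j + 1) := (le_max_right _ _).trans h3.le
      have e1 : g (M.mass j) = max (M.mass j) t1 := by
        simp only [hg]
        rw [min_eq_right (h3.le.trans hb), max_eq_right ha]
      have e2 : g (M.mass (j + 1)) = M.mass (j + 1) := by
        simp only [hg]
        rw [max_eq_left h4, min_eq_right hb, max_eq_right (ha.trans h3.le)]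
      rw [e1, e2]
      unfold ov
      apply max_le (by linarith)
      have := min_le_left (M.mass (j + 1)) t2
      linarith
  obtain ⟨N, hN⟩ : ∃ N, s ⊆ Finset.range N := ⟨s.sup id + 1, fun j hj =>
    Finset.mem_range.mpr (Nat.lt_succ_of_le (Finset.le_sup (f := id) hj))⟩
  calc ∑ j ∈ s, M.ov j t1 t2 ≤ ∑ j ∈ s, (g (M.mass (j + 1)) - g (M.mass j)) := Finset.sum_le_sum h1
    _ ≤ ∑ j ∈ Finset.range N, (g (M.mass (j + 1)) - g (M.mass j)) :=
        Finset.sum_le_sum_of_subset_of_nonneg hN fun j _ _ => hstep j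
    _ = g (M.mass N) - g (M.mass 0) := Finset.sum_range_sub (fun j => g (M.mass j)) N
    _ ≤ η := by linarith [glo (M.mass 0), ghi (M.mass N)]

/-! ### Part C: kernels -/

/-- `g` depends only on the prefix up to the node `j` -/
def Pre (M : CmPath n Ω) (j : ℕ) {β : Type} (g : Ω → β) : Prop := ∀ k, j ≤ k → ∀ ω, ∀ᵐ ω' ∂(M.κ k ω), g ω' = g ω

theorem Pre.mono {β : Type} {g : Ω → β} {i j : ℕ} (hij : i ≤ j) (h : M.Pre i g) : M.Pre j g :=
  fun k hk => h k (hij.trans hk)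

theorem Pre.comp {β γ : Type} {g : Ω → β} {j : ℕ} (h : M.Pre j g) (φ : β → γ) : M.Pre j (fun ω => φ (g ω)) :=
  fun k hk ω => (h k hk ω).mono fun _ e => by simp only [e]

theorem Pre.comp₂ {β β' γ : Type} {g : Ω → β} {g' : Ω → β'} {j : ℕ} (h : M.Pre j g) (h' : M.Pre j g') (φ : β → β' → γ) :
    M.Pre j (fun ω => φ (g ω) (g' ω)) :=
  fun k hk ω => by filter_upwards [h k hk ω, h' k hk ω] with _ e e'; simp only [e, e']

theorem Pre.sum {j : ℕ} {ι : Type} (s : Finset ι) {g : ι → Ω → ℝ} (h : ∀ i ∈ s, M.Pre j (g i)) :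
    M.Pre j (fun ω => ∑ i ∈ s, g i ω) := by
  intro k hk ω
  have : ∀ᵐ ω' ∂(M.κ k ω), ∀ i ∈ s, g i ω' = g i ω :=
    (Filter.eventually_all_finset s).2 fun i hi => h i hi k hk ω
  filter_upwards [this] with ω' e
  exact Finset.sum_congr rfl e

theorem X_pre (hM : M.Ok) {i j : ℕ} (hij : i ≤ j) (hi : i ≤ M.L) : M.Pre j (M.X i) := by
  intro k hk ω
  have hco : ∀ c : Fin n, ∀ᵐ ω' ∂(M.κ k ω), ∫ x, M.X (M.L + 1) x c ∂(M.κ i ω') = ∫ x, M.X (M.L + 1) x c ∂(M.κ i ω) := by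
    intro c
    refine hM.pre i k (hij.trans hk) (fun x => M.X (M.L + 1) x c) ?_ ⟨1, fun x => ?_⟩ ω
    · exact (EuclideanSpace.proj c).continuous.measurable.comp (hM.meas (M.L + 1))
    · exact (by simpa using PiLp.norm_apply_le (M.X (M.L + 1) x) c : |M.X (M.L + 1) x c| ≤ ‖M.X (M.L + 1) x‖).trans (hM.norm_le _ x)
  have hint : ∀ ω0 : Ω, Integrable (M.X (M.L + 1)) (M.κ i ω0) := by
    intro ω0
    have := hM.markov i
    exact Integrable.of_bound (hM.meas (M.L + 1)).aestronglyMeasurable 1 (Filter.Eventually.of_forall fun x => hM.norm_le _ x)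
  have hpr : ∀ (ω0 : Ω) (c : Fin n), (∫ x, M.X (M.L + 1) x ∂(M.κ i ω0)) c = ∫ x, M.X (M.L + 1) x c ∂(M.κ i ω0) := by
    intro ω0 c
    exact ((EuclideanSpace.proj c : EuclideanSpace ℝ (Fin n) →L[ℝ] ℝ).integral_comp_comm (hint ω0)).symm
  filter_upwards [Filter.eventually_all.2 hco] with ω' e
  rw [hM.mean i hi ω', hM.mean i hi ω]
  ext c
  rw [hpr, hpr, e c]

theorem cE_pre (hM : M.Ok) {i j : ℕ} (hij : i ≤ j) {f : Ω → ℝ} (hf : Measurable f) {C : ℝ} (hC : ∀ ω, |f ω| ≤ C) :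
    M.Pre j (M.cE i f) := by
  intro k hk ω
  exact hM.pre i k (hij.trans hk) f hf ⟨C, hC⟩ ω

theorem cE_meas (hM : M.Ok) (j : ℕ) {f : Ω → ℝ} (hf : Measurable f) : Measurable (M.cE j f) := by
  have := hM.markov j
  exact (hf.stronglyMeasurable.integral_kernel (κ := M.κ j)).measurable

theorem cE_bound (hM : M.Ok) (j : ℕ) {f : Ω → ℝ} {C : ℝ} (hf : ∀ ω, |f ω| ≤ C) (ω : Ω) : |M.cE j f ω| ≤ C := by
  have := hM.markov j
  have h := norm_integral_le_of_norm_le_const (μ := M.κ j ω) (f := f) (C := C)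
    (Filter.Eventually.of_forall fun x => by simpa using hf x)
  simpa [cE] using h

/-- integral against `μ.bind κ` -/
theorem cm5k_integral_bind {E : Type} [NormedAddCommGroup E] [NormedSpace ℝ E] (μ : Measure Ω) (κ : Kernel Ω Ω)
    {f : Ω → E} (hf : Integrable f (μ.bind κ)) : ∫ z, f z ∂(μ.bind κ) = ∫ x, ∫ y, f y ∂(κ x) ∂μ := by
  rw [Measure.comp_eq_comp_const_apply] at hf ⊢
  rw [Kernel.integral_comp hf]
  simp

/-- a bounded measurable function is integrable for a finite measure -/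
theorem cm5k_integrable {α E : Type} [MeasurableSpace α] [NormedAddCommGroup E] (μ : Measure α) [IsFiniteMeasure μ]
    {f : α → E} (hf : AEStronglyMeasurable f μ) {C : ℝ} (hC : ∀ a, ‖f a‖ ≤ C) : Integrable f μ :=
  Integrable.of_bound hf C (Filter.Eventually.of_forall hC)

theorem cE_tower (hM : M.Ok) {i j : ℕ} (hij : i ≤ j) {f : Ω → ℝ} (hf : Measurable f) {C : ℝ} (hC : ∀ ω, |f ω| ≤ C) :
    M.cE i (M.cE j f) = M.cE i f := by
  funext ω
  have := hM.markov i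
  have := hM.markov j
  have hi : Integrable f ((M.κ i ω).bind (M.κ j)) := by
    rw [hM.tower i j hij ω]
    exact cm5k_integrable _ hf.aestronglyMeasurable (fun a => by simpa using hC a)
  have h := cm5k_integral_bind (M.κ i ω) (M.κ j) hi
  rw [hM.tower i j hij ω] at h
  simp only [cE]
  exact h.symm

/-- pull out a prefix factor -/
theorem cE_mul_pre (hM : M.Ok) {j : ℕ} {f g : Ω → ℝ} (hg : M.Pre j g) (ω : Ω) :
    M.cE j (fun ω' => g ω' * f ω') ω = g ω * M.cE j f ω := by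
  simp only [cE]
  rw [← integral_const_mul]
  apply integral_congr_ae
  filter_upwards [hg j le_rfl ω] with ω' e
  rw [e]

theorem mart (hM : M.Ok) {i j : ℕ} (hij : j ≤ i) (hj : j ≤ M.L) (hi : i ≤ M.L + 1) (ω : Ω) :
    ∫ ω', M.X i ω' ∂(M.κ j ω) = M.X j ω := by
  have := hM.markov j
  rcases Nat.lt_or_ge M.L i with hLi | hLi
  · have : i = M.L + 1 := by omega
    subst this
    exact (hM.mean j hj ω).symm
  · have := hM.markov i
    have hi' : Integrable (M.X (M.L + 1)) ((M.κ j ω).bind (M.κ i)) := by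
      rw [hM.tower j i hij ω]
      exact cm5k_integrable _ (hM.meas _).aestronglyMeasurable (hM.norm_le _)
    have h := cm5k_integral_bind (M.κ j ω) (M.κ i) hi'
    rw [hM.tower j i hij ω] at h
    rw [hM.mean j hj ω, h]
    apply integral_congr_ae
    exact Filter.Eventually.of_forall fun ω' => hM.mean i hLi ω'

/-- invariance of `P` -/
theorem int_cE (hM : M.Ok) (j : ℕ) {f : Ω → ℝ} (hf : Measurable f) {C : ℝ} (hC : ∀ ω, |f ω| ≤ C) :
    ∫ ω, M.cE j f ω ∂M.P = ∫ ω, f ω ∂M.P := by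
  have := hM.prob
  have := hM.markov j
  have hb : ∀ a, ‖f a‖ ≤ C := fun a => by simpa using hC a
  have h1 : Integrable (fun z : Ω × Ω => f z.1) (M.P ⊗ₘ M.κ j) :=
    cm5k_integrable _ (hf.comp measurable_fst).aestronglyMeasurable (fun z => hb z.1)
  have h2 : Integrable (fun z : Ω × Ω => f z.2) (M.P ⊗ₘ M.κ j) :=
    cm5k_integrable _ (hf.comp measurable_snd).aestronglyMeasurable (fun z => hb z.2)
  have e1 := Measure.integral_compProd h1
  have e2 := Measure.integral_compProd h2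
  have e3 : ∫ z, f z.1 ∂(M.P ⊗ₘ M.κ j) = ∫ z, f z.2 ∂(M.P ⊗ₘ M.κ j) := by
    conv_lhs => rw [← hM.symm j]
    have hm : AEStronglyMeasurable (fun z : Ω × Ω => f z.1) ((M.P ⊗ₘ M.κ j).map Prod.swap) :=
      (hf.comp measurable_fst).aestronglyMeasurable
    rw [integral_map measurable_swap.aemeasurable hm]
    rfl
  simp only [integral_const, probReal_univ, smul_eq_mul, one_mul] at e1
  simp only [cE]
  rw [← e2, ← e3, e1]

/-- the test identity -/
theorem int_mul_cE (hM : M.Ok) {j : ℕ} {f g : Ω → ℝ} (hf : Measurable f) (hgm : Measurable g) (hg : M.Pre j g) {C : ℝ}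
    (hC : ∀ ω, |f ω| ≤ C) (hC' : ∀ ω, |g ω| ≤ C) :
    ∫ ω, g ω * M.cE j f ω ∂M.P = ∫ ω, g ω * f ω ∂M.P := by
  have h1 : (fun ω => g ω * M.cE j f ω) = M.cE j (fun ω' => g ω' * f ω') := by
    funext ω; exact (cE_mul_pre hM hg ω).symm
  rw [h1]
  refine int_cE hM j (hgm.mul hf) (C := C * C) fun ω => ?_
  rw [abs_mul]
  exact mul_le_mul (hC' ω) (hC ω) (abs_nonneg _) ((abs_nonneg _).trans (hC' ω))

theorem P2_prob (hM : M.Ok) (j : ℕ) : IsProbabilityMeasure (M.P2 j) := by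
  have := hM.prob
  have := hM.markov j
  unfold P2
  infer_instance

theorem int_P2 (hM : M.Ok) (j : ℕ) {F : Ω × Ω → ℝ} (hF : Measurable F) {C : ℝ} (hC : ∀ z, |F z| ≤ C) :
    ∫ z, F z ∂(M.P2 j) = ∫ ω, ∫ ω', F (ω, ω') ∂(M.κ j ω) ∂M.P := by
  have := hM.prob
  have := hM.markov j
  unfold P2
  exact Measure.integral_compProd
    (cm5k_integrable _ hF.aestronglyMeasurable (fun z => by simpa using hC z))

theorem int_P2_swap (hM : M.Ok) (j : ℕ) {F : Ω × Ω → ℝ} (hF : Measurable F) :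
    ∫ z, F z.swap ∂(M.P2 j) = ∫ z, F z ∂(M.P2 j) := by
  unfold P2
  conv_rhs => rw [← hM.symm j]
  rw [integral_map measurable_swap.aemeasurable hF.aestronglyMeasurable]

theorem cmN_P2_swap (hM : M.Ok) (j : ℕ) {F : Ω × Ω → ℝ} (hF : Measurable F) (p : ℕ) :
    cmN (M.P2 j) p (fun z => F z.swap) = cmN (M.P2 j) p F := by
  unfold P2 cmN
  conv_rhs => rw [← hM.symm j]
  rw [eLpNorm_map_measure hF.aestronglyMeasurable measurable_swap.aemeasurable]
  rfl

theorem cmN_P2_fst (hM : M.Ok) (j : ℕ) {G : Type} [NormedAddCommGroup G] [MeasurableSpace G] [BorelSpace G] [SecondCountableTopology G] {f : Ω → G} (hf : Measurable f)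
    (p : ℕ) : cmN (M.P2 j) p (fun z => f z.1) = cmN M.P p f := by
  have := hM.prob
  have := hM.markov j
  unfold P2 cmN
  have h : (M.P ⊗ₘ M.κ j).map Prod.fst = M.P := Measure.fst_compProd M.P (M.κ j)
  conv_rhs => rw [← h]
  rw [eLpNorm_map_measure hf.aestronglyMeasurable measurable_fst.aemeasurable]
  rfl

theorem cmN_P2_snd (hM : M.Ok) (j : ℕ) {G : Type} [NormedAddCommGroup G] [MeasurableSpace G] [BorelSpace G] [SecondCountableTopology G] {f : Ω → G} (hf : Measurable f)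
    (p : ℕ) : cmN (M.P2 j) p (fun z => f z.2) = cmN M.P p f := by
  have := hM.prob
  have := hM.markov j
  unfold P2 cmN
  have h : (M.P ⊗ₘ M.κ j).map Prod.snd = M.P := by
    conv_lhs => rw [← hM.symm j]
    rw [Measure.map_map measurable_snd measurable_swap]
    exact Measure.fst_compProd M.P (M.κ j)
  conv_rhs => rw [← h]
  rw [eLpNorm_map_measure hf.aestronglyMeasurable measurable_snd.aemeasurable]
  rfl

/-- prefix functions agree on the two leaves -/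
theorem P2_pre (hM : M.Ok) {j : ℕ} {β : Type} [MeasurableSpace β] [AddGroup β] [MeasurableSingletonClass β] [MeasurableSub₂ β]
    {g : Ω → β} (hgm : Measurable g) (hg : M.Pre j g) : ∀ᵐ z ∂(M.P2 j), g z.2 = g z.1 := by
  have := hM.prob
  have := hM.markov j
  unfold P2
  refine Measure.ae_compProd_of_ae_ae ?_ (Filter.Eventually.of_forall fun ω => hg j le_rfl ω)
  exact measurableSet_eq_fun (hgm.comp measurable_snd) (hgm.comp measurable_fst)

/-- a pointwise conditional moment bound integrates -/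
theorem cmN_P2_le (hM : M.Ok) (j : ℕ) {F : Ω × Ω → ℝ} (hF : Measurable F) {C : ℝ} (hC : ∀ z, |F z| ≤ C) {g : Ω → ℝ} (hg : Measurable g)
    (hgC : ∀ ω, |g ω| ≤ C) (hg0 : ∀ ω, 0 ≤ g ω) (p : ℕ) (hp : 1 ≤ p) (B : ℝ) (hB : 0 ≤ B)
    (h : ∀ ω, ∫ ω', |F (ω, ω')| ^ p ∂(M.κ j ω) ≤ (B * g ω) ^ p) : cmN (M.P2 j) p F ≤ B * cmN M.P p g := by
  have := hM.prob
  have := hM.markov j
  have := P2_prob hM j
  have hFB : CmBM (M.P2 j) F := ⟨hF.aestronglyMeasurable, C, fun z => by simpa using hC z⟩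
  have hgB : CmBM M.P g := ⟨hg.aestronglyMeasurable, C, fun z => by simpa using hgC z⟩
  refine cmN_le_of_int_le hFB p hp _ (mul_nonneg hB (cmN_nonneg _ _ _)) ?_
  rw [mul_pow, cmN_pow_eq hgB p hp]
  have hC0 : 0 ≤ C := (abs_nonneg _).trans (hgC (Classical.choice (by
    have : Nonempty Ω := by
      by_contra hne
      rw [not_nonempty_iff] at hne
      have h0 : M.P = 0 := Measure.eq_zero_of_isEmpty _
      exact (IsProbabilityMeasure.ne_zero M.P) h0
    exact this)))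
  have e1 : ∫ z, ‖F z‖ ^ p ∂(M.P2 j) = ∫ ω, ∫ ω', ‖F (ω, ω')‖ ^ p ∂(M.κ j ω) ∂M.P :=
    int_P2 hM j (F := fun z => ‖F z‖ ^ p) (hF.norm.pow_const p) (C := C ^ p) (fun z => by
      rw [abs_of_nonneg (by positivity)]
      exact pow_le_pow_left₀ (norm_nonneg _) (by simpa using hC z) p)
  rw [e1, ← integral_const_mul]
  refine integral_mono_of_nonneg (Filter.Eventually.of_forall fun ω => integral_nonneg fun _ => by positivity)
    ((cm5k_integrable _ (hg.norm.pow_const p).aestronglyMeasurable (C := C ^ p) (fun a => by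
      rw [Real.norm_of_nonneg (by positivity)]
      exact pow_le_pow_left₀ (norm_nonneg _) (by simpa using hgC a) p)).const_mul _)
    (Filter.Eventually.of_forall fun ω => ?_)
  have := h ω
  simp only [Real.norm_eq_abs]
  rw [mul_pow] at this
  rw [abs_of_nonneg (hg0 ω)]
  exact this

/-- Jensen for the `p`-th power under a probability measure -/
theorem cm5k_jensen {α : Type} [MeasurableSpace α] (μ : Measure α) [IsProbabilityMeasure μ] {f : α → ℝ}
    (hf : AEStronglyMeasurable f μ) {C : ℝ} (hC : ∀ a, |f a| ≤ C) (p : ℕ) (hp : 1 ≤ p) :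
    |∫ a, f a ∂μ| ^ p ≤ ∫ a, |f a| ^ p ∂μ := by
  have hB : CmBM μ f := ⟨hf, C, fun a => by simpa using hC a⟩
  have h1 := cmN_exp_mono hB (le_refl 1) hp
  have e1 := cmN_pow_eq hB 1 le_rfl
  have ep := cmN_pow_eq hB p hp
  simp only [pow_one, Real.norm_eq_abs] at e1 ep
  rw [← ep]
  refine pow_le_pow_left₀ (abs_nonneg _) ?_ p
  refine le_trans ?_ h1
  rw [e1]
  exact abs_integral_le_integral_abs

/-- conditional Jensen -/
theorem cmN_cE_le (hM : M.Ok) (j : ℕ) {f : Ω → ℝ} (hf : Measurable f) {C : ℝ} (hC : ∀ ω, |f ω| ≤ C) (p : ℕ) (hp : 1 ≤ p) :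
    cmN M.P p (M.cE j f) ≤ cmN M.P p f := by
  have := hM.prob
  have := hM.markov j
  have hfB : CmBM M.P f := ⟨hf.aestronglyMeasurable, C, fun z => by simpa using hC z⟩
  have hcB : CmBM M.P (M.cE j f) := ⟨(cE_meas hM j hf).aestronglyMeasurable, C, fun z => by
    simpa using cE_bound hM j hC z⟩
  refine cmN_le_of_int_le hcB p hp _ (cmN_nonneg _ _ _) ?_
  rw [cmN_pow_eq hfB p hp]
  have hpb : ∀ ω, |‖f ω‖ ^ p| ≤ |C| ^ p := fun ω => by
    rw [abs_of_nonneg (by positivity)]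
    exact pow_le_pow_left₀ (norm_nonneg _) (by simpa using (hC ω).trans (le_abs_self C)) p
  rw [← int_cE hM j (f := fun ω => ‖f ω‖ ^ p) (hf.norm.pow_const p) hpb]
  refine integral_mono_of_nonneg (Filter.Eventually.of_forall fun ω => by positivity)
    (cm5k_integrable _ (cE_meas hM j (hf.norm.pow_const p)).aestronglyMeasurable (C := |C| ^ p)
      (fun a => by simpa using cE_bound hM j hpb a))
    (Filter.Eventually.of_forall fun ω => ?_)
  have := cm5k_jensen (M.κ j ω) hf.aestronglyMeasurable hC p hp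
  simpa [cE] using this

/-- conditional Jensen on the two-leaf law: integrate out the second leaf -/
theorem cmN_int_snd_le (hM : M.Ok) (j : ℕ) {F : Ω × Ω → ℝ} (hF : Measurable F) {C : ℝ} (hC : ∀ z, |F z| ≤ C) (p : ℕ) (hp : 1 ≤ p) :
    cmN M.P p (fun ω => ∫ ω', F (ω, ω') ∂(M.κ j ω)) ≤ cmN (M.P2 j) p F := by
  have := hM.prob
  have := hM.markov j
  have := P2_prob hM j
  have hFB : CmBM (M.P2 j) F := ⟨hF.aestronglyMeasurable, C, fun z => by simpa using hC z⟩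
  have hm : Measurable (fun ω => ∫ ω', F (ω, ω') ∂(M.κ j ω)) :=
    (hF.stronglyMeasurable.integral_kernel_prod_right' (κ := M.κ j)).measurable
  have hb : ∀ ω, ‖∫ ω', F (ω, ω') ∂(M.κ j ω)‖ ≤ C := fun ω => by
    have h := norm_integral_le_of_norm_le_const (μ := M.κ j ω) (f := fun ω' => F (ω, ω')) (C := C)
      (Filter.Eventually.of_forall fun x => by simpa using hC (ω, x))
    simpa using h
  have hcB : CmBM M.P (fun ω => ∫ ω', F (ω, ω') ∂(M.κ j ω)) := ⟨hm.aestronglyMeasurable, C, hb⟩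
  refine cmN_le_of_int_le hcB p hp _ (cmN_nonneg _ _ _) ?_
  rw [cmN_pow_eq hFB p hp]
  have hpb : ∀ z, |‖F z‖ ^ p| ≤ |C| ^ p := fun z => by
    rw [abs_of_nonneg (by positivity)]
    exact pow_le_pow_left₀ (norm_nonneg _) (by simpa using (hC z).trans (le_abs_self C)) p
  rw [int_P2 hM j (F := fun z => ‖F z‖ ^ p) (hF.norm.pow_const p) hpb]
  have hm2 : Measurable (fun ω => ∫ ω', ‖F (ω, ω')‖ ^ p ∂(M.κ j ω)) :=
    ((hF.norm.pow_const p).stronglyMeasurable.integral_kernel_prod_right' (κ := M.κ j)).measurable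
  refine integral_mono_of_nonneg (Filter.Eventually.of_forall fun ω => by positivity)
    (cm5k_integrable _ hm2.aestronglyMeasurable (C := |C| ^ p) (fun ω => by
      have h := norm_integral_le_of_norm_le_const (μ := M.κ j ω) (f := fun ω' => ‖F (ω, ω')‖ ^ p)
        (C := |C| ^ p) (Filter.Eventually.of_forall fun x => by simpa using hpb (ω, x))
      simpa using h))
    (Filter.Eventually.of_forall fun ω => ?_)
  have := cm5k_jensen (M.κ j ω) (f := fun ω' => F (ω, ω'))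
    (hF.comp measurable_prodMk_left).aestronglyMeasurable (fun a => hC (ω, a)) p hp
  simpa using this

theorem cm5k_intX (hM : M.Ok) (i j : ℕ) (ω : Ω) : Integrable (M.X i) (M.κ j ω) := by
  have := hM.markov j
  exact cm5k_integrable _ (hM.meas i).aestronglyMeasurable (hM.norm_le i)

/-- bounded measurable real functions are integrable for every `κ j ω` -/
theorem cm5k_intK (hM : M.Ok) (j : ℕ) (ω : Ω) {f : Ω → ℝ} (hf : Measurable f) {C : ℝ} (hC : ∀ a, |f a| ≤ C) :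
    Integrable f (M.κ j ω) := by
  have := hM.markov j
  exact cm5k_integrable _ hf.aestronglyMeasurable (fun a => by simpa using hC a)

theorem cm5k_sq_le (hM : M.Ok) (i : ℕ) (ω : Ω) : |‖M.X i ω‖ ^ 2| ≤ 1 := by
  rw [abs_of_nonneg (by positivity)]
  exact pow_le_one₀ (norm_nonneg _) (hM.norm_le i ω)

theorem cm5k_inner_le (hM : M.Ok) (i : ℕ) (v : EuclideanSpace ℝ (Fin n)) (ω : Ω) : |inner ℝ v (M.X i ω)| ≤ ‖v‖ := by
  refine (abs_real_inner_le_norm _ _).trans ?_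
  have := hM.norm_le i ω
  nlinarith [norm_nonneg v]

/-- `E_j ⟨v, X_i⟩ = ⟨v, X_j⟩` -/
theorem cm5k_inner (hM : M.Ok) {i j : ℕ} (hij : j ≤ i) (hj : j ≤ M.L) (hi : i ≤ M.L + 1)
    (v : EuclideanSpace ℝ (Fin n)) (ω : Ω) :
    ∫ ω', inner ℝ v (M.X i ω') ∂(M.κ j ω) = inner ℝ v (M.X j ω) := by
  rw [integral_inner (cm5k_intX hM i j ω), mart hM hij hj hi]

theorem cm5k_incr_sq (hM : M.Ok) {i j : ℕ} (hij : j ≤ i) (hj : j ≤ M.L) (hi : i ≤ M.L + 1) (ω : Ω) :
    M.cE j (fun ω' => ‖M.X i ω' - M.X j ω'‖ ^ 2) ω = M.cE j (fun ω' => ‖M.X i ω'‖ ^ 2) ω - ‖M.X j ω‖ ^ 2 := by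
  have := hM.markov j
  simp only [cE]
  have hpre := X_pre hM (le_refl j) hj j le_rfl ω
  have e1 : ∫ ω', ‖M.X i ω' - M.X j ω'‖ ^ 2 ∂(M.κ j ω)
      = ∫ ω', ((‖M.X i ω'‖ ^ 2 - 2 * inner ℝ (M.X j ω) (M.X i ω')) + ‖M.X j ω‖ ^ 2) ∂(M.κ j ω) := by
    apply integral_congr_ae
    filter_upwards [hpre] with ω' e
    rw [e, norm_sub_sq_real, real_inner_comm]
  have i1 : Integrable (fun ω' => ‖M.X i ω'‖ ^ 2) (M.κ j ω) :=
    cm5k_intK hM j ω ((hM.meas i).norm.pow_const 2) (cm5k_sq_le hM i)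
  have i2 : Integrable (fun ω' => 2 * inner ℝ (M.X j ω) (M.X i ω')) (M.κ j ω) :=
    (cm5k_intK hM j ω (measurable_const.inner (hM.meas i)) (cm5k_inner_le hM i _)).const_mul 2
  have i12 : Integrable (fun ω' => ‖M.X i ω'‖ ^ 2 - 2 * inner ℝ (M.X j ω) (M.X i ω')) (M.κ j ω) := i1.sub i2
  rw [e1, integral_add i12 (integrable_const _), integral_sub i1 i2, integral_const_mul,
    cm5k_inner hM hij hj hi, integral_const, real_inner_self_eq_norm_sq]
  simp only [probReal_univ, smul_eq_mul, one_mul]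
  ring

/-- `‖X_j‖² ≤ E_j ‖X_i‖²` -/
theorem cm5k_sq_sub (hM : M.Ok) {i j : ℕ} (hij : j ≤ i) (hj : j ≤ M.L) (hi : i ≤ M.L + 1) (ω : Ω) :
    ‖M.X j ω‖ ^ 2 ≤ M.cE j (fun ω' => ‖M.X i ω'‖ ^ 2) ω := by
  have h := cm5k_incr_sq hM hij hj hi ω
  have h0 : 0 ≤ M.cE j (fun ω' => ‖M.X i ω' - M.X j ω'‖ ^ 2) ω := integral_nonneg fun _ => by positivity
  linarith

/-- `E_j ⟨y, X_j⟩ = ‖X_j‖²` -/
theorem cm5k_yX (hM : M.Ok) {i j : ℕ} (hij : i ≤ j) (hj : j ≤ M.L) (ω : Ω) :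
    M.cE j (fun ω' => inner ℝ (M.y ω') (M.X i ω')) ω = inner ℝ (M.X j ω) (M.X i ω) := by
  simp only [cE]
  have hpre := X_pre hM hij (hij.trans hj) j le_rfl ω
  have e1 : ∫ ω', inner ℝ (M.y ω') (M.X i ω') ∂(M.κ j ω) = ∫ ω', inner ℝ (M.X i ω) (M.X (M.L + 1) ω') ∂(M.κ j ω) := by
    apply integral_congr_ae
    filter_upwards [hpre] with ω' e
    rw [e, real_inner_comm]; rfl
  rw [e1, cm5k_inner hM (by omega) hj le_rfl, real_inner_comm]

theorem cm5k_yX_meas (hM : M.Ok) (i : ℕ) : Measurable (fun ω' => inner ℝ (M.y ω') (M.X i ω')) :=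
  (hM.meas _).inner (hM.meas i)

theorem cm5k_yX_le (hM : M.Ok) (i : ℕ) (ω : Ω) : |inner ℝ (M.y ω) (M.X i ω)| ≤ 1 :=
  (cm5k_inner_le hM i _ ω).trans (hM.norm_le _ ω)

theorem cm5k_Lf_cE (hM : M.Ok) (i j : ℕ) (ω : Ω) :
    M.cE j (M.Lf i) ω = M.cE j (fun ω' => inner ℝ (M.y ω') (M.X i ω')) ω - M.cE j (fun ω' => ‖M.X i ω'‖ ^ 2) ω / 2 := by
  simp only [cE, Lf]
  rw [integral_sub (cm5k_intK hM j ω (cm5k_yX_meas hM i) (cm5k_yX_le hM i))
    ((cm5k_intK hM j ω ((hM.meas i).norm.pow_const 2) (cm5k_sq_le hM i)).div_const 2), integral_div]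

theorem S_mono (hM : M.Ok) {i j : ℕ} (hij : i ≤ j) (hj : j ≤ M.L + 1) : M.S i ≤ M.S j := by
  have := hM.prob
  rcases hij.eq_or_lt with rfl | hlt
  · exact le_rfl
  have hi : i ≤ M.L := by omega
  unfold S
  rw [← int_cE hM i (f := fun ω => ‖M.X j ω‖ ^ 2) ((hM.meas j).norm.pow_const 2) (cm5k_sq_le hM j)]
  refine integral_mono
    (cm5k_integrable _ ((hM.meas i).norm.pow_const 2).aestronglyMeasurable (C := 1)
      (fun a => by simpa using cm5k_sq_le hM i a))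
    (cm5k_integrable _ (cE_meas hM i ((hM.meas j).norm.pow_const 2)).aestronglyMeasurable (C := 1)
      (fun a => by simpa using cE_bound hM i (cm5k_sq_le hM j) a))
    (fun ω => cm5k_sq_sub hM hij hi hj ω)

theorem S_nonneg (M : CmPath n Ω) (j : ℕ) : 0 ≤ M.S j := by
  exact integral_nonneg fun _ => by positivity

theorem int_Lf (hM : M.Ok) {j : ℕ} (hj : j ≤ M.L) : ∫ ω, M.Lf j ω ∂M.P = M.S j / 2 := by
  have := hM.prob
  have hm : Measurable (M.Lf j) := (cm5k_yX_meas hM j).sub (((hM.meas j).norm.pow_const 2).div_const 2)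
  have hb : ∀ ω, |M.Lf j ω| ≤ 2 := fun ω => by
    have h1 := cm5k_yX_le hM j ω
    have h2 := cm5k_sq_le hM j ω
    unfold Lf
    rw [abs_le] at h1 h2 ⊢
    constructor <;> linarith [h1.1, h1.2, h2.1, h2.2]
  rw [← int_cE hM j hm hb]
  have e : M.cE j (M.Lf j) = fun ω => ‖M.X j ω‖ ^ 2 / 2 := by
    funext ω
    rw [cm5k_Lf_cE hM j j ω, cm5k_yX hM le_rfl hj ω, real_inner_self_eq_norm_sq]
    have hpre := X_pre hM (le_refl j) hj j le_rfl ω
    have e2 : M.cE j (fun ω' => ‖M.X j ω'‖ ^ 2) ω = ‖M.X j ω‖ ^ 2 := by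
      have := hM.markov j
      simp only [cE]
      rw [integral_congr_ae (g := fun _ => ‖M.X j ω‖ ^ 2) (by
        filter_upwards [hpre] with ω' e; rw [e])]
      simp
    rw [e2]; ring
  rw [e, integral_div]; rfl

/-- `2 E_j L_i = E_j |X_i|^2 ≥ |X_j|^2` for `i ≥ j` -/
theorem cE_Lf_ge (hM : M.Ok) {i j : ℕ} (hij : j ≤ i) (hi : i ≤ M.L) (ω : Ω) : ‖M.X j ω‖ ^ 2 ≤ 2 * M.cE j (M.Lf i) ω := by
  rw [cm5k_Lf_cE hM i j ω]
  have e1 : M.cE j (fun ω' => inner ℝ (M.y ω') (M.X i ω')) ω = M.cE j (fun ω' => ‖M.X i ω'‖ ^ 2) ω := by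
    rw [← cE_tower hM hij (cm5k_yX_meas hM i) (cm5k_yX_le hM i)]
    congr 1
    funext ω'
    rw [cm5k_yX hM le_rfl hi ω', real_inner_self_eq_norm_sq]
  rw [e1]
  have := cm5k_sq_sub hM hij (hij.trans hi) (by omega) ω
  linarith

/-- `2 E_j L_i = |X_j|^2 - |X_j - X_i|^2` for `i ≤ j` -/
theorem cE_Lf_le (hM : M.Ok) {i j : ℕ} (hij : i ≤ j) (hj : j ≤ M.L) (ω : Ω) :
    2 * M.cE j (M.Lf i) ω = ‖M.X j ω‖ ^ 2 - ‖M.X j ω - M.X i ω‖ ^ 2 := by
  rw [cm5k_Lf_cE hM i j ω, cm5k_yX hM hij hj ω]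
  have hpre := X_pre hM hij (hij.trans hj) j le_rfl ω
  have e2 : M.cE j (fun ω' => ‖M.X i ω'‖ ^ 2) ω = ‖M.X i ω‖ ^ 2 := by
    have := hM.markov j
    simp only [cE]
    rw [integral_congr_ae (g := fun _ => ‖M.X i ω‖ ^ 2) (by
      filter_upwards [hpre] with ω' e; rw [e])]
    simp
  rw [e2, norm_sub_sq_real]
  ring

/-- orthogonality: `E_j |X_i - X_j|^2 = E_j |X_i|^2 - |X_j|^2` -/
theorem cE_incr_sq (hM : M.Ok) {i j : ℕ} (hij : j ≤ i) (hj : j ≤ M.L) (hi : i ≤ M.L + 1) (ω : Ω) :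
    M.cE j (fun ω' => ‖M.X i ω' - M.X j ω'‖ ^ 2) ω = M.cE j (fun ω' => ‖M.X i ω'‖ ^ 2) ω - ‖M.X j ω‖ ^ 2 := by
  exact cm5k_incr_sq hM hij hj hi ω

theorem cm5k_diff_meas (hM : M.Ok) (a b : ℕ) (u : EuclideanSpace ℝ (Fin n)) :
    Measurable (fun ω' => inner ℝ u (M.X a ω' - M.X b ω')) :=
  measurable_const.inner ((hM.meas a).sub (hM.meas b))

theorem cm5k_diff_le (hM : M.Ok) (a b : ℕ) (u : EuclideanSpace ℝ (Fin n)) (ω' : Ω) :
    |inner ℝ u (M.X a ω' - M.X b ω')| ≤ 2 * ‖u‖ := by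
  refine (abs_real_inner_le_norm _ _).trans ?_
  have h1 : ‖M.X a ω' - M.X b ω'‖ ≤ 2 := by
    refine (norm_sub_le _ _).trans ?_
    linarith [hM.norm_le a ω', hM.norm_le b ω']
  nlinarith [norm_nonneg u]

/-- martingale increments are orthogonal to the past -/
theorem cm5k_cross (hM : M.Ok) {j c k : ℕ} (hjc : j ≤ c) (hck : c ≤ k) (hk : k ≤ M.L)
    (u : EuclideanSpace ℝ (Fin n)) (ω : Ω) :
    ∫ ω', inner ℝ u (M.X k ω' - M.X c ω') * inner ℝ u (M.X (k + 1) ω' - M.X k ω') ∂(M.κ j ω) = 0 := by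
  obtain ⟨a, ha⟩ : ∃ a : Ω → ℝ, a = fun ω' => inner ℝ u (M.X k ω' - M.X c ω') := ⟨_, rfl⟩
  obtain ⟨b, hb⟩ : ∃ b : Ω → ℝ, b = fun ω' => inner ℝ u (M.X (k + 1) ω' - M.X k ω') := ⟨_, rfl⟩
  have ham : Measurable a := ha ▸ cm5k_diff_meas hM k c u
  have hbm : Measurable b := hb ▸ cm5k_diff_meas hM (k + 1) k u
  have hab : ∀ ω', |a ω'| ≤ 2 * ‖u‖ := fun ω' => by rw [ha]; exact cm5k_diff_le hM k c u ω'
  have hbb : ∀ ω', |b ω'| ≤ 2 * ‖u‖ := fun ω' => by rw [hb]; exact cm5k_diff_le hM (k + 1) k u ω'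
  have hpre : M.Pre k a := by
    rw [ha]
    exact Pre.comp₂ (X_pre hM le_rfl hk) (X_pre hM hck (hck.trans hk)) (fun x y => inner ℝ u (x - y))
  have hb0 : ∀ ω', M.cE k b ω' = 0 := by
    intro ω'
    rw [hb]
    simp only [cE, inner_sub_right]
    rw [integral_sub (cm5k_intK hM k ω' (measurable_const.inner (hM.meas _)) (cm5k_inner_le hM _ u))
      (cm5k_intK hM k ω' (measurable_const.inner (hM.meas _)) (cm5k_inner_le hM _ u)),
      cm5k_inner hM (Nat.le_succ k) hk (by omega), cm5k_inner hM le_rfl hk (by omega)]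
    ring
  have h1 : M.cE j (M.cE k (fun ω' => a ω' * b ω')) = M.cE j (fun ω' => a ω' * b ω') :=
    cE_tower hM (hjc.trans hck) (ham.mul hbm) (C := (2 * ‖u‖) * (2 * ‖u‖)) (fun ω' => by
      rw [abs_mul]
      exact mul_le_mul (hab ω') (hbb ω') (abs_nonneg _) ((abs_nonneg _).trans (hab ω')))
  have h2 : M.cE k (fun ω' => a ω' * b ω') = fun _ => 0 := by
    funext ω'; rw [cE_mul_pre hM hpre, hb0, mul_zero]
  have h3 := congrFun h1 ω
  rw [h2] at h3
  simp only [cE, integral_zero] at h3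
  rw [ha, hb] at h3
  exact h3.symm

/-- block orthogonality in a fixed direction: for `j ≤ c ≤ c'` -/
theorem cE_block (hM : M.Ok) {j c c' : ℕ} (hjc : j ≤ c) (hcc : c ≤ c') (hc' : c' ≤ M.L + 1) (hj : j ≤ M.L)
    (u : EuclideanSpace ℝ (Fin n)) (ω : Ω) :
    ∫ ω', ∑ ν ∈ Finset.Ioc c c', inner ℝ u (M.X ν ω' - M.X (ν - 1) ω') ^ 2 ∂(M.κ j ω)
      = ∫ ω', inner ℝ u (M.X c' ω' - M.X c ω') ^ 2 ∂(M.κ j ω) := by
  induction c', hcc using Nat.le_induction with
  | base => simp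
  | succ k hck ih =>
    have hk : k ≤ M.L := by omega
    have ih' := ih (by omega)
    have hsq : ∀ (a b : ℕ), Integrable (fun ω' => inner ℝ u (M.X a ω' - M.X b ω') ^ 2) (M.κ j ω) := fun a b =>
      cm5k_intK hM j ω ((cm5k_diff_meas hM a b u).pow_const 2) (C := (2 * ‖u‖) ^ 2) (fun ω' => by
        rw [abs_pow]; exact pow_le_pow_left₀ (abs_nonneg _) (cm5k_diff_le hM a b u ω') 2)
    have hsum : Integrable (fun ω' => ∑ ν ∈ Finset.Ioc c k, inner ℝ u (M.X ν ω' - M.X (ν - 1) ω') ^ 2) (M.κ j ω) :=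
      integrable_finsetSum _ fun ν _ => hsq ν (ν - 1)
    have hcr : Integrable (fun ω' => inner ℝ u (M.X k ω' - M.X c ω') * inner ℝ u (M.X (k + 1) ω' - M.X k ω')) (M.κ j ω) :=
      cm5k_intK hM j ω ((cm5k_diff_meas hM k c u).mul (cm5k_diff_meas hM (k + 1) k u)) (C := (2 * ‖u‖) * (2 * ‖u‖))
        (fun ω' => by
          rw [abs_mul]
          exact mul_le_mul (cm5k_diff_le hM _ _ u ω') (cm5k_diff_le hM _ _ u ω') (abs_nonneg _)
            ((abs_nonneg _).trans (cm5k_diff_le hM k c u ω')))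
    have e1 : ∀ ω', ∑ ν ∈ Finset.Ioc c (k + 1), inner ℝ u (M.X ν ω' - M.X (ν - 1) ω') ^ 2
        = ∑ ν ∈ Finset.Ioc c k, inner ℝ u (M.X ν ω' - M.X (ν - 1) ω') ^ 2
          + inner ℝ u (M.X (k + 1) ω' - M.X k ω') ^ 2 := fun ω' => by
      rw [Finset.sum_Ioc_succ_top hck]; simp
    have e2 : ∀ ω', inner ℝ u (M.X (k + 1) ω' - M.X c ω') ^ 2
        = (inner ℝ u (M.X k ω' - M.X c ω') ^ 2
          + 2 * (inner ℝ u (M.X k ω' - M.X c ω') * inner ℝ u (M.X (k + 1) ω' - M.X k ω')))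
          + inner ℝ u (M.X (k + 1) ω' - M.X k ω') ^ 2 := fun ω' => by
      have : M.X (k + 1) ω' - M.X c ω' = (M.X k ω' - M.X c ω') + (M.X (k + 1) ω' - M.X k ω') := by abel
      rw [this, inner_add_right]; ring
    simp only [e1, e2]
    have hA : Integrable (fun ω' => inner ℝ u (M.X k ω' - M.X c ω') ^ 2
          + 2 * (inner ℝ u (M.X k ω' - M.X c ω') * inner ℝ u (M.X (k + 1) ω' - M.X k ω'))) (M.κ j ω) :=
      (hsq k c).add (hcr.const_mul 2)
    rw [integral_add hsum (hsq (k + 1) k), integral_add hA (hsq (k + 1) k),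
      integral_add (hsq k c) (hcr.const_mul 2), integral_const_mul, cm5k_cross hM hjc hck hk u ω, ih']
    ring

theorem W_meas (hM : M.Ok) (j : ℕ) : Measurable (M.W j) := by
  have := hM.markov j
  have hF : Measurable (fun z : Ω × Ω => ∑ ν ∈ Finset.Ioc j (M.L + 1),
      M.mass ν * inner ℝ (M.y z.1 - M.X j z.1) (M.X ν z.2 - M.X (ν - 1) z.2) ^ 2) := by
    refine Finset.measurable_fun_sum _ fun ν _ => ?_
    refine Measurable.const_mul ?_ _
    refine Measurable.pow_const ?_ 2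
    exact ((((hM.meas _).comp measurable_fst).sub ((hM.meas j).comp measurable_fst))).inner
      (((hM.meas ν).comp measurable_snd).sub ((hM.meas (ν - 1)).comp measurable_snd))
  exact (hF.stronglyMeasurable.integral_kernel_prod_right' (κ := M.κ j)).measurable

theorem W_nonneg (hM : M.Ok) (j : ℕ) (ω : Ω) : 0 ≤ M.W j ω := by
  refine integral_nonneg fun ω' => Finset.sum_nonneg fun ν _ => ?_
  have : 0 ≤ M.mass ν := hM.mass_zero ▸ hM.mass_mono (Nat.zero_le ν)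
  positivity

theorem W_le (hM : M.Ok) {j : ℕ} (hj : j ≤ M.L) (ω : Ω) : M.W j ω ≤ 16 := by
  have := hM.markov j
  obtain ⟨v, hv⟩ : ∃ v, v = M.y ω - M.X j ω := ⟨_, rfl⟩
  have hvn : ‖v‖ ≤ 2 := by
    rw [hv]
    refine (norm_sub_le _ _).trans ?_
    have h1 : ‖M.y ω‖ ≤ 1 := hM.norm_le _ ω
    linarith [hM.norm_le j ω]
  have hsq : ∀ (a b : ℕ), Integrable (fun ω' => inner ℝ v (M.X a ω' - M.X b ω') ^ 2) (M.κ j ω) := fun a b =>
    cm5k_intK hM j ω ((cm5k_diff_meas hM a b v).pow_const 2) (C := (2 * ‖v‖) ^ 2) (fun ω' => by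
      rw [abs_pow]; exact pow_le_pow_left₀ (abs_nonneg _) (cm5k_diff_le hM a b v ω') 2)
  unfold W
  rw [← hv]
  calc ∫ ω', ∑ ν ∈ Finset.Ioc j (M.L + 1), M.mass ν * inner ℝ v (M.X ν ω' - M.X (ν - 1) ω') ^ 2 ∂(M.κ j ω)
      ≤ ∫ ω', ∑ ν ∈ Finset.Ioc j (M.L + 1), inner ℝ v (M.X ν ω' - M.X (ν - 1) ω') ^ 2 ∂(M.κ j ω) := by
        refine integral_mono (integrable_finsetSum _ fun ν _ => (hsq ν (ν - 1)).const_mul _)
          (integrable_finsetSum _ fun ν _ => hsq ν (ν - 1)) (fun ω' => ?_)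
        refine Finset.sum_le_sum fun ν hν => ?_
        have h1 := (mass_mem hM (Finset.mem_Ioc.1 hν).2).2
        have h2 : 0 ≤ inner ℝ v (M.X ν ω' - M.X (ν - 1) ω') ^ 2 := by positivity
        nlinarith
    _ = ∫ ω', inner ℝ v (M.X (M.L + 1) ω' - M.X j ω') ^ 2 ∂(M.κ j ω) :=
        cE_block hM le_rfl (by omega) le_rfl hj v ω
    _ ≤ ∫ _, (16 : ℝ) ∂(M.κ j ω) := by
        refine integral_mono (hsq _ _) (integrable_const _) (fun ω' => ?_)
        have h1 := cm5k_diff_le hM (M.L + 1) j v ω'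
        have h2 : |inner ℝ v (M.X (M.L + 1) ω' - M.X j ω')| ≤ 4 := by linarith
        have h3 := pow_le_pow_left₀ (abs_nonneg _) h2 2
        rw [sq_abs] at h3
        simp only
        linarith
    _ = 16 := by simp

/-! ### Part D: martingale inequalities -/

/-- from the `p`-th power form to the norm form -/
theorem garsia_norm_form {α : Type} [MeasurableSpace α] {μ : Measure α} [IsFiniteMeasure μ] {f g : α → ℝ} (hf : CmBM μ f)
    (hg : CmBM μ g) (hf0 : ∀ a, 0 ≤ f a) (hg0 : ∀ a, 0 ≤ g a) (p : ℕ) (hp : 1 ≤ p) (c : ℝ) (hc : 0 ≤ c)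
    (h : ∫ a, f a ^ p ∂μ ≤ c ^ p * ∫ a, g a ^ p ∂μ) : cmN μ p f ≤ c * cmN μ p g := by
  apply cmN_le_of_int_le hf p hp _ (mul_nonneg hc (cmN_nonneg μ p g))
  rw [mul_pow, cmN_pow_eq hg p hp]
  simpa only [Real.norm_eq_abs, abs_of_nonneg (hf0 _), abs_of_nonneg (hg0 _)] using h

/-- Garsia: `‖∑ E_j z_j‖_p ≤ p ‖∑ z_j‖_p` for `z_j ≥ 0` (not adapted) -/
theorem garsia (hM : M.Ok) (N : ℕ) (z : ℕ → Ω → ℝ) (hz : ∀ j, Measurable (z j)) (hz0 : ∀ j ω, 0 ≤ z j ω) {C : ℝ}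
    (hC : ∀ j ω, z j ω ≤ C) (p : ℕ) (hp : 1 ≤ p) :
    cmN M.P p (fun ω => ∑ j ∈ Finset.range N, M.cE j (z j) ω) ≤ p * cmN M.P p (fun ω => ∑ j ∈ Finset.range N, z j ω) := by
  have := hM.prob
  obtain ⟨r, rfl⟩ : ∃ r, p = r + 1 := ⟨p - 1, by omega⟩
  have hzabs : ∀ j ω, |z j ω| ≤ C := fun j ω => by rw [abs_of_nonneg (hz0 j ω)]; exact hC j ω
  have hqm : ∀ j, Measurable (M.cE j (z j)) := fun j => cE_meas hM j (hz j)
  have hq0 : ∀ j ω, 0 ≤ M.cE j (z j) ω := fun j ω => integral_nonneg (fun _ => hz0 j _)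
  have hqBM : ∀ j, Kit164.BM M.P (M.cE j (z j)) := fun j =>
    ⟨(hqm j).aestronglyMeasurable, C, fun ω => cE_bound hM j (hzabs j) ω⟩
  have hzBM : ∀ j, Kit164.BM M.P (z j) := fun j => ⟨(hz j).aestronglyMeasurable, C, hzabs j⟩
  have hUBM : ∀ j, Kit164.BM M.P (fun ω => ∑ i ∈ Finset.range j, z i ω) := fun j => Kit164.BM.sum _ fun i _ => hzBM i
  have hABM : ∀ j, Kit164.BM M.P (fun ω => ∑ i ∈ Finset.range j, M.cE i (z i) ω) := fun j =>
    Kit164.BM.sum _ fun i _ => hqBM i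
  have key := Kit164.compensator_bound (μ := M.P) r (fun j ω => ∑ i ∈ Finset.range j, z i ω) (fun j => M.cE j (z j)) N
    hUBM hqBM (fun j ω => Finset.sum_nonneg fun i _ => hz0 i ω) hq0 (by
      intro j _
      obtain ⟨_, C', hC'⟩ := (hABM (j + 1)).pow r
      have h1 := int_mul_cE hM (j := j) (f := z j) (g := fun ω => (∑ i ∈ Finset.range (j + 1), M.cE i (z i) ω) ^ r)
        (hz j) ((Finset.measurable_sum _ fun i _ => hqm i).pow_const r)
        (Pre.comp (Pre.sum _ fun i hi => cE_pre hM (Nat.lt_succ_iff.mp (Finset.mem_range.mp hi)) (hz i) (hzabs i)) (· ^ r))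
        (C := max C C') (fun ω => (hzabs j ω).trans (le_max_left _ _)) (fun ω => (hC' ω).trans (le_max_right _ _))
      rw [h1]
      simp [Finset.sum_range_succ])
  have := garsia_norm_form (μ := M.P) (hABM N) (hUBM N) (fun ω => Finset.sum_nonneg fun i _ => hq0 i ω)
    (fun ω => Finset.sum_nonneg fun i _ => hz0 i ω) (r + 1) hp ((r : ℝ) + 1) (by positivity) key
  simpa using this

/-- compensator of `|X|^2`: `a_i = E_i(|X_{i+1}|^2 - |X_i|^2)` -/
noncomputable def cmp (M : CmPath n Ω) (i : ℕ) : Ω → ℝ := M.cE i (fun ω' => ‖M.X (i + 1) ω' - M.X i ω'‖ ^ 2)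

theorem cmp_bound_sqBM (hM : M.Ok) (j : ℕ) : Measurable (fun ω => ‖M.X j ω‖ ^ 2) ∧ ∀ ω, |‖M.X j ω‖ ^ 2| ≤ 1 := by
  refine ⟨(hM.meas j).norm.pow_const 2, fun ω => ?_⟩
  rw [abs_of_nonneg (by positivity)]
  exact pow_le_one₀ (norm_nonneg _) (hM.norm_le j ω)

theorem cmp_bound_eq (hM : M.Ok) {i : ℕ} (hi : i ≤ M.L) (ω : Ω) :
    M.cmp i ω = M.cE i (fun ω' => ‖M.X (i + 1) ω'‖ ^ 2) ω - ‖M.X i ω‖ ^ 2 :=
  cE_incr_sq hM (Nat.le_succ i) hi (Nat.succ_le_succ hi) ω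

theorem cmp_bound_meas (hM : M.Ok) (i : ℕ) : Measurable (M.cmp i) :=
  cE_meas hM i (((hM.meas (i + 1)).sub (hM.meas i)).norm.pow_const 2)

theorem cmp_bound_nonneg (M : CmPath n Ω) (i : ℕ) (ω : Ω) : 0 ≤ M.cmp i ω :=
  integral_nonneg fun _ => by positivity

theorem cmp_bound_le4 (hM : M.Ok) (i k : ℕ) (ω' : Ω) : |‖M.X k ω' - M.X i ω'‖ ^ 2| ≤ 4 := by
  rw [abs_of_nonneg (by positivity)]
  have h : ‖M.X k ω' - M.X i ω'‖ ≤ 2 :=
    (norm_sub_le _ _).trans (by linarith [hM.norm_le k ω', hM.norm_le i ω'])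
  nlinarith [norm_nonneg (M.X k ω' - M.X i ω')]

theorem cmp_bound_le (hM : M.Ok) (i : ℕ) (ω : Ω) : |M.cmp i ω| ≤ 4 :=
  cE_bound hM i (cmp_bound_le4 hM i (i + 1)) ω

theorem cmp_bound_pre (hM : M.Ok) {i j : ℕ} (hij : i ≤ j) : M.Pre j (M.cmp i) :=
  cE_pre hM hij (((hM.meas (i + 1)).sub (hM.meas i)).norm.pow_const 2) (cmp_bound_le4 hM i (i + 1))

theorem cmp_bound (hM : M.Ok) (N : ℕ) (hN : N ≤ M.L + 1) (p : ℕ) (hp : 1 ≤ p) :
    cmN M.P p (fun ω => ∑ i ∈ Finset.range N, M.cmp i ω) ≤ p * cmN M.P (2 * p) (M.X N) ^ 2 := by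
  have := hM.prob
  obtain ⟨r, rfl⟩ : ∃ r, p = r + 1 := ⟨p - 1, by omega⟩
  have hqBM : ∀ j, Kit164.BM M.P (M.cmp j) := fun j => ⟨(cmp_bound_meas hM j).aestronglyMeasurable, 4, cmp_bound_le hM j⟩
  have hUBM : ∀ j, Kit164.BM M.P (fun ω => ‖M.X j ω‖ ^ 2) := fun j =>
    ⟨(cmp_bound_sqBM hM j).1.aestronglyMeasurable, 1, (cmp_bound_sqBM hM j).2⟩
  have hABM : ∀ j, Kit164.BM M.P (fun ω => ∑ i ∈ Finset.range j, M.cmp i ω) := fun j =>
    Kit164.BM.sum _ fun i _ => hqBM i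
  have key := Kit164.compensator_bound (μ := M.P) r (fun j ω => ‖M.X j ω‖ ^ 2) (fun j => M.cmp j) N
    hUBM hqBM (fun j ω => by positivity) (cmp_bound_nonneg M) (by
      intro j hj
      have hjL : j ≤ M.L := by omega
      obtain ⟨_, C', hC'⟩ := (hABM (j + 1)).pow r
      have hgm : Measurable (fun ω => (∑ i ∈ Finset.range (j + 1), M.cmp i ω) ^ r) :=
        (Finset.measurable_sum _ fun i _ => cmp_bound_meas hM i).pow_const r
      have h1 := int_mul_cE hM (j := j) (f := fun ω => ‖M.X (j + 1) ω‖ ^ 2)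
        (g := fun ω => (∑ i ∈ Finset.range (j + 1), M.cmp i ω) ^ r)
        (cmp_bound_sqBM hM (j + 1)).1 hgm
        (Pre.comp (Pre.sum _ fun i hi => cmp_bound_pre hM (Nat.lt_succ_iff.mp (Finset.mem_range.mp hi))) (· ^ r))
        (C := max 1 C') (fun ω => ((cmp_bound_sqBM hM (j + 1)).2 ω).trans (le_max_left _ _))
        (fun ω => (hC' ω).trans (le_max_right _ _))
      apply le_of_eq
      simp only [cmp_bound_eq hM hjL, mul_sub]
      have hg : Kit164.BM M.P (fun ω => (∑ i ∈ Finset.range (j + 1), M.cmp i ω) ^ r) := (hABM (j + 1)).pow r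
      have hcE : Kit164.BM M.P (M.cE j (fun ω' => ‖M.X (j + 1) ω'‖ ^ 2)) :=
        ⟨(cE_meas hM j (cmp_bound_sqBM hM (j + 1)).1).aestronglyMeasurable, 1, cE_bound hM j (cmp_bound_sqBM hM (j + 1)).2⟩
      rw [integral_sub (hg.mul hcE).integrable (hg.mul (hUBM j)).integrable,
        integral_sub (hg.mul (hUBM (j + 1))).integrable (hg.mul (hUBM j)).integrable, h1])
  have h2 := garsia_norm_form (μ := M.P) (hABM N) (hUBM N) (fun ω => Finset.sum_nonneg fun i _ => cmp_bound_nonneg M i ω)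
    (fun ω => by positivity) (r + 1) hp ((r : ℝ) + 1) (by positivity) key
  rw [cmN_sq ⟨(hM.meas N).aestronglyMeasurable, 1, hM.norm_le N⟩ (r + 1) hp] at h2
  simpa using h2

theorem doob_runMax_pre (hM : M.Ok) {j : ℕ} (hj : j ≤ M.L) (k : ℕ) (hk : k ≤ j) :
    M.Pre j (Kit164.runMax (fun i ω => ‖M.X i ω‖) k) := by
  induction k with
  | zero => exact Pre.comp (X_pre hM (Nat.zero_le j) (Nat.zero_le _)) (‖·‖)
  | succ k ih =>
    exact Pre.comp₂ (ih (by omega)) (Pre.comp (X_pre hM hk (hk.trans hj)) (‖·‖)) max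

theorem doob_runMax_meas (hM : M.Ok) (k : ℕ) : Measurable (Kit164.runMax (fun i ω => ‖M.X i ω‖) k) := by
  induction k with
  | zero => exact (hM.meas 0).norm
  | succ k ih => exact ih.max (hM.meas (k + 1)).norm

theorem doob_sub (hM : M.Ok) {j : ℕ} (hj : j ≤ M.L) (ω : Ω) : ‖M.X j ω‖ ≤ M.cE j (fun ω' => ‖M.X (j + 1) ω'‖) ω := by
  rw [← mart hM (Nat.le_succ j) hj (Nat.succ_le_succ hj) ω]
  exact norm_integral_le_integral_norm _

/-- Doob `L^p` -/
theorem doob (hM : M.Ok) (N : ℕ) (hN : N ≤ M.L + 1) (p : ℕ) (hp : 2 ≤ p) :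
    cmN M.P p (fun ω => (Finset.range (N + 1)).sup' Finset.nonempty_range_add_one (fun i => ‖M.X i ω‖)) ≤ 2 * cmN M.P p (M.X N) := by
  have := hM.prob
  obtain ⟨r, rfl⟩ : ∃ r, p = r + 1 := ⟨p - 1, by omega⟩
  have hr : 1 ≤ r := by omega
  have hfBM : ∀ j, Kit164.BM M.P (fun ω => ‖M.X j ω‖) := fun j =>
    ⟨(hM.meas j).norm.aestronglyMeasurable, 1, fun ω => by rw [abs_of_nonneg (norm_nonneg _)]; exact hM.norm_le j ω⟩
  have e : (fun ω => (Finset.range (N + 1)).sup' Finset.nonempty_range_add_one (fun i => ‖M.X i ω‖))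
      = Kit164.runMax (fun i ω => ‖M.X i ω‖) N := by
    funext ω
    apply le_antisymm
    · exact Finset.sup'_le _ _ fun i hi =>
        Kit164.le_runMax (fun i ω => ‖M.X i ω‖) (Nat.lt_succ_iff.mp (Finset.mem_range.mp hi)) ω
    · exact Kit164.runMax_le (fun i ω => ‖M.X i ω‖) N ω fun i hi =>
        Finset.le_sup' (fun i => ‖M.X i ω‖) (Finset.mem_range.mpr (Nat.lt_succ_of_le hi))
  rw [e]
  have hRBM : ∀ j, Kit164.BM M.P (Kit164.runMax (fun i ω => ‖M.X i ω‖) j) := fun j => Kit164.BM.runMax hfBM j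
  have hR0 : ∀ j ω, 0 ≤ Kit164.runMax (fun i ω => ‖M.X i ω‖) j ω :=
    Kit164.runMax_nonneg _ (fun _ _ => norm_nonneg _)
  have key := Kit164.doob_Lp (μ := M.P) r (fun i ω => ‖M.X i ω‖) N hfBM (fun _ _ => norm_nonneg _) (by
    intro j hj
    have hjL : j ≤ M.L := by omega
    obtain ⟨_, C', hC'⟩ := (hRBM j).pow r
    have h1 := int_mul_cE hM (j := j) (f := fun ω => ‖M.X (j + 1) ω‖)
      (g := fun ω => Kit164.runMax (fun i ω => ‖M.X i ω‖) j ω ^ r) (hM.meas (j + 1)).norm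
      ((doob_runMax_meas hM j).pow_const r) (Pre.comp (doob_runMax_pre hM hjL j le_rfl) (· ^ r))
      (C := max 1 C') (fun ω => by
        rw [abs_of_nonneg (norm_nonneg _)]; exact (hM.norm_le (j + 1) ω).trans (le_max_left _ _))
      (fun ω => (hC' ω).trans (le_max_right _ _))
    have hcE : Kit164.BM M.P (M.cE j (fun ω' => ‖M.X (j + 1) ω'‖)) :=
      ⟨(cE_meas hM j (hM.meas (j + 1)).norm).aestronglyMeasurable, 1, cE_bound hM j fun ω => by
        rw [abs_of_nonneg (norm_nonneg _)]; exact hM.norm_le (j + 1) ω⟩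
    simp only [mul_sub]
    rw [integral_sub (((hRBM j).pow r).mul (hfBM (j + 1))).integrable (((hRBM j).pow r).mul (hfBM j)).integrable,
      ← h1, sub_nonneg]
    exact integral_mono (((hRBM j).pow r).mul (hfBM j)).integrable (((hRBM j).pow r).mul hcE).integrable fun ω =>
      mul_le_mul_of_nonneg_left (doob_sub hM hjL ω) (pow_nonneg (hR0 j ω) r))
  have hr0 : (0:ℝ) < r := by exact_mod_cast hr
  have key2 : ∫ ω, Kit164.runMax (fun i ω => ‖M.X i ω‖) N ω ^ (r + 1) ∂M.P ≤ 2 ^ (r + 1) * ∫ ω, ‖M.X N ω‖ ^ (r + 1) ∂M.P := by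
    have hI : 0 ≤ ∫ ω, ‖M.X N ω‖ ^ (r + 1) ∂M.P := integral_nonneg fun _ => by positivity
    have h3 : ((r : ℝ) + 1) ^ (r + 1) ≤ (r : ℝ) ^ (r + 1) * 2 ^ (r + 1) := by
      rw [← mul_pow]
      apply pow_le_pow_left₀ (by positivity)
      have : (1:ℝ) ≤ r := by exact_mod_cast hr
      linarith
    have h4 : (r : ℝ) ^ (r + 1) * ∫ ω, Kit164.runMax (fun i ω => ‖M.X i ω‖) N ω ^ (r + 1) ∂M.P
        ≤ (r : ℝ) ^ (r + 1) * (2 ^ (r + 1) * ∫ ω, ‖M.X N ω‖ ^ (r + 1) ∂M.P) := by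
      rw [← mul_assoc]
      exact key.trans (mul_le_mul_of_nonneg_right h3 hI)
    exact le_of_mul_le_mul_left h4 (by positivity)
  have h5 := garsia_norm_form (μ := M.P) (hRBM N) (hfBM N) (hR0 N) (fun _ => norm_nonneg _) (r + 1) (by omega) 2
    (by norm_num) key2
  rwa [cmN_norm] at h5

/-- moving window: `∑_j ov_j E_j |X_{c(j)} - X_j|^2`, where `mass (c j) ≤ max (mass j) t1 + η` -/
theorem window_comp (hM : M.Ok) (t1 t2 η : ℝ) (hη : 0 ≤ η) (c : ℕ → ℕ) (N : ℕ) (hN : N ≤ M.L + 1)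
    (hc : ∀ j, j ≤ M.L → 0 < M.ov j t1 t2 → j ≤ c j ∧ c j ≤ N ∧ M.mass (c j) ≤ max (M.mass j) t1 + η) (p : ℕ) (hp : 1 ≤ p) :
    cmN M.P p (fun ω => ∑ j ∈ Finset.range (M.L + 1), M.ov j t1 t2 * M.cE j (fun ω' => ‖M.X (c j) ω' - M.X j ω'‖ ^ 2) ω)
      ≤ p ^ 2 * η * cmN M.P (2 * p) (M.X N) ^ 2 := by
  have := hM.prob
  have hmk := hM.markov
  -- squares of the norms
  have hsm : ∀ i, Measurable (fun ω => ‖M.X i ω‖ ^ 2) := fun i => (hM.meas i).norm.pow_const 2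
  have hsb : ∀ i ω, |‖M.X i ω‖ ^ 2| ≤ 1 := fun i ω => by
    rw [abs_of_nonneg (by positivity)]
    exact pow_le_one₀ (norm_nonneg _) (hM.norm_le i ω)
  have hbi : ∀ (j : ℕ) (ω : Ω) (f : Ω → ℝ) (D : ℝ), Measurable f → (∀ ω, |f ω| ≤ D) → Integrable f (M.κ j ω) := fun j ω f D hf hD =>
    Integrable.of_bound hf.aestronglyMeasurable D (Filter.Eventually.of_forall fun ω => by simpa using hD ω)
  -- the compensator increments
  have hcm : ∀ i, Measurable (M.cmp i) := fun i => cE_meas hM i (((hM.meas (i + 1)).sub (hM.meas i)).norm.pow_const 2)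
  have hc0 : ∀ i ω, 0 ≤ M.cmp i ω := fun i ω => integral_nonneg fun ω' => by positivity
  have hcb : ∀ i ω, |M.cmp i ω| ≤ 4 := fun i ω => by
    refine cE_bound hM i (fun ω' => ?_) ω
    rw [abs_of_nonneg (by positivity)]
    have h1 : ‖M.X (i + 1) ω' - M.X i ω'‖ ≤ 2 := by
      calc ‖M.X (i + 1) ω' - M.X i ω'‖ ≤ ‖M.X (i + 1) ω'‖ + ‖M.X i ω'‖ := norm_sub_le _ _
        _ ≤ 1 + 1 := add_le_add (hM.norm_le _ _) (hM.norm_le _ _)
        _ = 2 := by norm_num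
    calc ‖M.X (i + 1) ω' - M.X i ω'‖ ^ 2 ≤ 2 ^ 2 := pow_le_pow_left₀ (norm_nonneg _) h1 2
      _ = 4 := by norm_num
  have hcmp_eq : ∀ i, i ≤ M.L → M.cmp i = fun ω => M.cE i (fun ω' => ‖M.X (i + 1) ω'‖ ^ 2) ω - ‖M.X i ω‖ ^ 2 := fun i hi => by
    funext ω; exact cE_incr_sq hM (Nat.le_succ i) hi (Nat.succ_le_succ hi) ω
  have hcEcmp : ∀ j i, j ≤ i → i ≤ M.L → ∀ ω, M.cE j (M.cmp i) ω
      = M.cE j (fun ω' => ‖M.X (i + 1) ω'‖ ^ 2) ω - M.cE j (fun ω' => ‖M.X i ω'‖ ^ 2) ω := by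
    intro j i hji hi ω
    rw [hcmp_eq i hi]
    have h1 : M.cE j (fun ω => M.cE i (fun ω' => ‖M.X (i + 1) ω'‖ ^ 2) ω - ‖M.X i ω‖ ^ 2) ω
        = M.cE j (M.cE i (fun ω' => ‖M.X (i + 1) ω'‖ ^ 2)) ω - M.cE j (fun ω' => ‖M.X i ω'‖ ^ 2) ω :=
      integral_sub (hbi j ω _ 1 (cE_meas hM i (hsm (i + 1))) (fun ω' => cE_bound hM i (hsb (i + 1)) ω')) (hbi j ω _ 1 (hsm i) (hsb i))
    rw [h1, cE_tower hM hji (hsm (i + 1)) (hsb (i + 1))]
  have hself : ∀ j, j ≤ M.L → ∀ ω, M.cE j (fun ω' => ‖M.X j ω'‖ ^ 2) ω = ‖M.X j ω‖ ^ 2 := by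
    intro j hj ω
    have h := cE_incr_sq hM (le_refl j) hj (Nat.le_succ_of_le hj) ω
    have h0 : M.cE j (fun ω' => ‖M.X j ω' - M.X j ω'‖ ^ 2) ω = 0 := by simp [cE]
    rw [h0] at h; linarith
  have htel : ∀ j, j ≤ M.L → ∀ c', j ≤ c' → c' ≤ M.L + 1 → ∀ ω,
      M.cE j (fun ω' => ‖M.X c' ω' - M.X j ω'‖ ^ 2) ω = ∑ i ∈ Finset.Ico j c', M.cE j (M.cmp i) ω := by
    intro j hj c' hjc hc' ω
    rw [cE_incr_sq hM hjc hj hc' ω, ← hself j hj ω]
    induction c', hjc using Nat.le_induction with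
    | base => simp
    | succ k hjk ih =>
      rw [Finset.sum_Ico_succ_top hjk, ← ih (by omega), hcEcmp j k hjk (by omega) ω]
      ring
  -- the summands of Garsia's inequality
  obtain ⟨z, hz⟩ : ∃ z : ℕ → Ω → ℝ, z = fun j ω => if (j ≤ M.L ∧ 0 < M.ov j t1 t2) then M.ov j t1 t2 * ∑ i ∈ Finset.Ico j (c j), M.cmp i ω else 0 := ⟨_, rfl⟩
  have hzm : ∀ j, Measurable (z j) := by
    intro j; rw [hz]
    by_cases hj : j ≤ M.L ∧ 0 < M.ov j t1 t2
    · simp only [hj, and_self, if_true]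
      exact (Finset.measurable_fun_sum _ fun i _ => hcm i).const_mul _
    · simp only [hj, if_false]; exact measurable_const
  have hz0 : ∀ j ω, 0 ≤ z j ω := by
    intro j ω; rw [hz]
    by_cases hj : j ≤ M.L ∧ 0 < M.ov j t1 t2
    · simp only [hj, and_self, if_true]
      exact mul_nonneg (ov_nonneg M j t1 t2) (Finset.sum_nonneg fun i _ => hc0 i ω)
    · simp only [hj, if_false]; exact le_rfl
  have hov1 : ∀ j, j ≤ M.L → M.ov j t1 t2 ≤ 1 := fun j hj => by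
    have h1 := ov_le hM j t1 t2
    have h2 := (mass_mem hM (Nat.succ_le_succ hj)).2
    have h3 := (mass_mem hM (Nat.le_succ_of_le hj)).1
    linarith
  have hzC : ∀ j ω, z j ω ≤ 4 * N := by
    intro j ω; rw [hz]
    by_cases hj : j ≤ M.L ∧ 0 < M.ov j t1 t2
    · simp only [hj, and_self, if_true]
      have h1 : ∑ i ∈ Finset.Ico j (c j), M.cmp i ω ≤ 4 * N := by
        calc ∑ i ∈ Finset.Ico j (c j), M.cmp i ω ≤ ∑ i ∈ Finset.Ico j (c j), (4:ℝ) :=
              Finset.sum_le_sum fun i _ => (le_abs_self _).trans (hcb i ω)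
          _ = (c j - j : ℕ) * 4 := by simp
          _ ≤ N * 4 := by
              refine mul_le_mul_of_nonneg_right ?_ (by norm_num)
              exact_mod_cast (Nat.sub_le _ _).trans (hc j hj.1 hj.2).2.1
          _ = 4 * N := by ring
      calc M.ov j t1 t2 * ∑ i ∈ Finset.Ico j (c j), M.cmp i ω ≤ 1 * (4 * N) :=
            mul_le_mul (hov1 j hj.1) h1 (Finset.sum_nonneg fun i _ => hc0 i ω) zero_le_one
        _ = 4 * N := by ring
    · simp only [hj, if_false]; positivity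
  have hG := garsia hM (M.L + 1) z hzm hz0 hzC p hp
  -- identification of the left side
  have hL : (fun ω => ∑ j ∈ Finset.range (M.L + 1), M.ov j t1 t2 * M.cE j (fun ω' => ‖M.X (c j) ω' - M.X j ω'‖ ^ 2) ω)
      = fun ω => ∑ j ∈ Finset.range (M.L + 1), M.cE j (z j) ω := by
    funext ω
    refine Finset.sum_congr rfl fun j hj => ?_
    have hj' : j ≤ M.L := Nat.lt_succ_iff.mp (Finset.mem_range.mp hj)
    by_cases hpos : 0 < M.ov j t1 t2
    · rw [htel j hj' (c j) (hc j hj' hpos).1 ((hc j hj' hpos).2.1.trans hN) ω, hz]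
      simp only [hj', hpos, and_self, if_true]
      show _ = ∫ ω', M.ov j t1 t2 * ∑ i ∈ Finset.Ico j (c j), M.cmp i ω' ∂(M.κ j ω)
      rw [integral_const_mul, integral_finsetSum _ fun i _ => hbi j ω _ 4 (hcm i) (hcb i)]
      rfl
    · have h0 : M.ov j t1 t2 = 0 := le_antisymm (not_lt.mp hpos) (ov_nonneg M j t1 t2)
      rw [h0, zero_mul, hz]
      simp only [hpos, and_false, if_false]
      simp [cE]
  rw [hL]
  refine le_trans hG ?_
  -- the sum of the z_j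
  have hsum : ∀ ω, ∑ j ∈ Finset.range (M.L + 1), z j ω ≤ η * ∑ i ∈ Finset.range N, M.cmp i ω := by
    intro ω
    have e1 : ∀ j ∈ Finset.range (M.L + 1), z j ω
        = ∑ i ∈ Finset.range N, if (0 < M.ov j t1 t2 ∧ j ≤ i ∧ i < c j) then M.ov j t1 t2 * M.cmp i ω else 0 := by
      intro j hj
      have hj' : j ≤ M.L := Nat.lt_succ_iff.mp (Finset.mem_range.mp hj)
      rw [hz]
      by_cases hpos : 0 < M.ov j t1 t2
      · simp only [hj', hpos, and_self, true_and, if_true]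
        rw [Finset.mul_sum, ← Finset.sum_filter]
        refine Finset.sum_congr ?_ fun _ _ => rfl
        ext i
        simp only [Finset.mem_Ico, Finset.mem_filter, Finset.mem_range]
        constructor
        · intro h; exact ⟨lt_of_lt_of_le h.2 (hc j hj' hpos).2.1, h⟩
        · intro h; exact h.2
      · simp only [hpos, and_false, false_and, if_false, Finset.sum_const_zero]
    rw [Finset.sum_congr rfl e1, Finset.sum_comm, Finset.mul_sum]
    refine Finset.sum_le_sum fun i hi => ?_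
    rw [← Finset.sum_filter, ← Finset.sum_mul]
    refine mul_le_mul_of_nonneg_right ?_ (hc0 i ω)
    refine sum_ov_le hM _ t1 t2 (M.mass (i + 1)) η (fun j hj => ?_) hη
    simp only [Finset.mem_filter, Finset.mem_range] at hj
    have hj' : j ≤ M.L := Nat.lt_succ_iff.mp hj.1
    constructor
    · have h1 := (hc j hj' hj.2.1).2.2
      have h2 : M.mass (i + 1) ≤ M.mass (c j) := hM.mass_mono hj.2.2.2
      linarith
    · exact hM.mass_mono (Nat.succ_le_succ hj.2.2.1)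
  have hSm : Measurable (fun ω => ∑ i ∈ Finset.range N, M.cmp i ω) := Finset.measurable_fun_sum _ fun i _ => hcm i
  have hS0 : ∀ ω, 0 ≤ ∑ i ∈ Finset.range N, M.cmp i ω := fun ω => Finset.sum_nonneg fun i _ => hc0 i ω
  have hSb : ∀ ω, ∑ i ∈ Finset.range N, M.cmp i ω ≤ N * 4 := fun ω => by
    calc ∑ i ∈ Finset.range N, M.cmp i ω ≤ ∑ i ∈ Finset.range N, (4:ℝ) := Finset.sum_le_sum fun i _ => (le_abs_self _).trans (hcb i ω)
      _ = N * 4 := by simp
  have h1 : cmN M.P p (fun ω => ∑ j ∈ Finset.range (M.L + 1), z j ω) ≤ cmN M.P p (fun ω => η * ∑ i ∈ Finset.range N, M.cmp i ω) := by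
    refine cmN_mono ⟨(hSm.const_mul η).aestronglyMeasurable, η * (N * 4), fun ω => ?_⟩ p (Filter.Eventually.of_forall fun ω => ?_)
    · rw [Real.norm_eq_abs, abs_of_nonneg (mul_nonneg hη (hS0 ω))]
      exact mul_le_mul_of_nonneg_left (hSb ω) hη
    · rw [Real.norm_eq_abs, Real.norm_eq_abs, abs_of_nonneg (Finset.sum_nonneg fun j _ => hz0 j ω), abs_of_nonneg (mul_nonneg hη (hS0 ω))]
      exact hsum ω
  rw [cmN_const_mul, abs_of_nonneg hη] at h1
  have h2 := cmp_bound hM N hN p hp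
  have hp0 : (0:ℝ) ≤ p := by positivity
  calc (p:ℝ) * cmN M.P p (fun ω => ∑ j ∈ Finset.range (M.L + 1), z j ω)
      ≤ p * (η * (p * cmN M.P (2 * p) (M.X N) ^ 2)) :=
        mul_le_mul_of_nonneg_left (h1.trans (mul_le_mul_of_nonneg_left h2 hη)) hp0
    _ = p ^ 2 * η * cmN M.P (2 * p) (M.X N) ^ 2 := by ring

end CmPath

end Claimed.Agent.R286
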