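import Claimed.Agent.R286.Cmp.P5L8
import Claimed.Agent.R286.Cmp.P5Clk
import Claimed.Agent.R286.Cmp.P5Split

/-!
# Row 286 (S0533), PE Section 3, package P05: block (B) of the instance chain = CHAINS, POSITIONS, LIMITS      (owner helper38; prefix `cm5b_`, `Cm5bGrid`)      0 sorry

For `ps` a sorted list of valid positions (`ghPs 1 F`), `M = cm5Sk n (ckStp 1 b h ps)` (`= cmiM = ckM`, rfl).
1. lists       `cm5b_len`, `cm5b_map_m`, `cm5b_cumH` (telescoping), `cm5b_filter_take`, `cm5b_idx_lt`, `cm5b_idx_ge`, `cm5b_idx_mem`.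
2. the model   `cm5b_L`, `cm5b_mass_succ`, `cm5b_hck_succ`, **`cm5b_node`** (node of a position of the chain), **`cm5b_nd`** (`nd t = ghIdx ps (ghPosA t)`), `cm5b_H`,
               `Cm5bGrid`, `cm5b_grid`, **`cm5b_smp`** : `Cm5Smp M h eta` (interface of `cm5c_clk`, Cmp/P5Clk).
3. limits      **`cm5b_unif_nu`** (forks in the chain or after a jump), **`cm5b_le_of_chain`**.
4. statistics  `cm5b_int_R2` (`E R = S` under `P2 j`), `cm5b_two`, `cm5b_star` (chain numbers = integrals), `cm5b_S_nu`, **`cm5b_S_close`** (`S (nd t)` vs `skCS (ghPosA t)`, `S` at the nodes of the chain vs `skCS p`: both within `delta`).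
5. transfer    **`cm5b_MX`, `cm5b_MR`, `cm5b_MXc`, `cm5b_MRc`, `cm5b_three`** : a bound `cmN .. <= A` on all large chains through the fork(s) gives `cmkMX, cmkMR, cmkMXc, cmkMRc <= A^(2l)`, three-leaf number `<= (2A)^(2l)`
               (on the chains the centring is the `S` of the CHAIN; the tree of PE (16) is `cm5bT3 pf pv`, rfl with the tree of `exit_cmp_res`).
-/

set_option autoImplicit false

namespace Claimed.Agent.R286

open MeasureTheory Set Filter Topology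

noncomputable section

/-! ## 1. lists -/

theorem cm5b_len (a : ℝ) (b h : ℝ → ℝ) : ∀ (ps : List GhPos) (b0 h0 : ℝ), (skCStp a b h b0 h0 ps).length = ps.length
  | [], _, _ => rfl
  | p :: ps, _, _ => by simp only [skCStp, List.length_cons, cm5b_len a b h ps]

theorem cm5b_map_m (a : ℝ) (b h : ℝ → ℝ) : ∀ (ps : List GhPos) (b0 h0 : ℝ), (skCStp a b h b0 h0 ps).map SkInc.m = ps.map GhPos.u
  | [], _, _ => rfl
  | p :: ps, _, _ => by simp only [skCStp, List.map_cons, cm5b_map_m a b h ps]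

/-- the cumulated field clock of a chain telescopes -/
theorem cm5b_cumH (a : ℝ) (b h : ℝ → ℝ) : ∀ (ps : List GhPos) (b0 h0 : ℝ) (j : ℕ) (d : GhPos), j < ps.length →
    h0 + skCumH (skCStp a b h b0 h0 ps) (j + 1) = ghAt a h (ps.getD j d)
  | [], _, _, _, _, hj => by simp at hj
  | p :: ps, b0, h0, 0, d, _ => by
      simp [skCStp, skCumH]
  | p :: ps, b0, h0, j + 1, d, hj => by
      have hj' : j < ps.length := by simpa using hj
      have ih := cm5b_cumH a b h ps (ghAt a b p) (ghAt a h p) j d hj'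
      simp only [skCStp, skCumH, List.take_succ_cons, List.map_cons, List.sum_cons, List.getD_cons_succ] at ih ⊢
      linarith

/-- on a sorted list the positions `≤ p` form an initial segment -/
theorem cm5b_filter_take (p : GhPos) : ∀ ps : List GhPos, ps.Pairwise (· ≤ ·) →
    ps.filter (fun x => decide (x ≤ p)) = ps.take (ps.filter fun x => decide (x ≤ p)).length
  | [], _ => rfl
  | x :: xs, hs => by
      have hs' := List.pairwise_cons.1 hs
      by_cases hx : x ≤ p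
      · have ih := cm5b_filter_take p xs hs'.2
        rw [List.filter_cons_of_pos (by simpa using hx), List.length_cons, List.take_succ_cons, ← ih]
      · have h0 : xs.filter (fun y => decide (y ≤ p)) = [] := by
          rw [List.filter_eq_nil_iff]
          intro y hy
          have := hs'.1 y hy
          simp only [decide_eq_true_eq]
          exact fun hyp => hx (this.trans hyp)
        rw [List.filter_cons_of_neg (by simpa using hx), h0]
        rfl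

theorem cm5b_idx_coe (ps : List GhPos) (p : GhPos) :
    ghIdx ps (p : WithTop GhPos) = (ps.filter fun x : GhPos => decide (x ≤ p)).length := by
  rw [gh_idx_eq]
  simp

theorem cm5b_idx_le (ps : List GhPos) (p : GhPos) : ghIdx ps (p : WithTop GhPos) ≤ ps.length := by
  rw [cm5b_idx_coe]
  exact List.length_filter_le _ _

theorem cm5b_idx_top (ps : List GhPos) : ghIdx ps ⊤ = ps.length + 1 := by
  rw [gh_idx_eq]
  simp

/-- the positions before the index are `≤ p` -/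
theorem cm5b_idx_lt {ps : List GhPos} (hs : ps.Pairwise (· ≤ ·)) (p d : GhPos) {i : ℕ} (hi : i < ghIdx ps (p : WithTop GhPos)) :
    ps.getD i d ∈ ps ∧ ps.getD i d ≤ p := by
  have hl := cm5b_idx_le ps p
  have hil : i < ps.length := lt_of_lt_of_le hi hl
  rw [List.getD_eq_getElem _ _ hil]
  refine ⟨List.getElem_mem hil, ?_⟩
  rw [cm5b_idx_coe] at hi
  have h1 := cm5b_filter_take p ps hs
  have h2 : (ps.filter fun x => decide (x ≤ p))[i]'hi = ps[i] := by
    have : ∀ (l : List GhPos) (hl : i < l.length), l = ps.take (ps.filter fun x => decide (x ≤ p)).length → l[i] = ps[i] := by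
      intro l hl e
      subst e
      rw [List.getElem_take]
    exact this _ hi h1
  have h3 := List.getElem_mem hi
  rw [h2, List.mem_filter] at h3
  simpa using h3.2

/-- the positions from the index on are `> p` -/
theorem cm5b_idx_ge {ps : List GhPos} (hs : ps.Pairwise (· ≤ ·)) (p d : GhPos) {i : ℕ} (hi : ghIdx ps (p : WithTop GhPos) ≤ i) (hil : i < ps.length) :
    p < ps.getD i d := by
  rw [List.getD_eq_getElem _ _ hil]
  by_contra hc
  have hc' : ps[i] ≤ p := not_lt.1 hc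
  rw [cm5b_idx_coe] at hi
  have h1 := cm5b_filter_take p ps hs
  obtain ⟨k, hk⟩ : ∃ k, k = (ps.filter fun x => decide (x ≤ p)).length := ⟨_, rfl⟩
  rw [← hk] at h1 hi
  have h2 : (ps.filter fun x => decide (x ≤ p)) = (ps.take k).filter (fun x => decide (x ≤ p)) ++ (ps.drop k).filter (fun x => decide (x ≤ p)) := by
    rw [← List.filter_append, List.take_append_drop]
  have h3 : (ps.take k).filter (fun x => decide (x ≤ p)) = ps.take k := by
    rw [← h1, List.filter_filter]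
    simp
  rw [h3, h1] at h2
  have h4 : (ps.drop k).filter (fun x => decide (x ≤ p)) = [] := by
    simpa using h2.symm
  rw [List.filter_eq_nil_iff] at h4
  have h5 : ps[i] ∈ ps.drop k := by
    have e : ps[i] = (ps.drop k)[i - k]'(by rw [List.length_drop]; omega) := by
      rw [List.getElem_drop]
      congr 1
      omega
    rw [e]
    exact List.getElem_mem _
  exact h4 _ h5 (by simpa using hc')

/-- the index of a position of the chain -/
theorem cm5b_idx_mem {ps : List GhPos} (hs : ps.Pairwise (· ≤ ·)) {p : GhPos} (hp : p ∈ ps) :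
    ∃ j, ghIdx ps (p : WithTop GhPos) = j + 1 ∧ j < ps.length ∧ ∀ d, ps.getD j d = p := by
  obtain ⟨i, hi, rfl⟩ := List.getElem_of_mem hp
  have h1 : i < ghIdx ps ((ps[i] : GhPos) : WithTop GhPos) := by
    by_contra hc
    have := cm5b_idx_ge hs ps[i] ps[i] (not_lt.1 hc) hi
    rw [List.getD_eq_getElem _ _ hi] at this
    exact lt_irrefl _ this
  obtain ⟨j, hj⟩ : ∃ j, ghIdx ps ((ps[i] : GhPos) : WithTop GhPos) = j + 1 := ⟨ghIdx ps ((ps[i] : GhPos) : WithTop GhPos) - 1, by omega⟩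
  have hjl : j < ps.length := by have := cm5b_idx_le ps ps[i]; omega
  refine ⟨j, hj, hjl, fun d => ?_⟩
  have h2 := (cm5b_idx_lt hs ps[i] d (i := j) (by omega)).2
  refine le_antisymm h2 ?_
  rw [List.getD_eq_getElem _ _ hjl]
  rcases (show i ≤ j by omega).lt_or_eq with h | h
  · exact List.pairwise_iff_getElem.1 hs i j hi hjl h
  · subst h; exact le_rfl

/-! ## 2. the path model of a chain -/

section chain

variable (n : ℕ) (b h : ℝ → ℝ) (ps : List GhPos)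

theorem cm5b_L : (cm5Sk n (ckStp 1 b h ps)).L = ps.length := by
  rw [cm5_sk_L]; exact cm5b_len _ _ _ _ _ _

theorem cm5b_mass_zero : (cm5Sk n (ckStp 1 b h ps)).mass 0 = 0 := by
  rw [cm5_sk_mass, if_pos rfl]

theorem cm5b_mass_succ {j : ℕ} (hj : j < ps.length) (d : GhPos) : (cm5Sk n (ckStp 1 b h ps)).mass (j + 1) = (ps.getD j d).u := by
  rw [cm5_sk_mass, if_neg (Nat.succ_ne_zero j), Nat.add_sub_cancel, skMs, ckStp, cm5b_map_m,
    List.getD_eq_getElem _ _ (by simpa using hj), List.getD_eq_getElem _ _ hj, List.getElem_map]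

theorem cm5b_hck_zero : (cm5Sk n (ckStp 1 b h ps)).hck 0 = 0 := by
  rw [cm5_sk_hck]; simp [skCumH]

theorem cm5b_hck_succ {j : ℕ} (hj : j < ps.length) (d : GhPos) : (cm5Sk n (ckStp 1 b h ps)).hck (j + 1) = ghAt 1 h (ps.getD j d) := by
  rw [cm5_sk_hck, ← cm5b_cumH 1 b h ps 0 0 j d hj, zero_add, ckStp]

variable {ps}

/-- **(B1)** the node of a position of the chain -/
theorem cm5b_node (hs : ps.Pairwise (· ≤ ·)) {p : GhPos} (hp : p ∈ ps) :
    1 ≤ ghIdx ps (p : WithTop GhPos) ∧ ghIdx ps (p : WithTop GhPos) ≤ (cm5Sk n (ckStp 1 b h ps)).L ∧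
      (cm5Sk n (ckStp 1 b h ps)).mass (ghIdx ps (p : WithTop GhPos)) = p.u ∧
      (cm5Sk n (ckStp 1 b h ps)).hck (ghIdx ps (p : WithTop GhPos)) = ghAt 1 h p := by
  obtain ⟨j, hj, hjl, hd⟩ := cm5b_idx_mem hs hp
  rw [hj, cm5b_L, cm5b_mass_succ n b h ps hjl p, cm5b_hck_succ n b h ps hjl p, hd p]
  exact ⟨by omega, by omega, rfl, rfl⟩

/-- **(B2)** the last node of mass `≤ t` is the index of the position after the jump at `t` -/
theorem cm5b_nd (hs : ps.Pairwise (· ≤ ·)) (hok : ∀ p ∈ ps, p.Ok 1) (t : ℝ) :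
    (cm5Sk n (ckStp 1 b h ps)).nd t = ghIdx ps ((ghPosA t : GhPos) : WithTop GhPos) := by
  classical
  unfold CmPath.nd
  rw [Nat.findGreatest_eq_iff]
  refine ⟨by rw [cm5b_L]; exact cm5b_idx_le _ _, fun hne => ?_, fun k hk hkL => ?_⟩
  · obtain ⟨j, hj⟩ : ∃ j, ghIdx ps ((ghPosA t : GhPos) : WithTop GhPos) = j + 1 := ⟨_, (Nat.succ_pred_eq_of_pos (Nat.pos_of_ne_zero hne)).symm⟩
    have hjl : j < ps.length := by have := cm5b_idx_le ps (ghPosA t); omega
    rw [hj, cm5b_mass_succ n b h ps hjl (ghPosA t)]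
    have h2 := (cm5b_idx_lt hs (ghPosA t) (ghPosA t) (i := j) (by omega)).2
    rcases (gh_os_pos_le_iff _ _).1 h2 with h3 | h3
    · exact h3.le
    · exact h3.1.le
  · rw [cm5b_L] at hkL
    obtain ⟨j, rfl⟩ : ∃ j, k = j + 1 := ⟨k - 1, by omega⟩
    have hjl : j < ps.length := by omega
    rw [cm5b_mass_succ n b h ps hjl (ghPosA t), not_le]
    have h2 := cm5b_idx_ge hs (ghPosA t) (ghPosA t) (i := j) (by omega) hjl
    have h4 : ps.getD j (ghPosA t) ∈ ps := by rw [List.getD_eq_getElem _ _ hjl]; exact List.getElem_mem _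
    rcases (gh_os_pos_lt_iff _ _).1 h2 with h3 | h3
    · exact h3
    · exfalso
      have h5 := (hok _ h4).2.2.2
      have h6 : (ghPosA t).lam = 1 := rfl
      rw [h6] at h3
      linarith [h3.2]

/-- the field clock of the chain at the mass `t`: `0`, or the value of `h` at a position of the chain of mass `≤ t` which is the last one -/
theorem cm5b_H (hs : ps.Pairwise (· ≤ ·)) (hok : ∀ p ∈ ps, p.Ok 1) (t : ℝ) :
    ((cm5Sk n (ckStp 1 b h ps)).H t = 0 ∧ ∀ p ∈ ps, ghPosA t < p) ∨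
      ∃ p ∈ ps, p ≤ ghPosA t ∧ (cm5Sk n (ckStp 1 b h ps)).H t = ghAt 1 h p ∧ ∀ p' ∈ ps, p' ≤ ghPosA t → p' ≤ p := by
  unfold CmPath.H
  rw [cm5b_nd n b h hs hok t]
  rcases Nat.eq_zero_or_pos (ghIdx ps ((ghPosA t : GhPos) : WithTop GhPos)) with h0 | h0
  · left
    rw [h0]
    refine ⟨cm5b_hck_zero n b h ps, fun p hp => ?_⟩
    obtain ⟨i, hi, rfl⟩ := List.getElem_of_mem hp
    have := cm5b_idx_ge hs (ghPosA t) (ghPosA t) (i := i) (by omega) hi
    rwa [List.getD_eq_getElem _ _ hi] at this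
  · right
    obtain ⟨j, hj⟩ : ∃ j, ghIdx ps ((ghPosA t : GhPos) : WithTop GhPos) = j + 1 := ⟨ghIdx ps ((ghPosA t : GhPos) : WithTop GhPos) - 1, by omega⟩
    have hjl : j < ps.length := by have := cm5b_idx_le ps (ghPosA t); omega
    have h2 := cm5b_idx_lt hs (ghPosA t) (ghPosA t) (i := j) (by omega)
    refine ⟨_, h2.1, h2.2, by rw [hj, cm5b_hck_succ n b h ps hjl (ghPosA t)], fun p' hp' hle => ?_⟩
    obtain ⟨i, hi, rfl⟩ := List.getElem_of_mem hp'
    have hij : i ≤ j := by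
      by_contra hc
      have := cm5b_idx_ge hs (ghPosA t) (ghPosA t) (i := i) (by omega) hi
      rw [List.getD_eq_getElem _ _ hi] at this
      exact absurd hle (not_le.2 this)
    rw [List.getD_eq_getElem _ _ hjl]
    rcases hij.lt_or_eq with h | h
    · exact List.pairwise_iff_getElem.1 hs i j hi hjl h
    · subst h; exact le_rfl

/-- the chain contains after-positions at the resolution `η` -/
def Cm5bGrid (ps : List GhPos) (η : ℝ) : Prop := ∀ s t : ℝ, 0 ≤ s → s + η ≤ t → t ≤ 1 → ∃ g : ℝ, s ≤ g ∧ g ≤ t ∧ ghPosA g ∈ ps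

theorem cm5b_clamp_eq (c : ℝ → ℝ) {u : ℝ} (h0 : 0 ≤ u) (h1 : u ≤ 1) : ghClamp 1 c u = c u := by
  unfold ghClamp
  rw [if_neg (not_lt.2 h0), min_eq_left h1]

/-- **(B3)** a chain which contains a grid of mesh `η` samples the field clock at the resolution `η` -/
theorem cm5b_smp (hh : GhClk1 1 h) (hs : ps.Pairwise (· ≤ ·)) (hok : ∀ p ∈ ps, p.Ok 1) {η : ℝ} (hη : 0 < η) (hg : Cm5bGrid ps η) :
    Cm5Smp (cm5Sk n (ckStp 1 b h ps)) h η where
  lo := by
    intro s t h0 hst ht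
    obtain ⟨g, hsg, hgt, hgm⟩ := hg s t h0 hst ht
    have hle : ghPosA g ≤ ghPosA t := cmk_posA_le hgt
    have e1 : h s ≤ ghAt 1 h (ghPosA g) := by
      rw [gh_os_at_posA]
      refine le_trans ?_ ((gh_os_clamp_mono zero_le_one hh).le_rightLim le_rfl)
      rw [cm5b_clamp_eq h (h0.trans hsg) (hgt.trans ht)]
      exact hh.1 ⟨h0, (hsg.trans hgt).trans ht⟩ ⟨h0.trans hsg, hgt.trans ht⟩ hsg
    rcases cm5b_H n b h hs hok t with ⟨-, h2⟩ | ⟨p, hp, -, h3, h4⟩
    · exact absurd hle (not_le.2 (h2 _ hgm))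
    · rw [h3]
      exact e1.trans (gh_os_at_mono zero_le_one hh (le_of_eq rfl) (hok p hp).2.2.1 (h4 _ hgm hle))
  hi := by
    intro s t h0 hts hs1
    have hlt : t < s := by linarith
    have e1 : ghAt 1 h (ghPosA t) ≤ h s := by
      rw [gh_os_at_posA, ← cm5b_clamp_eq h (h0.trans hlt.le) hs1]
      exact (gh_os_clamp_mono zero_le_one hh).rightLim_le hlt
    rcases cm5b_H n b h hs hok t with ⟨h2, -⟩ | ⟨p, hp, hpt, h3, -⟩
    · rw [h2]
      exact hh.2.trans (hh.1 ⟨le_rfl, zero_le_one⟩ ⟨h0.trans hlt.le, hs1⟩ (h0.trans hlt.le))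
    · rw [h3]
      exact (gh_os_at_mono zero_le_one hh (hok p hp).2.2.2 (by simp [ghPosA, GhPos.lam]) hpt).trans e1

end chain

/-! ## 3. grids and limits -/

/-- the grids -/
theorem cm5b_grid {η : ℝ} (hη : 0 < η) : ∃ F0 : Finset GhPos, ∀ F : Finset GhPos, F0 ⊆ F → Cm5bGrid (ghPs 1 F) η := by
  classical
  obtain ⟨N, hN⟩ : ∃ N : ℕ, N = ⌈1 / η⌉₊ := ⟨_, rfl⟩
  have hN1 : 1 / η ≤ N := by rw [hN]; exact Nat.le_ceil _
  have hN0 : (0:ℝ) < N := lt_of_lt_of_le (by positivity) hN1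
  have hNη : 1 / (N:ℝ) ≤ η := by
    rw [div_le_iff₀ hN0]
    rw [div_le_iff₀ hη] at hN1
    linarith
  refine ⟨(Finset.range (N + 1)).image fun i : ℕ => ghPosA ((i:ℝ) / N), fun F hF s t h0 hst ht => ?_⟩
  obtain ⟨i, hi⟩ : ∃ i : ℕ, i = ⌈s * N⌉₊ := ⟨_, rfl⟩
  have hi1 : s * N ≤ i := by rw [hi]; exact Nat.le_ceil _
  have hi2 : (i:ℝ) < s * N + 1 := by rw [hi]; exact Nat.ceil_lt_add_one (by positivity)
  have e1 : s ≤ (i:ℝ) / N := by rw [le_div_iff₀ hN0]; exact hi1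
  have e2 : (i:ℝ) / N ≤ t := by
    have : (i:ℝ) / N ≤ s + 1 / N := by
      rw [div_le_iff₀ hN0, add_mul, one_div, inv_mul_cancel₀ hN0.ne']
      exact hi2.le
    linarith
  have e3 : i ≤ N := by
    have : (i:ℝ) / N ≤ 1 := e2.trans ht
    rw [div_le_one hN0] at this
    exact_mod_cast this
  refine ⟨(i:ℝ) / N, e1, e2, gh_os_ps_mem.2 ⟨hF (Finset.mem_image.2 ⟨i, Finset.mem_range.2 (by omega), rfl⟩), ?_⟩⟩
  exact gh_os_posA_ok (h0.trans e1) (e2.trans ht)

/-- **(B5a)** the tree numbers of the chains converge uniformly in ALL real trees whose forks are positions of the chain or positions AFTER a jump, and in the tests -/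
theorem cm5b_unif_nu (n : ℕ) {b h : ℝ → ℝ} (H : CkAdm 1 b h) (q : ℕ) {δ : ℝ} (hδ : 0 < δ) :
    ∃ F0 : Finset GhPos, ∀ F : Finset GhPos, F0 ⊆ F → ∀ τ : ℕ → ℕ → WithTop GhPos, GhIsRT 1 q τ →
      (∀ x y (p : GhPos), x < q → y < q → τ x y = (p : WithTop GhPos) → p ∈ F ∨ p.lam = 1) →
      ∀ (T : (Fin q → SkCfg n) → ℝ) (K : ℝ), (∀ σ, |T σ| ≤ K) →
        |ckNuF n 1 b h q τ T (ghPs 1 F) - skCNu n 1 b h q τ T| ≤ δ * K := by
  classical
  have hB : (skBase n 1).Ok := sk_stp_base_ok n one_pos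
  have ha : (skBase n 1).a = 1 := rfl
  have hv : GhClk (skBase n 1).a (skClk n b h) := cmk_clk_adm H
  have ht : Tendsto (fun F : Finset GhPos => 2 * (1:ℝ) ^ 2 * q * (q + 1) * ghOm 1 (skPhi n) (skClk n b h) (ghPs 1 F)) atTop (𝓝 0) := by
    have := (gh_pt_om_tendsto (zero_le_one) (skPhi n) (cmk_clk_adm (n := n) H)).const_mul (2 * (1:ℝ) ^ 2 * q * (q + 1))
    rwa [mul_zero] at this
  obtain ⟨F0, hF0⟩ := eventually_atTop.1 ((tendsto_order.1 ht).2 δ hδ)
  refine ⟨F0, fun F hF τ hτ hlam T K hK => ?_⟩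
  have hK0 : 0 ≤ K := (abs_nonneg _).trans (hK fun _ _ => true)
  rw [cmk_nuF_eq, sk_c_nu_eq]
  have hτ' : GhIsRT (skBase n 1).a q τ := hτ
  have hex := gh_pt_ex_nu hB (skPhi n) hv 0 hτ' T
  have h2 : Tendsto (fun F' : Finset GhPos => |ghCNuF (skBase n 1) (skPhi n) (skClk n b h) 0 q τ T (ghPs 1 F)
      - ghCNuF (skBase n 1) (skPhi n) (skClk n b h) 0 q τ T (ghPs 1 F')|) atTop
      (𝓝 |ghCNuF (skBase n 1) (skPhi n) (skClk n b h) 0 q τ T (ghPs 1 F) - ghCNu (skBase n 1) (skPhi n) (skClk n b h) 0 q τ T|) :=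
    (Tendsto.const_sub _ hex).abs
  refine le_of_tendsto h2 ((eventually_ge_atTop F).mono fun F' hF' => ?_)
  have hfk : GhBrFk' q τ (ghPs 1 F) := by
    intro x y hx hy f hf
    rcases hlam x y f hx hy hf with hl | hl
    · left
      exact gh_os_ps_mem.2 ⟨hl, hτ.ok x y hx hy f hf⟩
    right
    intro p hp hfp
    rcases (gh_os_pos_lt_iff f p).1 hfp with h1 | ⟨_, h1⟩
    · exact h1
    · exfalso
      have := (gh_os_ps_mem.1 hp).2.2.2.2
      linarith
  have hM : ∀ s, ∑ i, ghOsc (skBase n 1).a (skClk n b h i) 0 (ghPs 1 F) * skPhi n s i ^ 2 ≤ ghOm 1 (skPhi n) (skClk n b h) (ghPs 1 F) := by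
    intro s
    have := gh_pt_om_le (zero_le_one) (skPhi n) (cmk_clk_adm (n := n) H) (gh_pt_ps_ok 1 F) s
    unfold ghKer at this
    refine le_trans (le_of_eq ?_) this
    refine Finset.sum_congr rfl fun i _ => ?_
    rw [ha]; ring
  have key := gh_br_refine_nu hB (skPhi n) hv (ps := ghPs 1 F) (ps' := ghPs 1 F') (gh_os_ps_lt _ _)
    (fun p hp => (gh_os_ps_mem.1 hp).2) (gh_pt_ps_sub 1 hF') hM 0 hτ' hfk T hK
  rw [abs_sub_comm]
  refine key.trans ?_
  rw [ha]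
  exact mul_le_mul_of_nonneg_right (hF0 F hF).le hK0

/-- **(B5b) LIMIT TRANSFER**: a bound which holds on all large chains holds for the number of the path -/
theorem cm5b_le_of_chain (n : ℕ) {b h : ℝ → ℝ} (H : CkAdm 1 b h) (q : ℕ) {τ : ℕ → ℕ → WithTop GhPos} (hτ : GhIsRT 1 q τ)
    (T : (Fin q → SkCfg n) → ℝ) (A : ℝ) (F1 : Finset GhPos) (hA : ∀ F : Finset GhPos, F1 ⊆ F → ckNuF n 1 b h q τ T (ghPs 1 F) ≤ A) :
    skCNu n 1 b h q τ T ≤ A := by
  have hB : (skBase n 1).Ok := sk_stp_base_ok n one_pos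
  have hv : GhClk (skBase n 1).a (skClk n b h) := cmk_clk_adm H
  have hex := gh_pt_ex_nu hB (skPhi n) hv 0 (τ := τ) hτ T
  rw [sk_c_nu_eq]
  refine le_of_tendsto hex ((eventually_ge_atTop F1).mono fun F hF => ?_)
  have := hA F hF
  rwa [cmk_nuF_eq] at this

/-! ## 4. statistics -/

/-- `E R = S` under the two-leaf law -/
theorem cm5b_int_R2 {n : ℕ} {Ω : Type} [MeasurableSpace Ω] {M : CmPath n Ω} (hM : M.Ok) {j : ℕ} (hj : j ≤ M.L) :
    ∫ z, M.R2 z ∂(M.P2 j) = M.S j := by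
  have := hM.prob
  have hmeas : Measurable M.R2 := ((hM.meas _).comp measurable_fst).inner ((hM.meas _).comp measurable_snd)
  have hb : ∀ z, |M.R2 z| ≤ 1 := fun z => (CmPath.cm5k_inner_le hM _ _ z.2).trans (hM.norm_le _ z.1)
  rw [CmPath.int_P2 hM j hmeas hb]
  have e : ∀ ω, ∫ ω', M.R2 (ω, ω') ∂(M.κ j ω) = inner ℝ (M.y ω) (M.X j ω) :=
    fun ω => CmPath.cm5k_inner hM (i := M.L + 1) (by omega) hj le_rfl (M.y ω) ω
  simp only [e]
  have h1 := CmPath.int_Lf hM hj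
  have i1 : Integrable (fun ω => inner ℝ (M.y ω) (M.X j ω)) M.P :=
    CmPath.cm5k_integrable _ (CmPath.cm5k_yX_meas hM j).aestronglyMeasurable (C := 1) (fun ω => by simpa using CmPath.cm5k_yX_le hM j ω)
  have i2 : Integrable (fun ω => ‖M.X j ω‖ ^ 2 / 2) M.P :=
    (CmPath.cm5k_integrable _ ((hM.meas j).norm.pow_const 2).aestronglyMeasurable (C := 1)
      (fun ω => by simpa using CmPath.cm5k_sq_le hM j ω)).div_const 2
  simp only [CmPath.Lf] at h1
  rw [integral_sub i1 i2, integral_div] at h1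
  simp only [CmPath.S] at h1 ⊢
  linarith

theorem cm5b_disc_star (ps : List GhPos) (p : GhPos) {x y : ℕ} (hxy : x ≠ y) : ghDisc ps (cmkStar p) x y = ghIdx ps (p : WithTop GhPos) := by
  simp only [ghDisc, cmkStar, ghR2, if_neg hxy]

theorem cm5b_star_rt {p : GhPos} (hp : p.Ok 1) (q : ℕ) : GhIsRT 1 q (cmkStar p) where
  diag := fun x _ => by simp [cmkStar, ghR2]
  symm := fun x y _ _ => by simp only [cmkStar, ghR2, eq_comm]
  ultra := fun x y z _ _ _ => by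
    simp only [cmkStar, ghR2]
    split_ifs <;> simp_all
  ok := fun x y _ _ r hr => by
    simp only [cmkStar, ghR2] at hr
    split_ifs at hr
    · exact absurd hr (by simp)
    · have : p = r := by exact_mod_cast hr
      exact this ▸ hp

theorem cm5b_star_fork {p r : GhPos} {x y : ℕ} (hr : cmkStar p x y = (r : WithTop GhPos)) : r = p := by
  simp only [cmkStar, ghR2] at hr
  split_ifs at hr
  · exact absurd hr (by simp)
  · exact_mod_cast hr.symm

section chain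

variable (n : ℕ) (hn : 1 ≤ n) {b h : ℝ → ℝ} (H : CkAdm 1 b h) (F : Finset GhPos)
include hn H

theorem cm5b_ok : (cm5Sk n (ckStp 1 b h (ghPs 1 F))).Ok := cm5_sk_ok n hn _ (cmk_chain_adm H F)

omit hn H in
theorem cm5b_idx_len (p : GhPos) : ghIdx (ghPs 1 F) (p : WithTop GhPos) ≤ (ckStp 1 b h (ghPs 1 F)).length := by
  rw [ckStp, cm5b_len]; exact cm5b_idx_le _ _

/-- functions of the overlap of two continuations split at `p`, on a chain -/
theorem cm5b_two (p : GhPos) (φ : ℝ → ℝ) :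
    ckNuF n 1 b h 2 (cmkStar p) (fun σ => φ (skOv (σ 0) (σ 1))) (ghPs 1 F)
      = ∫ z, φ ((cm5Sk n (ckStp 1 b h (ghPs 1 F))).R2 z) ∂(cm5Sk n (ckStp 1 b h (ghPs 1 F))).P2 (ghIdx (ghPs 1 F) (p : WithTop GhPos)) :=
  cm5_sk_two n hn _ (cmk_chain_adm H F) _ (cm5b_idx_len F p) _ (fun _ _ hxy => cm5b_disc_star _ p hxy) φ

/-- moments of `|X|² - s` at the node of `p`, on a chain -/
theorem cm5b_star (p : GhPos) (l : ℕ) (s : ℝ) :
    ckNuF n 1 b h (2 * l) (cmkStar p) (fun σ =>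
        ∏ i : Fin l, (skOv (σ ⟨2 * i.1, by have := i.2; omega⟩) (σ ⟨2 * i.1 + 1, by have := i.2; omega⟩) - s)) (ghPs 1 F)
      = ∫ ω, (‖(cm5Sk n (ckStp 1 b h (ghPs 1 F))).X (ghIdx (ghPs 1 F) (p : WithTop GhPos)) ω‖ ^ 2 - s) ^ l ∂(cm5Sk n (ckStp 1 b h (ghPs 1 F))).P :=
  cm5_sk_star n hn _ (cmk_chain_adm H F) l _ (cm5b_idx_len F p) _ (fun _ _ hxy => cm5b_disc_star _ p hxy) s

/-- `S` at the node of `p` is the two-label number of the chain -/
theorem cm5b_S_nu (p : GhPos) :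
    ckNuF n 1 b h 2 (ghR2 p) (fun σ => skOv (σ 0) (σ 1)) (ghPs 1 F) = (cm5Sk n (ckStp 1 b h (ghPs 1 F))).S (ghIdx (ghPs 1 F) (p : WithTop GhPos)) := by
  have h1 := cm5b_two n hn H F p (fun x => x)
  have h2 : ghIdx (ghPs 1 F) (p : WithTop GhPos) ≤ (cm5Sk n (ckStp 1 b h (ghPs 1 F))).L := by
    rw [cm5b_L]; exact cm5b_idx_le _ _
  rw [cm5b_int_R2 (cm5b_ok n hn H F) h2] at h1
  exact h1

end chain

/-- **(B6)** on large chains `S` at the node of every position of the chain or after a jump is `δ`-close to `skCS`; in particular `S (nd t)` is close to `skCS (ghPosA t)` -/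
theorem cm5b_S_close (n : ℕ) (hn : 1 ≤ n) {b h : ℝ → ℝ} (H : CkAdm 1 b h) {δ : ℝ} (hδ : 0 < δ) :
    ∃ F0 : Finset GhPos, ∀ F : Finset GhPos, F0 ⊆ F →
      (∀ p : GhPos, p.Ok 1 → (p ∈ F ∨ p.lam = 1) →
        |(cm5Sk n (ckStp 1 b h (ghPs 1 F))).S (ghIdx (ghPs 1 F) (p : WithTop GhPos)) - skCS n 1 b h p| ≤ δ) ∧
      ∀ t ∈ Icc (0 : ℝ) 1, |(cm5Sk n (ckStp 1 b h (ghPs 1 F))).S ((cm5Sk n (ckStp 1 b h (ghPs 1 F))).nd t) - skCS n 1 b h (ghPosA t)| ≤ δ := by
  obtain ⟨F0, hF0⟩ := cm5b_unif_nu n H 2 hδ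
  have key : ∀ F : Finset GhPos, F0 ⊆ F → ∀ p : GhPos, p.Ok 1 → (p ∈ F ∨ p.lam = 1) →
      |(cm5Sk n (ckStp 1 b h (ghPs 1 F))).S (ghIdx (ghPs 1 F) (p : WithTop GhPos)) - skCS n 1 b h p| ≤ δ := by
    intro F hF p hp hpF
    have h1 := hF0 F hF (ghR2 p) (cm5b_star_rt hp 2) (fun x y r _ _ hr => by rw [cm5b_star_fork hr]; exact hpF)
      (fun σ => skOv (σ 0) (σ 1)) 1 (fun σ => cmk_ov_abs_le _ _)
    rw [cm5b_S_nu n hn H F p, mul_one] at h1
    exact h1
  refine ⟨F0, fun F hF => ⟨key F hF, fun t ht => ?_⟩⟩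
  rw [cm5b_nd n b h (gh_os_ps_pairwise 1 F) (fun p hp => (gh_os_ps_mem.1 hp).2) t]
  exact key F hF (ghPosA t) (cmk_posA_ok ht) (Or.inr rfl)

/-! ## 5. transfer of `cmN` bounds to the numbers of the path -/

theorem cm5b_pow_lim {x A : ℝ} {k : ℕ} (h : ∀ δ : ℝ, 0 < δ → x ≤ (A + δ) ^ k) : x ≤ A ^ k := by
  have ht : Tendsto (fun δ : ℝ => (A + δ) ^ k) (𝓝[>] 0) (𝓝 ((A + 0) ^ k)) :=
    ((continuous_const.add continuous_id).pow k).continuousAt.tendsto.mono_left nhdsWithin_le_nhds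
  rw [add_zero] at ht
  exact ge_of_tendsto ht (eventually_mem_nhdsWithin.mono fun δ hδ => h δ hδ)

section transfer

variable (n : ℕ) (hn : 1 ≤ n) {b h : ℝ → ℝ} (H : CkAdm 1 b h) {p : GhPos} (hp : p.Ok 1) (l : ℕ) (hl : 1 ≤ l)
include hn H hp hl

/-- **`E|X_p|^(2l)`** -/
theorem cm5b_MX (A : ℝ) (F1 : Finset GhPos)
    (hA : ∀ F : Finset GhPos, F1 ⊆ F → p ∈ F →
      cmN (cm5Sk n (ckStp 1 b h (ghPs 1 F))).P (2 * l) ((cm5Sk n (ckStp 1 b h (ghPs 1 F))).X (ghIdx (ghPs 1 F) (p : WithTop GhPos))) ≤ A) :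
    cmkMX n b h l p ≤ A ^ (2 * l) := by
  classical
  refine cm5b_le_of_chain n H (2 * l) (cm5b_star_rt hp _) _ _ (insert p F1) fun F hF => ?_
  have hM := cm5b_ok n hn H F
  have := hM.prob
  have h1 := cm5b_star n hn H F p l 0
  simp only [sub_zero] at h1
  rw [h1]
  have h2 := cmN_pow_eq (μ := (cm5Sk n (ckStp 1 b h (ghPs 1 F))).P)
    (f := (cm5Sk n (ckStp 1 b h (ghPs 1 F))).X (ghIdx (ghPs 1 F) (p : WithTop GhPos)))
    ⟨(hM.meas _).aestronglyMeasurable, 1, hM.norm_le _⟩ (2 * l) (by omega)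
  simp only [← pow_mul]
  rw [← h2]
  exact pow_le_pow_left₀ (cmN_nonneg _ _ _) (hA F ((Finset.subset_insert _ _).trans hF) (hF (Finset.mem_insert_self _ _))) _

/-- **`E R_p^(2l)`** -/
theorem cm5b_MR (A : ℝ) (F1 : Finset GhPos)
    (hA : ∀ F : Finset GhPos, F1 ⊆ F → p ∈ F →
      cmN ((cm5Sk n (ckStp 1 b h (ghPs 1 F))).P2 (ghIdx (ghPs 1 F) (p : WithTop GhPos))) (2 * l) (cm5Sk n (ckStp 1 b h (ghPs 1 F))).R2 ≤ A) :
    cmkMR n b h l p ≤ A ^ (2 * l) := by
  classical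
  refine cm5b_le_of_chain n H 2 (cm5b_star_rt hp _) _ _ (insert p F1) fun F hF => ?_
  have hM := cm5b_ok n hn H F
  have := CmPath.P2_prob hM (ghIdx (ghPs 1 F) (p : WithTop GhPos))
  rw [cm5b_two n hn H F p (fun x => x ^ (2 * l))]
  have h2 := cmN_pow_eq (cm5s_R2_bm hM (ghIdx (ghPs 1 F) (p : WithTop GhPos))) (2 * l) (by omega)
  have e : ∀ x : ℝ, ‖x‖ ^ (2 * l) = x ^ (2 * l) := fun x => by rw [Real.norm_eq_abs, pow_mul, sq_abs, ← pow_mul]
  simp only [e] at h2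
  rw [← h2]
  exact pow_le_pow_left₀ (cmN_nonneg _ _ _) (hA F ((Finset.subset_insert _ _).trans hF) (hF (Finset.mem_insert_self _ _))) _

/-- **`E (|X_p|² - S_p)^(2l)`**: on the chains the centring is the `S` of the chain -/
theorem cm5b_MXc (A : ℝ) (F1 : Finset GhPos)
    (hA : ∀ F : Finset GhPos, F1 ⊆ F → p ∈ F →
      cmN (cm5Sk n (ckStp 1 b h (ghPs 1 F))).P (2 * l) (fun ω => ‖(cm5Sk n (ckStp 1 b h (ghPs 1 F))).X (ghIdx (ghPs 1 F) (p : WithTop GhPos)) ω‖ ^ 2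
        - (cm5Sk n (ckStp 1 b h (ghPs 1 F))).S (ghIdx (ghPs 1 F) (p : WithTop GhPos))) ≤ A) :
    cmkMXc n b h l p ≤ A ^ (2 * l) := by
  classical
  refine cm5b_pow_lim fun δ hδ => ?_
  obtain ⟨F0, hF0⟩ := cm5b_S_close n hn H hδ
  refine cm5b_le_of_chain n H (2 * (2 * l)) (cm5b_star_rt hp _) _ _ (insert p (F1 ∪ F0)) fun F hF => ?_
  have hpF : p ∈ F := hF (Finset.mem_insert_self _ _)
  have hF1 : F1 ⊆ F := (Finset.subset_union_left.trans (Finset.subset_insert _ _)).trans hF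
  have hF0' : F0 ⊆ F := (Finset.subset_union_right.trans (Finset.subset_insert _ _)).trans hF
  have hM := cm5b_ok n hn H F
  have := hM.prob
  rw [cm5b_star n hn H F p (2 * l) (skCS n 1 b h p)]
  obtain ⟨M, hMd⟩ : ∃ M, M = cm5Sk n (ckStp 1 b h (ghPs 1 F)) := ⟨_, rfl⟩
  obtain ⟨j, hj⟩ : ∃ j, j = ghIdx (ghPs 1 F) (p : WithTop GhPos) := ⟨_, rfl⟩
  have hA' := hA F hF1 hpF
  have hS := (hF0 F hF0').1 p hp (Or.inl hpF)
  rw [← hMd] at hM
  rw [← hMd, ← hj] at hA' hS ⊢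
  have := hM.prob
  have b0 : CmBM M.P (fun ω => ‖M.X j ω‖ ^ 2) :=
    ⟨((hM.meas j).norm.pow_const 2).aestronglyMeasurable, 1, fun ω => by simpa using CmPath.cm5k_sq_le hM j ω⟩
  have bc : ∀ c : ℝ, CmBM M.P (fun _ : SkOm n => c) := fun c => ⟨aestronglyMeasurable_const, ‖c‖, fun _ => le_rfl⟩
  have b1 : CmBM M.P (fun ω => ‖M.X j ω‖ ^ 2 - M.S j) := cm5s_bm_sub b0 (bc _)
  have b2 : CmBM M.P (fun ω => ‖M.X j ω‖ ^ 2 - skCS n 1 b h p) := cm5s_bm_sub b0 (bc _)
  have h2 := cmN_pow_eq b2 (2 * l) (by omega)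
  have e : ∀ x : ℝ, ‖x‖ ^ (2 * l) = x ^ (2 * l) := fun x => by rw [Real.norm_eq_abs, pow_mul, sq_abs, ← pow_mul]
  simp only [e] at h2
  rw [← h2]
  refine pow_le_pow_left₀ (cmN_nonneg _ _ _) ?_ _
  have e2 : (fun ω => ‖M.X j ω‖ ^ 2 - skCS n 1 b h p) = fun ω => (‖M.X j ω‖ ^ 2 - M.S j) + (M.S j - skCS n 1 b h p) := by
    funext ω; ring
  rw [e2]
  refine (cmN_add_le b1 (bc _) (2 * l) (by omega)).trans ?_
  rw [cmN_const _ _ (by omega)]
  linarith

/-- **`E (R_p - S_p)^(2l)`**: on the chains the centring is the `S` of the chain -/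
theorem cm5b_MRc (A : ℝ) (F1 : Finset GhPos)
    (hA : ∀ F : Finset GhPos, F1 ⊆ F → p ∈ F →
      cmN ((cm5Sk n (ckStp 1 b h (ghPs 1 F))).P2 (ghIdx (ghPs 1 F) (p : WithTop GhPos))) (2 * l)
        (fun z => (cm5Sk n (ckStp 1 b h (ghPs 1 F))).R2 z - (cm5Sk n (ckStp 1 b h (ghPs 1 F))).S (ghIdx (ghPs 1 F) (p : WithTop GhPos))) ≤ A) :
    cmkMRc n b h l p ≤ A ^ (2 * l) := by
  classical
  refine cm5b_pow_lim fun δ hδ => ?_
  obtain ⟨F0, hF0⟩ := cm5b_S_close n hn H hδ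
  refine cm5b_le_of_chain n H 2 (cm5b_star_rt hp _) _ _ (insert p (F1 ∪ F0)) fun F hF => ?_
  have hpF : p ∈ F := hF (Finset.mem_insert_self _ _)
  have hF1 : F1 ⊆ F := (Finset.subset_union_left.trans (Finset.subset_insert _ _)).trans hF
  have hF0' : F0 ⊆ F := (Finset.subset_union_right.trans (Finset.subset_insert _ _)).trans hF
  have hM := cm5b_ok n hn H F
  rw [cm5b_two n hn H F p (fun x => (x - skCS n 1 b h p) ^ (2 * l))]
  obtain ⟨M, hMd⟩ : ∃ M, M = cm5Sk n (ckStp 1 b h (ghPs 1 F)) := ⟨_, rfl⟩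
  obtain ⟨j, hj⟩ : ∃ j, j = ghIdx (ghPs 1 F) (p : WithTop GhPos) := ⟨_, rfl⟩
  have hA' := hA F hF1 hpF
  have hS := (hF0 F hF0').1 p hp (Or.inl hpF)
  rw [← hMd] at hM
  rw [← hMd, ← hj] at hA' hS ⊢
  have := CmPath.P2_prob hM j
  have b0 := cm5s_R2_bm hM j
  have bc : ∀ c : ℝ, CmBM (M.P2 j) (fun _ : SkOm n × SkOm n => c) := fun c => ⟨aestronglyMeasurable_const, ‖c‖, fun _ => le_rfl⟩
  have b1 : CmBM (M.P2 j) (fun z => M.R2 z - M.S j) := cm5s_bm_sub b0 (bc _)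
  have b2 : CmBM (M.P2 j) (fun z => M.R2 z - skCS n 1 b h p) := cm5s_bm_sub b0 (bc _)
  have h2 := cmN_pow_eq b2 (2 * l) (by omega)
  have e : ∀ x : ℝ, ‖x‖ ^ (2 * l) = x ^ (2 * l) := fun x => by rw [Real.norm_eq_abs, pow_mul, sq_abs, ← pow_mul]
  simp only [e] at h2
  rw [← h2]
  refine pow_le_pow_left₀ (cmN_nonneg _ _ _) ?_ _
  have e2 : (fun z => M.R2 z - skCS n 1 b h p) = fun z => (M.R2 z - M.S j) + (M.S j - skCS n 1 b h p) := by
    funext z; ring
  rw [e2]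
  refine (cmN_add_le b1 (bc _) (2 * l) (by omega)).trans ?_
  rw [cmN_const _ _ (by omega)]
  linarith

end transfer

theorem cm5b_idx_mono (ps : List GhPos) {p p' : GhPos} (h : p ≤ p') : ghIdx ps (p : WithTop GhPos) ≤ ghIdx ps (p' : WithTop GhPos) := by
  rw [cm5b_idx_coe, cm5b_idx_coe]
  apply List.Sublist.length_le
  apply List.monotone_filter_right
  intro x hx
  simp only [decide_eq_true_eq] at hx ⊢
  exact hx.trans h

/-- the tree of PE Lemma 3.6: `0 = a`, `1 = a'` split at `pv`, `2 = b` leaves them at `pf ≤ pv` -/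
def cm5bT3 (pf pv : GhPos) : ℕ → ℕ → WithTop GhPos := fun y z =>
  if y = z then ⊤ else if y = 2 ∨ z = 2 then (pf : WithTop GhPos) else (pv : WithTop GhPos)

theorem cm5b_T3_rt {pf pv : GhPos} (hf : pf.Ok 1) (hv : pv.Ok 1) (hfv : pf ≤ pv) : GhIsRT 1 3 (cm5bT3 pf pv) where
  diag := fun x _ => by simp [cm5bT3]
  symm := fun x y _ _ => by simp only [cm5bT3, eq_comm, or_comm]
  ultra := fun x y z hx hy hz => by
    have h' : (pf : WithTop GhPos) ≤ (pv : WithTop GhPos) := WithTop.coe_le_coe.2 hfv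
    interval_cases x <;> interval_cases y <;> interval_cases z <;> simp [cm5bT3, h']
  ok := fun x y _ _ r hr => by
    simp only [cm5bT3] at hr
    split_ifs at hr
    · exact absurd hr (by simp)
    · have : pf = r := by exact_mod_cast hr
      exact this ▸ hf
    · have : pv = r := by exact_mod_cast hr
      exact this ▸ hv

/-- **PE (16)**: transfer of the table bound on the chains to the three-leaf number -/
theorem cm5b_three (n : ℕ) (hn : 1 ≤ n) {b h : ℝ → ℝ} (H : CkAdm 1 b h) {pf pv : GhPos} (hf : pf.Ok 1) (hv : pv.Ok 1) (hfv : pf ≤ pv)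
    (l : ℕ) (hl : 1 ≤ l) (A : ℝ) (F1 : Finset GhPos)
    (hA : ∀ F : Finset GhPos, F1 ⊆ F → pf ∈ F → pv ∈ F →
      cmN ((cm5Sk n (ckStp 1 b h (ghPs 1 F))).P2 (ghIdx (ghPs 1 F) (pf : WithTop GhPos))) (2 * l) (fun z : SkOm n × SkOm n =>
        inner ℝ ((cm5Sk n (ckStp 1 b h (ghPs 1 F))).X ((cm5Sk n (ckStp 1 b h (ghPs 1 F))).L + 1) z.1
            - (cm5Sk n (ckStp 1 b h (ghPs 1 F))).X (ghIdx (ghPs 1 F) (pv : WithTop GhPos)) z.1)
          ((cm5Sk n (ckStp 1 b h (ghPs 1 F))).X ((cm5Sk n (ckStp 1 b h (ghPs 1 F))).L + 1) z.2)) ≤ A) :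
    skCNu n 1 b h 3 (cm5bT3 pf pv) (fun σ => (skOv (σ 0) (σ 2) - skOv (σ 1) (σ 2)) ^ (2 * l)) ≤ (2 * A) ^ (2 * l) := by
  classical
  refine cm5b_le_of_chain n H 3 (cm5b_T3_rt hf hv hfv) _ _ (insert pf (insert pv F1)) fun F hF => ?_
  have hfF : pf ∈ F := hF (Finset.mem_insert_self _ _)
  have hvF : pv ∈ F := hF (Finset.mem_insert_of_mem (Finset.mem_insert_self _ _))
  have hF1 : F1 ⊆ F := ((Finset.subset_insert _ _).trans (Finset.subset_insert _ _)).trans hF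
  have h1 := cm5_sk_three n hn (ckStp 1 b h (ghPs 1 F)) (cmk_chain_adm H F) (ghIdx (ghPs 1 F) (pf : WithTop GhPos))
    (ghIdx (ghPs 1 F) (pv : WithTop GhPos)) (cm5b_idx_mono _ hfv) (by rw [ckStp, cm5b_len]; exact cm5b_idx_le _ _)
    (ghDisc (ghPs 1 F) (cm5bT3 pf pv)) (by simp [ghDisc, cm5bT3]) (by simp [ghDisc, cm5bT3]) (by simp [ghDisc, cm5bT3])
    (by simp [ghDisc, cm5bT3]) (by simp [ghDisc, cm5bT3]) (by simp [ghDisc, cm5bT3]) l hl
  refine le_trans h1 (pow_le_pow_left₀ (mul_nonneg zero_le_two (cmN_nonneg _ _ _)) ?_ _)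
  exact mul_le_mul_of_nonneg_left (hA F hF1 hfF hvF) zero_le_two

theorem cm5b_eqns_cite : True := by
  have := @Cm5bGrid.eq_1; have := @cm5bT3.eq_1
  trivial

end

end Claimed.Agent.R286
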