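import Mathlib

/-!
R286 / P05 (PE Sec. 3, comparisons.tex l.290-750).  ABSTRACT ONE-PATH MODEL.      owner helper247, adversary helper38
INSTANCE DEBT (captain's rule): `cm5_l8_ok`, `cm5_l8_pin`, `cm5_l8_proj` (file Cmp/P5L8.lean, owner helper247): every abstract single path `L8P` of L08/SP.lean (helper75) with `a = 1` gives a `CmPath`;
`L8P` itself is instantiated from Defs/Gh+Sk by the unit SPI (helper257): ONE instantiation for PE Sec. 3 and LL Sec. 8.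
`Proj p Pi` comes from 192's Cmp/Proj*.lean (TEX[PE:comp:projection]).
A finite planted path seen through its "resampling kernels": `κ j ω` = law of the path that keeps the prefix of `ω`
up to the node `j` and redraws the future.  Nodes `0..L` = revelations, node `L+1` = terminal spin.
No sigma-fields, no conditional expectations, no radius coordinate.
-/

set_option autoImplicit false

namespace Claimed.Agent.R286

open MeasureTheory ProbabilityTheory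
open scoped ENNReal NNReal

/-- data of the abstract path -/
structure CmPath (n : ℕ) (Ω : Type) [MeasurableSpace Ω] where
  P : Measure Ω
  L : ℕ
  mass : ℕ → ℝ
  hck : ℕ → ℝ
  X : ℕ → Ω → EuclideanSpace ℝ (Fin n)
  κ : ℕ → Kernel Ω Ω

variable {n : ℕ} {Ω : Type} [MeasurableSpace Ω]

/-- the axioms -/
structure CmPath.Ok (M : CmPath n Ω) : Prop where
  prob : IsProbabilityMeasure M.P
  markov : ∀ j, IsMarkovKernel (M.κ j)
  mass_mono : Monotone M.mass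
  mass_zero : M.mass 0 = 0
  mass_top : M.mass (M.L + 1) = 1
  hck_mono : Monotone M.hck
  meas : ∀ j, Measurable (M.X j)
  norm_le : ∀ j ω, ‖M.X j ω‖ ≤ 1
  mean : ∀ j, j ≤ M.L → ∀ ω, M.X j ω = ∫ ω', M.X (M.L + 1) ω' ∂(M.κ j ω)
  /-- `κ i` depends on the prefix only (function form: derivable from `L8P.Ok` of L08/SP.lean) -/
  pre : ∀ i j, i ≤ j → ∀ f : Ω → ℝ, Measurable f → (∃ C : ℝ, ∀ ω, |f ω| ≤ C) →
    ∀ ω, ∀ᵐ ω' ∂(M.κ j ω), ∫ x, f x ∂(M.κ i ω') = ∫ x, f x ∂(M.κ i ω)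
  tower : ∀ i j, i ≤ j → ∀ ω, (M.κ i ω).bind (M.κ j) = M.κ i ω
  symm : ∀ j, (M.P ⊗ₘ M.κ j).map Prod.swap = M.P ⊗ₘ M.κ j

/-- real `L^p` norm -/
noncomputable def cmN {F : Type} [NormedAddCommGroup F] (μ : Measure Ω) (p : ℕ) (f : Ω → F) : ℝ :=
  (eLpNorm f (p : ℝ≥0∞) μ).toReal

namespace CmPath
variable (M : CmPath n Ω)

/-- terminal normalised spin -/
def y : Ω → EuclideanSpace ℝ (Fin n) := M.X (M.L + 1)

/-- two-leaf law forked at the node `j` -/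
noncomputable def P2 (j : ℕ) : Measure (Ω × Ω) := M.P ⊗ₘ M.κ j

/-- conditional expectation given the prefix at `j` -/
noncomputable def cE (j : ℕ) (f : Ω → ℝ) : Ω → ℝ := fun ω => ∫ ω', f ω' ∂(M.κ j ω)

noncomputable def S (j : ℕ) : ℝ := ∫ ω, ‖M.X j ω‖ ^ 2 ∂M.P

noncomputable def Lf (j : ℕ) (ω : Ω) : ℝ := inner ℝ (M.y ω) (M.X j ω) - ‖M.X j ω‖ ^ 2 / 2

/-- `W_j = (y - X_j)ᵀ H_j (y - X_j)`, with the Hessian representation of PE Lemma 2.1 as definition -/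
noncomputable def W (j : ℕ) (ω : Ω) : ℝ :=
  ∫ ω', ∑ ν ∈ Finset.Ioc j (M.L + 1), M.mass ν * inner ℝ (M.y ω - M.X j ω) (M.X ν ω' - M.X (ν - 1) ω') ^ 2 ∂(M.κ j ω)

/-- length of `[mass i, mass (i+1)) ∩ [t1,t2]` -/
noncomputable def ov (i : ℕ) (t1 t2 : ℝ) : ℝ := max 0 (min (M.mass (i + 1)) t2 - max (M.mass i) t1)

/-- `∫_{t1}^{t2} g_u du` for a node function -/
noncomputable def intg (g : ℕ → Ω → ℝ) (t1 t2 : ℝ) (ω : Ω) : ℝ := ∑ i ∈ Finset.range (M.L + 1), M.ov i t1 t2 * g i ω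

/-- last node `≤ L` of mass `≤ t` -/
noncomputable def nd (t : ℝ) : ℕ := by
  classical exact Nat.findGreatest (fun j => M.mass j ≤ t) M.L

/-- field clock in the mass coordinate -/
noncomputable def H (t : ℝ) : ℝ := M.hck (M.nd t)

/-- overlap of the two leaves -/
noncomputable def R2 (z : Ω × Ω) : ℝ := inner ℝ (M.y z.1) (M.y z.2)

/-- PE (13), pointwise in the prefix and in the (fixed) anchor `V` -/
def Proj (p : ℕ) (Pi : ℝ) : Prop :=
  ∀ j0 j1 j2 i, j0 ≤ j1 → j1 < j2 → j2 ≤ i → i ≤ M.L + 1 → 0 < M.mass (j1 + 1) → M.hck j1 < M.hck j2 →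
    ∀ (ω : Ω) (V : EuclideanSpace ℝ (Fin n)),
      ∫ ω', inner ℝ (V) (M.X i ω' - M.X j2 ω') ^ p ∂(M.κ j0 ω)
        ≤ (Pi * ‖V‖ / (M.mass (j1 + 1) * Real.sqrt (n * (M.hck j2 - M.hck j1)))) ^ p

/-- PE (1), third line, exponent `2l`, moment form -/
def Pin (l : ℕ) (c : ℝ) : Prop :=
  ∀ k : ℕ → ℝ,
    ∫ ω, (∑ i ∈ Finset.range (M.L + 1), (M.mass (i + 1) - M.mass i) * k i * (M.Lf i ω - ∫ ω', M.Lf i ω' ∂M.P)) ^ (2 * l) ∂M.P
      ≤ c ^ l * ∫ ω, (∑ i ∈ Finset.range (M.L + 1), (M.mass (i + 1) - M.mass i) * k i ^ 2 * M.W i ω) ^ l ∂M.P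

end CmPath

end Claimed.Agent.R286
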