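import Claimed.Agent.R286.Cmp.P5Split
import Claimed.Agent.R286.Cmp.P5Clk
import Claimed.Agent.R286.Cmp.P5L8
import Claimed.Agent.R286.Cmp.Inst
import Claimed.Agent.R286.Exit.ClkLim
import Claimed.Agent.R286.Exit.ClkStat
import Claimed.Agent.R286.Brg.Sus
import Claimed.Agent.R286.Brg.PrMain

/-!
owner helper182.      R286 / P05: ASSEMBLY of `exit_cmp_split` (PE Lemma 3.7, (17), closed form of helper247).      prefix `cm5e_`      TEX[PE:comp:good-split]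
PART 1  `cm5e_chain`: closed form of the good split on ANY path `M` which samples the changed field clock (`Cm5Smp` of helper34): `cm5c_clk`, `cm5c_G_sg`, `cm5c_K`, `cm5c_margin`, `cm5_raw_pf`,
        `cm5_split_pf`, `cm5_split_sq_pf`, `cm5c_split_num`.
PART 2  DICTIONARY OF THE CHAINS (reusable: helper192 for `exit_cmp_raw`, `exit_cmp_res`): `cm5eM n b h F := cm5Sk n (ckStp 1 b h (ghPs 1 F))`; `cm5e_ok`; `cm5e_node_of_pos` (a position `p ∈ F` is the node `ghIdx ps p`: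
        mass `p.u`, field clock `ghAt 1 h p`), `cm5e_pos_of_node`, `cm5e_nd_pos`, `cm5e_nd_ge`, `cm5e_nd` (`nd t = ghIdx ps (ghPosA t)`), `cm5e_smp` + `cm5e_grid` (`Cm5Smp` for the chains which contain a dyadic grid).
PART 3  LIMITS (reusable): `cm5e_lim_le` (a bound of `ckNuF` on all fine chains passes to `skCNu`, star trees), `cm5e_two`, `cm5e_star` (tree numbers = moments), `cm5e_S_close`, `cm5e_recentre`,
        `cm5e_lim_R`, `cm5e_lim_X` (bounds of `cmN` on all fine chains pass to `cmkMRc`, `cmkMXc`).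
PART 4  `cm5e_window` (pigeonhole on `t ↦ skCS (ghPosA t)`), `cm5e_fixed` (one moment order; small `n` absorbed in the constant), `cm5e_exit` = the statement of `exit_cmp_split`.
-/

set_option autoImplicit false

namespace Claimed.Agent.R286

open MeasureTheory ProbabilityTheory Set
open scoped ENNReal NNReal

/-! ## PART 1 : closed form on a sampled path -/

set_option maxHeartbeats 800000 in
/-- **the good split on a sampled path**, closed form: `ϑ = n^(-c1)`, `c2 = min(c1, mlo/8)/2`.   TEX[PE:comp:good-split] -/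
theorem cm5e_chain {cE D0 : ℝ} (mlo Tm ca ce c C C0 c1 K0 CS Pi cP : ℝ) (hm : 0 < mlo) (hcE : 0 < cE) (hca : 0 < ca) (hce : 0 < ce)
    (hc : 0 < c) (hC : 0 < C) (hc1 : 0 < c1) (hc1' : c1 ≤ mlo / 2) (hK0 : 0 ≤ K0) (hCS : 0 < CS) (hPi : 1 ≤ Pi) (hcP : 0 < cP)
    (l : ℕ) (hl : 1 ≤ l) :
    ∃ (Kc : ℝ) (N0 : ℕ), 0 < Kc ∧
      ∀ (I : CmI) (x : ℝ), mlo ≤ I.P.m → I.Std cE D0 Tm → MonotoneOn I.h0 (Icc I.P.u0 1) → I.P.u0 ≤ x → I.Loc ca ce c C C0 x → N0 ≤ I.P.n →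
        cm5cC0 C0 * x ≤ cm5cUm c C →
      ∀ (Ω : Type) [MeasurableSpace Ω] (M : CmPath I.P.n Ω) (η : ℝ), M.Ok → 0 ≤ η → η ≤ x →
        3 * η * cm5cG I.P (cm5cCG cE D0 ca ce C) ≤ x → 9 * η ≤ I.P.N ^ (-c1) * x → Cm5Smp M I.h η →
        M.Proj (2 * l) Pi → M.Proj (2 * (2 * l)) Pi → M.Pin (2 * l) cP →
        (∀ t, cm5cC0 C0 * x ≤ t → t ≤ 1 → M.S (M.nd t) ≤ CS * t) →
        ∀ v ηS t0 : ℝ, cm5cC0 C0 * x ≤ v → v ≤ cm5cUm c C → 0 ≤ ηS → ηS ≤ K0 * I.P.N ^ (-c1) →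
          v ≤ t0 - I.P.N ^ (-c1) * v → t0 + 2 * I.P.N ^ (-c1) * v ≤ 2 * v →
          M.S (M.nd (t0 + 2 * I.P.N ^ (-c1) * v)) - M.S (M.nd (t0 - I.P.N ^ (-c1) * v)) ≤ ηS * v →
          ∀ s, s ≤ M.L → t0 ≤ M.mass s → M.mass s ≤ t0 + I.P.N ^ (-c1) * v / 3 →
            cmN (M.P2 s) (2 * l) (fun z => M.R2 z - M.S s) ≤ Kc * I.P.N ^ (-(min c1 (mlo / 8) / 2)) * v ∧
            cmN M.P (2 * l) (fun ω => ‖M.X s ω‖ ^ 2 - M.S s) ≤ Kc * I.P.N ^ (-(min c1 (mlo / 8) / 2)) * v := by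
  have hcG : 0 < cm5cCG cE D0 ca ce C := cm5c_CG_pos cE D0 ca hce hC
  obtain ⟨ε, Cq, hε, hCq, hraw⟩ := cm5_raw_pf (2 * l) (by omega) (cm5cGam c C) (cm5cC0 C0) CS cP (cm5cUm c C) (cm5c_C0_ge C0) hCS hcP
    (cm5c_Um_pos c C)
  obtain ⟨Csp, hCsp, hsplit⟩ := cm5_split_pf (2 * l) (even_two_mul l) (by omega) (cm5cGam c C) Cq cP hCq hcP
  obtain ⟨Csq, hCsq, hsq⟩ := cm5_split_sq_pf (2 * l) (by omega) (cm5cGam c C) Cq cP hCq hcP
  obtain ⟨n1, hmargin⟩ := cm5c_margin (cE := cE) (D0 := D0) hm hcG hε Pi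
  obtain ⟨n2, hKK⟩ := cm5c_K (cE := cE) (D0 := D0) hcE hca
  obtain ⟨n3, hnum⟩ := cm5c_split_num (cE := cE) (D0 := D0) hm hcG hc1 hc1' Pi K0 hK0
  refine ⟨max Csp Csq * (3 + 2 * K0), max n1 (max n2 n3), by positivity, ?_⟩
  intro I x hmI hStd hh0 hux hLoc hN hxs Ω _ M η hM hη hηx hηG hηϑ hSmp hP1 hP2 hPin hS v ηS t0 hx0v hvum hηS hηSK hlo hhi hosc s hs hs1 hs2
  have hn1 : n1 ≤ I.P.n := (le_max_left _ _).trans hN
  have hn2 : n2 ≤ I.P.n := ((le_max_left _ _).trans (le_max_right _ _)).trans hN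
  have hn3 : n3 ≤ I.P.n := ((le_max_right _ _).trans (le_max_right _ _)).trans hN
  have hP := hStd.ok
  have hx := hLoc.x0
  have hLam := cm_Lam_ge_one hP
  have hNpos := cm_N_pos hP
  have hxx0 : x ≤ cm5cC0 C0 * x := le_mul_of_one_le_left hx.le (cm5c_C0_ge C0)
  have hCx0 : C0 * x ≤ cm5cC0 C0 * x := mul_le_mul_of_nonneg_right (cm5c_C0_ge' C0) hx.le
  have hum := cm5c_Um_le c C
  obtain ⟨-, hC1⟩ := cm5c_reg_cC hP I.q hLoc.reg (by linarith)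
  have hClk := cm5c_clk hcE I hc hStd hh0 hux hLoc hxs M hη hηx hSmp
  obtain ⟨hG1, hmar⟩ := hmargin I.P hP hmI hn1
  have hPiA : Pi ≤ Pi * I.P.Lam ^ 2 := le_mul_of_one_le_right (by linarith) (one_le_pow₀ hLam)
  obtain ⟨hmar1, -⟩ := hmar Pi (by linarith) hPiA
  have hK := hKK I.P hP hn2 (cm5cGam c C) (cm5cC0 C0 * x) (cm5c_Gam_ge c C) (hLoc.xa.trans hxx0)
  set G := cm5cG I.P (cm5cCG cE D0 ca ce C) with hGdef
  have hG0 : 0 < G := by linarith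
  set ϑ := I.P.N ^ (-c1) with hϑdef
  have hϑ : 0 < ϑ := Real.rpow_pos_of_pos hNpos _
  have hGsg : ∀ u, cm5cC0 C0 * x ≤ u → G ^ 2 ≤ (I.P.n : ℝ) * cm5cSg I.P I.lam (cm5cCl cE D0) C u * u ^ 4 := fun u hu =>
    cm5c_G_sg hcE hP hStd.lam0 hca hce hC1 hx hLoc.xa hLoc.xe (hxx0.trans hu)
  have hηmG : ∀ u, cm5cC0 C0 * x ≤ u → 3 * η ≤ u / G := fun u hu => by
    rw [le_div_iff₀ hG0]; linarith
  have hRaw : M.Raw (4 * (2 * l)) Cq x :=
    hraw I.P.n Ω M _ _ _ _ _ Pi x (cm5cK I.P) hM hClk hP2 hPin hPi hx hxx0 le_rfl le_rfl hK hS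
      fun u hu _ => ⟨G, hG1, hGsg u hu, hηmG u hu, hmar1⟩
  have hv : 0 < v := lt_of_lt_of_le (lt_of_lt_of_le hx hxx0) hx0v
  have hηϑ' : 3 * η ≤ ϑ * v / 3 := by
    have : ϑ * x ≤ ϑ * v := mul_le_mul_of_nonneg_left (hxx0.trans hx0v) hϑ.le
    linarith
  have hE := hnum I.P hP hmI hn3 Pi ηS (by linarith) hPiA hηS hηSK
  rw [← hGdef, ← hϑdef] at hE
  have h1 := hsplit I.P.n Ω M _ _ _ _ _ Pi x (cm5cK I.P) hM hClk hP1 hP2 hPin hPi hx hxx0 hRaw hK v G ϑ ηS t0 hx0v hvum hG1 (hGsg v hx0v)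
    (hηmG v hx0v) hϑ hηϑ' hηS hlo hhi hosc s hs hs1 hs2
  have h2 := hsq I.P.n Ω M _ _ _ _ _ Pi x (cm5cK I.P) hM hClk hP2 hPin hPi hx hxx0 hRaw hK v G ϑ ηS t0 hx0v hvum hG1 (hGsg v hx0v)
    (hηmG v hx0v) hϑ hηS hlo hhi hosc s hs hs1 (by have := mul_pos hϑ hv; linarith)
  set c2 := min c1 (mlo / 8) / 2 with hc2
  set ζ := ((cm5cK I.P : ℝ) + 1) ^ 2 * Pi / (ϑ * Real.sqrt G) with hζ
  have hζ0 : 0 ≤ ζ := by positivity
  set E1 := ((cm5cK I.P : ℝ) + 2) ^ 2 * Pi / (Real.sqrt ϑ * G) with hE1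
  have hE10 : 0 ≤ E1 := by positivity
  have hsq0 : 0 ≤ Real.sqrt (ηS + ζ) := Real.sqrt_nonneg _
  have hT0 : 0 ≤ I.P.N ^ (-c2) := (Real.rpow_pos_of_pos hNpos _).le
  constructor
  · calc _ ≤ Csp * v * (E1 + Real.sqrt (ηS + ζ) + (ηS + ζ)) := h1
      _ ≤ max Csp Csq * v * ((3 + 2 * K0) * I.P.N ^ (-c2)) :=
          mul_le_mul (mul_le_mul_of_nonneg_right (le_max_left _ _) hv.le) hE (by positivity) (by positivity)
      _ = _ := by ring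
  · calc _ ≤ Csq * v * (ηS + ζ) := h2
      _ ≤ max Csp Csq * v * ((3 + 2 * K0) * I.P.N ^ (-c2)) :=
          mul_le_mul (mul_le_mul_of_nonneg_right (le_max_right _ _) hv.le) (le_trans (by linarith) hE) (by positivity) (by positivity)
      _ = _ := by ring

/-! ## PART 2 : the dictionary of the chains -/

/-- the revelation of a chain at the place `l₁.length` -/
theorem cm5e_stp_at (a : ℝ) (b h : ℝ → ℝ) (p : GhPos) (l₂ : List GhPos) : ∀ (l₁ : List GhPos) (b0 h0 : ℝ),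
    skMs a (skCStp a b h b0 h0 (l₁ ++ p :: l₂)) l₁.length = p.u ∧
    skCumH (skCStp a b h b0 h0 (l₁ ++ p :: l₂)) (l₁.length + 1) = ghAt a h p - h0
  | [], b0, h0 => by simp [skCStp, skMs, skCumH]
  | r :: l₁, b0, h0 => by
      obtain ⟨h1, h2⟩ := cm5e_stp_at a b h p l₂ l₁ (ghAt a b r) (ghAt a h r)
      constructor
      · simpa [skCStp, skMs] using h1
      · simp only [skCumH, List.cons_append, skCStp, List.length_cons, List.take_succ_cons, List.map_cons, List.sum_cons] at h2 ⊢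
        linarith

/-- the path model of the chain through the positions of `F` -/
noncomputable def cm5eM (n : ℕ) (b h : ℝ → ℝ) (F : Finset GhPos) : CmPath n (SkOm n) := cm5Sk n (ckStp 1 b h (ghPs 1 F))

theorem cm5e_eqns_cite : True := by
  have := @cm5eM.eq_1
  trivial

section dict

variable {n : ℕ} {b h : ℝ → ℝ} {F : Finset GhPos}

theorem cm5e_L : (cm5eM n b h F).L = (ghPs 1 F).length := by
  unfold cm5eM
  rw [cm5_sk_L]
  exact brg_sus_stp_length 1 b h _ 0 0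

/-- a position of the chain is a node -/
theorem cm5e_node_of_pos {p : GhPos} (hp : p ∈ F) (hpo : p.Ok 1) :
    1 ≤ ghIdx (ghPs 1 F) p ∧ ghIdx (ghPs 1 F) p ≤ (cm5eM n b h F).L ∧ (cm5eM n b h F).mass (ghIdx (ghPs 1 F) p) = p.u ∧
      (cm5eM n b h F).hck (ghIdx (ghPs 1 F) p) = ghAt 1 h p := by
  have hmem : p ∈ ghPs 1 F := gh_os_ps_mem.2 ⟨hp, hpo⟩
  obtain ⟨l₁, l₂, e⟩ := List.append_of_mem hmem
  have hs := gh_os_ps_lt 1 F
  have hidx : ghIdx (ghPs 1 F) p = l₁.length + 1 := by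
    rw [e] at hs ⊢
    exact brg_sus_idx hs
  obtain ⟨h1, h2⟩ := cm5e_stp_at 1 b h p l₂ l₁ 0 0
  rw [← e] at h1 h2
  refine ⟨by omega, ?_, ?_, ?_⟩
  · rw [cm5e_L, hidx, e]; simp
  · rw [hidx]
    unfold cm5eM
    rw [cm5_sk_mass, if_neg (by omega)]
    simpa [ckStp] using h1
  · rw [hidx]
    unfold cm5eM
    rw [cm5_sk_hck]
    simpa [ckStp] using h2

/-- a node `≥ 1` is a position of the chain -/
theorem cm5e_pos_of_node {j : ℕ} (h1 : 1 ≤ j) (hj : j ≤ (cm5eM n b h F).L) : ∃ p ∈ F, p.Ok 1 ∧ ghIdx (ghPs 1 F) p = j := by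
  rw [cm5e_L] at hj
  have hi : j - 1 < (ghPs 1 F).length := by omega
  have e : ghPs 1 F = (ghPs 1 F).take (j - 1) ++ (ghPs 1 F)[j - 1] :: (ghPs 1 F).drop (j - 1 + 1) := by
    rw [← List.drop_eq_getElem_cons hi, List.take_append_drop]
  have hmem : (ghPs 1 F)[j - 1] ∈ ghPs 1 F := List.getElem_mem hi
  obtain ⟨hF, hok⟩ := gh_os_ps_mem.1 hmem
  refine ⟨_, hF, hok, ?_⟩
  have hs := gh_os_ps_lt 1 F
  rw [e] at hs
  have := brg_sus_idx hs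
  rw [← e] at this
  rw [this, List.length_take]
  omega

theorem cm5e_ok (hn : 1 ≤ n) (H : CkAdm 1 b h) : (cm5eM n b h F).Ok :=
  cm5_sk_ok n hn _ (flb_chain_adm zero_le_one H F)

theorem cm5e_posA_u (t : ℝ) : (ghPosA t).u = t := rfl

theorem cm5e_posA_lam (t : ℝ) : (ghPosA t).lam = 1 := rfl

theorem cm5e_le_posA {p : GhPos} (hp : p.Ok 1) {t : ℝ} (h : p.u ≤ t) : p ≤ ghPosA t := by
  rw [gh_os_pos_le_iff]
  rcases h.lt_or_eq with h | h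
  · exact Or.inl h
  · exact Or.inr ⟨h, hp.2.2.2⟩

/-- the node `nd t` is `0` or a position of the chain of mass `≤ t` -/
theorem cm5e_nd_pos (hM : (cm5eM n b h F).Ok) {t : ℝ} (ht : 0 ≤ t) (h0 : 1 ≤ (cm5eM n b h F).nd t) :
    ∃ p ∈ F, p.Ok 1 ∧ p.u ≤ t ∧ ghIdx (ghPs 1 F) p = (cm5eM n b h F).nd t := by
  obtain ⟨p, hp, hpo, e⟩ := cm5e_pos_of_node (n := n) (b := b) (h := h) (F := F) h0 (CmPath.nd_le _ t)
  refine ⟨p, hp, hpo, ?_, e⟩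
  have h1 := (cm5e_node_of_pos (n := n) (b := b) (h := h) hp hpo).2.2.1
  rw [e] at h1
  rw [← h1]
  exact CmPath.mass_nd_le hM ht

/-- `nd t ≥ 1` as soon as the chain contains the position after the jump at the mass `0` -/
theorem cm5e_nd_ge (hM : (cm5eM n b h F).Ok) (h0 : ghPosA 0 ∈ F) {t : ℝ} (ht : 0 ≤ t) : 1 ≤ (cm5eM n b h F).nd t := by
  obtain ⟨h1, h2, h3, -⟩ := cm5e_node_of_pos (n := n) (b := b) (h := h) h0 (cmk_posA_ok ⟨le_rfl, zero_le_one⟩)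
  exact h1.trans (CmPath.le_nd hM h2 (by rw [h3]; exact ht))

/-- `nd t` = the index of the position after the jump at `t`, when it belongs to the chain -/
theorem cm5e_nd (hM : (cm5eM n b h F).Ok) {t : ℝ} (ht : t ∈ Icc (0 : ℝ) 1) (hF : ghPosA t ∈ F) :
    (cm5eM n b h F).nd t = ghIdx (ghPs 1 F) (ghPosA t) := by
  obtain ⟨h1, h2, h3, -⟩ := cm5e_node_of_pos (n := n) (b := b) (h := h) hF (cmk_posA_ok ht)
  apply le_antisymm
  · rcases Nat.eq_zero_or_pos ((cm5eM n b h F).nd t) with h0 | h0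
    · omega
    · obtain ⟨p, -, hpo, hpt, e⟩ := cm5e_nd_pos hM ht.1 h0
      rw [← e]
      exact brg_t_idx_mono _ (WithTop.coe_le_coe.2 (cm5e_le_posA hpo hpt))
  · exact CmPath.le_nd hM h2 (by rw [h3]; exact le_rfl)

/-- the chains which contain a grid of mesh `η` sample the field clock at the resolution `η` -/
theorem cm5e_smp (hM : (cm5eM n b h F).Ok) (H : CkAdm 1 b h) {η : ℝ} (hη : 0 < η)
    (hgrid : ∀ t ∈ Icc (0 : ℝ) 1, ∃ g, ghPosA g ∈ F ∧ 0 ≤ g ∧ g ≤ t ∧ t - η ≤ g) : Cm5Smp (cm5eM n b h F) h η where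
  lo := by
    intro s t hs hst ht
    obtain ⟨g, hgF, hg0, hgt, hg⟩ := hgrid t ⟨by linarith, ht⟩
    obtain ⟨-, h2, h3, h4⟩ := cm5e_node_of_pos (n := n) (b := b) (h := h) hgF (cmk_posA_ok ⟨hg0, hgt.trans ht⟩)
    have h5 : ghIdx (ghPs 1 F) (ghPosA g) ≤ (cm5eM n b h F).nd t := CmPath.le_nd hM h2 (by rw [h3]; exact hgt)
    have h6 := hM.hck_mono h5
    rw [h4, gh_os_at_posA] at h6
    have h7 : ghClamp 1 h g ≤ Function.rightLim (ghClamp 1 h) g := (gh_os_clamp_mono zero_le_one H.2).le_rightLim le_rfl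
    rw [brg_sus_clamp_eq hg0 (hgt.trans ht)] at h7
    have h8 : h s ≤ h g := H.2.1 ⟨hs, by linarith⟩ ⟨hg0, hgt.trans ht⟩ (by linarith)
    exact h8.trans (h7.trans h6)
  hi := by
    intro s t ht hts hs
    have hs0 : 0 ≤ s := by linarith
    have hhs : 0 ≤ h s := H.2.2.trans (H.2.1 ⟨le_rfl, zero_le_one⟩ ⟨hs0, hs⟩ hs0)
    rcases Nat.eq_zero_or_pos ((cm5eM n b h F).nd t) with h0 | h0
    · have : (cm5eM n b h F).H t = 0 := by
        unfold CmPath.H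
        rw [h0]
        unfold cm5eM
        rw [cm5_sk_hck]
        simp [skCumH]
      rw [this]; exact hhs
    · obtain ⟨p, hp, hpo, hpt, e⟩ := cm5e_nd_pos hM ht h0
      have h4 := (cm5e_node_of_pos (n := n) (b := b) (h := h) hp hpo).2.2.2
      rw [e] at h4
      have h5 : (cm5eM n b h F).H t = ghAt 1 h p := h4
      rw [h5]
      have h6 := gh_os_at_le_right zero_le_one H.2 hpo.2.2.2
      have h7 : Function.rightLim (ghClamp 1 h) p.u ≤ ghClamp 1 h s :=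
        (gh_os_clamp_mono zero_le_one H.2).rightLim_le (by linarith)
      rw [brg_sus_clamp_eq hs0 hs] at h7
      exact h6.trans h7

/-- the dyadic grids -/
theorem cm5e_grid {k : ℕ} {η : ℝ} (hk : 1 / 2 ^ k ≤ η) (hF : ghGrid 1 k ⊆ F) :
    ∀ t ∈ Icc (0 : ℝ) 1, ∃ g, ghPosA g ∈ F ∧ 0 ≤ g ∧ g ≤ t ∧ t - η ≤ g := by
  intro t ht
  have h2 : (0 : ℝ) < 2 ^ k := by positivity
  have hfl : (⌊t * 2 ^ k⌋₊ : ℝ) ≤ t * 2 ^ k := Nat.floor_le (by have := ht.1; positivity)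
  have hfl2 : t * 2 ^ k < ⌊t * 2 ^ k⌋₊ + 1 := Nat.lt_floor_add_one _
  refine ⟨1 * (⌊t * 2 ^ k⌋₊ : ℕ) / 2 ^ k, hF ?_, by positivity, ?_, ?_⟩
  · unfold ghGrid
    refine Finset.mem_image.2 ⟨⌊t * 2 ^ k⌋₊, Finset.mem_range.2 ?_, rfl⟩
    have : (⌊t * 2 ^ k⌋₊ : ℝ) ≤ ((2 ^ k : ℕ) : ℝ) := by
      push_cast
      calc (⌊t * 2 ^ k⌋₊ : ℝ) ≤ t * 2 ^ k := hfl
        _ ≤ 1 * 2 ^ k := by gcongr; exact ht.2
        _ = 2 ^ k := one_mul _
    have : ⌊t * 2 ^ k⌋₊ ≤ 2 ^ k := by exact_mod_cast this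
    omega
  · rw [one_mul, div_le_iff₀ h2]; exact hfl
  · have : t - 1 / 2 ^ k ≤ 1 * (⌊t * 2 ^ k⌋₊ : ℕ) / 2 ^ k := by
      rw [one_mul, le_div_iff₀ h2, sub_mul, one_div, inv_mul_cancel₀ h2.ne']
      linarith
    linarith

end dict

/-! ## PART 3 : tree numbers of the star = moments on the chains; passage to the limit -/

section lim

variable {n : ℕ} {b h : ℝ → ℝ}

theorem cm5e_star_rt {p : GhPos} (hp : p.Ok 1) (q : ℕ) : GhIsRT 1 q (cmkStar p) where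
  diag := fun x _ => by simp [cmkStar, ghR2]
  symm := fun x y _ _ => by simp only [cmkStar, ghR2, eq_comm]
  ultra := fun x y z _ _ _ => by
    simp only [cmkStar, ghR2]
    split_ifs <;> simp_all
  ok := fun x y _ _ r hr => by
    simp only [cmkStar, ghR2] at hr
    split_ifs at hr
    · exact absurd hr (by simp)
    · have : p = r := by exact_mod_cast hr
      exact this ▸ hp

theorem cm5e_disc (ps : List GhPos) (p : GhPos) (x y : ℕ) (hxy : x ≠ y) : ghDisc ps (cmkStar p) x y = ghIdx ps p := by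
  simp [ghDisc, cmkStar, ghR2, hxy]

/-- a bound on all fine chains passes to the number of the path -/
theorem cm5e_lim_le (hn : 0 < n) (H : CkAdm 1 b h) (q : ℕ) {p : GhPos} (hp : p.Ok 1) (T : (Fin q → SkCfg n) → ℝ) {K : ℝ}
    (hK : ∀ σ, |T σ| ≤ K) {B : ℝ} {F0 : Finset GhPos}
    (hB : ∀ F, F0 ⊆ F → p ∈ F → ckNuF n 1 b h q (cmkStar p) T (ghPs 1 F) ≤ B) : skCNu n 1 b h q (cmkStar p) T ≤ B := by
  classical
  refine le_of_forall_pos_le_add fun ε hε => ?_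
  have hK0 : 0 ≤ K := (abs_nonneg _).trans (hK fun _ => Classical.arbitrary _)
  obtain ⟨F1, hF1⟩ := exit_clk_lim_nu hn one_pos H q (δ := ε / (K + 1)) (by positivity)
  have h1 := hF1 (F0 ∪ F1 ∪ {p}) (by intro a ha; simp [ha]) (cmkStar p) (cm5e_star_rt hp q)
    (by
      intro x y r _ _ hr
      simp only [cmkStar, ghR2] at hr
      split_ifs at hr
      · exact absurd hr (by simp)
      · have : p = r := by exact_mod_cast hr
        simp [this]) T K hK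
  have h2 := hB (F0 ∪ F1 ∪ {p}) (by intro a ha; simp [ha]) (by simp)
  have h3 : ε / (K + 1) * K ≤ ε := by
    rw [div_mul_eq_mul_div, div_le_iff₀ (by positivity)]
    nlinarith
  have := (abs_le.1 h1).1
  linarith

theorem cm5e_two (hn : 1 ≤ n) (H : CkAdm 1 b h) {F : Finset GhPos} {p : GhPos} (G : ℝ → ℝ) :
    ckNuF n 1 b h 2 (cmkStar p) (fun σ => G (skOv (σ 0) (σ 1))) (ghPs 1 F)
      = ∫ z, G ((cm5eM n b h F).R2 z) ∂(cm5eM n b h F).P2 (ghIdx (ghPs 1 F) p) :=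
  cm5_sk_two n hn _ (flb_chain_adm zero_le_one H F) (ghIdx (ghPs 1 F) p)
    (by rw [ckStp, brg_sus_stp_length]; exact brg_t_idx_coe_le _ _) _ (fun x y hxy => cm5e_disc _ p x y hxy) G

theorem cm5e_star (hn : 1 ≤ n) (H : CkAdm 1 b h) {F : Finset GhPos} {p : GhPos} (r : ℕ) (s : ℝ) :
    ckNuF n 1 b h (2 * r) (cmkStar p) (fun σ =>
        ∏ i : Fin r, (skOv (σ ⟨2 * i.1, by have := i.2; omega⟩) (σ ⟨2 * i.1 + 1, by have := i.2; omega⟩) - s)) (ghPs 1 F)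
      = ∫ ω, (‖(cm5eM n b h F).X (ghIdx (ghPs 1 F) p) ω‖ ^ 2 - s) ^ r ∂(cm5eM n b h F).P :=
  cm5_sk_star n hn _ (flb_chain_adm zero_le_one H F) r (ghIdx (ghPs 1 F) p)
    (by rw [ckStp, brg_sus_stp_length]; exact brg_t_idx_coe_le _ _) _ (fun x y hxy => cm5e_disc _ p x y hxy) s

/-- change of the centring constant -/
theorem cm5e_recentre {α : Type} [MeasurableSpace α] {μ : Measure α} [IsProbabilityMeasure μ] {f : α → ℝ} (hf : CmBM μ f) (a a' : ℝ)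
    (l : ℕ) (hl : 1 ≤ l) : ∫ x, (f x - a') ^ (2 * l) ∂μ ≤ (cmN μ (2 * l) (fun x => f x - a) + |a - a'|) ^ (2 * l) := by
  have hc : ∀ c : ℝ, CmBM μ (fun _ : α => c) := fun c => ⟨aestronglyMeasurable_const, |c|, fun _ => le_rfl⟩
  have h1 : CmBM μ (fun x => f x - a) := cm5s_bm_sub hf (hc a)
  have h2 : CmBM μ (fun x => f x - a') := cm5s_bm_sub hf (hc a')
  have e : (fun x => f x - a') = fun x => (f x - a) + (a - a') := by funext x; ring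
  have h3 : cmN μ (2 * l) (fun x => f x - a') ≤ cmN μ (2 * l) (fun x => f x - a) + |a - a'| := by
    rw [e]
    refine (cmN_add_le h1 (hc (a - a')) (2 * l) (by omega)).trans ?_
    rw [cmN_const _ _ (by omega)]
  have h4 := cmN_pow_eq h2 (2 * l) (by omega)
  have h5 : ∫ x, (f x - a') ^ (2 * l) ∂μ = ∫ x, ‖f x - a'‖ ^ (2 * l) ∂μ := by
    refine integral_congr_ae (Filter.Eventually.of_forall fun x => ?_)
    simp only [Real.norm_eq_abs]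
    exact ((even_two_mul l).pow_abs _).symm
  rw [h5, ← h4]
  exact pow_le_pow_left₀ (cmN_nonneg _ _ _) h3 _

theorem cm5e_S_close (hn : 1 ≤ n) (H : CkAdm 1 b h) {δ : ℝ} (hδ : 0 < δ) :
    ∃ F3 : Finset GhPos, ∀ F : Finset GhPos, F3 ⊆ F → ∀ p ∈ F, p.Ok 1 →
      |(cm5eM n b h F).S (ghIdx (ghPs 1 F) p) - skCS n 1 b h p| ≤ δ := by
  obtain ⟨F3, h3⟩ := exit_clk_lim_stat (n := n) (by omega) one_pos H hδ
  refine ⟨F3, fun F hF p hp hpo => ?_⟩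
  have h1 := (h3 F hF p hp hpo).1
  unfold cm5eM
  rw [cm5_sk_S n _ (flb_chain_adm zero_le_one H F) _ (by rw [ckStp, brg_sus_stp_length]; exact brg_t_idx_coe_le _ _)]
  exact h1

theorem cm5e_S_mem (hn : 1 ≤ n) (H : CkAdm 1 b h) {p : GhPos} (hp : p.Ok 1) : 0 ≤ skCS n 1 b h p ∧ skCS n 1 b h p ≤ 1 := by
  obtain ⟨h1, -, -, h2, h3⟩ := exit_clk_SB (n := n) (by omega) one_pos H hp hp le_rfl
  exact ⟨h1, by nlinarith⟩

theorem cm5e_delta {A B : ℝ} {m : ℕ} (h : ∀ δ : ℝ, 0 < δ → A ≤ (B + δ) ^ m) : A ≤ B ^ m := by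
  have hc : Continuous fun δ : ℝ => (B + δ) ^ m := by fun_prop
  have ht : Filter.Tendsto (fun δ : ℝ => (B + δ) ^ m) (nhdsWithin 0 (Ioi 0)) (nhds (B ^ m)) := by
    have := hc.tendsto 0
    simp only [add_zero] at this
    exact this.mono_left nhdsWithin_le_nhds
  exact ge_of_tendsto ht (eventually_nhdsWithin_of_forall fun δ hδ => h δ hδ)

theorem cm5e_ov_sub_le (hn : 1 ≤ n) (H : CkAdm 1 b h) {p : GhPos} (hp : p.Ok 1) (σ τ : SkCfg n) : |skOv σ τ - skCS n 1 b h p| ≤ 2 := by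
  obtain ⟨h1, h2⟩ := cm5e_S_mem hn H hp
  have h3 := abs_le.1 (cmk_ov_abs_le σ τ)
  rw [abs_le]
  constructor <;> linarith [h3.1, h3.2]

/-- **two leaves**: a bound of the centred overlap on all fine chains passes to `cmkMRc` -/
theorem cm5e_lim_R (hn : 1 ≤ n) (H : CkAdm 1 b h) (l : ℕ) (hl : 1 ≤ l) {p : GhPos} (hp : p.Ok 1) {B : ℝ} {F0 : Finset GhPos}
    (hB : ∀ F, F0 ⊆ F → p ∈ F → cmN ((cm5eM n b h F).P2 (ghIdx (ghPs 1 F) p)) (2 * l)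
      (fun z => (cm5eM n b h F).R2 z - (cm5eM n b h F).S (ghIdx (ghPs 1 F) p)) ≤ B) :
    cmkMRc n b h l p ≤ B ^ (2 * l) := by
  classical
  refine cm5e_delta fun δ hδ => ?_
  obtain ⟨F3, h3⟩ := cm5e_S_close hn H hδ
  unfold cmkMRc
  refine cm5e_lim_le (by omega) H 2 hp _ (K := 2 ^ (2 * l)) (fun σ => ?_) (F0 := F0 ∪ F3) fun F hF hpF => ?_
  · rw [abs_pow]
    exact pow_le_pow_left₀ (abs_nonneg _) (cm5e_ov_sub_le hn H hp _ _) _
  · have hM := cm5e_ok (F := F) hn H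
    have := CmPath.P2_prob hM (ghIdx (ghPs 1 F) p)
    rw [cm5e_two hn H (fun r => (r - skCS n 1 b h p) ^ (2 * l))]
    refine (cm5e_recentre (cm5s_R2_bm hM _) ((cm5eM n b h F).S (ghIdx (ghPs 1 F) p)) (skCS n 1 b h p) l hl).trans ?_
    refine pow_le_pow_left₀ (add_nonneg (cmN_nonneg _ _ _) (abs_nonneg _)) ?_ _
    exact add_le_add (hB F (Finset.subset_union_left.trans hF) hpF) (h3 F (Finset.subset_union_right.trans hF) p hpF hp)

/-- **the star**: a bound of the centred square norm on all fine chains passes to `cmkMXc` -/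
theorem cm5e_lim_X (hn : 1 ≤ n) (H : CkAdm 1 b h) (l : ℕ) (hl : 1 ≤ l) {p : GhPos} (hp : p.Ok 1) {B : ℝ} {F0 : Finset GhPos}
    (hB : ∀ F, F0 ⊆ F → p ∈ F → cmN (cm5eM n b h F).P (2 * l)
      (fun ω => ‖(cm5eM n b h F).X (ghIdx (ghPs 1 F) p) ω‖ ^ 2 - (cm5eM n b h F).S (ghIdx (ghPs 1 F) p)) ≤ B) :
    cmkMXc n b h l p ≤ B ^ (2 * l) := by
  classical
  refine cm5e_delta fun δ hδ => ?_
  obtain ⟨F3, h3⟩ := cm5e_S_close hn H hδ
  unfold cmkMXc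
  refine cm5e_lim_le (by omega) H (2 * (2 * l)) hp _ (K := 2 ^ (2 * l)) (fun σ => ?_) (F0 := F0 ∪ F3) fun F hF hpF => ?_
  · rw [Finset.abs_prod]
    calc ∏ i : Fin (2 * l), |skOv (σ ⟨2 * i.1, by have := i.2; omega⟩) (σ ⟨2 * i.1 + 1, by have := i.2; omega⟩) - skCS n 1 b h p|
        ≤ ∏ _i : Fin (2 * l), (2 : ℝ) := Finset.prod_le_prod (fun _ _ => abs_nonneg _) fun i _ => cm5e_ov_sub_le hn H hp _ _
      _ = 2 ^ (2 * l) := by simp
  · have hM := cm5e_ok (F := F) hn H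
    have := hM.prob
    rw [cm5e_star hn H (2 * l) (skCS n 1 b h p)]
    have hbm : CmBM (cm5eM n b h F).P (fun ω => ‖(cm5eM n b h F).X (ghIdx (ghPs 1 F) p) ω‖ ^ 2) :=
      ⟨((hM.meas _).norm.pow_const 2).aestronglyMeasurable, 1, fun ω => by
        rw [Real.norm_eq_abs]; exact CmPath.cm5k_sq_le hM _ ω⟩
    refine (cm5e_recentre hbm ((cm5eM n b h F).S (ghIdx (ghPs 1 F) p)) (skCS n 1 b h p) l hl).trans ?_
    refine pow_le_pow_left₀ (add_nonneg (cmN_nonneg _ _ _) (abs_nonneg _)) ?_ _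
    exact add_le_add (hB F (Finset.subset_union_left.trans hF) hpF) (h3 F (Finset.subset_union_right.trans hF) p hpF hp)

end lim

/-! ## PART 4 : the exit -/

/-- the window (pigeonhole on a monotone function of the mass) -/
theorem cm5e_window (f : ℝ → ℝ) (v ϑ CS s1 s2 : ℝ) (hv : 0 < v) (hϑ : 0 < ϑ) (h12 : 12 * ϑ * v ≤ s2 - s1)
    (hmono : ∀ s t, s1 ≤ s → s ≤ t → t ≤ s2 → f s ≤ f t) (h0 : 0 ≤ f s1) (hS : f s2 ≤ CS * v) :
    ∃ t0 : ℝ, s1 ≤ t0 - ϑ * v ∧ t0 + 2 * ϑ * v ≤ s2 ∧ f (t0 + 2 * ϑ * v) - f (t0 - ϑ * v) ≤ 4 * CS * ϑ * v ^ 2 / (s2 - s1) := by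
  obtain ⟨w, hw⟩ : ∃ w, w = 3 * ϑ * v := ⟨_, rfl⟩
  have hw0 : 0 < w := by rw [hw]; positivity
  have hlen : 0 < s2 - s1 := by nlinarith [mul_pos hϑ hv]
  obtain ⟨K, hK⟩ : ∃ K : ℕ, K = ⌊(s2 - s1) / w⌋₊ := ⟨_, rfl⟩
  have hq4 : 4 ≤ (s2 - s1) / w := by rw [le_div_iff₀ hw0, hw]; linarith
  have hK1 : (K : ℝ) ≤ (s2 - s1) / w := by rw [hK]; exact Nat.floor_le (by positivity)
  have hK2 : (s2 - s1) / w < K + 1 := by rw [hK]; exact Nat.lt_floor_add_one _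
  have hK3 : (3:ℝ) < K := by linarith
  have hKpos : 0 < K := by
    have : (0:ℝ) < K := by linarith
    exact_mod_cast this
  have hKw : K * w ≤ s2 - s1 := by rwa [le_div_iff₀ hw0] at hK1
  obtain ⟨i, hi, h⟩ := cm_tk_window f s1 w K hKpos
  refine ⟨s1 + i * w + ϑ * v, ?_, ?_, ?_⟩
  · have : 0 ≤ (i:ℝ) * w := by positivity
    linarith
  · have h1 : ((i + 1 : ℕ) : ℝ) ≤ K := by exact_mod_cast hi
    have h2 : ((i + 1 : ℕ) : ℝ) * w ≤ K * w := mul_le_mul_of_nonneg_right h1 hw0.le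
    push_cast at h2
    rw [hw] at h2 hKw ⊢
    linarith
  · have e1 : s1 + i * w + ϑ * v + 2 * ϑ * v = s1 + ((i + 1 : ℕ) : ℝ) * w := by push_cast; rw [hw]; ring
    have e2 : s1 + i * w + ϑ * v - ϑ * v = s1 + i * w := by ring
    rw [e1, e2]
    refine le_trans h ?_
    have hK' : (0:ℝ) < K := by linarith
    have hnum : f (s1 + K * w) - f s1 ≤ CS * v := by
      have h1 := hmono (s1 + K * w) s2 (by have : 0 ≤ (K:ℝ) * w := by positivity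
                                           linarith) (by linarith) le_rfl
      linarith
    have hCS : 0 ≤ CS * v := le_trans (h0.trans (hmono s1 s2 le_rfl (by linarith) le_rfl)) hS
    rw [div_le_div_iff₀ hK' hlen]
    have h3 : (s2 - s1) ≤ (K + 1) * w := by
      rw [div_lt_iff₀ hw0] at hK2; exact hK2.le
    have h4 : (s2 - s1) ≤ 4 * ϑ * v * K := by
      have : (K + 1 : ℝ) * w ≤ 4 * ϑ * v * K := by
        rw [hw]
        have : 0 < ϑ * v := mul_pos hϑ hv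
        nlinarith
      linarith
    calc (f (s1 + K * w) - f s1) * (s2 - s1) ≤ CS * v * (s2 - s1) :=
          mul_le_mul_of_nonneg_right hnum hlen.le
      _ ≤ CS * v * (4 * ϑ * v * K) := mul_le_mul_of_nonneg_left h4 hCS
      _ = 4 * CS * ϑ * v ^ 2 * K := by ring

theorem cm5e_proj_mono {n : ℕ} {Ω : Type} [MeasurableSpace Ω] {M : CmPath n Ω} {p : ℕ} {Pi Pi' : ℝ} (h : M.Proj p Pi) (h0 : 0 ≤ Pi)
    (hle : Pi ≤ Pi') : M.Proj p Pi' := by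
  intro j0 j1 j2 i h01 h12 h2i hi hm hh ω V
  refine (h j0 j1 j2 i h01 h12 h2i hi hm hh ω V).trans ?_
  have hs : 0 ≤ Real.sqrt (n * (M.hck j2 - M.hck j1)) := Real.sqrt_nonneg _
  apply pow_le_pow_left₀ (by positivity)
  gcongr

theorem cm5e_nu_abs {n : ℕ} {b h : ℝ → ℝ} (H : CkAdm 1 b h) {q : ℕ} {τ : ℕ → ℕ → WithTop GhPos} (hτ : GhIsRT 1 q τ)
    (P : (Fin q → SkCfg n) → ℝ) {K : ℝ} (hK : ∀ σ, |P σ| ≤ K) : |skCNu n 1 b h q τ P| ≤ K := by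
  rw [sk_c_nu_eq]
  exact brg_nu_abs_le (gh_pk_base_ok n one_pos) (skPhi n) (gh_pk_clk n H) 0 hτ P hK

set_option maxHeartbeats 1600000 in
/-- **one moment order**: the window is given (through `skCS` only); small `n` are absorbed in the constant.   TEX[PE:comp:good-split] -/
theorem cm5e_fixed {cE D0 : ℝ} (mlo Tm ca ce c C C0 c1 K0 CS1 : ℝ) (hm : 0 < mlo) (hcE : 0 < cE) (hca : 0 < ca) (hce : 0 < ce)
    (hc : 0 < c) (hC : 0 < C) (hc1 : 0 < c1) (hc1' : c1 ≤ mlo / 2) (hK0 : 0 ≤ K0) (hCS1 : 0 ≤ CS1) (l : ℕ) (hl : 1 ≤ l) :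
    ∃ Kl : ℝ, 0 < Kl ∧ ∀ (I : CmI) (x : ℝ), mlo ≤ I.P.m → I.Std cE D0 Tm → MonotoneOn I.h0 (Icc I.P.u0 1) → I.P.u0 ≤ x →
      I.Loc ca ce c C C0 x →
      (∀ t : ℝ, cm5cC0 C0 * x ≤ t → t ≤ 1 → skCS I.P.n 1 I.b I.h (ghPosA t) ≤ CS1 * t) →
      ∀ v t0 : ℝ, cm5cC0 C0 * x ≤ v → v ≤ cm5cUm c C → v ≤ t0 - I.P.N ^ (-c1) * v → t0 + 2 * I.P.N ^ (-c1) * v ≤ 2 * v →
        skCS I.P.n 1 I.b I.h (ghPosA (t0 + 2 * I.P.N ^ (-c1) * v)) - skCS I.P.n 1 I.b I.h (ghPosA (t0 - I.P.N ^ (-c1) * v))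
          ≤ K0 * I.P.N ^ (-c1) * v →
        ∀ p : GhPos, p.Ok 1 → t0 ≤ p.u → p.u ≤ t0 + I.P.N ^ (-c1) * v / 3 →
          cmkMRc I.P.n I.b I.h l p ≤ (Kl * I.P.N ^ (-(min c1 (mlo / 8) / 2)) * v) ^ (2 * l) ∧
          cmkMXc I.P.n I.b I.h l p ≤ (Kl * I.P.N ^ (-(min c1 (mlo / 8) / 2)) * v) ^ (2 * l) := by
  classical
  obtain ⟨Pi1, hPi1, hproj1⟩ := cm5_sk_proj l hl
  obtain ⟨Pi2, hPi2, hproj2⟩ := cm5_sk_proj (2 * l) (by omega)
  obtain ⟨Kc, Nc, hKc, hchain⟩ := cm5e_chain (cE := cE) (D0 := D0) mlo Tm ca ce c C C0 c1 (K0 + 1) (CS1 + 1) (max Pi1 Pi2)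
    (1 + (2 * ((2 * l : ℕ) : ℝ)) ^ 2 / 3) hm hcE hca hce hc hC hc1 hc1' (by linarith) (by linarith) (hPi1.trans (le_max_left _ _))
    (by positivity) l hl
  have hc2 : 0 < min c1 (mlo / 8) / 2 := by
    have : 0 < min c1 (mlo / 8) := lt_min hc1 (by linarith)
    linarith
  obtain ⟨c2, hc2def⟩ : ∃ c2, c2 = min c1 (mlo / 8) / 2 := ⟨_, rfl⟩
  rw [← hc2def] at hc2 hchain ⊢
  obtain ⟨NR, hNR⟩ : ∃ NR : ℝ, NR = max (Nc : ℝ) 1 := ⟨_, rfl⟩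
  have hNR1 : 1 ≤ NR := hNR ▸ le_max_right _ _
  have hNR0 : 0 < NR := by linarith
  obtain ⟨w, hw⟩ : ∃ w : ℝ, w = NR ^ (-c2) * (ca * cE * NR ^ (-(1 / 6 : ℝ))) := ⟨_, rfl⟩
  have hw0 : 0 < w := by
    rw [hw]
    have h1 := Real.rpow_pos_of_pos hNR0 (-c2)
    have h2 := Real.rpow_pos_of_pos hNR0 (-(1 / 6 : ℝ))
    positivity
  refine ⟨max Kc (2 / w), lt_of_lt_of_le hKc (le_max_left _ _), ?_⟩
  intro I x hmI hStd hh0 hux hLoc hSsk v t0 hx0v hvum hlo hhi hosc p hp hp1 hp2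
  have hP := hStd.ok
  have hn1 : 1 ≤ I.P.n := by have := hP.n3; omega
  have H : CkAdm 1 I.b I.h := hStd.adm I.q
  have hx := hLoc.x0
  have hNpos := cm_N_pos hP
  have hxx0 : x ≤ cm5cC0 C0 * x := le_mul_of_one_le_left hx.le (cm5c_C0_ge C0)
  have hx0 : 0 < cm5cC0 C0 * x := lt_of_lt_of_le hx hxx0
  have hv : 0 < v := lt_of_lt_of_le hx0 hx0v
  have hum := cm5c_Um_le c C
  have hT0 : 0 < I.P.N ^ (-c2) := Real.rpow_pos_of_pos hNpos _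
  have hfin : ∀ A : ℝ, A ≤ (Kc * I.P.N ^ (-c2) * v) ^ (2 * l) → A ≤ (max Kc (2 / w) * I.P.N ^ (-c2) * v) ^ (2 * l) := fun A hA =>
    hA.trans (pow_le_pow_left₀ (by positivity) (by gcongr; exact le_max_left _ _) _)
  by_cases hN : Nc ≤ I.P.n
  · -- the main case
    obtain ⟨ϑ, hϑdef⟩ : ∃ ϑ, ϑ = I.P.N ^ (-c1) := ⟨_, rfl⟩
    rw [← hϑdef] at hlo hhi hosc hp2
    have hϑ : 0 < ϑ := hϑdef ▸ Real.rpow_pos_of_pos hNpos _
    have hϑv : 0 < ϑ * v := mul_pos hϑ hv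
    obtain ⟨G, hGdef⟩ : ∃ G, G = cm5cG I.P (cm5cCG cE D0 ca ce C) := ⟨_, rfl⟩
    have hG0 : 0 ≤ G := hGdef ▸ Real.sqrt_nonneg _
    obtain ⟨η, hη0, hη1, hη2, hη3⟩ : ∃ η : ℝ, 0 < η ∧ η ≤ x ∧ 3 * η * G ≤ x ∧ 9 * η ≤ ϑ * x := by
      refine ⟨min x (min (x / (3 * (G + 1))) (ϑ * x / 9)), lt_min hx (lt_min (by positivity) (by positivity)), min_le_left _ _, ?_, ?_⟩
      · have h1 : min x (min (x / (3 * (G + 1))) (ϑ * x / 9)) ≤ x / (3 * (G + 1)) := (min_le_right _ _).trans (min_le_left _ _)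
        calc 3 * min x (min (x / (3 * (G + 1))) (ϑ * x / 9)) * G ≤ 3 * (x / (3 * (G + 1))) * G := by gcongr
          _ = x * (G / (G + 1)) := by field_simp
          _ ≤ x * 1 := by
              apply mul_le_mul_of_nonneg_left _ hx.le
              rw [div_le_one (by linarith)]; linarith
          _ = x := mul_one x
      · have h1 : min x (min (x / (3 * (G + 1))) (ϑ * x / 9)) ≤ ϑ * x / 9 := (min_le_right _ _).trans (min_le_right _ _)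
        linarith
    obtain ⟨k, hk⟩ : ∃ k : ℕ, 1 / 2 ^ k ≤ η := by
      obtain ⟨k, hk⟩ := exists_pow_lt_of_lt_one hη0 (by norm_num : (1 / 2 : ℝ) < 1)
      exact ⟨k, by rw [one_div_pow] at hk; exact hk.le⟩
    obtain ⟨δ, hδ0, hδ1, hδ2⟩ : ∃ δ : ℝ, 0 < δ ∧ δ ≤ cm5cC0 C0 * x ∧ 2 * δ ≤ ϑ * v :=
      ⟨min (cm5cC0 C0 * x) (ϑ * v / 2), lt_min hx0 (by positivity), min_le_left _ _, by
        have := min_le_right (cm5cC0 C0 * x) (ϑ * v / 2); linarith⟩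
    obtain ⟨F3, hF3⟩ := cm5e_S_close hn1 H hδ0
    have hta : (t0 + 2 * ϑ * v) ∈ Icc (0 : ℝ) 1 := ⟨by linarith, by linarith⟩
    have htb : (t0 - ϑ * v) ∈ Icc (0 : ℝ) 1 := ⟨by linarith, by linarith⟩
    have hall : ∀ F, F3 ∪ ghGrid 1 k ∪ {ghPosA 0, ghPosA (t0 + 2 * ϑ * v), ghPosA (t0 - ϑ * v)} ⊆ F → p ∈ F →
        cmN ((cm5eM I.P.n I.b I.h F).P2 (ghIdx (ghPs 1 F) p)) (2 * l)
          (fun z => (cm5eM I.P.n I.b I.h F).R2 z - (cm5eM I.P.n I.b I.h F).S (ghIdx (ghPs 1 F) p)) ≤ Kc * I.P.N ^ (-c2) * v ∧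
        cmN (cm5eM I.P.n I.b I.h F).P (2 * l)
          (fun ω => ‖(cm5eM I.P.n I.b I.h F).X (ghIdx (ghPs 1 F) p) ω‖ ^ 2 - (cm5eM I.P.n I.b I.h F).S (ghIdx (ghPs 1 F) p))
            ≤ Kc * I.P.N ^ (-c2) * v := by
      intro F hF hpF
      have hM := cm5e_ok (F := F) hn1 H
      have hF3' : F3 ⊆ F := fun a ha => hF (by simp [ha])
      have hgr : ghGrid 1 k ⊆ F := fun a ha => hF (by simp [ha])
      have h0F : ghPosA 0 ∈ F := hF (by simp)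
      have haF : ghPosA (t0 + 2 * ϑ * v) ∈ F := hF (by simp)
      have hbF : ghPosA (t0 - ϑ * v) ∈ F := hF (by simp)
      have hsmp := cm5e_smp hM H hη0 (cm5e_grid hk hgr)
      have hadm := flb_chain_adm zero_le_one H F
      have hP1 : (cm5eM I.P.n I.b I.h F).Proj (2 * l) (max Pi1 Pi2) :=
        cm5e_proj_mono (hproj1 _ _ hn1 hadm) (by linarith) (le_max_left _ _)
      have hP2 : (cm5eM I.P.n I.b I.h F).Proj (2 * (2 * l)) (max Pi1 Pi2) :=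
        cm5e_proj_mono (hproj2 _ _ hn1 hadm) (by linarith) (le_max_right _ _)
      have hPin : (cm5eM I.P.n I.b I.h F).Pin (2 * l) (1 + (2 * ((2 * l : ℕ) : ℝ)) ^ 2 / 3) :=
        cm5_sk_pin _ hn1 _ hadm (2 * l) (by omega)
      have hS : ∀ t, cm5cC0 C0 * x ≤ t → t ≤ 1 →
          (cm5eM I.P.n I.b I.h F).S ((cm5eM I.P.n I.b I.h F).nd t) ≤ (CS1 + 1) * t := by
        intro t ht ht1
        have ht0 : 0 ≤ t := by linarith
        obtain ⟨p', hp'F, hp'o, hp't, e⟩ := cm5e_nd_pos hM ht0 (cm5e_nd_ge hM h0F ht0)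
        have h1 := hF3 F hF3' p' hp'F hp'o
        rw [e] at h1
        have h2 := (exit_clk_SB (n := I.P.n) (by omega) one_pos H hp'o (cmk_posA_ok ⟨ht0, ht1⟩) (cm5e_le_posA hp'o hp't)).2.1
        have h3 := hSsk t ht ht1
        have h4 := (abs_le.1 h1).2
        linarith
      have hosc' : (cm5eM I.P.n I.b I.h F).S ((cm5eM I.P.n I.b I.h F).nd (t0 + 2 * ϑ * v))
          - (cm5eM I.P.n I.b I.h F).S ((cm5eM I.P.n I.b I.h F).nd (t0 - ϑ * v)) ≤ ((K0 + 1) * ϑ) * v := by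
        rw [cm5e_nd hM hta haF, cm5e_nd hM htb hbF]
        have h1 := (abs_le.1 (hF3 F hF3' _ haF (cmk_posA_ok hta))).2
        have h2 := (abs_le.1 (hF3 F hF3' _ hbF (cmk_posA_ok htb))).1
        have e : ((K0 + 1) * ϑ) * v = K0 * ϑ * v + ϑ * v := by ring
        rw [e]
        linarith
      obtain ⟨-, hsL, hsm, -⟩ := cm5e_node_of_pos (n := I.P.n) (b := I.b) (h := I.h) hpF hp
      subst hϑdef hGdef
      exact hchain I x hmI hStd hh0 hux hLoc hN (hx0v.trans hvum) _ (cm5eM I.P.n I.b I.h F) η hM hη0.le hη1 hη2 hη3 hsmp hP1 hP2 hPin hS v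
        ((K0 + 1) * I.P.N ^ (-c1)) t0 hx0v hvum (by positivity) le_rfl hlo hhi hosc' _ hsL (by rw [hsm]; exact hp1) (by rw [hsm]; exact hp2)
    exact ⟨hfin _ (cm5e_lim_R hn1 H l hl hp fun F hF hpF => (hall F hF hpF).1),
      hfin _ (cm5e_lim_X hn1 H l hl hp fun F hF hpF => (hall F hF hpF).2)⟩
  · -- small `n`
    have hNle : I.P.N ≤ NR := by
      have h1 : (I.P.n : ℝ) ≤ (Nc : ℝ) := by exact_mod_cast (not_le.1 hN).le
      exact h1.trans (hNR ▸ le_max_left _ _)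
    have hN1 : 1 ≤ I.P.N := by linarith [cm_N_ge hP]
    have h1 : NR ^ (-c2) ≤ I.P.N ^ (-c2) := Real.rpow_le_rpow_of_nonpos hNpos hNle (by linarith)
    have h2 : NR ^ (-(1 / 6 : ℝ)) ≤ I.P.N ^ (-(1 / 6 : ℝ)) := Real.rpow_le_rpow_of_nonpos hNpos hNle (by norm_num)
    have h3 : I.P.N ^ (-(1 / 6 : ℝ)) ≤ I.P.N ^ (-(1 / 6 : ℝ) + I.P.m) :=
      Real.rpow_le_rpow_of_exponent_le hN1 (by linarith [hP.m0])
    have h4 := cm_a_ge hcE hP
    have h5 : ca * cE * NR ^ (-(1 / 6 : ℝ)) ≤ v := by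
      calc ca * cE * NR ^ (-(1 / 6 : ℝ)) ≤ ca * cE * I.P.N ^ (-(1 / 6 : ℝ) + I.P.m) := by gcongr; exact h2.trans h3
        _ = ca * (cE * I.P.N ^ (-(1 / 6 : ℝ) + I.P.m)) := by ring
        _ ≤ ca * I.P.a := by gcongr
        _ ≤ v := hLoc.xa.trans (hxx0.trans hx0v)
    have h6 : w ≤ I.P.N ^ (-c2) * v := by
      rw [hw]
      have := Real.rpow_pos_of_pos hNR0 (-(1 / 6 : ℝ))
      exact mul_le_mul h1 h5 (by positivity) hT0.le
    have h7 : 2 ≤ max Kc (2 / w) * I.P.N ^ (-c2) * v := by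
      calc (2 : ℝ) = 2 / w * w := by field_simp
        _ ≤ max Kc (2 / w) * (I.P.N ^ (-c2) * v) := mul_le_mul (le_max_right _ _) h6 hw0.le (by positivity)
        _ = _ := by ring
    have h8 : (2 : ℝ) ^ (2 * l) ≤ (max Kc (2 / w) * I.P.N ^ (-c2) * v) ^ (2 * l) := pow_le_pow_left₀ (by norm_num) h7 _
    constructor
    · refine le_trans ((le_abs_self _).trans (cm5e_nu_abs H (cm5e_star_rt hp 2) _ fun σ => ?_)) h8
      rw [abs_pow]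
      exact pow_le_pow_left₀ (abs_nonneg _) (cm5e_ov_sub_le hn1 H hp _ _) _
    · refine le_trans ((le_abs_self _).trans (cm5e_nu_abs H (cm5e_star_rt hp (2 * (2 * l))) _ fun σ => ?_)) h8
      rw [Finset.abs_prod]
      calc ∏ i : Fin (2 * l), |skOv (σ ⟨2 * i.1, by have := i.2; omega⟩) (σ ⟨2 * i.1 + 1, by have := i.2; omega⟩) - skCS I.P.n 1 I.b I.h p|
          ≤ ∏ _i : Fin (2 * l), (2 : ℝ) := Finset.prod_le_prod (fun _ _ => abs_nonneg _) fun i _ => cm5e_ov_sub_le hn1 H hp _ _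
        _ = 2 ^ (2 * l) := by simp

set_option maxHeartbeats 800000 in
/-- **PE Lemma 3.7 (good split), (17)**: the statement of `exit_cmp_split` (Exit/CmpSplit.lean, typed by helper247).   TEX[PE:comp:good-split] -/
theorem cm5e_exit (mlo cE D0 Tm ca ce c C C0 C1 c1 : ℝ) (hm : 0 < mlo) (hcE : 0 < cE) (hD0 : 0 < D0) (hca : 0 < ca)
    (hce : 0 < ce) (hc : 0 < c) (hC : 0 < C) (hC1 : 1 ≤ C1) (hc1 : 0 < c1) (hc1' : c1 ≤ mlo / 2) :
    ∃ (c2 C2 K0 : ℝ) (N0 : ℕ) (Kf : ℕ → ℝ), 0 < c2 ∧ 0 < C2 ∧ 0 < K0 ∧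
      ∀ (I : CmI) (x : ℝ), mlo ≤ I.P.m → I.Std cE D0 Tm → MonotoneOn I.h0 (Set.Icc I.P.u0 1) → I.P.u0 ≤ x →
      I.Loc ca ce c C C0 x → N0 ≤ I.P.n → ∀ v s1 s2 : ℝ, C2 * x ≤ v → C2 * v ≤ 1 → v ≤ s1 → s2 ≤ 2 * v → v ≤ C1 * (s2 - s1) →
        ∃ t0 : ℝ, s1 ≤ t0 - I.P.N ^ (-c1) * v ∧ t0 + 2 * I.P.N ^ (-c1) * v ≤ s2 ∧
          skCS I.P.n 1 I.b I.h (ghPosA (t0 + 2 * I.P.N ^ (-c1) * v)) - skCS I.P.n 1 I.b I.h (ghPosA (t0 - I.P.N ^ (-c1) * v))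
            ≤ K0 * I.P.N ^ (-c1) * v ∧
          ∀ l : ℕ, 1 ≤ l → ∀ p : GhPos, p.Ok 1 → t0 ≤ p.u → p.u ≤ t0 + I.P.N ^ (-c1) * v / 3 →
            cmkMRc I.P.n I.b I.h l p ≤ (Kf l * I.P.N ^ (-c2) * v) ^ (2 * l) ∧
            cmkMXc I.P.n I.b I.h l p ≤ (Kf l * I.P.N ^ (-c2) * v) ^ (2 * l) := by
  obtain ⟨Cs, n0, hCs, hSsk⟩ := cm5c_S_sk (cE := cE) (D0 := D0) (mlo := mlo) (Tm := Tm) (ca := ca) hcE hD0 hm hca
  obtain ⟨CS1, hCS1⟩ : ∃ CS1, CS1 = 2 * C + Cs := ⟨_, rfl⟩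
  have hCS10 : 0 < CS1 := by rw [hCS1]; positivity
  obtain ⟨nW, hnW⟩ := cm5c_thr (12 * C1) hc1
  have key : ∀ l : ℕ, ∃ Kl : ℝ, 1 ≤ l → ∀ (I : CmI) (x : ℝ), mlo ≤ I.P.m → I.Std cE D0 Tm → MonotoneOn I.h0 (Icc I.P.u0 1) → I.P.u0 ≤ x →
      I.Loc ca ce c C C0 x →
      (∀ t : ℝ, cm5cC0 C0 * x ≤ t → t ≤ 1 → skCS I.P.n 1 I.b I.h (ghPosA t) ≤ CS1 * t) →
      ∀ v t0 : ℝ, cm5cC0 C0 * x ≤ v → v ≤ cm5cUm c C → v ≤ t0 - I.P.N ^ (-c1) * v → t0 + 2 * I.P.N ^ (-c1) * v ≤ 2 * v →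
        skCS I.P.n 1 I.b I.h (ghPosA (t0 + 2 * I.P.N ^ (-c1) * v)) - skCS I.P.n 1 I.b I.h (ghPosA (t0 - I.P.N ^ (-c1) * v))
          ≤ 8 * CS1 * C1 * I.P.N ^ (-c1) * v →
        ∀ p : GhPos, p.Ok 1 → t0 ≤ p.u → p.u ≤ t0 + I.P.N ^ (-c1) * v / 3 →
          cmkMRc I.P.n I.b I.h l p ≤ (Kl * I.P.N ^ (-(min c1 (mlo / 8) / 2)) * v) ^ (2 * l) ∧
          cmkMXc I.P.n I.b I.h l p ≤ (Kl * I.P.N ^ (-(min c1 (mlo / 8) / 2)) * v) ^ (2 * l) := by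
    intro l
    by_cases hl : 1 ≤ l
    · obtain ⟨Kl, -, h⟩ := cm5e_fixed (cE := cE) (D0 := D0) mlo Tm ca ce c C C0 c1 (8 * CS1 * C1) CS1 hm hcE hca hce hc hC hc1 hc1'
        (by positivity) hCS10.le l hl
      exact ⟨Kl, fun _ => h⟩
    · exact ⟨0, fun h => absurd h hl⟩
  choose Kf hKf using key
  have hum0 := cm5c_Um_pos c C
  have hc2 : 0 < min c1 (mlo / 8) / 2 := by
    have : 0 < min c1 (mlo / 8) := lt_min hc1 (by linarith)
    linarith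
  refine ⟨min c1 (mlo / 8) / 2, max (cm5cC0 C0) (1 / cm5cUm c C), 8 * CS1 * C1, max n0 nW, Kf, hc2,
    lt_of_lt_of_le (by linarith [cm5c_C0_ge C0]) (le_max_left _ _), by positivity, ?_⟩
  intro I x hmI hStd hh0 hux hLoc hN v s1 s2 hC2x hC2v hvs1 hs2 hlen
  have hP := hStd.ok
  have hn1 : 1 ≤ I.P.n := by have := hP.n3; omega
  have H : CkAdm 1 I.b I.h := hStd.adm I.q
  have hx := hLoc.x0
  have hNpos := cm_N_pos hP
  have hx0v : cm5cC0 C0 * x ≤ v := (mul_le_mul_of_nonneg_right (le_max_left _ _) hx.le).trans hC2x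
  have hxx0 : x ≤ cm5cC0 C0 * x := le_mul_of_one_le_left hx.le (cm5c_C0_ge C0)
  have hv : 0 < v := lt_of_lt_of_le hx (hxx0.trans hx0v)
  have hvum : v ≤ cm5cUm c C := by
    have h1 : 1 / cm5cUm c C * v ≤ 1 := (mul_le_mul_of_nonneg_right (le_max_right _ _) hv.le).trans hC2v
    rwa [one_div, inv_mul_le_iff₀ hum0, mul_one] at h1
  have hum := cm5c_Um_le c C
  have hS' : ∀ t : ℝ, cm5cC0 C0 * x ≤ t → t ≤ 1 → skCS I.P.n 1 I.b I.h (ghPosA t) ≤ CS1 * t := by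
    rw [hCS1]
    exact hSsk I ce c C C0 x hmI hStd hh0 hux hC.le hLoc ((le_max_left _ _).trans hN)
  obtain ⟨ϑ, hϑdef⟩ : ∃ ϑ, ϑ = I.P.N ^ (-c1) := ⟨_, rfl⟩
  have hϑ : 0 < ϑ := hϑdef ▸ Real.rpow_pos_of_pos hNpos _
  have hϑC : 12 * C1 * ϑ ≤ 1 := by
    have h1 : 12 * C1 ≤ I.P.N ^ c1 := hnW I.P.n ((le_max_right _ _).trans hN)
    have h2 : 0 < I.P.N ^ c1 := Real.rpow_pos_of_pos hNpos _
    rw [hϑdef, Real.rpow_neg hNpos.le, ← div_eq_mul_inv, div_le_one h2]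
    exact h1
  have hlen0 : 0 < s2 - s1 := by
    by_contra hcon
    have : C1 * (s2 - s1) ≤ 0 := mul_nonpos_of_nonneg_of_nonpos (by linarith) (not_lt.1 hcon)
    linarith
  have h12 : 12 * ϑ * v ≤ s2 - s1 := by
    calc 12 * ϑ * v ≤ 12 * ϑ * (C1 * (s2 - s1)) := by gcongr
      _ = 12 * C1 * ϑ * (s2 - s1) := by ring
      _ ≤ 1 * (s2 - s1) := by gcongr
      _ = s2 - s1 := one_mul _
  have hs21 : s2 ≤ 1 := by linarith
  obtain ⟨t0, h1, h2, h3⟩ := cm5e_window (fun t => skCS I.P.n 1 I.b I.h (ghPosA t)) v ϑ (2 * CS1) s1 s2 hv hϑ h12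
    (fun s t hs hst ht => (exit_clk_SB (n := I.P.n) (by omega) one_pos H (cmk_posA_ok ⟨by linarith, by linarith⟩)
      (cmk_posA_ok ⟨by linarith, by linarith⟩) (cmk_posA_le hst)).2.1)
    (cm5e_S_mem hn1 H (cmk_posA_ok ⟨by linarith, by linarith⟩)).1
    ((hS' s2 (by linarith) hs21).trans (by nlinarith))
  have hosc : skCS I.P.n 1 I.b I.h (ghPosA (t0 + 2 * ϑ * v)) - skCS I.P.n 1 I.b I.h (ghPosA (t0 - ϑ * v)) ≤ 8 * CS1 * C1 * ϑ * v := by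
    refine h3.trans ?_
    rw [div_le_iff₀ hlen0]
    calc 4 * (2 * CS1) * ϑ * v ^ 2 = 8 * CS1 * ϑ * v * v := by ring
      _ ≤ 8 * CS1 * ϑ * v * (C1 * (s2 - s1)) := by gcongr
      _ = 8 * CS1 * C1 * ϑ * v * (s2 - s1) := by ring
  subst hϑdef
  exact ⟨t0, h1, h2, hosc, fun l hl p hp hp1 hp2 =>
    hKf l hl I x hmI hStd hh0 hux hLoc hS' v t0 hx0v hvum (hvs1.trans h1) (h2.trans hs2) hosc p hp hp1 hp2⟩

end Claimed.Agent.R286
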