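import Claimed.Agent.R286.Cmp.P5Kit
import Claimed.Agent.R286.Cmp.P5Ctr

/-!
owner helper247 (leaves free for provers: claim286 by Lean name); provers helper164 (top), helper165 (sus_diag, sus_abs, cm5_sus_pf).      R286 / P05: CUT of `cm5_sus` = PE (15) (comparisons.tex l.404-520) on the abstract path `CmPath`.
Mass coordinate only.   Fork node `j`, fork time `t = max (mass j) t1`; thresholds `thr 0 = t`, `thr 1 = t + η`, `thr (k+2) = 2 Γ^(k+1) t`; cut nodes `cut j .. 0 = j`, `cut j .. k = ct (thr k)`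
(`ct s` = last node of mass `≤ s`, the terminal node `L+1` as soon as `s ≥ 1`: the terminal layer is not special).   Layer `k` = `(cut k, cut (k+1)]`.
  `W_layers`     Hessian blocking + Cauchy-Schwarz                       (l.446-462)
  `pair_bound`   one pair of increments on the two leaves, from `Proj`    (l.464-492)
  `sus_off`      all pairs `(i,k) ≠ (0,0)`: scale-free bound `100 Γ⁴ Π² Q²/(n D)`
  `sus_diag`     the pair `(0,0)`: Doob + `window_comp` (replaces the shifted grids, l.494-540)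
  `sus_abs`      assembly;   `cm5_sus_pf` : the contract `cm5_sus`.
-/

set_option autoImplicit false

namespace Claimed.Agent.R286

open MeasureTheory ProbabilityTheory
open scoped ENNReal NNReal

variable {n : ℕ} {Ω : Type} [MeasurableSpace Ω]

namespace CmPath

/-! ### helpers of helper164 (all proved): pairs of leaves, blocking, the pair (0,0), abstract assembly -/

variable {M : CmPath n Ω}

/-- the conditional second moment of a pair of vectors carried by the two branches forked at `j` -/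
noncomputable def pI (M : CmPath n Ω) (j : ℕ) (A D : Ω → EuclideanSpace ℝ (Fin n)) (ω : Ω) : ℝ :=
  ∫ ω', inner ℝ (A ω) (D ω') ^ 2 ∂(M.κ j ω)

theorem su_pair_meas {A D : Ω → EuclideanSpace ℝ (Fin n)} (hA : Measurable A) (hD : Measurable D) :
    Measurable (fun z : Ω × Ω => inner ℝ (A z.1) (D z.2)) :=
  (hA.comp measurable_fst).inner (hD.comp measurable_snd)

theorem su_pair_bdd {A D : Ω → EuclideanSpace ℝ (Fin n)} {a d : ℝ} (hAb : ∀ ω, ‖A ω‖ ≤ a) (hDb : ∀ ω, ‖D ω‖ ≤ d) (z : Ω × Ω) :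
    |inner ℝ (A z.1) (D z.2)| ≤ a * d :=
  (abs_real_inner_le_norm _ _).trans (mul_le_mul (hAb _) (hDb _) (norm_nonneg _) ((norm_nonneg _).trans (hAb z.1)))

theorem pI_nonneg (M : CmPath n Ω) (j : ℕ) (A D : Ω → EuclideanSpace ℝ (Fin n)) (ω : Ω) : 0 ≤ M.pI j A D ω :=
  integral_nonneg fun _ => by positivity

theorem pI_meas (hM : M.Ok) (j : ℕ) {A D : Ω → EuclideanSpace ℝ (Fin n)} (hA : Measurable A) (hD : Measurable D) :
    Measurable (M.pI j A D) := by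
  have := hM.markov j
  exact (((su_pair_meas hA hD).pow_const 2).stronglyMeasurable.integral_kernel_prod_right' (κ := M.κ j)).measurable

theorem pI_le (hM : M.Ok) (j : ℕ) {A D : Ω → EuclideanSpace ℝ (Fin n)} {a d : ℝ} (hAb : ∀ ω, ‖A ω‖ ≤ a) (hDb : ∀ ω, ‖D ω‖ ≤ d)
    (ω : Ω) : M.pI j A D ω ≤ (a * d) ^ 2 := by
  have := hM.markov j
  have h := norm_integral_le_of_norm_le_const (μ := M.κ j ω) (f := fun ω' => inner ℝ (A ω) (D ω') ^ 2)
    (C := (a * d) ^ 2) (Filter.Eventually.of_forall fun x => by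
      rw [Real.norm_eq_abs, abs_pow, ]
      exact pow_le_pow_left₀ (abs_nonneg _) (su_pair_bdd hAb hDb (ω, x)) 2)
  have h2 : M.pI j A D ω ≤ ‖M.pI j A D ω‖ := le_abs_self _
  simpa using h2.trans h

theorem pI_BM (hM : M.Ok) (j : ℕ) {A D : Ω → EuclideanSpace ℝ (Fin n)} (hA : Measurable A) (hD : Measurable D) {a d : ℝ}
    (hAb : ∀ ω, ‖A ω‖ ≤ a) (hDb : ∀ ω, ‖D ω‖ ≤ d) : CmBM M.P (M.pI j A D) :=
  ⟨(pI_meas hM j hA hD).aestronglyMeasurable, (a * d) ^ 2, fun ω => by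
    rw [Real.norm_eq_abs, abs_of_nonneg (pI_nonneg M j A D ω)]; exact pI_le hM j hAb hDb ω⟩

/-- `‖E_b ⟨A^a, D^b⟩²‖_l ≤ ‖⟨A^a, D^b⟩‖²_{2l}` -/
theorem pI_norm_le (hM : M.Ok) (j : ℕ) {A D : Ω → EuclideanSpace ℝ (Fin n)} (hA : Measurable A) (hD : Measurable D) {a d : ℝ}
    (hAb : ∀ ω, ‖A ω‖ ≤ a) (hDb : ∀ ω, ‖D ω‖ ≤ d) (l : ℕ) (hl : 1 ≤ l) :
    cmN M.P l (M.pI j A D) ≤ cmN (M.P2 j) (2 * l) (fun z : Ω × Ω => inner ℝ (A z.1) (D z.2)) ^ 2 := by
  have := P2_prob hM j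
  have hF := su_pair_meas hA hD
  have h1 := cmN_int_snd_le hM j (F := fun z : Ω × Ω => inner ℝ (A z.1) (D z.2) ^ 2) (hF.pow_const 2) (C := (a * d) ^ 2)
    (fun z => by rw [abs_pow]; exact pow_le_pow_left₀ (abs_nonneg _) (su_pair_bdd hAb hDb z) 2) l hl
  have hBM : CmBM (M.P2 j) (fun z : Ω × Ω => inner ℝ (A z.1) (D z.2)) :=
    ⟨hF.aestronglyMeasurable, a * d, fun z => by simpa using su_pair_bdd hAb hDb z⟩
  have h2 := cmN_sq hBM l hl
  have e : (fun z : Ω × Ω => ‖inner ℝ (A z.1) (D z.2)‖ ^ 2) = fun z : Ω × Ω => inner ℝ (A z.1) (D z.2) ^ 2 := by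
    ext z; rw [Real.norm_eq_abs, sq_abs]
  rw [e] at h2
  rw [← h2]
  exact h1

/-- the second branch carries a projected increment `D`: PE (13) integrates -/
theorem su_pair_le (hM : M.Ok) (j : ℕ) {A D : Ω → EuclideanSpace ℝ (Fin n)} (hA : Measurable A) (hD : Measurable D) {a d : ℝ}
    (hAb : ∀ ω, ‖A ω‖ ≤ a) (hDb : ∀ ω, ‖D ω‖ ≤ d) (l : ℕ) (hl : 1 ≤ l) {β : ℝ} (hβ : 0 ≤ β)
    (h : ∀ (ω : Ω) (V : EuclideanSpace ℝ (Fin n)), ∫ ω', inner ℝ V (D ω') ^ (2 * l) ∂(M.κ j ω) ≤ (β * ‖V‖) ^ (2 * l)) :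
    cmN (M.P2 j) (2 * l) (fun z : Ω × Ω => inner ℝ (A z.1) (D z.2)) ≤ β * cmN M.P (2 * l) A := by
  have ha0 : 0 ≤ a := (norm_nonneg _).trans (hAb (Classical.choice (by
    have := hM.prob
    exact (M.P.nonempty_of_neZero))))
  have hd0 : 0 ≤ d := (norm_nonneg _).trans (hDb (Classical.choice (by
    have := hM.prob
    exact (M.P.nonempty_of_neZero))))
  have h1 := cmN_P2_le hM j (su_pair_meas hA hD) (C := a * d + a) (fun z => (su_pair_bdd hAb hDb z).trans (by linarith))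
    (g := fun ω => ‖A ω‖) hA.norm (fun ω => by rw [abs_of_nonneg (norm_nonneg _)]; nlinarith [hAb ω, mul_nonneg ha0 hd0])
    (fun ω => norm_nonneg _) (2 * l) (by omega) β hβ (fun ω => by
      have e : ∀ ω', |inner ℝ (A ω) (D ω')| ^ (2 * l) = inner ℝ (A ω) (D ω') ^ (2 * l) := fun ω' => by
        rw [pow_mul, sq_abs, ← pow_mul]
      simp only [e]
      exact h ω (A ω))
  rwa [cmN_norm] at h1

/-- the same with the roles of the two branches exchanged -/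
theorem su_pair_le_swap (hM : M.Ok) (j : ℕ) {A D : Ω → EuclideanSpace ℝ (Fin n)} (hA : Measurable A) (hD : Measurable D) {a d : ℝ}
    (hAb : ∀ ω, ‖A ω‖ ≤ a) (hDb : ∀ ω, ‖D ω‖ ≤ d) (l : ℕ) (hl : 1 ≤ l) {β : ℝ} (hβ : 0 ≤ β)
    (h : ∀ (ω : Ω) (V : EuclideanSpace ℝ (Fin n)), ∫ ω', inner ℝ V (D ω') ^ (2 * l) ∂(M.κ j ω) ≤ (β * ‖V‖) ^ (2 * l)) :
    cmN (M.P2 j) (2 * l) (fun z : Ω × Ω => inner ℝ (D z.1) (A z.2)) ≤ β * cmN M.P (2 * l) A := by
  have h1 := cmN_P2_swap hM j (su_pair_meas hA hD) (2 * l)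
  have e : (fun z : Ω × Ω => (fun z : Ω × Ω => inner ℝ (A z.1) (D z.2)) z.swap) = fun z : Ω × Ω => inner ℝ (D z.1) (A z.2) := by
    ext z
    simp only [Prod.fst_swap, Prod.snd_swap]
    exact real_inner_comm _ _
  rw [e] at h1
  rw [h1]
  exact su_pair_le hM j hA hD hAb hDb l hl hβ h

/-- the increment of the path over the `k`-th block of the cuts `c` -/
def Dc (M : CmPath n Ω) (c : ℕ → ℕ) (k : ℕ) (ω : Ω) : EuclideanSpace ℝ (Fin n) := M.X (c (k + 1)) ω - M.X (c k) ω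

theorem Dc_meas (hM : M.Ok) (c : ℕ → ℕ) (k : ℕ) : Measurable (M.Dc c k) := (hM.meas _).sub (hM.meas _)

theorem Dc_norm_le (hM : M.Ok) (c : ℕ → ℕ) (k : ℕ) (ω : Ω) : ‖M.Dc c k ω‖ ≤ 2 := by
  have := norm_sub_le (M.X (c (k + 1)) ω) (M.X (c k) ω)
  have h1 := hM.norm_le (c (k + 1)) ω
  have h2 := hM.norm_le (c k) ω
  unfold Dc
  linarith

theorem su_sum_blocks (c : ℕ → ℕ) (hc : Monotone c) (f : ℕ → ℝ) (Kn : ℕ) :
    ∑ ν ∈ Finset.Ioc (c 0) (c Kn), f ν = ∑ k ∈ Finset.range Kn, ∑ ν ∈ Finset.Ioc (c k) (c (k + 1)), f ν := by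
  induction Kn with
  | zero => simp
  | succ K ih =>
    rw [Finset.sum_range_succ, ← ih, Finset.sum_Ioc_consecutive f (hc (Nat.zero_le K)) (hc (Nat.le_succ K))]

theorem mass_nonneg (hM : M.Ok) (j : ℕ) : 0 ≤ M.mass j := by
  rw [← hM.mass_zero]; exact hM.mass_mono (Nat.zero_le j)

/-- integrability of a squared inner product against an increment -/
theorem su_int_sq (hM : M.Ok) (j : ℕ) (ω : Ω) (U : EuclideanSpace ℝ (Fin n)) (a b : ℕ) :
    Integrable (fun ω' => inner ℝ U (M.X a ω' - M.X b ω') ^ 2) (M.κ j ω) := by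
  refine cm5k_intK hM j ω (C := (‖U‖ * 2) ^ 2) ?_ ?_
  · exact (Measurable.inner (𝕜 := ℝ) measurable_const ((hM.meas a).sub (hM.meas b))).pow_const 2
  · intro x
    rw [abs_pow]
    apply pow_le_pow_left₀ (abs_nonneg _)
    refine (abs_real_inner_le_norm _ _).trans (mul_le_mul_of_nonneg_left ?_ (norm_nonneg _))
    have := norm_sub_le (M.X a x) (M.X b x)
    linarith [hM.norm_le a x, hM.norm_le b x]

/-- **block decomposition of the susceptibility weight** (PE l.447-461) -/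
theorem W_le_blocks (hM : M.Ok) {j : ℕ} (hj : j ≤ M.L) (c : ℕ → ℕ) (Kn : ℕ) (hc0 : c 0 = j) (hcK : c Kn = M.L + 1)
    (hcm : Monotone c) (ω : Ω) :
    M.W j ω ≤ Kn * ∑ i ∈ Finset.range Kn, ∑ k ∈ Finset.range Kn, M.mass (c (k + 1)) * M.pI j (M.Dc c i) (M.Dc c k) ω := by
  have := hM.markov j
  set U : EuclideanSpace ℝ (Fin n) := M.y ω - M.X j ω with hU
  have hUsum : U = ∑ i ∈ Finset.range Kn, M.Dc c i ω := by
    unfold Dc
    rw [Finset.sum_range_sub (fun i => M.X (c i) ω), hc0, hcK]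
    rfl
  -- step 1 + 2
  have h1 : M.W j ω ≤ ∫ ω', ∑ k ∈ Finset.range Kn, M.mass (c (k + 1)) *
      ∑ ν ∈ Finset.Ioc (c k) (c (k + 1)), inner ℝ U (M.X ν ω' - M.X (ν - 1) ω') ^ 2 ∂(M.κ j ω) := by
    unfold W
    apply integral_mono
    · exact integrable_finsetSum _ fun ν _ => (su_int_sq hM j ω U ν (ν - 1)).const_mul _
    · exact integrable_finsetSum _ fun k _ => (integrable_finsetSum _ fun ν _ => su_int_sq hM j ω U ν (ν - 1)).const_mul _
    · intro ω'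
      simp only
      have e := su_sum_blocks c hcm (fun ν => M.mass ν * inner ℝ U (M.X ν ω' - M.X (ν - 1) ω') ^ 2) Kn
      rw [hc0, hcK] at e
      rw [e]
      apply Finset.sum_le_sum
      intro k _
      rw [Finset.mul_sum]
      apply Finset.sum_le_sum
      intro ν hν
      apply mul_le_mul_of_nonneg_right _ (by positivity)
      exact hM.mass_mono (Finset.mem_Ioc.mp hν).2
  -- step 3
  have hck : ∀ k, k ≤ Kn → c k ≤ M.L + 1 := fun k hk => hcK ▸ hcm hk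
  have h2 : ∫ ω', ∑ k ∈ Finset.range Kn, M.mass (c (k + 1)) *
      ∑ ν ∈ Finset.Ioc (c k) (c (k + 1)), inner ℝ U (M.X ν ω' - M.X (ν - 1) ω') ^ 2 ∂(M.κ j ω)
      = ∑ k ∈ Finset.range Kn, M.mass (c (k + 1)) * ∫ ω', inner ℝ U (M.Dc c k ω') ^ 2 ∂(M.κ j ω) := by
    rw [integral_finsetSum _ fun k _ => (integrable_finsetSum _ fun ν _ => su_int_sq hM j ω U ν (ν - 1)).const_mul _]
    apply Finset.sum_congr rfl
    intro k hk
    rw [integral_const_mul]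
    congr 1
    have hk' := Finset.mem_range.mp hk
    exact cE_block hM (hc0 ▸ hcm (Nat.zero_le k)) (hcm (Nat.le_succ k)) (hck (k + 1) hk') hj U ω
  -- step 4
  have h3 : ∀ k, ∫ ω', inner ℝ U (M.Dc c k ω') ^ 2 ∂(M.κ j ω) ≤ Kn * ∑ i ∈ Finset.range Kn, M.pI j (M.Dc c i) (M.Dc c k) ω := by
    intro k
    unfold pI
    have hint : ∀ V : EuclideanSpace ℝ (Fin n), Integrable (fun ω' => inner ℝ V (M.Dc c k ω') ^ 2) (M.κ j ω) :=
      fun V => su_int_sq hM j ω V _ _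
    rw [← integral_finsetSum _ fun i _ => hint (M.Dc c i ω), ← integral_const_mul]
    apply integral_mono (hint U)
    · exact (integrable_finsetSum _ fun i _ => hint (M.Dc c i ω)).const_mul _
    · intro ω'
      simp only
      rw [hUsum, sum_inner]
      have := sq_sum_le_card_mul_sum_sq (s := Finset.range Kn) (f := fun i => inner ℝ (M.Dc c i ω) (M.Dc c k ω'))
      simpa using this
  calc M.W j ω ≤ _ := h1
    _ = _ := h2
    _ ≤ ∑ k ∈ Finset.range Kn, M.mass (c (k + 1)) * (Kn * ∑ i ∈ Finset.range Kn, M.pI j (M.Dc c i) (M.Dc c k) ω) :=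
        Finset.sum_le_sum fun k _ => mul_le_mul_of_nonneg_left (h3 k) (mass_nonneg hM _)
    _ = _ := by
        simp only [Finset.mul_sum]
        rw [Finset.sum_comm]
        apply Finset.sum_congr rfl
        intro k _
        apply Finset.sum_congr rfl
        intro i _
        ring

/-- an off-diagonal pair of layers: the later layer `max i k` is projected (PE l.463-489) -/
theorem su_offdiag (hM : M.Ok) (j : ℕ) (c : ℕ → ℕ) (l : ℕ) (hl : 1 ≤ l) (i k : ℕ) {β R μ : ℝ} (hβ : 0 ≤ β)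
    (hproj : ∀ (ω : Ω) (V : EuclideanSpace ℝ (Fin n)),
      ∫ ω', inner ℝ V (M.Dc c (max i k) ω') ^ (2 * l) ∂(M.κ j ω) ≤ (β * ‖V‖) ^ (2 * l))
    (hn : ∀ i', i' ≤ max i k → cmN M.P (2 * l) (M.Dc c i') ≤ R) (hμ : M.mass (c (k + 1)) ≤ μ) :
    M.mass (c (k + 1)) * cmN M.P l (M.pI j (M.Dc c i) (M.Dc c k)) ≤ μ * (β * R) ^ 2 := by
  have h0 := pI_norm_le hM j (Dc_meas hM c i) (Dc_meas hM c k) (Dc_norm_le hM c i) (Dc_norm_le hM c k) l hl
  have h1 : cmN (M.P2 j) (2 * l) (fun z : Ω × Ω => inner ℝ (M.Dc c i z.1) (M.Dc c k z.2)) ≤ β * R := by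
    rcases le_total i k with hik | hik
    · rw [max_eq_right hik] at hproj hn
      exact (su_pair_le hM j (Dc_meas hM c i) (Dc_meas hM c k) (Dc_norm_le hM c i) (Dc_norm_le hM c k) l hl hβ hproj).trans
        (mul_le_mul_of_nonneg_left (hn i hik) hβ)
    · rw [max_eq_left hik] at hproj hn
      exact (su_pair_le_swap hM j (Dc_meas hM c k) (Dc_meas hM c i) (Dc_norm_le hM c k) (Dc_norm_le hM c i) l hl hβ hproj).trans
        (mul_le_mul_of_nonneg_left (hn k hik) hβ)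
  have h2 : cmN M.P l (M.pI j (M.Dc c i) (M.Dc c k)) ≤ (β * R) ^ 2 :=
    h0.trans (pow_le_pow_left₀ (cmN_nonneg _ _ _) h1 2)
  exact mul_le_mul hμ h2 (cmN_nonneg _ _ _) ((mass_nonneg hM _).trans hμ)

/-- splitting off the `(0,0)` term of a double sum -/
theorem su_split00 (Kn : ℕ) (hK : 1 ≤ Kn) (f : ℕ → ℕ → ℝ) :
    ∑ i ∈ Finset.range Kn, ∑ k ∈ Finset.range Kn, f i k
      = f 0 0 + ∑ i ∈ Finset.range Kn, ∑ k ∈ Finset.range Kn, (if i = 0 ∧ k = 0 then 0 else f i k) := by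
  have h0 : (0 : ℕ) ∈ Finset.range Kn := Finset.mem_range.mpr (by omega)
  have e : ∀ i k, f i k = (if i = 0 ∧ k = 0 then f 0 0 else 0) + (if i = 0 ∧ k = 0 then 0 else f i k) := by
    intro i k
    by_cases h : i = 0 ∧ k = 0
    · obtain ⟨rfl, rfl⟩ := h; simp
    · simp [h]
  have e2 : ∑ i ∈ Finset.range Kn, ∑ k ∈ Finset.range Kn, (if i = 0 ∧ k = 0 then f 0 0 else 0) = f 0 0 := by
    rw [Finset.sum_eq_single 0]
    · rw [Finset.sum_eq_single 0]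
      · simp
      · intro k _ hk; simp [hk]
      · intro h; exact absurd h0 h
    · intro i _ hi; simp [hi]
    · intro h; exact absurd h0 h
  calc ∑ i ∈ Finset.range Kn, ∑ k ∈ Finset.range Kn, f i k
      = ∑ i ∈ Finset.range Kn, ∑ k ∈ Finset.range Kn,
          ((if i = 0 ∧ k = 0 then f 0 0 else 0) + (if i = 0 ∧ k = 0 then 0 else f i k)) :=
        Finset.sum_congr rfl fun i _ => Finset.sum_congr rfl fun k _ => e i k
    _ = _ := by simp only [Finset.sum_add_distrib]; rw [e2]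

/-- the running maximum of `|X|` up to the node `N` -/
noncomputable def Zs (M : CmPath n Ω) (N : ℕ) (ω : Ω) : ℝ :=
  (Finset.range (N + 1)).sup' Finset.nonempty_range_add_one (fun i => ‖M.X i ω‖)

theorem Zs_meas (hM : M.Ok) (N : ℕ) : Measurable (M.Zs N) := by
  unfold Zs
  exact Finset.measurable_range_sup'' fun i _ => (hM.meas i).norm

theorem le_Zs (M : CmPath n Ω) {i N : ℕ} (h : i ≤ N) (ω : Ω) : ‖M.X i ω‖ ≤ M.Zs N ω :=
  Finset.le_sup' (fun i => ‖M.X i ω‖) (Finset.mem_range.mpr (by omega))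

theorem Zs_nonneg (M : CmPath n Ω) (N : ℕ) (ω : Ω) : 0 ≤ M.Zs N ω := (norm_nonneg _).trans (le_Zs M (Nat.zero_le N) ω)

theorem Zs_le_one (hM : M.Ok) (N : ℕ) (ω : Ω) : M.Zs N ω ≤ 1 :=
  Finset.sup'_le _ _ fun i _ => hM.norm_le i ω

/-- the diagonal pair `(0,0)` (PE l.491-494) -/
theorem su_diag (hM : M.Ok) (j : ℕ) (c : ℕ → ℕ) {N : ℕ} (h0 : c 0 ≤ N) (h1 : c 1 ≤ N) (ω : Ω) :
    M.pI j (M.Dc c 0) (M.Dc c 0) ω ≤ 4 * M.Zs N ω ^ 2 * M.cE j (fun ω' => ‖M.X (c 1) ω' - M.X (c 0) ω'‖ ^ 2) ω := by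
  have := hM.markov j
  have hD : ‖M.Dc c 0 ω‖ ≤ 2 * M.Zs N ω := by
    have := norm_sub_le (M.X (c 1) ω) (M.X (c 0) ω)
    have a1 := le_Zs M h0 ω
    have a2 := le_Zs M h1 ω
    unfold Dc
    simp only [Nat.zero_add]
    linarith
  unfold pI cE
  rw [← integral_const_mul]
  apply integral_mono (su_int_sq hM j ω _ _ _)
  · apply Integrable.const_mul
    refine cm5k_intK hM j ω (C := 4) (((hM.meas _).sub (hM.meas _)).norm.pow_const 2) (fun x => cmp_bound_le4 hM _ _ x)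
  · intro ω'
    simp only
    have h2 : |inner ℝ (M.Dc c 0 ω) (M.Dc c 0 ω')| ≤ ‖M.Dc c 0 ω‖ * ‖M.Dc c 0 ω'‖ := abs_real_inner_le_norm _ _
    have h3 : inner ℝ (M.Dc c 0 ω) (M.Dc c 0 ω') ^ 2 ≤ (‖M.Dc c 0 ω‖ * ‖M.Dc c 0 ω'‖) ^ 2 := by
      rw [← sq_abs]; exact pow_le_pow_left₀ (abs_nonneg _) h2 2
    have h4 : ‖M.Dc c 0 ω‖ ^ 2 ≤ (2 * M.Zs N ω) ^ 2 := pow_le_pow_left₀ (norm_nonneg _) hD 2
    have e : M.Dc c 0 ω' = M.X (c 1) ω' - M.X (c 0) ω' := rfl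
    rw [← e]
    calc inner ℝ (M.Dc c 0 ω) (M.Dc c 0 ω') ^ 2 ≤ ‖M.Dc c 0 ω‖ ^ 2 * ‖M.Dc c 0 ω'‖ ^ 2 := by rw [← mul_pow]; exact h3
      _ ≤ (2 * M.Zs N ω) ^ 2 * ‖M.Dc c 0 ω'‖ ^ 2 := mul_le_mul_of_nonneg_right h4 (by positivity)
      _ = 4 * M.Zs N ω ^ 2 * ‖M.Dc c 0 ω'‖ ^ 2 := by ring

section BMclosure
variable {α : Type} [MeasurableSpace α] {μ : Measure α}

theorem su_BM_of {f : α → ℝ} (hf : Measurable f) {C : ℝ} (hC : ∀ a, |f a| ≤ C) : CmBM μ f :=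
  ⟨hf.aestronglyMeasurable, C, fun a => by simpa using hC a⟩

theorem su_BM_const (c : ℝ) : CmBM μ (fun _ : α => c) := ⟨aestronglyMeasurable_const, ‖c‖, fun _ => le_rfl⟩

theorem su_BM_add {f g : α → ℝ} (hf : CmBM μ f) (hg : CmBM μ g) : CmBM μ (fun a => f a + g a) := by
  obtain ⟨h1, C, hC⟩ := hf
  obtain ⟨h2, D, hD⟩ := hg
  exact ⟨h1.add h2, C + D, fun a => (norm_add_le _ _).trans (add_le_add (hC a) (hD a))⟩

theorem su_BM_mul {f g : α → ℝ} (hf : CmBM μ f) (hg : CmBM μ g) : CmBM μ (fun a => f a * g a) := by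
  obtain ⟨h1, C, hC⟩ := hf
  obtain ⟨h2, D, hD⟩ := hg
  refine ⟨h1.mul h2, C * D, fun a => ?_⟩
  rw [norm_mul]
  exact mul_le_mul (hC a) (hD a) (norm_nonneg _) ((norm_nonneg _).trans (hC a))

theorem su_BM_cmul (c : ℝ) {f : α → ℝ} (hf : CmBM μ f) : CmBM μ (fun a => c * f a) := su_BM_mul (su_BM_const c) hf

theorem su_BM_sum {ι : Type} (s : Finset ι) {f : ι → α → ℝ} (hf : ∀ i ∈ s, CmBM μ (f i)) : CmBM μ (fun a => ∑ i ∈ s, f i a) := by
  classical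
  induction s using Finset.induction_on with
  | empty => simpa using su_BM_const (μ := μ) 0
  | insert b s hb ih =>
    simp only [Finset.sum_insert hb]
    exact su_BM_add (hf b (Finset.mem_insert_self b s)) (ih fun i hi => hf i (Finset.mem_insert_of_mem hi))

end BMclosure

/-- **assembly of the layer estimate** for arbitrary cuts -/
theorem su_assemble (hM : M.Ok) (l : ℕ) (hl : 1 ≤ l) (Kn : ℕ) (hK : 1 ≤ Kn) (a : ℕ → ℝ) (ha : ∀ j, 0 ≤ a j) (c : ℕ → ℕ → ℕ) (N : ℕ)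
    {μ0 E1 : ℝ} (hμ0 : 0 ≤ μ0) (hE1 : 0 ≤ E1)
    (hcut : ∀ j, j ≤ M.L → 0 < a j → c j 0 = j ∧ c j Kn = M.L + 1 ∧ Monotone (c j) ∧ c j 1 ≤ N ∧ M.mass (c j 1) ≤ μ0)
    (hoff : ∀ j, j ≤ M.L → 0 < a j → ∀ i < Kn, ∀ k < Kn, ¬(i = 0 ∧ k = 0) →
      M.mass (c j (k + 1)) * cmN M.P l (M.pI j (M.Dc (c j) i) (M.Dc (c j) k)) ≤ E1) :
    cmN M.P l (fun ω => ∑ j ∈ Finset.range (M.L + 1), a j * M.W j ω)
      ≤ Kn * (4 * μ0 * cmN M.P (2 * (2 * l)) (M.Zs N) ^ 2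
            * cmN M.P (2 * l) (fun ω => ∑ j ∈ Finset.range (M.L + 1), a j * M.cE j (fun ω' => ‖M.X (c j 1) ω' - M.X j ω'‖ ^ 2) ω)
          + (∑ j ∈ Finset.range (M.L + 1), a j) * Kn ^ 2 * E1) := by
  have := hM.prob
  set q : ℕ → Ω → ℝ := fun j => M.cE j (fun ω' => ‖M.X (c j 1) ω' - M.X j ω'‖ ^ 2) with hq
  set S2 : Ω → ℝ := fun ω => ∑ j ∈ Finset.range (M.L + 1), a j * q j ω with hS2
  set off : ℕ → ℕ → ℕ → Ω → ℝ := fun j i k ω =>
    if i = 0 ∧ k = 0 then 0 else M.mass (c j (k + 1)) * M.pI j (M.Dc (c j) i) (M.Dc (c j) k) ω with hoffd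
  set G1 : Ω → ℝ := fun ω => ∑ j ∈ Finset.range (M.L + 1), a j * ∑ i ∈ Finset.range Kn, ∑ k ∈ Finset.range Kn, off j i k ω with hG1
  have hq0 : ∀ j ω, 0 ≤ q j ω := fun j ω => integral_nonneg fun _ => by positivity
  have hqBM : ∀ j, CmBM M.P (q j) := fun j =>
    su_BM_of (cE_meas hM j (((hM.meas _).sub (hM.meas _)).norm.pow_const 2)) (cE_bound hM j (fun x => cmp_bound_le4 hM _ _ x))
  have hS2BM : CmBM M.P S2 := su_BM_sum _ fun j _ => su_BM_cmul _ (hqBM j)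
  have hoffBM : ∀ j i k, CmBM M.P (off j i k) := by
    intro j i k
    by_cases h : i = 0 ∧ k = 0
    · have : off j i k = fun _ => 0 := by ext ω; simp [hoffd, h]
      rw [this]; exact su_BM_const 0
    · have : off j i k = fun ω => M.mass (c j (k + 1)) * M.pI j (M.Dc (c j) i) (M.Dc (c j) k) ω := by
        ext ω; simp [hoffd, h]
      rw [this]
      exact su_BM_cmul _ (pI_BM hM j (Dc_meas hM _ _) (Dc_meas hM _ _) (Dc_norm_le hM _ _) (Dc_norm_le hM _ _))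
  have hoff0 : ∀ j i k ω, 0 ≤ off j i k ω := by
    intro j i k ω
    simp only [hoffd]
    split_ifs
    · exact le_rfl
    · exact mul_nonneg (mass_nonneg hM _) (pI_nonneg M _ _ _ _)
  have hinBM : ∀ j, CmBM M.P (fun ω => ∑ i ∈ Finset.range Kn, ∑ k ∈ Finset.range Kn, off j i k ω) :=
    fun j => su_BM_sum _ fun i _ => su_BM_sum _ fun k _ => hoffBM j i k
  have hG1BM : CmBM M.P G1 := su_BM_sum _ fun j _ => su_BM_cmul _ (hinBM j)
  have hZBM : CmBM M.P (M.Zs N) := su_BM_of (Zs_meas hM N) (C := 1) fun ω => by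
    rw [abs_of_nonneg (Zs_nonneg M N ω)]; exact Zs_le_one hM N ω
  have hZ2BM : CmBM M.P (fun ω => M.Zs N ω ^ 2) := by
    have := su_BM_mul hZBM hZBM
    simpa [sq] using this
  have hZSBM : CmBM M.P (fun ω => M.Zs N ω ^ 2 * S2 ω) := su_BM_mul hZ2BM hS2BM
  -- pointwise bound
  have hpt : ∀ ω, ∑ j ∈ Finset.range (M.L + 1), a j * M.W j ω ≤ Kn * (4 * μ0 * (M.Zs N ω ^ 2 * S2 ω) + G1 ω) := by
    intro ω
    have hterm : ∀ j ∈ Finset.range (M.L + 1), a j * M.W j ω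
        ≤ Kn * (4 * μ0 * (M.Zs N ω ^ 2 * (a j * q j ω)) + a j * ∑ i ∈ Finset.range Kn, ∑ k ∈ Finset.range Kn, off j i k ω) := by
      intro j hj
      have hjL : j ≤ M.L := by have := Finset.mem_range.mp hj; omega
      rcases (ha j).eq_or_lt with h0 | hpos
      · rw [← h0]; simp
      · obtain ⟨c0, cK, cm, c1N, c1μ⟩ := hcut j hjL hpos
        have hW := W_le_blocks hM hjL (c j) Kn c0 cK cm ω
        rw [su_split00 Kn hK] at hW
        have hd := su_diag hM j (c j) (N := N) ((cm (Nat.zero_le 1)).trans c1N) c1N ω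
        rw [c0] at hd
        have hZ2 : 0 ≤ 4 * M.Zs N ω ^ 2 * q j ω := mul_nonneg (by positivity) (hq0 j ω)
        have h00 : M.mass (c j (0 + 1)) * M.pI j (M.Dc (c j) 0) (M.Dc (c j) 0) ω ≤ μ0 * (4 * M.Zs N ω ^ 2 * q j ω) :=
          mul_le_mul c1μ hd (pI_nonneg M _ _ _ _) hμ0
        have hKn : (0:ℝ) ≤ Kn := Nat.cast_nonneg _
        calc a j * M.W j ω ≤ a j * (Kn * (μ0 * (4 * M.Zs N ω ^ 2 * q j ω)
              + ∑ i ∈ Finset.range Kn, ∑ k ∈ Finset.range Kn, off j i k ω)) := by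
              apply mul_le_mul_of_nonneg_left _ hpos.le
              refine hW.trans (mul_le_mul_of_nonneg_left ?_ hKn)
              exact add_le_add h00 le_rfl
          _ = _ := by ring
    calc ∑ j ∈ Finset.range (M.L + 1), a j * M.W j ω ≤ _ := Finset.sum_le_sum hterm
      _ = _ := by
        simp only [hS2, hG1]
        rw [← Finset.mul_sum, Finset.sum_add_distrib, ← Finset.mul_sum, ← Finset.mul_sum]
  have hRBM : CmBM M.P (fun ω => (Kn : ℝ) * (4 * μ0 * (M.Zs N ω ^ 2 * S2 ω) + G1 ω)) :=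
    su_BM_cmul _ (su_BM_add (su_BM_cmul _ hZSBM) hG1BM)
  have hS20 : ∀ ω, 0 ≤ S2 ω := fun ω => Finset.sum_nonneg fun j _ => mul_nonneg (ha j) (hq0 j ω)
  have hG10 : ∀ ω, 0 ≤ G1 ω := fun ω => Finset.sum_nonneg fun j _ => mul_nonneg (ha j)
    (Finset.sum_nonneg fun i _ => Finset.sum_nonneg fun k _ => hoff0 j i k ω)
  have step1 : cmN M.P l (fun ω => ∑ j ∈ Finset.range (M.L + 1), a j * M.W j ω)
      ≤ cmN M.P l (fun ω => (Kn : ℝ) * (4 * μ0 * (M.Zs N ω ^ 2 * S2 ω) + G1 ω)) := by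
    apply cmN_mono hRBM
    filter_upwards with ω
    have h1 : 0 ≤ ∑ j ∈ Finset.range (M.L + 1), a j * M.W j ω :=
      Finset.sum_nonneg fun j _ => mul_nonneg (ha j) (W_nonneg hM j ω)
    rw [Real.norm_eq_abs, Real.norm_eq_abs, abs_of_nonneg h1]
    exact (hpt ω).trans (le_abs_self _)
  have step2 : cmN M.P l (fun ω => (Kn : ℝ) * (4 * μ0 * (M.Zs N ω ^ 2 * S2 ω) + G1 ω))
      ≤ Kn * (4 * μ0 * cmN M.P l (fun ω => M.Zs N ω ^ 2 * S2 ω) + cmN M.P l G1) := by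
    rw [cmN_const_mul, abs_of_nonneg (Nat.cast_nonneg _)]
    apply mul_le_mul_of_nonneg_left _ (Nat.cast_nonneg _)
    refine (cmN_add_le (su_BM_cmul _ hZSBM) hG1BM l hl).trans ?_
    rw [cmN_const_mul, abs_of_nonneg (by positivity)]
  have step3 : cmN M.P l (fun ω => M.Zs N ω ^ 2 * S2 ω) ≤ cmN M.P (2 * (2 * l)) (M.Zs N) ^ 2 * cmN M.P (2 * l) S2 := by
    refine (cmN_mul_le hZ2BM hS2BM l hl).trans ?_
    have e := cmN_sq hZBM (2 * l) (by omega)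
    have e2 : (fun ω => ‖M.Zs N ω‖ ^ 2) = fun ω => M.Zs N ω ^ 2 := by
      ext ω; rw [Real.norm_eq_abs, sq_abs]
    rw [e2] at e
    rw [e]
  have step4 : cmN M.P l G1 ≤ (∑ j ∈ Finset.range (M.L + 1), a j) * Kn ^ 2 * E1 := by
    refine (cmN_sum_le _ _ (fun j _ => su_BM_cmul _ (hinBM j)) l hl).trans ?_
    rw [Finset.sum_mul, Finset.sum_mul]
    apply Finset.sum_le_sum
    intro j hj
    have hjL : j ≤ M.L := by have := Finset.mem_range.mp hj; omega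
    rw [cmN_const_mul, abs_of_nonneg (ha j), mul_assoc]
    rcases (ha j).eq_or_lt with h0 | hpos
    · rw [← h0]; simp
    apply mul_le_mul_of_nonneg_left _ hpos.le
    refine (cmN_sum_le _ _ (fun i _ => su_BM_sum _ fun k _ => hoffBM j i k) l hl).trans ?_
    have hin : ∀ i ∈ Finset.range Kn, cmN M.P l (fun ω => ∑ k ∈ Finset.range Kn, off j i k ω) ≤ Kn * E1 := by
      intro i hi
      refine (cmN_sum_le _ _ (fun k _ => hoffBM j i k) l hl).trans ?_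
      have : ∀ k ∈ Finset.range Kn, cmN M.P l (off j i k) ≤ E1 := by
        intro k hk
        by_cases h : i = 0 ∧ k = 0
        · have e : off j i k = fun _ => 0 := by ext ω; simp [hoffd, h]
          rw [e, cmN_const 0 l hl]; simpa using hE1
        · have e : off j i k = fun ω => M.mass (c j (k + 1)) * M.pI j (M.Dc (c j) i) (M.Dc (c j) k) ω := by
            ext ω; simp [hoffd, h]
          rw [e, cmN_const_mul, abs_of_nonneg (mass_nonneg hM _)]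
          exact hoff j hjL hpos i (Finset.mem_range.mp hi) k (Finset.mem_range.mp hk) h
      calc ∑ k ∈ Finset.range Kn, cmN M.P l (off j i k) ≤ ∑ k ∈ Finset.range Kn, E1 := Finset.sum_le_sum this
        _ = Kn * E1 := by simp
    calc ∑ i ∈ Finset.range Kn, cmN M.P l (fun ω => ∑ k ∈ Finset.range Kn, off j i k ω)
        ≤ ∑ i ∈ Finset.range Kn, (Kn * E1 : ℝ) := Finset.sum_le_sum hin
      _ = Kn ^ 2 * E1 := by simp; ring
  calc _ ≤ _ := step1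
    _ ≤ _ := step2
    _ ≤ _ := by
      apply mul_le_mul_of_nonneg_left _ (Nat.cast_nonneg _)
      apply add_le_add _ step4
      calc 4 * μ0 * cmN M.P l (fun ω => M.Zs N ω ^ 2 * S2 ω)
          ≤ 4 * μ0 * (cmN M.P (2 * (2 * l)) (M.Zs N) ^ 2 * cmN M.P (2 * l) S2) :=
            mul_le_mul_of_nonneg_left step3 (by positivity)
        _ = _ := by ring

/-! ### the cut of helper247 -/

/-- cut node at the threshold `s` -/
noncomputable def ct (M : CmPath n Ω) (s : ℝ) : ℕ := if s < 1 then M.nd s else M.L + 1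

/-- thresholds -/
noncomputable def thr (Γ η t : ℝ) : ℕ → ℝ
  | 0 => t
  | 1 => t + η
  | k + 2 => 2 * Γ ^ (k + 1) * t

/-- cut nodes of the fork node `j` with fork time `t` -/
noncomputable def cut (M : CmPath n Ω) (j : ℕ) (Γ η t : ℝ) (k : ℕ) : ℕ := if k = 0 then j else M.ct (thr Γ η t k)

/-- increment between two nodes -/
noncomputable def dX (M : CmPath n Ω) (i i' : ℕ) (ω : Ω) : EuclideanSpace ℝ (Fin n) := M.X i' ω - M.X i ω

theorem ct_le (M : CmPath n Ω) (s : ℝ) : M.ct s ≤ M.L + 1 := by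
  unfold ct
  split_ifs
  · exact (nd_le M s).trans (Nat.le_succ _)
  · exact le_rfl

theorem mass_ct_le (hM : M.Ok) {s : ℝ} (hs : 0 ≤ s) : M.mass (M.ct s) ≤ s := by
  unfold ct
  split_ifs with h
  · exact mass_nd_le hM hs
  · rw [hM.mass_top]; exact not_lt.mp h

theorem ct_mono (hM : M.Ok) {s s' : ℝ} (hs : 0 ≤ s) (h : s ≤ s') : M.ct s ≤ M.ct s' := by
  unfold ct
  split_ifs with h1 h2 h2
  · exact nd_mono hM hs h
  · exact (nd_le M s).trans (Nat.le_succ _)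
  · exact absurd (h.trans_lt h2) h1
  · exact le_rfl

theorem le_ct (hM : M.Ok) {s : ℝ} {j : ℕ} (hj : j ≤ M.L) (h : M.mass j ≤ s) : j ≤ M.ct s := by
  unfold ct
  split_ifs
  · exact le_nd hM hj h
  · omega

theorem thr_mono {Γ η t : ℝ} (hΓ : 2 ≤ Γ) (ht : 0 < t) (hη : 0 ≤ η) (hηt : η ≤ t) : Monotone (thr Γ η t) := by
  apply monotone_nat_of_le_succ
  intro k
  have hΓ0 : (0:ℝ) < Γ := by linarith
  match k with
  | 0 => simp only [thr]; linarith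
  | 1 =>
    simp only [thr, Nat.zero_add, pow_one]
    nlinarith
  | k + 2 =>
    simp only [thr]
    have h1 : Γ ^ (k + 1) ≤ Γ ^ (k + 1 + 1) := pow_le_pow_right₀ (by linarith) (Nat.le_succ _)
    have h2 : 0 < Γ ^ (k + 1) := by positivity
    nlinarith

theorem cut_mono (hM : M.Ok) {j : ℕ} (hj : j ≤ M.L) {Γ η t : ℝ} (hΓ : 2 ≤ Γ) (ht : 0 < t) (hη : 0 ≤ η) (hηt : η ≤ t)
    (hjt : M.mass j ≤ t) : Monotone (M.cut j Γ η t) := by
  have hthr := thr_mono hΓ ht hη hηt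
  have h0 : ∀ k, 0 ≤ thr Γ η t k := fun k => ht.le.trans (hthr (Nat.zero_le k))
  apply monotone_nat_of_le_succ
  intro k
  unfold cut
  rcases Nat.eq_zero_or_pos k with rfl | hk
  · simp only [if_true, Nat.zero_add, one_ne_zero, if_false]
    apply le_ct hM hj
    simp only [thr]; linarith
  · rw [if_neg (by omega), if_neg (by omega)]
    exact ct_mono hM (h0 k) (hthr (Nat.le_succ k))

theorem mass_cut_le (hM : M.Ok) {j : ℕ} {Γ η t : ℝ} (hΓ : 2 ≤ Γ) (ht : 0 < t) (hη : 0 ≤ η) (hjt : M.mass j ≤ t) (k : ℕ) :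
    M.mass (M.cut j Γ η t k) ≤ thr Γ η t k := by
  have hΓ0 : (0:ℝ) < Γ := by linarith
  unfold cut
  split_ifs with hk
  · subst hk; simpa [thr] using hjt
  · apply mass_ct_le hM
    match k with
    | 0 => exact absurd rfl hk
    | 1 => simp only [thr]; linarith
    | k + 2 => simp only [thr]; positivity

theorem cut_top (M : CmPath n Ω) {j : ℕ} {Γ η t : ℝ} {k : ℕ} (hk : 1 ≤ k) (h : 1 ≤ thr Γ η t k) : M.cut j Γ η t k = M.L + 1 := by
  unfold cut ct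
  rw [if_neg (by omega), if_neg (not_lt.mpr h)]

theorem dX_meas (hM : M.Ok) (i i' : ℕ) : Measurable (M.dX i i') := by
  exact (hM.meas _).sub (hM.meas _)

theorem dX_norm_le (hM : M.Ok) (i i' : ℕ) (ω : Ω) : ‖M.dX i i' ω‖ ≤ 2 := by
  have := norm_sub_le (M.X i' ω) (M.X i ω)
  have h1 := hM.norm_le i' ω
  have h2 := hM.norm_le i ω
  unfold dX
  linarith

/-- raw bound of an increment -/
theorem dX_raw (hM : M.Ok) {p : ℕ} (hp : 1 ≤ p) {Q x s : ℝ} (hQ : 0 ≤ Q) (hx : 0 ≤ x) (hR : M.Raw p Q x) {i i' : ℕ} (hii : i ≤ i')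
    (hi' : i' ≤ M.L + 1) (hs : M.mass i' ≤ s) : cmN M.P p (M.dX i i') ≤ 2 * Q * Real.sqrt (x + s) := by
  have := hM.prob
  have hBM : ∀ k, CmBM M.P (M.X k) := fun k => ⟨(hM.meas k).aestronglyMeasurable, 1, hM.norm_le k⟩
  have h1 := cmN_sub_le (hBM i') (hBM i) p hp
  have h2 := hR i' hi'
  have h3 := hR i (hii.trans hi')
  have h4 : Real.sqrt (x + M.mass i') ≤ Real.sqrt (x + s) := Real.sqrt_le_sqrt (by linarith)
  have h5 : Real.sqrt (x + M.mass i) ≤ Real.sqrt (x + s) := Real.sqrt_le_sqrt (by linarith [hM.mass_mono hii])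
  have h6 := mul_le_mul_of_nonneg_left h4 hQ
  have h7 := mul_le_mul_of_nonneg_left h5 hQ
  unfold dX
  linarith

/-- **Hessian blocking** (PE l.446-462): any monotone sequence of cut nodes from `j` to `L+1` -/
theorem W_layers (hM : M.Ok) {j : ℕ} (hj : j ≤ M.L) (c : ℕ → ℕ) (K : ℕ) (hc : Monotone c) (h0 : c 0 = j) (hK : c K = M.L + 1) (ω : Ω) :
    M.W j ω ≤ K * ∑ i ∈ Finset.range K, ∑ k ∈ Finset.range K,
      M.mass (c (k + 1)) * ∫ ω', inner ℝ (M.dX (c i) (c (i + 1)) ω) (M.dX (c k) (c (k + 1)) ω') ^ 2 ∂(M.κ j ω) := by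
  exact W_le_blocks hM hj c K h0 hK hc ω

/-- `Proj` in the form used by `su_pair_le` -/
theorem su_proj_inc (hM : M.Ok) {l : ℕ} {Pi : ℝ} (hPi : 0 ≤ Pi) (hP : M.Proj (2 * l) Pi) {j j1 j2 i : ℕ}
    (hj : j ≤ j1) (h12 : j1 < j2) (h2 : j2 ≤ i) (hi : i ≤ M.L + 1) {vm D : ℝ} (hvm : 0 < vm) (hvm' : vm ≤ M.mass (j1 + 1))
    (hD : 0 < D) (hD' : D ≤ M.hck j2 - M.hck j1) (ω : Ω) (V : EuclideanSpace ℝ (Fin n)) :
    ∫ ω', inner ℝ V (M.dX j2 i ω') ^ (2 * l) ∂(M.κ j ω) ≤ (Pi / (vm * Real.sqrt (n * D)) * ‖V‖) ^ (2 * l) := by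
  have h := hP j j1 j2 i hj h12 h2 hi (hvm.trans_le hvm') (by linarith) ω V
  refine h.trans (pow_le_pow_left₀ ?_ ?_ _)
  · have := hvm.trans_le hvm'
    positivity
  · rcases Nat.eq_zero_or_pos n with rfl | hn
    · simp
    · have hn' : (0:ℝ) < n := by exact_mod_cast hn
      have h1 : 0 < vm * Real.sqrt (n * D) := mul_pos hvm (Real.sqrt_pos.mpr (by positivity))
      have h2 : vm * Real.sqrt (n * D) ≤ M.mass (j1 + 1) * Real.sqrt (n * (M.hck j2 - M.hck j1)) :=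
        mul_le_mul hvm' (Real.sqrt_le_sqrt (mul_le_mul_of_nonneg_left hD' hn'.le)) (Real.sqrt_nonneg _) (hvm.le.trans hvm')
      calc Pi * ‖V‖ / (M.mass (j1 + 1) * Real.sqrt (n * (M.hck j2 - M.hck j1))) ≤ Pi * ‖V‖ / (vm * Real.sqrt (n * D)) :=
            div_le_div_of_nonneg_left (by positivity) h1 h2
        _ = _ := by ring

/-- **one pair** (PE l.464-492): anchor on the first leaf, increment of the second leaf after the clock interval `(j1, j2]` -/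
theorem pair_bound (hM : M.Ok) {p : ℕ} (hp : Even p) (hp2 : 2 ≤ p) {Pi : ℝ} (hPi : 0 ≤ Pi) (hP : M.Proj p Pi) {j j1 j2 i1 i2 : ℕ}
    (hj : j ≤ j1) (h12 : j1 < j2) (h2 : j2 ≤ i1) (hi : i1 ≤ i2) (hi2 : i2 ≤ M.L + 1) {vm D : ℝ} (hvm : 0 < vm) (hvm' : vm ≤ M.mass (j1 + 1))
    (hD : 0 < D) (hD' : D ≤ M.hck j2 - M.hck j1) {A : Ω → EuclideanSpace ℝ (Fin n)} (hA : Measurable A) {CA : ℝ} (hCA : ∀ ω, ‖A ω‖ ≤ CA) :
    cmN (M.P2 j) p (fun z : Ω × Ω => inner ℝ (A z.1) (M.dX i1 i2 z.2)) ≤ 2 * Pi * cmN M.P p A / (vm * Real.sqrt (n * D)) := by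
  obtain ⟨l, hl⟩ := hp
  have hp' : p = 2 * l := by omega
  subst hp'
  have hl1 : 1 ≤ l := by omega
  have := P2_prob hM j
  have hβ : 0 ≤ Pi / (vm * Real.sqrt (n * D)) := by positivity
  have b1 := su_pair_le hM j hA (dX_meas hM j2 i2) hCA (dX_norm_le hM j2 i2) l hl1 hβ
    (su_proj_inc hM hPi hP hj h12 (h2.trans hi) hi2 hvm hvm' hD hD')
  have b2 := su_pair_le hM j hA (dX_meas hM j2 i1) hCA (dX_norm_le hM j2 i1) l hl1 hβ
    (su_proj_inc hM hPi hP hj h12 h2 (hi.trans hi2) hvm hvm' hD hD')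
  have hBM : ∀ i, CmBM (M.P2 j) (fun z : Ω × Ω => inner ℝ (A z.1) (M.dX j2 i z.2)) := fun i =>
    ⟨(su_pair_meas hA (dX_meas hM j2 i)).aestronglyMeasurable, CA * 2, fun z => by
      simpa using su_pair_bdd hCA (dX_norm_le hM j2 i) z⟩
  have h3 := cmN_sub_le (hBM i2) (hBM i1) (2 * l) (by omega)
  have e : (fun z : Ω × Ω => inner ℝ (A z.1) (M.dX i1 i2 z.2))
      = fun z : Ω × Ω => inner ℝ (A z.1) (M.dX j2 i2 z.2) - inner ℝ (A z.1) (M.dX j2 i1 z.2) := by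
    ext z
    rw [← inner_sub_right]
    congr 1
    unfold dX
    abel
  rw [e]
  calc _ ≤ _ := h3
    _ ≤ Pi / (vm * Real.sqrt (n * D)) * cmN M.P (2 * l) A + Pi / (vm * Real.sqrt (n * D)) * cmN M.P (2 * l) A := add_le_add b1 b2
    _ = _ := by ring

/-- the same with the two leaves exchanged -/
theorem pair_bound' (hM : M.Ok) {p : ℕ} (hp : Even p) (hp2 : 2 ≤ p) {Pi : ℝ} (hPi : 0 ≤ Pi) (hP : M.Proj p Pi) {j j1 j2 i1 i2 : ℕ}
    (hj : j ≤ j1) (h12 : j1 < j2) (h2 : j2 ≤ i1) (hi : i1 ≤ i2) (hi2 : i2 ≤ M.L + 1) {vm D : ℝ} (hvm : 0 < vm) (hvm' : vm ≤ M.mass (j1 + 1))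
    (hD : 0 < D) (hD' : D ≤ M.hck j2 - M.hck j1) {A : Ω → EuclideanSpace ℝ (Fin n)} (hA : Measurable A) {CA : ℝ} (hCA : ∀ ω, ‖A ω‖ ≤ CA) :
    cmN (M.P2 j) p (fun z : Ω × Ω => inner ℝ (M.dX i1 i2 z.1) (A z.2)) ≤ 2 * Pi * cmN M.P p A / (vm * Real.sqrt (n * D)) := by
  have h1 := cmN_P2_swap hM j (su_pair_meas hA (dX_meas hM i1 i2)) p
  have e : (fun z : Ω × Ω => (fun z : Ω × Ω => inner ℝ (A z.1) (M.dX i1 i2 z.2)) z.swap)
      = fun z : Ω × Ω => inner ℝ (M.dX i1 i2 z.1) (A z.2) := by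
    ext z
    simp only [Prod.fst_swap, Prod.snd_swap]
    exact real_inner_comm _ _
  rw [e] at h1
  rw [h1]
  exact pair_bound hM hp hp2 hPi hP hj h12 h2 hi hi2 hvm hvm' hD hD' hA hCA

/-- local clock data on the band `[t1,t2]` -/
structure SusH (M : CmPath n Ω) (Γ η D x t1 t2 : ℝ) : Prop where
  hΓ : 2 ≤ Γ
  hη : 0 < η
  hηt : η ≤ t1
  hD : 0 < D
  hx : 0 < x
  hxt : x ≤ t1
  h12 : t1 ≤ t2
  ht2 : 4 * Γ * t2 ≤ 1
  s1 : ∀ t, t1 ≤ t → t ≤ t2 → D ≤ M.H (t + η) - M.H t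
  s2 : ∀ w, 2 * t1 ≤ w → Γ * w ≤ 1 → D ≤ M.H (Γ * w) - M.H w

/-- the fork data of a node that meets the band -/
theorem sus_fork (hM : M.Ok) {t1 t2 : ℝ} {j : ℕ} (hj : j ≤ M.L) (hov : 0 < M.ov j t1 t2) :
    max (M.mass j) t1 < M.mass (j + 1) ∧ max (M.mass j) t1 < t2 ∧ M.nd (max (M.mass j) t1) = j := by
  have h := (ov_pos_iff M j t1 t2).mp hov
  have h1 := lt_min_iff.mp h
  refine ⟨h1.1, h1.2, le_antisymm ?_ (le_nd hM hj (le_max_left _ _))⟩
  by_contra hc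
  have hc' : j + 1 ≤ M.nd (max (M.mass j) t1) := by omega
  have h2 := hM.mass_mono hc'
  have h3 := mass_nd_le hM (t := max (M.mass j) t1) ((mass_nonneg hM j).trans (le_max_left _ _))
  linarith [h1.1]

theorem thr_succ_le {Γ η t : ℝ} (hΓ : 2 ≤ Γ) (ht : 0 < t) (hη : 0 ≤ η) {m : ℕ} (hm : 1 ≤ m) :
    thr Γ η t (m + 1) ≤ 2 * Γ * thr Γ η t m := by
  have hΓ0 : (0:ℝ) < Γ := by linarith
  match m, hm with
  | 1, _ =>
    simp only [thr, Nat.zero_add, pow_one]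
    nlinarith [mul_nonneg hΓ0.le hη]
  | m + 2, _ =>
    simp only [thr]
    have h : 0 < Γ ^ (m + 1) * t := by positivity
    rw [pow_succ Γ (m + 1)]
    nlinarith [mul_pos hΓ0 h]

/-- the clock interval that precedes the layer `m ≥ 1` -/
theorem sus_layer (hM : M.Ok) {Γ η D x t1 t2 : ℝ} (hS : M.SusH Γ η D x t1 t2) {j : ℕ} (hj : j ≤ M.L) (hov : 0 < M.ov j t1 t2)
    {m : ℕ} (hm : 1 ≤ m) (hlt : thr Γ η (max (M.mass j) t1) m < 1) :
    ∃ j1 j2, j ≤ j1 ∧ j1 < j2 ∧ j2 ≤ M.cut j Γ η (max (M.mass j) t1) m ∧ thr Γ η (max (M.mass j) t1) m / Γ ≤ M.mass (j1 + 1)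
      ∧ D ≤ M.hck j2 - M.hck j1 := by
  obtain ⟨f1, f2, f3⟩ := sus_fork hM hj hov
  set t := max (M.mass j) t1 with ht
  have ht1 : t1 ≤ t := le_max_right _ _
  have hjt : M.mass j ≤ t := le_max_left _ _
  have hΓ := hS.hΓ
  have hΓ0 : (0:ℝ) < Γ := by linarith
  have ht0 : 0 < t := by linarith [hS.hx, hS.hxt]
  have hlt' : ∀ {a b : ℕ}, D ≤ M.hck b - M.hck a → a < b := by
    intro a b h
    by_contra hc
    have := hM.hck_mono (not_lt.mp hc)
    linarith [hS.hD]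
  have hcut : M.cut j Γ η t m = M.nd (thr Γ η t m) := by
    unfold cut ct
    rw [if_neg (by omega), if_pos hlt]
  match m, hm, hlt, hcut with
  | 1, _, hlt, hcut =>
    have hD := hS.s1 t ht1 f2.le
    unfold H at hD
    rw [f3] at hD
    refine ⟨j, M.nd (t + η), le_rfl, hlt' hD, ?_, ?_, hD⟩
    · rw [hcut]; simp [thr]
    · simp only [thr]
      rw [div_le_iff₀ hΓ0]
      nlinarith [hS.hηt, hS.hη]
  | m + 2, _, hlt, hcut =>
    have e : thr Γ η t (m + 2) = Γ * (2 * Γ ^ m * t) := by simp only [thr]; ring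
    have hpow : 1 ≤ Γ ^ m := one_le_pow₀ (by linarith)
    have htw : t ≤ 2 * Γ ^ m * t := by nlinarith
    have hw2 : 2 * t1 ≤ 2 * Γ ^ m * t := by nlinarith
    have hΓw : Γ * (2 * Γ ^ m * t) ≤ 1 := by rw [← e]; exact hlt.le
    have hD := hS.s2 _ hw2 hΓw
    unfold H at hD
    have hw1 : 2 * Γ ^ m * t < 1 := by nlinarith
    refine ⟨M.nd (2 * Γ ^ m * t), M.nd (Γ * (2 * Γ ^ m * t)), le_nd hM hj (hjt.trans htw), hlt' hD, ?_, ?_, hD⟩
    · rw [hcut, e]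
    · rw [e, mul_div_cancel_left₀ _ hΓ0.ne']; exact (lt_mass_nd_succ hM hw1).le

/-- **all pairs but `(0,0)`** : scale-free bound -/
theorem sus_off (hM : M.Ok) {l : ℕ} (hl : 1 ≤ l) {Γ η D x t1 t2 Pi Q : ℝ} (hS : M.SusH Γ η D x t1 t2) (hPi : 1 ≤ Pi) (hQ : 1 ≤ Q)
    (hP : M.Proj (2 * l) Pi) (hR : M.Raw (4 * l) Q x) {j : ℕ} (hj : j ≤ M.L) (hov : 0 < M.ov j t1 t2) (i k : ℕ) (hik : ¬ (i = 0 ∧ k = 0)) :
    M.mass (M.cut j Γ η (max (M.mass j) t1) (k + 1)) *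
      cmN (M.P2 j) (2 * l) (fun z : Ω × Ω =>
        inner ℝ (M.dX (M.cut j Γ η (max (M.mass j) t1) i) (M.cut j Γ η (max (M.mass j) t1) (i + 1)) z.1)
          (M.dX (M.cut j Γ η (max (M.mass j) t1) k) (M.cut j Γ η (max (M.mass j) t1) (k + 1)) z.2)) ^ 2
      ≤ 100 * Γ ^ 4 * Pi ^ 2 * Q ^ 2 / (n * D) := by
  obtain ⟨f1, f2, f3⟩ := sus_fork hM hj hov
  set t := max (M.mass j) t1 with ht
  set c := M.cut j Γ η t with hc
  have hΓ := hS.hΓ
  have hΓ0 : (0:ℝ) < Γ := by linarith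
  have ht1 : t1 ≤ t := le_max_right _ _
  have ht0 : 0 < t := by linarith [hS.hx, hS.hxt]
  have hηt : η ≤ t := hS.hηt.trans ht1
  have hjt : M.mass j ≤ t := le_max_left _ _
  have hcm : Monotone c := cut_mono hM hj hΓ ht0 hS.hη.le hηt hjt
  have hthr := thr_mono hΓ ht0 hS.hη.le hηt
  have hcL : ∀ k, c k ≤ M.L + 1 := by
    intro k
    simp only [hc, cut]
    split_ifs
    · omega
    · exact ct_le M _
  have := hM.prob
  have hR2 : M.Raw (2 * l) Q x := fun i hi =>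
    (cmN_exp_mono ⟨(hM.meas i).aestronglyMeasurable, 1, hM.norm_le i⟩ (by omega) (by omega)).trans (hR i hi)
  set m := max i k with hm
  have hm1 : 1 ≤ m := by
    rcases Nat.eq_zero_or_pos i with h1 | h1
    · rcases Nat.eq_zero_or_pos k with h2 | h2
      · exact absurd ⟨h1, h2⟩ hik
      · exact le_trans h2 (le_max_right _ _)
    · exact le_trans h1 (le_max_left _ _)
  have him : i ≤ m := le_max_left _ _
  have hkm : k ≤ m := le_max_right _ _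
  set T := thr Γ η t m with hT
  set T' := thr Γ η t (m + 1) with hT'
  have hT0 : 0 < T := ht0.trans_le (hthr (Nat.zero_le m))
  have hT'0 : 0 < T' := ht0.trans_le (hthr (Nat.zero_le (m + 1)))
  have hTT' : T' ≤ 2 * Γ * T := thr_succ_le hΓ ht0 hS.hη.le hm1
  have hxT : x ≤ T := (hS.hxt.trans ht1).trans (hthr (Nat.zero_le m))
  set R := 2 * Q * Real.sqrt (x + T') with hRd
  have hR0 : 0 ≤ R := by positivity
  have hRaw : ∀ i', i' ≤ m → cmN M.P (2 * l) (M.dX (c i') (c (i' + 1))) ≤ R := fun i' hi' =>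
    dX_raw hM (by omega) (by linarith) hS.hx.le hR2 (hcm (Nat.le_succ i')) (hcL _)
      ((mass_cut_le hM hΓ ht0 hS.hη.le hjt (i' + 1)).trans (hthr (by omega)))
  have hmass : M.mass (c (k + 1)) ≤ T' := (mass_cut_le hM hΓ ht0 hS.hη.le hjt (k + 1)).trans (hthr (by omega))
  have hPi0 : 0 ≤ Pi := by linarith
  have key : cmN (M.P2 j) (2 * l) (fun z : Ω × Ω => inner ℝ (M.dX (c i) (c (i + 1)) z.1) (M.dX (c k) (c (k + 1)) z.2))
      ≤ 2 * Pi * R / (T / Γ * Real.sqrt (n * D)) := by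
    rcases lt_or_ge T 1 with hlt | hge
    · obtain ⟨j1, j2, a1, a2, a3, a4, a5⟩ := sus_layer hM hS hj hov hm1 hlt
      have hvm : 0 < T / Γ := by positivity
      rcases le_total i k with hik | hik
      · have hmk : m = k := max_eq_right hik
        rw [hmk] at a3
        have h := pair_bound hM (even_two_mul l) (by omega) hPi0 hP a1 a2 a3 (hcm (Nat.le_succ k)) (hcL _) hvm a4 hS.hD a5
          (dX_meas hM (c i) (c (i + 1))) (dX_norm_le hM _ _)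
        refine h.trans ?_
        apply div_le_div_of_nonneg_right _ (by positivity)
        exact mul_le_mul_of_nonneg_left (hRaw i him) (by positivity)
      · have hmk : m = i := max_eq_left hik
        rw [hmk] at a3
        have h := pair_bound' hM (even_two_mul l) (by omega) hPi0 hP a1 a2 a3 (hcm (Nat.le_succ i)) (hcL _) hvm a4 hS.hD a5
          (dX_meas hM (c k) (c (k + 1))) (dX_norm_le hM _ _)
        refine h.trans ?_
        apply div_le_div_of_nonneg_right _ (by positivity)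
        exact mul_le_mul_of_nonneg_left (hRaw k hkm) (by positivity)
    · have e1 : c m = M.L + 1 := cut_top M hm1 hge
      have e2 : c (m + 1) = M.L + 1 := cut_top M (by omega) (hge.trans (hthr (Nat.le_succ m)))
      have hz : (fun z : Ω × Ω => inner ℝ (M.dX (c i) (c (i + 1)) z.1) (M.dX (c k) (c (k + 1)) z.2)) = fun _ => (0:ℝ) := by
        ext z
        rcases le_total i k with hik | hik
        · have hmk : m = k := max_eq_right hik
          rw [← hmk, e1, e2]; simp [dX]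
        · have hmk : m = i := max_eq_left hik
          rw [← hmk, e1, e2]; simp [dX]
      have := P2_prob hM j
      rw [hz, cmN_const 0 _ (by omega)]
      simp only [abs_zero]
      positivity
  have hN : (0:ℝ) ≤ n * D := mul_nonneg (Nat.cast_nonneg _) hS.hD.le
  have hs : Real.sqrt (n * D) ^ 2 = n * D := Real.sq_sqrt hN
  have hsq : Real.sqrt (x + T') ^ 2 = x + T' := Real.sq_sqrt (by linarith [hS.hx])
  have hprod : T' * (x + T') ≤ 5 * Γ ^ 2 * T ^ 2 := by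
    have h1 : x + T' ≤ 5 / 2 * Γ * T := by nlinarith
    calc T' * (x + T') ≤ (2 * Γ * T) * (5 / 2 * Γ * T) := mul_le_mul hTT' h1 (by linarith [hS.hx]) (by positivity)
      _ = _ := by ring
  calc M.mass (c (k + 1)) * cmN (M.P2 j) (2 * l) (fun z : Ω × Ω => inner ℝ (M.dX (c i) (c (i + 1)) z.1) (M.dX (c k) (c (k + 1)) z.2)) ^ 2
      ≤ T' * (2 * Pi * R / (T / Γ * Real.sqrt (n * D))) ^ 2 :=
        mul_le_mul hmass (pow_le_pow_left₀ (cmN_nonneg _ _ _) key 2) (by positivity) hT'0.le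
    _ = (16 * Pi ^ 2 * Q ^ 2 * Γ ^ 2 / T ^ 2 * (T' * (x + T'))) / (n * D) := by
        rw [div_pow, mul_pow (T / Γ), hs, hRd, mul_pow, mul_pow, mul_pow, mul_pow, hsq]
        field_simp
        ring
    _ ≤ (100 * Γ ^ 4 * Pi ^ 2 * Q ^ 2) / (n * D) := by
        apply div_le_div_of_nonneg_right _ hN
        calc 16 * Pi ^ 2 * Q ^ 2 * Γ ^ 2 / T ^ 2 * (T' * (x + T')) ≤ 16 * Pi ^ 2 * Q ^ 2 * Γ ^ 2 / T ^ 2 * (5 * Γ ^ 2 * T ^ 2) :=
              mul_le_mul_of_nonneg_left hprod (by positivity)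
          _ = 80 * Γ ^ 4 * Pi ^ 2 * Q ^ 2 := by field_simp; ring
          _ ≤ _ := by
            have : 0 ≤ Γ ^ 4 * Pi ^ 2 * Q ^ 2 := by positivity
            nlinarith

/-- **the pair `(0,0)`**, integrated over the band -/
theorem sus_diag (hM : M.Ok) {l : ℕ} (hl : 1 ≤ l) {Γ η D x t1 t2 Q : ℝ} (hS : M.SusH Γ η D x t1 t2) (hQ : 1 ≤ Q) (hR : M.Raw (4 * l) Q x) :
    cmN M.P l (fun ω => ∑ j ∈ Finset.range (M.L + 1), M.ov j t1 t2 *
        (M.mass (M.cut j Γ η (max (M.mass j) t1) 1) *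
          ∫ ω', inner ℝ (M.dX j (M.cut j Γ η (max (M.mass j) t1) 1) ω) (M.dX j (M.cut j Γ η (max (M.mass j) t1) 1) ω') ^ 2 ∂(M.κ j ω)))
      ≤ 1200 * l ^ 2 * η * Q ^ 4 * t2 ^ 3 := by
  have := hM.prob
  have hmk := hM.markov
  obtain ⟨c, hc⟩ : ∃ c : ℕ → ℕ, c = fun j => M.cut j Γ η (max (M.mass j) t1) 1 := ⟨_, rfl⟩
  have hcj' : ∀ j, M.cut j Γ η (max (M.mass j) t1) 1 = c j := fun j => by rw [hc]
  simp only [hcj']
  have ht1 : 0 < t1 := lt_of_lt_of_le hS.hx hS.hxt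
  have ht20 : 0 < t2 := lt_of_lt_of_le ht1 hS.h12
  have ht2 : 8 * t2 ≤ 1 := by nlinarith [hS.ht2, hS.hΓ]
  obtain ⟨N, hNd⟩ : ∃ N, N = M.nd (2 * t2) := ⟨_, rfl⟩
  have hN : N ≤ M.L + 1 := hNd ▸ (nd_le M _).trans (Nat.le_succ _)
  have hmN : M.mass N ≤ 2 * t2 := hNd ▸ mass_nd_le hM (by positivity)
  have hcj : ∀ j, j ≤ M.L → 0 < M.ov j t1 t2 → j ≤ c j ∧ c j ≤ N ∧ M.mass (c j) ≤ max (M.mass j) t1 + η := by
    intro j hj hov
    have h1 := (ov_pos_iff M j t1 t2).1 hov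
    have h2 : max (M.mass j) t1 < t2 := lt_of_lt_of_le h1 (min_le_right _ _)
    have h3 : max (M.mass j) t1 + η ≤ 2 * t2 := by linarith [hS.hηt, hS.h12]
    have h4 : 0 ≤ max (M.mass j) t1 + η := by linarith [le_max_right (M.mass j) t1, hS.hη]
    have e : c j = M.nd (max (M.mass j) t1 + η) := by
      rw [hc]
      show (if (1:ℕ) = 0 then j else M.ct (thr Γ η (max (M.mass j) t1) 1)) = _
      rw [if_neg one_ne_zero]
      show (if max (M.mass j) t1 + η < 1 then M.nd (max (M.mass j) t1 + η) else M.L + 1) = _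
      rw [if_pos (by linarith)]
    rw [e]
    exact ⟨le_nd hM hj (by linarith [le_max_left (M.mass j) t1, hS.hη]), hNd ▸ nd_mono hM h4 h3, mass_nd_le hM h4⟩
  -- the maximal function and the moving window
  obtain ⟨Z, hZ⟩ : ∃ Z : Ω → ℝ, Z = fun ω => (Finset.range (N + 1)).sup' Finset.nonempty_range_add_one (fun i => ‖M.X i ω‖) := ⟨_, rfl⟩
  obtain ⟨A, hA⟩ : ∃ A : Ω → ℝ, A = fun ω => ∑ j ∈ Finset.range (M.L + 1), M.ov j t1 t2 * M.cE j (fun ω' => ‖M.X (c j) ω' - M.X j ω'‖ ^ 2) ω := ⟨_, rfl⟩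
  have hZm : Measurable Z := by
    rw [hZ]; exact Finset.measurable_range_sup'' fun k _ => (hM.meas k).norm
  have hZge : ∀ i, i ≤ N → ∀ ω, ‖M.X i ω‖ ≤ Z ω := fun i hi ω => by
    rw [hZ]; exact Finset.le_sup' (fun i => ‖M.X i ω‖) (Finset.mem_range.mpr (Nat.lt_succ_of_le hi))
  have hZ0 : ∀ ω, 0 ≤ Z ω := fun ω => (norm_nonneg _).trans (hZge 0 (Nat.zero_le _) ω)
  have hZ1 : ∀ ω, Z ω ≤ 1 := fun ω => by
    rw [hZ]; exact Finset.sup'_le _ _ fun i _ => hM.norm_le i ω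
  have hZBM : Kit164.BM M.P Z := Kit164.BM.of_bounds hZm.aestronglyMeasurable hZ0 hZ1
  have hdm : ∀ j, Measurable (fun ω' => ‖M.X (c j) ω' - M.X j ω'‖ ^ 2) := fun j =>
    ((hM.meas (c j)).sub (hM.meas j)).norm.pow_const 2
  have hqBM : ∀ j, Kit164.BM M.P (M.cE j (fun ω' => ‖M.X (c j) ω' - M.X j ω'‖ ^ 2)) := fun j =>
    ⟨(cE_meas hM j (hdm j)).aestronglyMeasurable, 4, cE_bound hM j (cmp_bound_le4 hM j (c j))⟩
  have hq0 : ∀ j ω, 0 ≤ M.cE j (fun ω' => ‖M.X (c j) ω' - M.X j ω'‖ ^ 2) ω := fun j ω =>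
    integral_nonneg fun _ => by positivity
  have hABM : Kit164.BM M.P A := by
    rw [hA]; exact Kit164.BM.sum _ fun j _ => (Kit164.BM.const _).mul (hqBM j)
  have hA0 : ∀ ω, 0 ≤ A ω := fun ω => by
    rw [hA]; exact Finset.sum_nonneg fun j _ => mul_nonneg (ov_nonneg M j t1 t2) (hq0 j ω)
  -- pointwise bound
  have hpt : ∀ ω, ∑ j ∈ Finset.range (M.L + 1), M.ov j t1 t2 *
      (M.mass (c j) * ∫ ω', inner ℝ (M.dX j (c j) ω) (M.dX j (c j) ω') ^ 2 ∂(M.κ j ω)) ≤ 8 * t2 * (Z ω ^ 2 * A ω) := by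
    intro ω
    rw [hA]
    simp only [Finset.mul_sum]
    refine Finset.sum_le_sum fun j hj => ?_
    have hj' : j ≤ M.L := Nat.lt_succ_iff.mp (Finset.mem_range.mp hj)
    rcases (ov_nonneg M j t1 t2).eq_or_lt with h0 | h0
    · rw [← h0]; simp
    obtain ⟨g1, g2, g3⟩ := hcj j hj' h0
    have h1 := (ov_pos_iff M j t1 t2).1 h0
    have h2 : max (M.mass j) t1 < t2 := lt_of_lt_of_le h1 (min_le_right _ _)
    have hm : M.mass (c j) ≤ 2 * t2 := by linarith [hS.hηt, hS.h12]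
    have hm0 : 0 ≤ M.mass (c j) := (mass_mem hM (g2.trans hN)).1
    have ha : ‖M.dX j (c j) ω‖ ≤ 2 * Z ω := by
      unfold dX
      calc ‖M.X (c j) ω - M.X j ω‖ ≤ ‖M.X (c j) ω‖ + ‖M.X j ω‖ := norm_sub_le _ _
        _ ≤ Z ω + Z ω := add_le_add (hZge _ g2 ω) (hZge _ (g1.trans g2) ω)
        _ = 2 * Z ω := by ring
    have hI : ∫ ω', inner ℝ (M.dX j (c j) ω) (M.dX j (c j) ω') ^ 2 ∂(M.κ j ω)
        ≤ (2 * Z ω) ^ 2 * M.cE j (fun ω' => ‖M.X (c j) ω' - M.X j ω'‖ ^ 2) ω := by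
      unfold cE
      rw [← integral_const_mul]
      refine integral_mono_of_nonneg (Filter.Eventually.of_forall fun _ => by positivity)
        ((cm5k_intK hM j ω (hdm j) (cmp_bound_le4 hM j (c j))).const_mul _) (Filter.Eventually.of_forall fun ω' => ?_)
      show inner ℝ (M.dX j (c j) ω) (M.dX j (c j) ω') ^ 2 ≤ (2 * Z ω) ^ 2 * ‖M.X (c j) ω' - M.X j ω'‖ ^ 2
      have h5 := abs_real_inner_le_norm (M.dX j (c j) ω) (M.dX j (c j) ω')
      rw [← sq_abs, ← mul_pow]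
      refine pow_le_pow_left₀ (abs_nonneg _) (h5.trans ?_) 2
      exact mul_le_mul_of_nonneg_right ha (norm_nonneg _)
    have hI0 : 0 ≤ ∫ ω', inner ℝ (M.dX j (c j) ω) (M.dX j (c j) ω') ^ 2 ∂(M.κ j ω) := integral_nonneg fun _ => by positivity
    calc M.ov j t1 t2 * (M.mass (c j) * ∫ ω', inner ℝ (M.dX j (c j) ω) (M.dX j (c j) ω') ^ 2 ∂(M.κ j ω))
        ≤ M.ov j t1 t2 * (2 * t2 * ((2 * Z ω) ^ 2 * M.cE j (fun ω' => ‖M.X (c j) ω' - M.X j ω'‖ ^ 2) ω)) :=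
          mul_le_mul_of_nonneg_left (mul_le_mul hm hI hI0 (by positivity)) h0.le
      _ = _ := by ring
  have hlhs0 : ∀ ω, 0 ≤ ∑ j ∈ Finset.range (M.L + 1), M.ov j t1 t2 *
      (M.mass (c j) * ∫ ω', inner ℝ (M.dX j (c j) ω) (M.dX j (c j) ω') ^ 2 ∂(M.κ j ω)) := by
    intro ω
    refine Finset.sum_nonneg fun j hj => ?_
    rcases (ov_nonneg M j t1 t2).eq_or_lt with h0 | h0
    · rw [← h0]; simp
    have hj' : j ≤ M.L := Nat.lt_succ_iff.mp (Finset.mem_range.mp hj)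
    exact mul_nonneg h0.le (mul_nonneg (mass_mem hM ((hcj j hj' h0).2.1.trans hN)).1 (integral_nonneg fun _ => by positivity))
  have hZ2BM : Kit164.BM M.P (fun ω => Z ω ^ 2) := hZBM.pow 2
  have hprodBM : Kit164.BM M.P (fun ω => Z ω ^ 2 * A ω) := hZ2BM.mul hABM
  have s1 : cmN M.P l (fun ω => ∑ j ∈ Finset.range (M.L + 1), M.ov j t1 t2 *
      (M.mass (c j) * ∫ ω', inner ℝ (M.dX j (c j) ω) (M.dX j (c j) ω') ^ 2 ∂(M.κ j ω)))
      ≤ cmN M.P l (fun ω => 8 * t2 * (Z ω ^ 2 * A ω)) := by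
    refine cmN_mono ((Kit164.BM.const (8 * t2)).mul hprodBM) l (Filter.Eventually.of_forall fun ω => ?_)
    rw [Real.norm_eq_abs, Real.norm_eq_abs, abs_of_nonneg (hlhs0 ω),
      abs_of_nonneg (mul_nonneg (by positivity) (mul_nonneg (by positivity) (hA0 ω)))]
    exact hpt ω
  rw [cmN_const_mul, abs_of_nonneg (by positivity : (0:ℝ) ≤ 8 * t2)] at s1
  have s2 := cmN_mul_le (μ := M.P) hZ2BM hABM l hl
  -- the raw bound at the node `N`
  have e4 : 2 * (2 * l) = 4 * l := by ring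
  have hXN : cmN M.P (4 * l) (M.X N) ^ 2 ≤ Q ^ 2 * (3 * t2) := by
    have h1 := hR N hN
    have h2 : Real.sqrt (x + M.mass N) ≤ Real.sqrt (3 * t2) := Real.sqrt_le_sqrt (by linarith [hS.hxt, hS.h12])
    have h3 : cmN M.P (4 * l) (M.X N) ≤ Q * Real.sqrt (3 * t2) := h1.trans (mul_le_mul_of_nonneg_left h2 (by linarith))
    calc cmN M.P (4 * l) (M.X N) ^ 2 ≤ (Q * Real.sqrt (3 * t2)) ^ 2 := pow_le_pow_left₀ (cmN_nonneg _ _ _) h3 2
      _ = Q ^ 2 * (3 * t2) := by rw [mul_pow, Real.sq_sqrt (by positivity)]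
  have s3 : cmN M.P (2 * l) (fun ω => Z ω ^ 2) ≤ 4 * (Q ^ 2 * (3 * t2)) := by
    have h1 : (fun ω => Z ω ^ 2) = fun ω => ‖Z ω‖ ^ 2 := by funext ω; rw [Real.norm_eq_abs, sq_abs]
    rw [h1, cmN_sq (μ := M.P) (f := Z) hZBM (2 * l) (by omega), e4]
    have h2 := doob hM N hN (4 * l) (by omega)
    rw [← hZ] at h2
    calc cmN M.P (4 * l) Z ^ 2 ≤ (2 * cmN M.P (4 * l) (M.X N)) ^ 2 := pow_le_pow_left₀ (cmN_nonneg _ _ _) h2 2
      _ = 4 * cmN M.P (4 * l) (M.X N) ^ 2 := by ring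
      _ ≤ _ := mul_le_mul_of_nonneg_left hXN (by norm_num)
  have s4 : cmN M.P (2 * l) A ≤ ((2 * l : ℕ) : ℝ) ^ 2 * η * (Q ^ 2 * (3 * t2)) := by
    have h1 := window_comp hM t1 t2 η hS.hη.le c N hN hcj (2 * l) (by omega)
    rw [← hA, e4] at h1
    exact h1.trans (mul_le_mul_of_nonneg_left hXN (by have := hS.hη; positivity))
  have hη := hS.hη
  have hQ0 : 0 < Q := by linarith
  calc _ ≤ 8 * t2 * cmN M.P l (fun ω => Z ω ^ 2 * A ω) := s1
    _ ≤ 8 * t2 * ((4 * (Q ^ 2 * (3 * t2))) * (((2 * l : ℕ) : ℝ) ^ 2 * η * (Q ^ 2 * (3 * t2)))) :=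
        mul_le_mul_of_nonneg_left (s2.trans (mul_le_mul s3 s4 (cmN_nonneg _ _ _) (by positivity))) (by positivity)
    _ = 1152 * l ^ 2 * η * Q ^ 4 * t2 ^ 3 := by push_cast; ring
    _ ≤ 1200 * l ^ 2 * η * Q ^ 4 * t2 ^ 3 := by
        have : 0 ≤ (l:ℝ) ^ 2 * η * Q ^ 4 * t2 ^ 3 := by positivity
        nlinarith

/-- the window data of the band: the last node `N`, the first cuts, Doob and the moving window -/
theorem sus_win (hM : M.Ok) {l : ℕ} (hl : 1 ≤ l) {Γ η D x t1 t2 Q : ℝ} (hS : M.SusH Γ η D x t1 t2) (hQ : 1 ≤ Q) (hR : M.Raw (4 * l) Q x) :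
    ∃ N : ℕ, (∀ j, j ≤ M.L → 0 < M.ov j t1 t2 → M.cut j Γ η (max (M.mass j) t1) 1 ≤ N ∧ M.mass (M.cut j Γ η (max (M.mass j) t1) 1) ≤ 2 * t2) ∧
      cmN M.P (2 * (2 * l)) (M.Zs N) ^ 2 ≤ 12 * Q ^ 2 * t2 ∧
      cmN M.P (2 * l) (fun ω => ∑ j ∈ Finset.range (M.L + 1), M.ov j t1 t2 *
        M.cE j (fun ω' => ‖M.X (M.cut j Γ η (max (M.mass j) t1) 1) ω' - M.X j ω'‖ ^ 2) ω) ≤ 12 * l ^ 2 * η * Q ^ 2 * t2 := by
  have := hM.prob
  obtain ⟨c, hc⟩ : ∃ c : ℕ → ℕ, c = fun j => M.cut j Γ η (max (M.mass j) t1) 1 := ⟨_, rfl⟩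
  have hcj' : ∀ j, M.cut j Γ η (max (M.mass j) t1) 1 = c j := fun j => by rw [hc]
  simp only [hcj']
  have ht1 : 0 < t1 := lt_of_lt_of_le hS.hx hS.hxt
  have ht20 : 0 < t2 := lt_of_lt_of_le ht1 hS.h12
  have ht2 : 8 * t2 ≤ 1 := by nlinarith [hS.ht2, hS.hΓ]
  obtain ⟨N, hNd⟩ : ∃ N, N = M.nd (2 * t2) := ⟨_, rfl⟩
  have hN : N ≤ M.L + 1 := hNd ▸ (nd_le M _).trans (Nat.le_succ _)
  have hmN : M.mass N ≤ 2 * t2 := hNd ▸ mass_nd_le hM (by positivity)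
  have hcj : ∀ j, j ≤ M.L → 0 < M.ov j t1 t2 → j ≤ c j ∧ c j ≤ N ∧ M.mass (c j) ≤ max (M.mass j) t1 + η := by
    intro j hj hov
    have h1 := (ov_pos_iff M j t1 t2).1 hov
    have h2 : max (M.mass j) t1 < t2 := lt_of_lt_of_le h1 (min_le_right _ _)
    have h3 : max (M.mass j) t1 + η ≤ 2 * t2 := by linarith [hS.hηt, hS.h12]
    have h4 : 0 ≤ max (M.mass j) t1 + η := by linarith [le_max_right (M.mass j) t1, hS.hη]
    have e : c j = M.nd (max (M.mass j) t1 + η) := by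
      rw [hc]
      show (if (1:ℕ) = 0 then j else M.ct (thr Γ η (max (M.mass j) t1) 1)) = _
      rw [if_neg one_ne_zero]
      show (if max (M.mass j) t1 + η < 1 then M.nd (max (M.mass j) t1 + η) else M.L + 1) = _
      rw [if_pos (by linarith)]
    rw [e]
    exact ⟨le_nd hM hj (by linarith [le_max_left (M.mass j) t1, hS.hη]), hNd ▸ nd_mono hM h4 h3, mass_nd_le hM h4⟩
  have e4 : 2 * (2 * l) = 4 * l := by ring
  have hXN : cmN M.P (4 * l) (M.X N) ^ 2 ≤ Q ^ 2 * (3 * t2) := by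
    have h1 := hR N hN
    have h2 : Real.sqrt (x + M.mass N) ≤ Real.sqrt (3 * t2) := Real.sqrt_le_sqrt (by linarith [hS.hxt, hS.h12])
    have h3 : cmN M.P (4 * l) (M.X N) ≤ Q * Real.sqrt (3 * t2) := h1.trans (mul_le_mul_of_nonneg_left h2 (by linarith))
    calc cmN M.P (4 * l) (M.X N) ^ 2 ≤ (Q * Real.sqrt (3 * t2)) ^ 2 := pow_le_pow_left₀ (cmN_nonneg _ _ _) h3 2
      _ = Q ^ 2 * (3 * t2) := by rw [mul_pow, Real.sq_sqrt (by positivity)]
  refine ⟨N, fun j hj hov => ?_, ?_, ?_⟩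
  · obtain ⟨g1, g2, g3⟩ := hcj j hj hov
    have h1 := (ov_pos_iff M j t1 t2).1 hov
    have h2 : max (M.mass j) t1 < t2 := lt_of_lt_of_le h1 (min_le_right _ _)
    exact ⟨g2, by linarith [hS.hηt, hS.h12]⟩
  · rw [e4]
    have h2 : cmN M.P (4 * l) (M.Zs N) ≤ 2 * cmN M.P (4 * l) (M.X N) := doob hM N hN (4 * l) (by omega)
    calc cmN M.P (4 * l) (M.Zs N) ^ 2 ≤ (2 * cmN M.P (4 * l) (M.X N)) ^ 2 := pow_le_pow_left₀ (cmN_nonneg _ _ _) h2 2
      _ = 4 * cmN M.P (4 * l) (M.X N) ^ 2 := by ring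
      _ ≤ 4 * (Q ^ 2 * (3 * t2)) := mul_le_mul_of_nonneg_left hXN (by norm_num)
      _ = _ := by ring
  · have h1 := window_comp hM t1 t2 η hS.hη.le c N hN hcj (2 * l) (by omega)
    rw [e4] at h1
    refine h1.trans ((mul_le_mul_of_nonneg_left hXN (by have := hS.hη; positivity)).trans (le_of_eq ?_))
    push_cast; ring

/-- **PE (15), abstract form** -/
theorem sus_abs (hM : M.Ok) {l : ℕ} (hl : 1 ≤ l) {Γ η D x t1 t2 Pi Q : ℝ} (hS : M.SusH Γ η D x t1 t2) (hPi : 1 ≤ Pi) (hQ : 1 ≤ Q)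
    (hP : M.Proj (2 * l) Pi) (hR : M.Raw (4 * l) Q x) {K : ℕ} (hK1 : 1 ≤ K) (hK : 1 ≤ Γ ^ K * t1) :
    cmN M.P l (M.intg M.W t1 t2)
      ≤ ((K : ℝ) + 1) ^ 3 * (100 * Γ ^ 4 * Pi ^ 2 * Q ^ 2 / (n * D)) * (t2 - t1) + ((K : ℝ) + 1) * (1200 * l ^ 2 * η * Q ^ 4 * t2 ^ 3) := by
  have ht1 : 0 < t1 := lt_of_lt_of_le hS.hx hS.hxt
  have ht20 : 0 < t2 := lt_of_lt_of_le ht1 hS.h12
  have ht2 : 8 * t2 ≤ 1 := by nlinarith [hS.ht2, hS.hΓ]
  have hΓ0 : 0 < Γ := by linarith [hS.hΓ]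
  have hη := hS.hη
  have hQ0 : 0 < Q := by linarith
  obtain ⟨N, w1, w2, w3⟩ := sus_win hM hl hS hQ hR
  have hE1 : 0 ≤ 100 * Γ ^ 4 * Pi ^ 2 * Q ^ 2 / (n * D) := by have := hS.hD; positivity
  have key := su_assemble hM l hl (K + 1) (by omega) (fun j => M.ov j t1 t2) (fun j => ov_nonneg M j t1 t2)
    (fun j => M.cut j Γ η (max (M.mass j) t1)) N (μ0 := 2 * t2) (E1 := 100 * Γ ^ 4 * Pi ^ 2 * Q ^ 2 / (n * D)) (by positivity) hE1
    (fun j hj hov => by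
      have htj : 0 < max (M.mass j) t1 := lt_of_lt_of_le ht1 (le_max_right _ _)
      refine ⟨by simp [cut], ?_, cut_mono hM hj hS.hΓ htj hη.le (hS.hηt.trans (le_max_right _ _)) (le_max_left _ _), (w1 j hj hov).1, (w1 j hj hov).2⟩
      refine cut_top M (by omega) ?_
      obtain ⟨K', rfl⟩ : ∃ K', K = K' + 1 := ⟨K - 1, by omega⟩
      show 1 ≤ 2 * Γ ^ (K' + 1) * max (M.mass j) t1
      have h1 : Γ ^ (K' + 1) * t1 ≤ Γ ^ (K' + 1) * max (M.mass j) t1 := mul_le_mul_of_nonneg_left (le_max_right _ _) (by positivity)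
      nlinarith)
    (fun j hj hov i _ k _ hik => by
      have h0 := pI_norm_le hM j (Dc_meas hM (M.cut j Γ η (max (M.mass j) t1)) i) (Dc_meas hM (M.cut j Γ η (max (M.mass j) t1)) k)
        (Dc_norm_le hM _ i) (Dc_norm_le hM _ k) l hl
      exact (mul_le_mul_of_nonneg_left h0 (mass_nonneg hM _)).trans (sus_off hM hl hS hPi hQ hP hR hj hov i k hik))
  rw [sum_ov hM ht1.le hS.h12 (by linarith)] at key
  have e : M.intg M.W t1 t2 = fun ω => ∑ j ∈ Finset.range (M.L + 1), M.ov j t1 t2 * M.W j ω := by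
    funext ω; rfl
  rw [e]
  refine key.trans ?_
  have hprod : 4 * (2 * t2) * cmN M.P (2 * (2 * l)) (M.Zs N) ^ 2
      * cmN M.P (2 * l) (fun ω => ∑ j ∈ Finset.range (M.L + 1), M.ov j t1 t2 *
        M.cE j (fun ω' => ‖M.X (M.cut j Γ η (max (M.mass j) t1) 1) ω' - M.X j ω'‖ ^ 2) ω)
      ≤ 4 * (2 * t2) * (12 * Q ^ 2 * t2) * (12 * l ^ 2 * η * Q ^ 2 * t2) :=
    mul_le_mul (mul_le_mul_of_nonneg_left w2 (by positivity)) w3 (cmN_nonneg _ _ _) (by positivity)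
  have hle : 4 * (2 * t2) * (12 * Q ^ 2 * t2) * (12 * l ^ 2 * η * Q ^ 2 * t2) ≤ 1200 * l ^ 2 * η * Q ^ 4 * t2 ^ 3 := by
    have : 0 ≤ (l:ℝ) ^ 2 * η * Q ^ 4 * t2 ^ 3 := by positivity
    nlinarith
  have hK0 : (0:ℝ) ≤ ((K + 1 : ℕ) : ℝ) := by positivity
  calc _ ≤ ((K + 1 : ℕ) : ℝ) * (1200 * l ^ 2 * η * Q ^ 4 * t2 ^ 3 + (t2 - t1) * ((K + 1 : ℕ) : ℝ) ^ 2 * (100 * Γ ^ 4 * Pi ^ 2 * Q ^ 2 / (n * D))) :=
        mul_le_mul_of_nonneg_left (add_le_add (hprod.trans hle) le_rfl) hK0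
    _ = _ := by push_cast; ring

end CmPath

/-- the contract `cm5_sus` of Cmp/P5Ctr.lean -/
theorem cm5_sus_pf (l : ℕ) (hl : 1 ≤ l) (Γ : ℝ) : ∃ C : ℝ, 0 < C ∧
    ∀ (n : ℕ) (Ω : Type) [MeasurableSpace Ω] (M : CmPath n Ω) (x0 um ηm : ℝ) (th sg : ℝ → ℝ) (Pi Q x : ℝ) (K : ℕ),
      M.Ok → Cm5Clk M x0 um Γ ηm th sg → M.Proj (2 * l) Pi → 1 ≤ Pi → 1 ≤ Q → 0 < x → x ≤ x0 → M.Raw (4 * l) Q x →
      1 ≤ Γ ^ K * x0 →
      ∀ u G t1 t2 : ℝ, x0 ≤ u → u ≤ um → 1 ≤ G → G ^ 2 ≤ n * sg u * u ^ 4 → ηm ≤ u / G → u ≤ t1 → t1 ≤ t2 → t2 ≤ 2 * u →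
        cmN M.P l (M.intg M.W t1 t2) ≤ C * (K + 1) ^ 3 * Pi ^ 2 * Q ^ 4 * u ^ 4 / G := by
  refine ⟨100 * Γ ^ 4 + 9600 * l ^ 2, by positivity, ?_⟩
  intro n Ω _ M x0 um ηm th sg Pi Q x K hM hC hP hPi hQ hx hxx hR hK u G t1 t2 hu hum hG hG2 hηm hut h12 ht2
  have hΓ := hC.hΓ
  have hx0 := hC.hx0
  have hu0 : 0 < u := lt_of_lt_of_le hx0 hu
  have hG0 : 0 < G := by linarith
  have hsg := hC.sg_pos u hu hum
  have hηu : u / G ≤ u := div_le_self hu0.le hG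
  have hum1 : 8 * Γ * um ≤ 1 := by
    have h1 := hC.hum
    have h2 : 0 < um := lt_of_lt_of_le hu0 hum
    nlinarith [mul_pos h2 (by linarith : (0:ℝ) < Γ)]
  have hS : M.SusH Γ (u / G) (sg u * (u / G)) x t1 t2 := by
    refine ⟨hΓ, by positivity, hηu.trans hut, by positivity, hx, (hxx.trans hu).trans hut, h12, ?_, ?_, ?_⟩
    · nlinarith
    · intro t g1 g2
      exact hC.sh u hu hum t (u / G) (hut.trans g1) hηm (by linarith)
    · intro w g1 g2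
      have hw : u ≤ w := by linarith
      calc sg u * (u / G) ≤ sg u * u := mul_le_mul_of_nonneg_left hηu hsg.le
        _ ≤ th u := hC.sg_th u hu hum
        _ ≤ th w := hC.th_mono u w hu hw g2
        _ ≤ _ := hC.dy w (hu.trans hw) g2
  have hK1 : 1 ≤ K := by
    by_contra h
    have : K = 0 := by omega
    subst this
    have h2 : 0 < um := lt_of_lt_of_le hu0 hum
    nlinarith [hC.hxu]
  have hK' : 1 ≤ Γ ^ K * t1 := hK.trans (mul_le_mul_of_nonneg_left (hu.trans hut) (by positivity))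
  refine (CmPath.sus_abs hM hl hS hPi hQ hP hR hK1 hK').trans ?_
  -- arithmetic
  have hn : 0 < (n:ℝ) * sg u * u ^ 4 := lt_of_lt_of_le (by positivity) hG2
  have hn0 : 0 < (n:ℝ) := by
    rcases Nat.eq_zero_or_pos n with h | h
    · subst h; simp at hn
    · exact_mod_cast h
  have hnD : G / u ^ 3 ≤ n * (sg u * (u / G)) := by
    rw [div_le_iff₀ (by positivity)]
    have : n * (sg u * (u / G)) * u ^ 3 = (n * sg u * u ^ 4) / G := by field_simp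
    rw [this, le_div_iff₀ hG0]
    nlinarith
  have hK0 : (1:ℝ) ≤ (K:ℝ) + 1 := by
    have : (0:ℝ) ≤ K := by positivity
    linarith
  have hQ2 : Q ^ 2 ≤ Q ^ 4 := pow_le_pow_right₀ hQ (by norm_num)
  have hPi2 : 1 ≤ Pi ^ 2 := one_le_pow₀ hPi
  have hB : 0 < u ^ 4 / G := by positivity
  have t1' : ((K : ℝ) + 1) ^ 3 * (100 * Γ ^ 4 * Pi ^ 2 * Q ^ 2 / (n * (sg u * (u / G)))) * (t2 - t1)
      ≤ 100 * Γ ^ 4 * ((K : ℝ) + 1) ^ 3 * Pi ^ 2 * Q ^ 4 * (u ^ 4 / G) := by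
    have a1 : 100 * Γ ^ 4 * Pi ^ 2 * Q ^ 2 / (n * (sg u * (u / G))) ≤ 100 * Γ ^ 4 * Pi ^ 2 * Q ^ 2 / (G / u ^ 3) :=
      div_le_div_of_nonneg_left (by positivity) (by positivity) hnD
    have a2 : 100 * Γ ^ 4 * Pi ^ 2 * Q ^ 2 / (G / u ^ 3) = 100 * Γ ^ 4 * Pi ^ 2 * Q ^ 2 * (u ^ 3 / G) := by field_simp
    have a3 : t2 - t1 ≤ u := by linarith
    have a4 : 0 ≤ t2 - t1 := by linarith
    calc _ ≤ ((K : ℝ) + 1) ^ 3 * (100 * Γ ^ 4 * Pi ^ 2 * Q ^ 2 * (u ^ 3 / G)) * u :=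
          mul_le_mul (mul_le_mul_of_nonneg_left (a1.trans a2.le) (by positivity)) a3 a4 (by positivity)
      _ = 100 * Γ ^ 4 * ((K : ℝ) + 1) ^ 3 * Pi ^ 2 * Q ^ 2 * (u ^ 4 / G) := by ring
      _ ≤ _ := by
          refine mul_le_mul_of_nonneg_right (mul_le_mul_of_nonneg_left hQ2 (by positivity)) hB.le
  have t2' : ((K : ℝ) + 1) * (1200 * l ^ 2 * (u / G) * Q ^ 4 * t2 ^ 3)
      ≤ 9600 * l ^ 2 * ((K : ℝ) + 1) ^ 3 * Pi ^ 2 * Q ^ 4 * (u ^ 4 / G) := by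
    have ht20 : 0 < t2 := by linarith
    have a1 : t2 ^ 3 ≤ (2 * u) ^ 3 := pow_le_pow_left₀ ht20.le ht2 3
    have a2 : (K : ℝ) + 1 ≤ ((K : ℝ) + 1) ^ 3 := le_self_pow₀ hK0 (by norm_num)
    calc _ ≤ ((K : ℝ) + 1) ^ 3 * (1200 * l ^ 2 * (u / G) * Q ^ 4 * (2 * u) ^ 3) :=
          mul_le_mul a2 (mul_le_mul_of_nonneg_left a1 (by positivity)) (by positivity) (by positivity)
      _ = 9600 * l ^ 2 * ((K : ℝ) + 1) ^ 3 * 1 * Q ^ 4 * (u ^ 4 / G) := by ring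
      _ ≤ _ := by
          refine mul_le_mul_of_nonneg_right (mul_le_mul_of_nonneg_right (mul_le_mul_of_nonneg_left hPi2 (by positivity)) (by positivity)) hB.le
  calc _ ≤ 100 * Γ ^ 4 * ((K : ℝ) + 1) ^ 3 * Pi ^ 2 * Q ^ 4 * (u ^ 4 / G) + 9600 * l ^ 2 * ((K : ℝ) + 1) ^ 3 * Pi ^ 2 * Q ^ 4 * (u ^ 4 / G) :=
        add_le_add t1' t2'
    _ = _ := by ring

/-! ### Tools of the bootstrap (helper247): window averages of `L`, their concentration (`win_conc`), one step (`raw_win`) -/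

namespace CmPath
variable {M : CmPath n Ω}

theorem Lf_meas (hM : M.Ok) (j : ℕ) : Measurable (M.Lf j) := by
  unfold Lf y
  exact ((hM.meas _).inner (hM.meas _)).sub (((hM.meas _).norm.pow_const 2).div_const 2)

theorem Lf_bound (hM : M.Ok) (j : ℕ) (ω : Ω) : |M.Lf j ω| ≤ 2 := by
  unfold Lf y
  have h1 : |inner ℝ (M.X (M.L + 1) ω) (M.X j ω)| ≤ 1 := by
    calc |inner ℝ (M.X (M.L + 1) ω) (M.X j ω)| ≤ ‖M.X (M.L + 1) ω‖ * ‖M.X j ω‖ := abs_real_inner_le_norm _ _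
      _ ≤ 1 * 1 := mul_le_mul (hM.norm_le _ _) (hM.norm_le _ _) (norm_nonneg _) zero_le_one
      _ = 1 := one_mul 1
  have h2 : ‖M.X j ω‖ ^ 2 ≤ 1 := pow_le_one₀ (norm_nonneg _) (hM.norm_le _ _)
  have h3 : 0 ≤ ‖M.X j ω‖ ^ 2 := by positivity
  rw [abs_le] at h1 ⊢
  constructor <;> linarith [h1.1, h1.2]

/-- the weights of a window average -/
noncomputable def wk (M : CmPath n Ω) (t1 t2 : ℝ) (i : ℕ) : ℝ :=
  if M.mass (i + 1) - M.mass i = 0 then 0 else M.ov i t1 t2 / ((M.mass (i + 1) - M.mass i) * (t2 - t1))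

theorem wk_mul (hM : M.Ok) (t1 t2 : ℝ) (i : ℕ) :
    (M.mass (i + 1) - M.mass i) * M.wk t1 t2 i = M.ov i t1 t2 / (t2 - t1) := by
  unfold wk
  by_cases h : M.mass (i + 1) - M.mass i = 0
  · have h1 := ov_le hM i t1 t2
    have h2 := ov_nonneg M i t1 t2
    have : M.ov i t1 t2 = 0 := le_antisymm (h ▸ h1) h2
    simp [h, this]
  · simp only [h, if_false]
    field_simp

theorem wk_sq_le (hM : M.Ok) {t1 t2 : ℝ} (h12 : t1 < t2) (i : ℕ) :
    (M.mass (i + 1) - M.mass i) * M.wk t1 t2 i ^ 2 ≤ M.ov i t1 t2 / (t2 - t1) ^ 2 := by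
  have hw : 0 ≤ M.mass (i + 1) - M.mass i := sub_nonneg.2 (hM.mass_mono (Nat.le_succ i))
  have h1 := ov_le hM i t1 t2
  have h2 := ov_nonneg M i t1 t2
  have hd : 0 < t2 - t1 := sub_pos.2 h12
  by_cases h : M.mass (i + 1) - M.mass i = 0
  · unfold wk; simp only [h, if_true]; simp; positivity
  · have hw' : 0 < M.mass (i + 1) - M.mass i := lt_of_le_of_ne hw (Ne.symm h)
    unfold wk; simp only [h, if_false]
    rw [div_pow, mul_pow, mul_div_assoc', div_le_div_iff₀ (by positivity) (by positivity)]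
    have : M.ov i t1 t2 ^ 2 ≤ M.ov i t1 t2 * (M.mass (i + 1) - M.mass i) := by nlinarith
    calc (M.mass (i + 1) - M.mass i) * M.ov i t1 t2 ^ 2 * (t2 - t1) ^ 2
        ≤ (M.mass (i + 1) - M.mass i) * (M.ov i t1 t2 * (M.mass (i + 1) - M.mass i)) * (t2 - t1) ^ 2 := by gcongr
      _ = M.ov i t1 t2 * ((M.mass (i + 1) - M.mass i) ^ 2 * (t2 - t1) ^ 2) := by ring

/-- centred window average of `L` -/
noncomputable def cav (M : CmPath n Ω) (t1 t2 : ℝ) (ω : Ω) : ℝ :=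
  ∑ i ∈ Finset.range (M.L + 1), M.ov i t1 t2 / (t2 - t1) * (M.Lf i ω - M.S i / 2)

theorem intgW_meas (hM : M.Ok) (t1 t2 : ℝ) : Measurable (M.intg M.W t1 t2) := by
  unfold intg
  exact Finset.measurable_fun_sum _ fun i _ => (W_meas hM i).const_mul _

theorem intgW_nonneg (hM : M.Ok) (t1 t2 : ℝ) (ω : Ω) : 0 ≤ M.intg M.W t1 t2 ω :=
  Finset.sum_nonneg fun i _ => mul_nonneg (ov_nonneg M i t1 t2) (W_nonneg hM i ω)

theorem intgW_le (hM : M.Ok) (t1 t2 : ℝ) (ω : Ω) : M.intg M.W t1 t2 ω ≤ 16 * (M.L + 1) := by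
  unfold intg
  calc ∑ i ∈ Finset.range (M.L + 1), M.ov i t1 t2 * M.W i ω ≤ ∑ i ∈ Finset.range (M.L + 1), (16 : ℝ) := by
        refine Finset.sum_le_sum fun i hi => ?_
        have hi' : i ≤ M.L := Nat.lt_succ_iff.mp (Finset.mem_range.mp hi)
        have h1 : M.ov i t1 t2 ≤ 1 := by
          have := ov_le hM i t1 t2
          have h2 := (mass_mem hM (Nat.succ_le_succ hi')).2
          have h3 := (mass_mem hM (Nat.le_succ_of_le hi')).1
          linarith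
        calc M.ov i t1 t2 * M.W i ω ≤ 1 * 16 := mul_le_mul h1 (W_le hM hi' ω) (W_nonneg hM i ω) zero_le_one
          _ = 16 := one_mul _
    _ = 16 * (M.L + 1) := by simp; ring

theorem intgW_bm (hM : M.Ok) (t1 t2 : ℝ) : CmBM M.P (M.intg M.W t1 t2) :=
  ⟨(intgW_meas hM t1 t2).aestronglyMeasurable, 16 * (M.L + 1), fun ω => by
    rw [Real.norm_eq_abs, abs_of_nonneg (intgW_nonneg hM t1 t2 ω)]; exact intgW_le hM t1 t2 ω⟩

theorem cav_meas (hM : M.Ok) (t1 t2 : ℝ) : Measurable (M.cav t1 t2) := by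
  unfold cav
  exact Finset.measurable_fun_sum _ fun i _ => ((Lf_meas hM i).sub_const _).const_mul _

theorem S_le_one (hM : M.Ok) (j : ℕ) : M.S j ≤ 1 := by
  have := hM.prob
  unfold S
  calc ∫ ω, ‖M.X j ω‖ ^ 2 ∂M.P ≤ ∫ _ω, (1 : ℝ) ∂M.P := by
        refine integral_mono_of_nonneg (Filter.Eventually.of_forall fun ω => by positivity) (integrable_const _)
          (Filter.Eventually.of_forall fun ω => pow_le_one₀ (norm_nonneg _) (hM.norm_le _ _))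
    _ = 1 := by simp

theorem cav_bound (hM : M.Ok) {t1 t2 : ℝ} (h12 : t1 < t2) (ω : Ω) : |M.cav t1 t2 ω| ≤ 3 * (M.L + 1) / (t2 - t1) := by
  have hd : 0 < t2 - t1 := sub_pos.2 h12
  unfold cav
  calc |∑ i ∈ Finset.range (M.L + 1), M.ov i t1 t2 / (t2 - t1) * (M.Lf i ω - M.S i / 2)|
      ≤ ∑ i ∈ Finset.range (M.L + 1), |M.ov i t1 t2 / (t2 - t1) * (M.Lf i ω - M.S i / 2)| := Finset.abs_sum_le_sum_abs _ _
    _ ≤ ∑ i ∈ Finset.range (M.L + 1), 3 / (t2 - t1) := by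
        refine Finset.sum_le_sum fun i hi => ?_
        have hi' : i ≤ M.L := Nat.lt_succ_iff.mp (Finset.mem_range.mp hi)
        have h1 : M.ov i t1 t2 ≤ 1 := by
          have := ov_le hM i t1 t2
          have h2 := (mass_mem hM (Nat.succ_le_succ hi')).2
          have h3 := (mass_mem hM (Nat.le_succ_of_le hi')).1
          linarith
        have h0 := ov_nonneg M i t1 t2
        have h4 : |M.Lf i ω - M.S i / 2| ≤ 3 := by
          have a := Lf_bound hM i ω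
          have b := S_le_one hM i
          have c := S_nonneg M i
          rw [abs_le] at a ⊢
          constructor <;> linarith [a.1, a.2]
        rw [abs_mul, abs_of_nonneg (div_nonneg h0 hd.le), div_mul_eq_mul_div]
        exact div_le_div_of_nonneg_right (by nlinarith [abs_nonneg (M.Lf i ω - M.S i / 2)]) hd.le
    _ = 3 * (M.L + 1) / (t2 - t1) := by simp; ring

/-- **concentration of a window average** : PE (1) line 3 with `k = 1_J/|J|` -/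
theorem win_conc (hM : M.Ok) {l : ℕ} (hl : 1 ≤ l) {c : ℝ} (hc : 0 ≤ c) (hPin : M.Pin l c) {t1 t2 : ℝ} (h12 : t1 < t2) {Wb : ℝ}
    (hWb : cmN M.P l (M.intg M.W t1 t2) ≤ Wb) : cmN M.P (2 * l) (M.cav t1 t2) ≤ Real.sqrt (c * Wb) / (t2 - t1) := by
  have := hM.prob
  have hd : 0 < t2 - t1 := sub_pos.2 h12
  have hWb0 : 0 ≤ Wb := (cmN_nonneg _ _ _).trans hWb
  have hpin := hPin (M.wk t1 t2)
  have e1 : ∀ ω, (∑ i ∈ Finset.range (M.L + 1), (M.mass (i + 1) - M.mass i) * M.wk t1 t2 i * (M.Lf i ω - ∫ ω', M.Lf i ω' ∂M.P))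
      = M.cav t1 t2 ω := by
    intro ω
    unfold cav
    refine Finset.sum_congr rfl fun i hi => ?_
    have hi' : i ≤ M.L := Nat.lt_succ_iff.mp (Finset.mem_range.mp hi)
    rw [wk_mul hM, int_Lf hM hi']
  simp only [e1] at hpin
  have hJ0 : ∀ ω, 0 ≤ ∑ i ∈ Finset.range (M.L + 1), (M.mass (i + 1) - M.mass i) * M.wk t1 t2 i ^ 2 * M.W i ω := fun ω =>
    Finset.sum_nonneg fun i _ => mul_nonneg (mul_nonneg (sub_nonneg.2 (hM.mass_mono (Nat.le_succ i))) (sq_nonneg _)) (W_nonneg hM i ω)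
  have hJ : ∀ ω, ∑ i ∈ Finset.range (M.L + 1), (M.mass (i + 1) - M.mass i) * M.wk t1 t2 i ^ 2 * M.W i ω
      ≤ M.intg M.W t1 t2 ω / (t2 - t1) ^ 2 := by
    intro ω
    unfold intg
    rw [Finset.sum_div]
    refine Finset.sum_le_sum fun i _ => ?_
    calc (M.mass (i + 1) - M.mass i) * M.wk t1 t2 i ^ 2 * M.W i ω ≤ M.ov i t1 t2 / (t2 - t1) ^ 2 * M.W i ω :=
          mul_le_mul_of_nonneg_right (wk_sq_le hM h12 i) (W_nonneg hM i ω)
      _ = M.ov i t1 t2 * M.W i ω / (t2 - t1) ^ 2 := by ring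
  have hbm := intgW_bm hM t1 t2
  have hI : ∫ ω, (∑ i ∈ Finset.range (M.L + 1), (M.mass (i + 1) - M.mass i) * M.wk t1 t2 i ^ 2 * M.W i ω) ^ l ∂M.P
      ≤ (Wb / (t2 - t1) ^ 2) ^ l := by
    calc ∫ ω, (∑ i ∈ Finset.range (M.L + 1), (M.mass (i + 1) - M.mass i) * M.wk t1 t2 i ^ 2 * M.W i ω) ^ l ∂M.P
        ≤ ∫ ω, (M.intg M.W t1 t2 ω / (t2 - t1) ^ 2) ^ l ∂M.P := by
          refine integral_mono_of_nonneg (Filter.Eventually.of_forall fun ω => pow_nonneg (hJ0 ω) l) ?_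
            (Filter.Eventually.of_forall fun ω => pow_le_pow_left₀ (hJ0 ω) (hJ ω) l)
          refine Integrable.of_bound (((intgW_meas hM t1 t2).div_const _).pow_const l).aestronglyMeasurable
            ((16 * (M.L + 1) / (t2 - t1) ^ 2) ^ l) (Filter.Eventually.of_forall fun ω => ?_)
          have h0 : 0 ≤ M.intg M.W t1 t2 ω / (t2 - t1) ^ 2 := div_nonneg (intgW_nonneg hM t1 t2 ω) (by positivity)
          rw [Real.norm_eq_abs, abs_of_nonneg (pow_nonneg h0 l)]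
          exact pow_le_pow_left₀ h0 (div_le_div_of_nonneg_right (intgW_le hM t1 t2 ω) (by positivity)) l
      _ = (∫ ω, ‖M.intg M.W t1 t2 ω‖ ^ l ∂M.P) / ((t2 - t1) ^ 2) ^ l := by
          rw [← integral_div]
          refine integral_congr_ae (Filter.Eventually.of_forall fun ω => ?_)
          simp only [Real.norm_eq_abs, abs_of_nonneg (intgW_nonneg hM t1 t2 ω), div_pow]
      _ = cmN M.P l (M.intg M.W t1 t2) ^ l / ((t2 - t1) ^ 2) ^ l := by rw [cmN_pow_eq hbm l hl]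
      _ ≤ Wb ^ l / ((t2 - t1) ^ 2) ^ l :=
          div_le_div_of_nonneg_right (pow_le_pow_left₀ (cmN_nonneg _ _ _) hWb l) (by positivity)
      _ = (Wb / (t2 - t1) ^ 2) ^ l := by rw [div_pow]
  refine cmN_le_of_int_le ⟨(cav_meas hM t1 t2).aestronglyMeasurable, _, fun ω => by
    rw [Real.norm_eq_abs]; exact cav_bound hM h12 ω⟩ (2 * l) (by omega) _ (by positivity) ?_
  calc ∫ ω, ‖M.cav t1 t2 ω‖ ^ (2 * l) ∂M.P = ∫ ω, M.cav t1 t2 ω ^ (2 * l) ∂M.P := by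
        refine integral_congr_ae (Filter.Eventually.of_forall fun ω => ?_)
        simp only [Real.norm_eq_abs]
        rw [pow_mul, pow_mul, sq_abs]
    _ ≤ c ^ l * (Wb / (t2 - t1) ^ 2) ^ l := hpin.trans (mul_le_mul_of_nonneg_left hI (pow_nonneg hc l))
    _ = (Real.sqrt (c * Wb) / (t2 - t1)) ^ (2 * l) := by
        have e2 : (Real.sqrt (c * Wb) / (t2 - t1)) ^ 2 = c * (Wb / (t2 - t1) ^ 2) := by
          rw [div_pow, Real.sq_sqrt (mul_nonneg hc hWb0)]; ring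
        rw [pow_mul, e2, mul_pow]

theorem cE_cav (hM : M.Ok) (j : ℕ) (t1 t2 : ℝ) (ω : Ω) :
    M.cE j (M.cav t1 t2) ω = ∑ i ∈ Finset.range (M.L + 1), M.ov i t1 t2 / (t2 - t1) * (M.cE j (M.Lf i) ω - M.S i / 2) := by
  have := hM.markov j
  unfold cE cav
  rw [integral_finsetSum]
  · refine Finset.sum_congr rfl fun i _ => ?_
    rw [integral_const_mul, integral_sub (cm5k_intK hM j ω (Lf_meas hM i) (Lf_bound hM i)) (integrable_const _)]
    simp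
  · intro i _
    exact ((cm5k_intK hM j ω (Lf_meas hM i) (Lf_bound hM i)).sub (integrable_const _)).const_mul _

/-- the submartingale lower bound averaged over a later window -/
theorem X_sq_le_cav (hM : M.Ok) {j : ℕ} (hj : j ≤ M.L) {t1 t2 : ℝ} (hj1 : M.mass j ≤ t1) (h12 : t1 < t2) (h2 : t2 ≤ 1) (ω : Ω) :
    ‖M.X j ω‖ ^ 2 ≤ 2 * M.cE j (M.cav t1 t2) ω + M.S (M.nd t2) := by
  have hd : 0 < t2 - t1 := sub_pos.2 h12
  have h1 : 0 ≤ t1 := (mass_mem hM (Nat.le_succ_of_le hj)).1.trans hj1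
  have hs : ∑ i ∈ Finset.range (M.L + 1), M.ov i t1 t2 / (t2 - t1) = 1 := by
    rw [← Finset.sum_div, sum_ov hM h1 h12.le h2, div_self hd.ne']
  rw [cE_cav hM]
  have key : ∑ i ∈ Finset.range (M.L + 1), M.ov i t1 t2 / (t2 - t1) * (‖M.X j ω‖ ^ 2 - M.S (M.nd t2))
      ≤ ∑ i ∈ Finset.range (M.L + 1), M.ov i t1 t2 / (t2 - t1) * (2 * (M.cE j (M.Lf i) ω - M.S i / 2)) := by
    refine Finset.sum_le_sum fun i hi => ?_
    have hi' : i ≤ M.L := Nat.lt_succ_iff.mp (Finset.mem_range.mp hi)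
    rcases (ov_nonneg M i t1 t2).eq_or_lt with h0 | h0
    · rw [← h0]; simp
    · have h3 := (ov_pos_iff M i t1 t2).1 h0
      have h4 : M.mass j < M.mass (i + 1) :=
        lt_of_le_of_lt (hj1.trans (le_max_right _ _)) (lt_of_lt_of_le h3 (min_le_left _ _))
      have hji : j ≤ i := by
        by_contra hcon
        exact absurd (hM.mass_mono (by omega : i + 1 ≤ j)) (not_le.2 h4)
      have h5 : M.mass i ≤ t2 := ((le_max_left _ _).trans_lt (lt_of_lt_of_le h3 (min_le_right _ _))).le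
      have h6 : M.S i ≤ M.S (M.nd t2) := S_mono hM (le_nd hM hi' h5) (Nat.le_succ_of_le (nd_le M t2))
      have h7 := cE_Lf_ge hM hji hi' ω
      exact mul_le_mul_of_nonneg_left (by linarith) (div_nonneg h0.le hd.le)
  rw [← Finset.sum_mul, hs, one_mul] at key
  have e : ∑ i ∈ Finset.range (M.L + 1), M.ov i t1 t2 / (t2 - t1) * (2 * (M.cE j (M.Lf i) ω - M.S i / 2))
      = 2 * ∑ i ∈ Finset.range (M.L + 1), M.ov i t1 t2 / (t2 - t1) * (M.cE j (M.Lf i) ω - M.S i / 2) := by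
    rw [Finset.mul_sum]; exact Finset.sum_congr rfl fun i _ => by ring
  rw [e] at key
  linarith

theorem X_bm (hM : M.Ok) (j : ℕ) : CmBM M.P (M.X j) :=
  ⟨(hM.meas j).aestronglyMeasurable, 1, fun ω => hM.norm_le j ω⟩

/-- one step of the bootstrap of PE Prop 3.4 -/
theorem raw_win (hM : M.Ok) {l : ℕ} (hl : 1 ≤ l) {c : ℝ} (hc : 0 ≤ c) (hPin : M.Pin l c) {j : ℕ} (hj : j ≤ M.L) {t1 t2 : ℝ}
    (hj1 : M.mass j ≤ t1) (h12 : t1 < t2) (h2 : t2 ≤ 1) {Wb : ℝ} (hWb : cmN M.P l (M.intg M.W t1 t2) ≤ Wb) :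
    cmN M.P (4 * l) (M.X j) ^ 2 ≤ 2 * (Real.sqrt (c * Wb) / (t2 - t1)) + M.S (M.nd t2) := by
  have := hM.prob
  have hcb : ∀ ω, |M.cav t1 t2 ω| ≤ 3 * (M.L + 1) / (t2 - t1) := cav_bound hM h12
  have hbm1 : CmBM M.P (fun ω => 2 * M.cE j (M.cav t1 t2) ω) :=
    ⟨((cE_meas hM j (cav_meas hM t1 t2)).const_mul 2).aestronglyMeasurable, 2 * (3 * (M.L + 1) / (t2 - t1)), fun ω => by
      rw [Real.norm_eq_abs, abs_mul, abs_of_nonneg (by norm_num : (0:ℝ) ≤ 2)]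
      exact mul_le_mul_of_nonneg_left (cE_bound hM j hcb ω) (by norm_num)⟩
  have hbm2 : CmBM M.P (fun _ : Ω => M.S (M.nd t2)) :=
    ⟨aestronglyMeasurable_const, |M.S (M.nd t2)|, fun ω => by rw [Real.norm_eq_abs]⟩
  have hbm3 : CmBM M.P (fun ω => 2 * M.cE j (M.cav t1 t2) ω + M.S (M.nd t2)) := by
    obtain ⟨m1, C1, b1⟩ := hbm1
    obtain ⟨m2, C2, b2⟩ := hbm2
    exact ⟨m1.add m2, C1 + C2, fun ω => (norm_add_le _ _).trans (add_le_add (b1 ω) (b2 ω))⟩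
  have e4 : 4 * l = 2 * (2 * l) := by ring
  calc cmN M.P (4 * l) (M.X j) ^ 2 = cmN M.P (2 * l) (fun ω => ‖M.X j ω‖ ^ 2) := by
        rw [e4, cmN_sq (X_bm hM j) (2 * l) (by omega)]
    _ ≤ cmN M.P (2 * l) (fun ω => 2 * M.cE j (M.cav t1 t2) ω + M.S (M.nd t2)) := by
        refine cmN_mono hbm3 _ (Filter.Eventually.of_forall fun ω => ?_)
        have h := X_sq_le_cav hM hj hj1 h12 h2 ω
        have h0 : 0 ≤ ‖M.X j ω‖ ^ 2 := by positivity
        rw [Real.norm_eq_abs, Real.norm_eq_abs, abs_of_nonneg h0, abs_of_nonneg (h0.trans h)]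
        exact h
    _ ≤ cmN M.P (2 * l) (fun ω => 2 * M.cE j (M.cav t1 t2) ω) + cmN M.P (2 * l) (fun _ : Ω => M.S (M.nd t2)) :=
        cmN_add_le hbm1 hbm2 _ (by omega)
    _ = 2 * cmN M.P (2 * l) (M.cE j (M.cav t1 t2)) + M.S (M.nd t2) := by
        rw [cmN_const_mul, cmN_const _ _ (by omega), abs_of_nonneg (S_nonneg M _), abs_of_nonneg (by norm_num : (0:ℝ) ≤ 2)]
    _ ≤ 2 * (Real.sqrt (c * Wb) / (t2 - t1)) + M.S (M.nd t2) := by
        have h1 := cmN_cE_le hM j (cav_meas hM t1 t2) hcb (2 * l) (by omega)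
        have h2' := win_conc hM hl hc hPin h12 hWb
        linarith

end CmPath

open CmPath in
/-- PE Prop 3.4, first half: the bootstrap.   TEX[PE:comp:raw-moments] -/
theorem cm5_raw_pf (l : ℕ) (hl : 1 ≤ l) (Γ C0 CS c cu : ℝ) (hC0 : 1 ≤ C0) (hCS : 0 < CS) (hc : 0 < c) (hcu : 0 < cu) :
    ∃ ε Cq : ℝ, 0 < ε ∧ 1 ≤ Cq ∧
    ∀ (n : ℕ) (Ω : Type) [MeasurableSpace Ω] (M : CmPath n Ω) (x0 um ηm : ℝ) (th sg : ℝ → ℝ) (Pi x : ℝ) (K : ℕ),
      M.Ok → Cm5Clk M x0 um Γ ηm th sg → M.Proj (2 * l) Pi → M.Pin l c → 1 ≤ Pi → 0 < x → x ≤ x0 → x0 ≤ C0 * x → cu ≤ um →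
      1 ≤ Γ ^ K * x0 →
      (∀ t, x0 ≤ t → t ≤ 1 → M.S (M.nd t) ≤ CS * t) →
      (∀ u, x0 ≤ u → u ≤ um → ∃ G : ℝ, 1 ≤ G ∧ G ^ 2 ≤ n * sg u * u ^ 4 ∧ ηm ≤ u / G ∧ ((K : ℝ) + 1) ^ 3 * Pi ^ 2 ≤ ε * G) →
      M.Raw (4 * l) Cq x := by
  obtain ⟨C, hC, hsus⟩ := cm5_sus_pf l hl Γ
  have hC00 : 0 < C0 := by linarith
  refine ⟨1 / (16 * C0 ^ 2 * c * C), Real.sqrt (1 + 1 / cu + 4 * C0 * CS), by positivity, ?_, ?_⟩
  · rw [Real.one_le_sqrt]
    have h1 : 0 < 1 / cu := by positivity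
    have h2 : 0 < 4 * C0 * CS := by positivity
    linarith
  intro n Ω _ M x0 um ηm th sg Pi x K hM hClk hProj hPin hPi hx hxx0 hx0 hcuum hK hS hG
  have := hM.prob
  have hpos : ∀ j, j ≤ M.L + 1 → 0 < x + M.mass j := fun j hj => by linarith [(mass_mem hM hj).1]
  obtain ⟨js, hjs, hmax⟩ := Finset.exists_max_image (Finset.range (M.L + 2))
    (fun j => cmN M.P (4 * l) (M.X j) ^ 2 / (x + M.mass j)) ⟨0, by simp⟩
  have hjs' : js ≤ M.L + 1 := by have := Finset.mem_range.1 hjs; omega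
  obtain ⟨Q2, hQ2⟩ : ∃ Q2 : ℝ, Q2 = max 1 (cmN M.P (4 * l) (M.X js) ^ 2 / (x + M.mass js)) := ⟨_, rfl⟩
  have hQ21 : 1 ≤ Q2 := hQ2 ▸ le_max_left _ _
  have hQ20 : 0 ≤ Q2 := by linarith
  have hRawQ : M.Raw (4 * l) (Real.sqrt Q2) x := by
    intro j hj
    have h1 : cmN M.P (4 * l) (M.X j) ^ 2 / (x + M.mass j) ≤ Q2 :=
      (hmax j (Finset.mem_range.2 (by omega))).trans (hQ2 ▸ le_max_right _ _)
    have h2 : cmN M.P (4 * l) (M.X j) ^ 2 ≤ Q2 * (x + M.mass j) := (div_le_iff₀ (hpos j hj)).1 h1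
    rw [← Real.sqrt_mul hQ20]
    exact Real.le_sqrt_of_sq_le h2
  have hkey : cmN M.P (4 * l) (M.X js) ^ 2 / (x + M.mass js) ≤ max (1 / cu) (Q2 / 2 + 2 * C0 * CS) := by
    have hum32 : um ≤ 1 / 32 := by
      have h1 := hClk.hum
      have h2 := hClk.hΓ
      have h3 : 0 < um := lt_of_lt_of_le hClk.hx0 hClk.hxu
      nlinarith [mul_le_mul h2 h2 (by norm_num) (by linarith : (0:ℝ) ≤ Γ)]
    rcases lt_or_ge um (M.mass js) with hcase | hcase
    · refine le_trans ?_ (le_max_left _ _)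
      have hA1 : cmN M.P (4 * l) (M.X js) ≤ 1 := by
        refine cmN_le_of_int_le (X_bm hM js) (4 * l) (by omega) 1 zero_le_one ?_
        calc ∫ a, ‖M.X js a‖ ^ (4 * l) ∂M.P ≤ ∫ _a, (1 : ℝ) ∂M.P := by
              refine integral_mono_of_nonneg (Filter.Eventually.of_forall fun ω => by positivity) (integrable_const _)
                (Filter.Eventually.of_forall fun ω => pow_le_one₀ (norm_nonneg _) (hM.norm_le _ _))
          _ = 1 ^ (4 * l) := by simp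
      have hA2 : cmN M.P (4 * l) (M.X js) ^ 2 ≤ 1 := pow_le_one₀ (cmN_nonneg _ _ _) hA1
      exact div_le_div₀ zero_le_one hA2 hcu (by linarith)
    · refine le_trans ?_ (le_max_right _ _)
      have hjL : js ≤ M.L := by
        by_contra hcon
        have : js = M.L + 1 := by omega
        rw [this, hM.mass_top] at hcase
        linarith
      obtain ⟨u, hu⟩ : ∃ u : ℝ, u = max (M.mass js) x0 := ⟨_, rfl⟩
      have hx0u : x0 ≤ u := hu ▸ le_max_right _ _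
      have hju : M.mass js ≤ u := hu ▸ le_max_left _ _
      have huum : u ≤ um := hu ▸ max_le hcase hClk.hxu
      have hu0 : 0 < u := lt_of_lt_of_le hClk.hx0 hx0u
      have huC : u ≤ C0 * (x + M.mass js) := by
        have hm0 := (mass_mem hM hjs').1
        rw [hu]
        refine max_le ?_ ?_
        · nlinarith
        · nlinarith
      obtain ⟨G, hG1, hG2, hG3, hG4⟩ := hG u hx0u huum
      have hG0 : 0 < G := by linarith
      have hW := hsus n Ω M x0 um ηm th sg Pi (Real.sqrt Q2) x K hM hClk hProj hPi (Real.one_le_sqrt.2 hQ21) hx hxx0 hRawQ hK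
        u G u (2 * u) hx0u huum hG1 hG2 hG3 le_rfl (by linarith) le_rfl
      have hwin := raw_win hM hl hc.le hPin hjL hju (by linarith : u < 2 * u) (by linarith : 2 * u ≤ 1) hW
      have hSu := hS (2 * u) (by linarith) (by linarith)
      have hQ4 : Real.sqrt Q2 ^ 4 = Q2 ^ 2 := by
        have : Real.sqrt Q2 ^ 4 = (Real.sqrt Q2 ^ 2) ^ 2 := by ring
        rw [this, Real.sq_sqrt hQ20]
      have hWb : c * (C * ((K : ℝ) + 1) ^ 3 * Pi ^ 2 * Real.sqrt Q2 ^ 4 * u ^ 4 / G) ≤ (Q2 * u ^ 2 / (4 * C0)) ^ 2 := by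
        rw [hQ4]
        have h1 : ((K : ℝ) + 1) ^ 3 * Pi ^ 2 / G ≤ 1 / (16 * C0 ^ 2 * c * C) := (div_le_iff₀ hG0).2 hG4
        calc c * (C * ((K : ℝ) + 1) ^ 3 * Pi ^ 2 * Q2 ^ 2 * u ^ 4 / G)
            = (c * C * Q2 ^ 2 * u ^ 4) * (((K : ℝ) + 1) ^ 3 * Pi ^ 2 / G) := by ring
          _ ≤ (c * C * Q2 ^ 2 * u ^ 4) * (1 / (16 * C0 ^ 2 * c * C)) := mul_le_mul_of_nonneg_left h1 (by positivity)
          _ = (Q2 * u ^ 2 / (4 * C0)) ^ 2 := by field_simp; ring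
      have hsq : Real.sqrt (c * (C * ((K : ℝ) + 1) ^ 3 * Pi ^ 2 * Real.sqrt Q2 ^ 4 * u ^ 4 / G)) ≤ Q2 * u ^ 2 / (4 * C0) :=
        Real.sqrt_le_iff.2 ⟨by positivity, hWb⟩
      have e1 : 2 * u - u = u := by ring
      rw [e1] at hwin
      have h3 : cmN M.P (4 * l) (M.X js) ^ 2 ≤ u * (Q2 / (2 * C0) + 2 * CS) := by
        calc cmN M.P (4 * l) (M.X js) ^ 2 ≤ 2 * (Q2 * u ^ 2 / (4 * C0) / u) + CS * (2 * u) := by
              have := div_le_div_of_nonneg_right hsq hu0.le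
              linarith
          _ = u * (Q2 / (2 * C0) + 2 * CS) := by field_simp; ring
      rw [div_le_iff₀ (hpos js hjs')]
      calc cmN M.P (4 * l) (M.X js) ^ 2 ≤ u * (Q2 / (2 * C0) + 2 * CS) := h3
        _ ≤ C0 * (x + M.mass js) * (Q2 / (2 * C0) + 2 * CS) := mul_le_mul_of_nonneg_right huC (by positivity)
        _ = (Q2 / 2 + 2 * C0 * CS) * (x + M.mass js) := by field_simp
  have hQ2le : Q2 ≤ 1 + 1 / cu + 4 * C0 * CS := by
    have h1 : 0 < 1 / cu := by positivity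
    have h2 : 0 < 4 * C0 * CS := by positivity
    rw [hQ2]
    refine max_le (by linarith) ?_
    rcases le_total (1 / cu) (Q2 / 2 + 2 * C0 * CS) with h | h
    · rw [max_eq_right h] at hkey
      rcases le_total 1 (cmN M.P (4 * l) (M.X js) ^ 2 / (x + M.mass js)) with h' | h'
      · rw [max_eq_right h'] at hQ2
        rw [← hQ2] at hkey ⊢
        linarith
      · linarith
    · rw [max_eq_left h] at hkey
      linarith
  intro j hj
  exact (hRawQ j hj).trans (mul_le_mul_of_nonneg_right (Real.sqrt_le_sqrt hQ2le) (Real.sqrt_nonneg _))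

end Claimed.Agent.R286
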