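import Claimed.Agent.R286.Cmp.P6Defs

/-!
# Row 286 (S0533), PE Section 3.4 (package P06): PROOF of the abstract two-sided level averaging `cm_br_abs` (= (21)) and of `cm_br1`      (owner helper179; prefix `cm6b`)
-/

set_option autoImplicit false

namespace Claimed.Agent.R286

open MeasureTheory Set

noncomputable section

/-- bounded measurable functions are integrable on a subset of `[0,1]` -/
theorem cm6b_int {G : Set ℝ} (hG : MeasurableSet G) (hG01 : G ⊆ Icc 0 1) {f : ℝ → ℝ} (hf : Measurable f) (C : ℝ)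
    (hb : ∀ j ∈ G, |f j| ≤ C) : IntegrableOn f G volume := by
  have hfin : volume G < ⊤ := lt_of_le_of_lt (measure_mono hG01) measure_Icc_lt_top
  exact Measure.integrableOn_of_bounded hfin.ne hf.aestronglyMeasurable (M := C)
    ((ae_restrict_iff' hG).2 (ae_of_all _ (fun j hj => by simpa using hb j hj)))

/-- linearity, three terms -/
theorem cm6b_int3 {μ : Measure ℝ} {f g h : ℝ → ℝ} (a b c : ℝ) (hf : Integrable f μ) (hg : Integrable g μ) (hh : Integrable h μ) :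
    ∫ j, (a * f j + b * g j + c * h j) ∂μ = a * ∫ j, f j ∂μ + b * ∫ j, g j ∂μ + c * ∫ j, h j ∂μ := by
  rw [integral_add (f := fun j => a * f j + b * g j) (g := fun j => c * h j) ((hf.const_mul a).add (hg.const_mul b)) (hh.const_mul c),
    integral_add (f := fun j => a * f j) (g := fun j => b * g j) (hf.const_mul a) (hg.const_mul b),
    integral_const_mul, integral_const_mul, integral_const_mul]

/-- linearity, ten terms -/
theorem cm6b_int10 {μ : Measure ℝ} [IsFiniteMeasure μ] {f0 f1 f2 f3 f4 f5 f6 f7 f8 : ℝ → ℝ} (k0 k1 k2 k3 k4 k5 : ℝ)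
    (h0 : Integrable f0 μ) (h1 : Integrable f1 μ) (h2 : Integrable f2 μ) (h3 : Integrable f3 μ) (h4 : Integrable f4 μ)
    (h5 : Integrable f5 μ) (h6 : Integrable f6 μ) (h7 : Integrable f7 μ) (h8 : Integrable f8 μ) :
    ∫ i, (f0 i + k0 + k1 * f1 i + k2 * f2 i + k2 * f3 i + k3 * f4 i + k4 * f5 i + k4 * f6 i + k5 * f7 i + k5 * f8 i) ∂μ
      = (∫ i, f0 i ∂μ) + k0 * μ.real univ + k1 * (∫ i, f1 i ∂μ) + k2 * (∫ i, f2 i ∂μ) + k2 * (∫ i, f3 i ∂μ) + k3 * (∫ i, f4 i ∂μ)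
        + k4 * (∫ i, f5 i ∂μ) + k4 * (∫ i, f6 i ∂μ) + k5 * (∫ i, f7 i ∂μ) + k5 * (∫ i, f8 i ∂μ) := by
  rw [integral_add (by fun_prop) (by fun_prop), integral_add (by fun_prop) (by fun_prop), integral_add (by fun_prop) (by fun_prop),
    integral_add (by fun_prop) (by fun_prop), integral_add (by fun_prop) (by fun_prop), integral_add (by fun_prop) (by fun_prop),
    integral_add (by fun_prop) (by fun_prop), integral_add (by fun_prop) (by fun_prop), integral_add (by fun_prop) (by fun_prop)]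
  simp only [integral_const_mul, integral_const, smul_eq_mul]
  ring

/-- the side of the LABEL `x` -/
def cm6bSec (G : Set ℝ) (c : ℝ → ℝ) (T : Set (ℝ × ℝ)) (x : ℝ) : Set ℝ := {j | j ∈ G ∧ (x, c j) ∈ T}

/-- its length -/
def cm6bRho (G : Set ℝ) (c : ℝ → ℝ) (T : Set (ℝ × ℝ)) (x : ℝ) : ℝ := (volume (cm6bSec G c T x)).toReal

/-- the kernel, as a function of the evaluation point `i` and of the LABEL `y` of the sample -/
def cm6bK (G : Set ℝ) (c : ℝ → ℝ) (T : Set (ℝ × ℝ)) (Ev : Set ℝ) (i y : ℝ) : ℝ :=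
  {p : ℝ × ℝ | p.1 ∈ Ev ∧ (c p.1, p.2) ∈ T}.indicator (fun p => 1 / cm6bRho G c T (c p.1)) (i, y)

section basic

variable {G : Set ℝ} {c : ℝ → ℝ} {T : Set (ℝ × ℝ)} {Ev : Set ℝ}

theorem cm6b_sec_meas (hG : MeasurableSet G) (hc : Measurable c) (hT : MeasurableSet T) (x : ℝ) :
    MeasurableSet (cm6bSec G c T x) := by
  refine hG.inter ?_
  exact (measurable_const.prodMk hc) hT

theorem cm6b_sec_sub (x : ℝ) : cm6bSec G c T x ⊆ G := fun _ hj => hj.1

theorem cm6b_rho_meas (hG : MeasurableSet G) (hc : Measurable c) (hT : MeasurableSet T) :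
    Measurable (cm6bRho G c T) := by
  have hT' : MeasurableSet {p : ℝ × ℝ | (p.1, c p.2) ∈ T} :=
    (measurable_fst.prodMk (hc.comp measurable_snd)) hT
  have h := measurable_measure_prodMk_left (ν := volume.restrict G) hT'
  have h2 : cm6bRho G c T = fun x => ((volume.restrict G) (Prod.mk x ⁻¹' {p : ℝ × ℝ | (p.1, c p.2) ∈ T})).toReal := by
    funext x
    unfold cm6bRho cm6bSec
    rw [Measure.restrict_apply ((measurable_prodMk_left) hT')]
    congr 2
    ext j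
    simp [and_comm]
  rw [h2]
  exact h.ennreal_toReal

theorem cm6b_rho_nonneg (x : ℝ) : 0 ≤ cm6bRho G c T x := ENNReal.toReal_nonneg

theorem cm6b_Ks_meas (hc : Measurable c) (hT : MeasurableSet T) (hEv : MeasurableSet Ev) :
    MeasurableSet {p : ℝ × ℝ | p.1 ∈ Ev ∧ (c p.1, p.2) ∈ T} :=
  (measurable_fst hEv).inter (((hc.comp measurable_fst).prodMk measurable_snd) hT)

theorem cm6b_K_meas (hG : MeasurableSet G) (hc : Measurable c) (hT : MeasurableSet T) (hEv : MeasurableSet Ev) :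
    Measurable (fun p : ℝ × ℝ => cm6bK G c T Ev p.1 p.2) := by
  unfold cm6bK
  refine Measurable.indicator ?_ (cm6b_Ks_meas hc hT hEv)
  exact measurable_const.div ((cm6b_rho_meas hG hc hT).comp (hc.comp measurable_fst))

theorem cm6b_K_of_mem {i y : ℝ} (hi : i ∈ Ev) (hy : (c i, y) ∈ T) : cm6bK G c T Ev i y = 1 / cm6bRho G c T (c i) := by
  unfold cm6bK
  rw [indicator_of_mem]
  exact ⟨hi, hy⟩

theorem cm6b_K_of_not {i y : ℝ} (h : ¬ (i ∈ Ev ∧ (c i, y) ∈ T)) : cm6bK G c T Ev i y = 0 := by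
  unfold cm6bK
  rw [indicator_of_notMem]
  exact h

theorem cm6b_K_nonneg (i y : ℝ) : 0 ≤ cm6bK G c T Ev i y := by
  by_cases h : i ∈ Ev ∧ (c i, y) ∈ T
  · rw [cm6b_K_of_mem h.1 h.2]
    exact div_nonneg zero_le_one (cm6b_rho_nonneg _)
  · rw [cm6b_K_of_not h]

theorem cm6b_K_le {th : ℝ} (hth : 0 < th) (hEvρ : ∀ i ∈ Ev, th ≤ cm6bRho G c T (c i)) (i y : ℝ) :
    cm6bK G c T Ev i y ≤ 1 / th := by
  by_cases h : i ∈ Ev ∧ (c i, y) ∈ T
  · rw [cm6b_K_of_mem h.1 h.2]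
    exact one_div_le_one_div_of_le hth (hEvρ i h.1)
  · rw [cm6b_K_of_not h]
    positivity

/-- `K² = K/ρ` -/
theorem cm6b_K_sq (i y : ℝ) : cm6bK G c T Ev i y ^ 2 = 1 / cm6bRho G c T (c i) * cm6bK G c T Ev i y := by
  by_cases h : i ∈ Ev ∧ (c i, y) ∈ T
  · rw [cm6b_K_of_mem h.1 h.2]; ring
  · rw [cm6b_K_of_not h]; ring

/-- the kernel is a probability weight -/
theorem cm6b_K_one (hG : MeasurableSet G) (hG01 : G ⊆ Icc 0 1) (hc : Measurable c) (hT : MeasurableSet T) {i : ℝ} (hi : i ∈ Ev)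
    (hρ : 0 < cm6bRho G c T (c i)) : ∫ j in G, cm6bK G c T Ev i (c j) = 1 := by
  have h1 : ∀ j, cm6bK G c T Ev i (c j) = {j | (c i, c j) ∈ T}.indicator (fun _ => 1 / cm6bRho G c T (c i)) j := by
    intro j
    by_cases h : (c i, c j) ∈ T
    · rw [cm6b_K_of_mem hi h, indicator_of_mem (by exact h)]
    · rw [cm6b_K_of_not (fun h' => h h'.2), indicator_of_notMem (by exact h)]
  simp_rw [h1]
  have hm : MeasurableSet {j | (c i, c j) ∈ T} := (measurable_const.prodMk hc) hT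
  rw [integral_indicator hm, Measure.restrict_restrict hm, setIntegral_const]
  have : {j | (c i, c j) ∈ T} ∩ G = cm6bSec G c T (c i) := by
    ext j; simp [cm6bSec, and_comm]
  rw [this]
  simp only [smul_eq_mul, Measure.real]
  change cm6bRho G c T (c i) * _ = 1
  field_simp

end basic

/-! ### the hypotheses -/

/-- the common hypotheses of `cm_br_abs` -/
structure Cm6bH (X : CmNum) (G : Set ℝ) (c : ℝ → ℝ) (b : ℝ → ℕ) (η τC τW : ℝ) : Prop where
  hX : X.Ok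
  hG : MeasurableSet G
  hG01 : G ⊆ Icc 0 1
  hc : Measurable c
  hb : Measurable b
  hη : 0 ≤ η
  hτC : 0 ≤ τC
  hτW : 0 ≤ τW
  hS : ∀ i ∈ G, ∀ j ∈ G, b (c i) = b (c j) → |X.S j - X.S i| ≤ η
  hC : ∀ g : ℝ → ℝ, Measurable g → (∀ x, 0 ≤ g x) → (∃ B : ℝ, ∀ x, g x ≤ B) →
      ∫ j in G, g (c j) * X.TC j ≤ τC * ∫ j in G, g (c j)
  hW : ∀ g : ℝ → ℝ, Measurable g → (∀ x, 0 ≤ g x) → (∃ B : ℝ, ∀ x, g x ≤ B) →
      ∫ j in G, g (c j) * X.TW j ≤ τW * ∫ j in G, g (c j)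

/-- one side: a measurable relation `T` between labels (inside one bin), a set `Ev` of evaluation points whose side is not shorter than `th` -/
structure Cm6bS (G : Set ℝ) (c : ℝ → ℝ) (b : ℝ → ℕ) (T : Set (ℝ × ℝ)) (Ev : Set ℝ) (th : ℝ) : Prop where
  hT : MeasurableSet T
  hTb : ∀ x y, (x, y) ∈ T → b y = b x
  hEv : MeasurableSet Ev
  hEvG : Ev ⊆ G
  hth : 0 < th
  hρ : ∀ i ∈ Ev, th ≤ cm6bRho G c T (c i)

/-- the weight of the side of `i` -/
def cm6bW (G : Set ℝ) (c : ℝ → ℝ) (T : Set (ℝ × ℝ)) (Ev : Set ℝ) (i : ℝ) : ℝ → ℝ :=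
  G.indicator (fun j => cm6bK G c T Ev i (c j))

section side

variable {X : CmNum} {G : Set ℝ} {c : ℝ → ℝ} {b : ℝ → ℕ} {η τC τW : ℝ} {T : Set (ℝ × ℝ)} {Ev : Set ℝ} {th : ℝ}

theorem cm6b_Kc_meas (H : Cm6bH X G c b η τC τW) (Sd : Cm6bS G c b T Ev th) (i : ℝ) :
    Measurable (fun j => cm6bK G c T Ev i (c j)) :=
  (cm6b_K_meas H.hG H.hc Sd.hT Sd.hEv).comp (measurable_const.prodMk H.hc)

theorem cm6b_Ky_meas (H : Cm6bH X G c b η τC τW) (Sd : Cm6bS G c b T Ev th) (i : ℝ) :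
    Measurable (fun y => cm6bK G c T Ev i y) :=
  (cm6b_K_meas H.hG H.hc Sd.hT Sd.hEv).comp (measurable_const.prodMk measurable_id)

theorem cm6b_KF_int (H : Cm6bH X G c b η τC τW) (Sd : Cm6bS G c b T Ev th) (i : ℝ) {F : ℝ → ℝ} (hF : Measurable F) (C : ℝ)
    (hFb : ∀ j ∈ G, |F j| ≤ C) : IntegrableOn (fun j => cm6bK G c T Ev i (c j) * F j) G volume := by
  refine cm6b_int H.hG H.hG01 ((cm6b_Kc_meas H Sd i).mul hF) (1 / th * C) (fun j hj => ?_)
  rw [abs_mul, abs_of_nonneg (cm6b_K_nonneg _ _)]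
  exact mul_le_mul (cm6b_K_le Sd.hth Sd.hρ _ _) (hFb j hj) (abs_nonneg _) (by have := Sd.hth; positivity)

theorem cm6b_W_integral (H : Cm6bH X G c b η τC τW) (i : ℝ) (h : ℝ → ℝ) :
    ∫ j, cm6bW G c T Ev i j * h j = ∫ j in G, cm6bK G c T Ev i (c j) * h j := by
  rw [← integral_indicator H.hG]
  congr 1
  funext j
  unfold cm6bW
  rw [indicator_mul_left]

theorem cm6b_W_wt (H : Cm6bH X G c b η τC τW) (Sd : Cm6bS G c b T Ev th) {i : ℝ} (hi : i ∈ Ev) :
    CmWt (cm6bW G c T Ev i) where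
  meas := (cm6b_Kc_meas H Sd i).indicator H.hG
  nn := fun j => indicator_nonneg (fun _ _ => cm6b_K_nonneg _ _) j
  bdd := ⟨1 / th, fun j => by
    unfold cm6bW
    by_cases hj : j ∈ G
    · rw [indicator_of_mem hj]; exact cm6b_K_le Sd.hth Sd.hρ _ _
    · rw [indicator_of_notMem hj]; have := Sd.hth; positivity⟩
  supp := fun j hj => indicator_of_notMem (fun h => hj (H.hG01 h)) _
  one := by
    have := cm6b_W_integral (T := T) (Ev := Ev) H i (fun _ => 1)
    simp only [mul_one] at this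
    rw [this]
    exact cm6b_K_one H.hG H.hG01 H.hc Sd.hT hi (lt_of_lt_of_le Sd.hth (Sd.hρ i hi))

/-- the elementary inequality (2) of the plan -/
theorem cm6b_elem {ti tj a Di Dj η ε : ℝ} (hti : 0 ≤ ti) (htj : 0 ≤ tj) (ha : a ≤ η) (hε : 0 < ε) :
    (ti + tj) * (a + 3 * (Di + Dj)) ≤ η ^ 2 / 2 + (1 + 9 / ε) * (ti ^ 2 + tj ^ 2) + ε * (Di ^ 2 + Dj ^ 2) := by
  have h1 : (ti + tj) * a ≤ (ti + tj) * η := mul_le_mul_of_nonneg_left ha (by positivity)
  have h2 : (ti + tj) * η ≤ η ^ 2 / 2 + (ti ^ 2 + tj ^ 2) := by nlinarith [sq_nonneg (ti + tj - η), sq_nonneg (ti - tj)]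
  have h3 : 3 * ((ti + tj) * (Di + Dj)) ≤ 9 / ε * (ti ^ 2 + tj ^ 2) + ε * (Di ^ 2 + Dj ^ 2) := by
    have e : 9 / ε * (ti ^ 2 + tj ^ 2) + ε * (Di ^ 2 + Dj ^ 2) = (9 * (ti ^ 2 + tj ^ 2) + ε ^ 2 * (Di ^ 2 + Dj ^ 2)) / ε := by
      field_simp
    rw [e, le_div_iff₀ hε]
    nlinarith [sq_nonneg (3 * (ti + tj) - ε * (Di + Dj)), sq_nonneg (ti - tj), sq_nonneg (ε * (Di - Dj))]
  nlinarith

/-- **pointwise bound of the cost of one side** -/
theorem cm6b_side_le (H : Cm6bH X G c b η τC τW) (Sd : Cm6bS G c b T Ev th) {ε : ℝ} (hε : 0 < ε) {i : ℝ} (hi : i ∈ Ev) :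
    X.side i (cm6bW G c T Ev i) ≤ 3 / 4 * η ^ 2 + (1 + 9 / ε) * (X.TC i + ∫ j in G, cm6bK G c T Ev i (c j) * X.TC j)
      + ε * (X.D i ^ 2 + ∫ j in G, cm6bK G c T Ev i (c j) * X.D j ^ 2) + τW * (1 / cm6bRho G c T (c i)) := by
  have hX := H.hX
  have hiG := Sd.hEvG hi
  have hi01 := H.hG01 hiG
  have hρ : 0 < cm6bRho G c T (c i) := lt_of_lt_of_le Sd.hth (Sd.hρ i hi)
  have hone := cm6b_K_one (Ev := Ev) H.hG H.hG01 H.hc Sd.hT hi hρ
  have hKint : IntegrableOn (fun j => cm6bK G c T Ev i (c j)) G volume := by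
    have := cm6b_KF_int H Sd i (F := fun _ => 1) measurable_const 1 (fun _ _ => by simp)
    simpa using this
  have hKTC := cm6b_KF_int H Sd i hX.TC_meas 1 (fun j hj => by
    rw [abs_of_nonneg (hX.TC_nn j (H.hG01 hj))]; exact hX.TC_le j (H.hG01 hj))
  have hKD := cm6b_KF_int H Sd i (hX.D_meas.pow_const 2) 1 (fun j hj => by
    have h0 := hX.D_nn j (H.hG01 hj)
    have h1 := hX.D_le j (H.hG01 hj)
    rw [abs_of_nonneg (by positivity)]
    nlinarith)
  have hsame : ∀ j ∈ G, (c i, c j) ∈ T → |X.S j - X.S i| ≤ η := fun j hj hT =>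
    H.hS i hiG j hj (Sd.hTb _ _ hT).symm
  -- term 1
  have t1 : ∫ j, cm6bW G c T Ev i j * ((Real.sqrt (X.TC i) + Real.sqrt (X.TC j)) * (|X.S j - X.S i| + 3 * (X.D i + X.D j)))
      ≤ η ^ 2 / 2 + (1 + 9 / ε) * (X.TC i + ∫ j in G, cm6bK G c T Ev i (c j) * X.TC j)
        + ε * (X.D i ^ 2 + ∫ j in G, cm6bK G c T Ev i (c j) * X.D j ^ 2) := by
    rw [cm6b_W_integral H i]
    have hF1 : IntegrableOn (fun j => cm6bK G c T Ev i (c j) *
        ((Real.sqrt (X.TC i) + Real.sqrt (X.TC j)) * (|X.S j - X.S i| + 3 * (X.D i + X.D j)))) G volume := by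
      refine cm6b_KF_int H Sd i ?_ 14 (fun j hj => ?_)
      · exact (measurable_const.add hX.TC_meas.sqrt).mul
          (((hX.S_meas.sub measurable_const).abs).add (measurable_const.mul (measurable_const.add hX.D_meas)))
      · have hj01 := H.hG01 hj
        have a1 : Real.sqrt (X.TC i) ≤ 1 := Real.sqrt_le_one.2 (hX.TC_le i hi01)
        have a2 : Real.sqrt (X.TC j) ≤ 1 := Real.sqrt_le_one.2 (hX.TC_le j hj01)
        have a3 := Real.sqrt_nonneg (X.TC i)
        have a4 := Real.sqrt_nonneg (X.TC j)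
        have a5 : |X.S j - X.S i| ≤ 1 := by
          rw [abs_le]
          constructor <;> linarith [hX.S_nn i hi01, hX.S_nn j hj01, hX.S_le i hi01, hX.S_le j hj01]
        have a6 := abs_nonneg (X.S j - X.S i)
        have a7 := hX.D_nn i hi01
        have a8 := hX.D_nn j hj01
        have a9 := hX.D_le i hi01
        have a10 := hX.D_le j hj01
        rw [abs_of_nonneg (by positivity)]
        calc (Real.sqrt (X.TC i) + Real.sqrt (X.TC j)) * (|X.S j - X.S i| + 3 * (X.D i + X.D j)) ≤ 2 * 7 :=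
              mul_le_mul (by linarith) (by linarith) (by positivity) (by norm_num)
          _ = 14 := by norm_num
    have e : ∀ j, cm6bK G c T Ev i (c j) * (η ^ 2 / 2 + (1 + 9 / ε) * (X.TC i + X.TC j) + ε * (X.D i ^ 2 + X.D j ^ 2))
        = (η ^ 2 / 2 + (1 + 9 / ε) * X.TC i + ε * X.D i ^ 2) * cm6bK G c T Ev i (c j)
          + (1 + 9 / ε) * (cm6bK G c T Ev i (c j) * X.TC j) + ε * (cm6bK G c T Ev i (c j) * X.D j ^ 2) := by
      intro j; ring
    have hF2 : IntegrableOn (fun j => cm6bK G c T Ev i (c j) *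
        (η ^ 2 / 2 + (1 + 9 / ε) * (X.TC i + X.TC j) + ε * (X.D i ^ 2 + X.D j ^ 2))) G volume := by
      simp_rw [e]
      exact ((hKint.const_mul _).add (hKTC.const_mul _)).add (hKD.const_mul _)
    calc ∫ j in G, cm6bK G c T Ev i (c j) * ((Real.sqrt (X.TC i) + Real.sqrt (X.TC j)) * (|X.S j - X.S i| + 3 * (X.D i + X.D j)))
        ≤ ∫ j in G, cm6bK G c T Ev i (c j) * (η ^ 2 / 2 + (1 + 9 / ε) * (X.TC i + X.TC j) + ε * (X.D i ^ 2 + X.D j ^ 2)) := by
          refine setIntegral_mono_on hF1 hF2 H.hG (fun j hj => ?_)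
          by_cases hT : (c i, c j) ∈ T
          · refine mul_le_mul_of_nonneg_left ?_ (cm6b_K_nonneg _ _)
            have := cm6b_elem (Di := X.D i) (Dj := X.D j) (Real.sqrt_nonneg (X.TC i)) (Real.sqrt_nonneg (X.TC j)) (hsame j hj hT) hε
            rwa [Real.sq_sqrt (hX.TC_nn i hi01), Real.sq_sqrt (hX.TC_nn j (H.hG01 hj))] at this
          · rw [cm6b_K_of_not (fun h => hT h.2)]; simp
      _ = _ := by
          simp_rw [e]
          rw [cm6b_int3 _ _ _ hKint hKTC hKD, hone]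
          ring
  -- term 2
  have t2 : ∫ j, cm6bW G c T Ev i j ^ 2 * X.TW j ≤ τW * (1 / cm6bRho G c T (c i)) := by
    have e : ∀ j, cm6bW G c T Ev i j ^ 2 * X.TW j = cm6bW G c T Ev i j * (1 / cm6bRho G c T (c i) * X.TW j) := by
      intro j
      unfold cm6bW
      by_cases hj : j ∈ G
      · rw [indicator_of_mem hj, cm6b_K_sq]; ring
      · rw [indicator_of_notMem hj]; ring
    simp_rw [e]
    rw [cm6b_W_integral H i]
    have e2 : ∀ j, cm6bK G c T Ev i (c j) * (1 / cm6bRho G c T (c i) * X.TW j)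
        = 1 / cm6bRho G c T (c i) * (cm6bK G c T Ev i (c j) * X.TW j) := by intro j; ring
    simp_rw [e2]
    rw [integral_const_mul]
    have := H.hW (fun y => cm6bK G c T Ev i y) (cm6b_Ky_meas H Sd i) (fun y => cm6b_K_nonneg _ _)
      ⟨1 / th, fun y => cm6b_K_le Sd.hth Sd.hρ _ _⟩
    rw [hone, mul_one] at this
    calc 1 / cm6bRho G c T (c i) * ∫ j in G, cm6bK G c T Ev i (c j) * X.TW j ≤ 1 / cm6bRho G c T (c i) * τW :=
          mul_le_mul_of_nonneg_left this (by positivity)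
      _ = _ := by ring
  -- term 3
  have t3 : (∫ j, cm6bW G c T Ev i j * (X.S j - X.S i)) ^ 2 ≤ η ^ 2 := by
    rw [cm6b_W_integral H i, ← sq_abs]
    refine pow_le_pow_left₀ (abs_nonneg _) ?_ 2
    have hSi : IntegrableOn (fun j => cm6bK G c T Ev i (c j) * (X.S j - X.S i)) G volume := by
      refine cm6b_KF_int H Sd i (hX.S_meas.sub measurable_const) 1 (fun j hj => ?_)
      have hj01 := H.hG01 hj
      rw [abs_le]
      constructor <;> linarith [hX.S_nn i hi01, hX.S_nn j hj01, hX.S_le i hi01, hX.S_le j hj01]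
    calc |∫ j in G, cm6bK G c T Ev i (c j) * (X.S j - X.S i)| ≤ ∫ j in G, |cm6bK G c T Ev i (c j) * (X.S j - X.S i)| :=
          abs_integral_le_integral_abs
      _ ≤ ∫ j in G, η * cm6bK G c T Ev i (c j) := by
          refine setIntegral_mono_on hSi.abs (hKint.const_mul _) H.hG (fun j hj => ?_)
          rw [abs_mul, abs_of_nonneg (cm6b_K_nonneg _ _)]
          by_cases hT : (c i, c j) ∈ T
          · rw [mul_comm]
            exact mul_le_mul_of_nonneg_right (hsame j hj hT) (cm6b_K_nonneg _ _)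
          · rw [cm6b_K_of_not (fun h => hT h.2)]; simp
      _ = η := by rw [integral_const_mul, hone, mul_one]
  unfold CmNum.side
  linarith

/-! ### integration over the evaluation points -/

theorem cm6b_prod_int (H : Cm6bH X G c b η τC τW) (Sd : Cm6bS G c b T Ev th) {F : ℝ → ℝ} (hF : Measurable F) (C : ℝ)
    (hFb : ∀ j ∈ G, |F j| ≤ C) :
    Integrable (fun p : ℝ × ℝ => cm6bK G c T Ev p.1 (c p.2) * F p.2) ((volume.restrict G).prod (volume.restrict G)) := by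
  have hfin : volume G < ⊤ := lt_of_le_of_lt (measure_mono H.hG01) measure_Icc_lt_top
  have : IsFiniteMeasure (volume.restrict G) := ⟨by rw [Measure.restrict_apply_univ]; exact hfin⟩
  have hm : Measurable (fun p : ℝ × ℝ => cm6bK G c T Ev p.1 (c p.2) * F p.2) :=
    ((cm6b_K_meas H.hG H.hc Sd.hT Sd.hEv).comp (measurable_fst.prodMk (H.hc.comp measurable_snd))).mul (hF.comp measurable_snd)
  refine Integrable.of_bound hm.aestronglyMeasurable (1 / th * C) ?_
  rw [Measure.prod_restrict]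
  refine (ae_restrict_iff' (H.hG.prod H.hG)).2 (ae_of_all _ (fun p hp => ?_))
  rw [Real.norm_eq_abs, abs_mul, abs_of_nonneg (cm6b_K_nonneg _ _)]
  exact mul_le_mul (cm6b_K_le Sd.hth Sd.hρ _ _) (hFb p.2 hp.2) (abs_nonneg _) (by have := Sd.hth; positivity)

theorem cm6b_A_int (H : Cm6bH X G c b η τC τW) (Sd : Cm6bS G c b T Ev th) {F : ℝ → ℝ} (hF : Measurable F) (C : ℝ)
    (hFb : ∀ j ∈ G, |F j| ≤ C) : IntegrableOn (fun i => ∫ j in G, cm6bK G c T Ev i (c j) * F j) G volume :=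
  (cm6b_prod_int H Sd hF C hFb).integral_prod_left

theorem cm6b_fubini (H : Cm6bH X G c b η τC τW) (Sd : Cm6bS G c b T Ev th) {F : ℝ → ℝ} (hF : Measurable F) (C : ℝ)
    (hFb : ∀ j ∈ G, |F j| ≤ C) :
    ∫ i in G, ∫ j in G, cm6bK G c T Ev i (c j) * F j = ∫ j in G, (∫ i in G, cm6bK G c T Ev i (c j)) * F j := by
  rw [integral_integral_swap (f := fun i j => cm6bK G c T Ev i (c j) * F j) (cm6b_prod_int H Sd hF C hFb)]
  congr 1
  funext j
  rw [integral_mul_const]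

theorem cm6b_g_meas (H : Cm6bH X G c b η τC τW) (Sd : Cm6bS G c b T Ev th) :
    Measurable (fun y => ∫ i in G, cm6bK G c T Ev i y) :=
  ((cm6b_K_meas H.hG H.hc Sd.hT Sd.hEv).stronglyMeasurable.integral_prod_left (μ := volume.restrict G)).measurable

theorem cm6b_g_nonneg (y : ℝ) : 0 ≤ ∫ i in G, cm6bK G c T Ev i y := integral_nonneg (fun _ => cm6b_K_nonneg _ _)

/-- the reciprocal side length on the part of the bin `k` where it is at least `th` -/
def cm6bQk (G : Set ℝ) (c : ℝ → ℝ) (b : ℝ → ℕ) (T : Set (ℝ × ℝ)) (th : ℝ) (k : ℕ) (i : ℝ) : ℝ :=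
  {i | b (c i) = k ∧ th ≤ cm6bRho G c T (c i)}.indicator (fun i => 1 / cm6bRho G c T (c i)) i

theorem cm6b_Qk_nonneg (k : ℕ) (i : ℝ) : 0 ≤ cm6bQk G c b T th k i :=
  indicator_nonneg (fun _ _ => div_nonneg zero_le_one (cm6b_rho_nonneg _)) i

theorem cm6b_Qk_int (H : Cm6bH X G c b η τC τW) (hT : MeasurableSet T) (hth : 0 < th) (k : ℕ) :
    IntegrableOn (cm6bQk G c b T th k) G volume := by
  have hρm := (cm6b_rho_meas H.hG H.hc hT).comp H.hc
  refine cm6b_int H.hG H.hG01 ?_ (1 / th) (fun i _ => ?_)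
  · refine Measurable.indicator (measurable_const.div hρm) ?_
    exact ((H.hb.comp H.hc) (measurableSet_singleton k)).inter (measurableSet_le measurable_const hρm)
  · rw [abs_of_nonneg (cm6b_Qk_nonneg k i)]
    unfold cm6bQk
    by_cases h : i ∈ {i | b (c i) = k ∧ th ≤ cm6bRho G c T (c i)}
    · rw [indicator_of_mem h]
      exact one_div_le_one_div_of_le hth h.2
    · rw [indicator_of_notMem h]; positivity

theorem cm6b_Ki_int (H : Cm6bH X G c b η τC τW) (Sd : Cm6bS G c b T Ev th) (y : ℝ) :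
    IntegrableOn (fun i => cm6bK G c T Ev i y) G volume := by
  refine cm6b_int H.hG H.hG01 ((cm6b_K_meas H.hG H.hc Sd.hT Sd.hEv).comp (measurable_id.prodMk measurable_const)) (1 / th) (fun i _ => ?_)
  rw [abs_of_nonneg (cm6b_K_nonneg _ _)]
  exact cm6b_K_le Sd.hth Sd.hρ _ _

theorem cm6b_g_le (H : Cm6bH X G c b η τC τW) (Sd : Cm6bS G c b T Ev th) {Λ : ℝ}
    (hlog : ∀ k, ∫ i in G, cm6bQk G c b T th k i ≤ Λ) (y : ℝ) : ∫ i in G, cm6bK G c T Ev i y ≤ Λ := by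
  refine le_trans ?_ (hlog (b y))
  refine setIntegral_mono_on (cm6b_Ki_int H Sd y) (cm6b_Qk_int H Sd.hT Sd.hth _) H.hG (fun i _ => ?_)
  by_cases h : i ∈ Ev ∧ (c i, y) ∈ T
  · rw [cm6b_K_of_mem h.1 h.2]
    unfold cm6bQk
    rw [indicator_of_mem]
    exact ⟨(Sd.hTb _ _ h.2).symm, Sd.hρ i h.1⟩
  · rw [cm6b_K_of_not h]
    exact cm6b_Qk_nonneg _ _

/-- (F3) -/
theorem cm6b_ATC (H : Cm6bH X G c b η τC τW) (Sd : Cm6bS G c b T Ev th) {Λ : ℝ}
    (hlog : ∀ k, ∫ i in G, cm6bQk G c b T th k i ≤ Λ) :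
    ∫ i in G, ∫ j in G, cm6bK G c T Ev i (c j) * X.TC j ≤ Λ * τC * (volume G).toReal := by
  have hX := H.hX
  rw [cm6b_fubini H Sd hX.TC_meas 1 (fun j hj => by
    rw [abs_of_nonneg (hX.TC_nn j (H.hG01 hj))]; exact hX.TC_le j (H.hG01 hj))]
  have h1 := H.hC (fun y => ∫ i in G, cm6bK G c T Ev i y) (cm6b_g_meas H Sd) cm6b_g_nonneg ⟨Λ, cm6b_g_le H Sd hlog⟩
  refine h1.trans ?_
  have h2 : ∫ j in G, (∫ i in G, cm6bK G c T Ev i (c j)) ≤ ∫ _j in G, Λ := by
    refine setIntegral_mono_on ?_ ?_ H.hG (fun j _ => cm6b_g_le H Sd hlog _)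
    · refine cm6b_int H.hG H.hG01 ((cm6b_g_meas H Sd).comp H.hc) Λ (fun j _ => ?_)
      rw [abs_of_nonneg (cm6b_g_nonneg _)]
      exact cm6b_g_le H Sd hlog _
    · exact cm6b_int H.hG H.hG01 measurable_const |Λ| (fun _ _ => le_rfl)
  rw [setIntegral_const, smul_eq_mul] at h2
  calc τC * ∫ j in G, (∫ i in G, cm6bK G c T Ev i (c j)) ≤ τC * ((volume G).toReal * Λ) :=
        mul_le_mul_of_nonneg_left h2 H.hτC
    _ = _ := by ring

/-- (F4) -/
theorem cm6b_AD (H : Cm6bH X G c b η τC τW) (Sd : Cm6bS G c b T Ev th) {Λ : ℝ}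
    (hlog : ∀ k, ∫ i in G, cm6bQk G c b T th k i ≤ Λ) :
    ∫ i in G, ∫ j in G, cm6bK G c T Ev i (c j) * X.D j ^ 2 ≤ Λ * ∫ j in G, X.D j ^ 2 := by
  have hX := H.hX
  have hDb : ∀ j ∈ G, |X.D j ^ 2| ≤ 1 := fun j hj => by
    have h0 := hX.D_nn j (H.hG01 hj)
    have h1 := hX.D_le j (H.hG01 hj)
    rw [abs_of_nonneg (by positivity)]
    nlinarith
  rw [cm6b_fubini H Sd (hX.D_meas.pow_const 2) 1 hDb, ← integral_const_mul]
  have hΛ : 0 ≤ Λ := (cm6b_g_nonneg (G := G) (c := c) (T := T) (Ev := Ev) 0).trans (cm6b_g_le H Sd hlog 0)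
  refine setIntegral_mono_on ?_ ?_ H.hG (fun j _ => ?_)
  · refine cm6b_int H.hG H.hG01 (((cm6b_g_meas H Sd).comp H.hc).mul (hX.D_meas.pow_const 2)) (Λ * 1) (fun j hj => ?_)
    rw [abs_mul, abs_of_nonneg (cm6b_g_nonneg _)]
    exact mul_le_mul (cm6b_g_le H Sd hlog _) (hDb j hj) (abs_nonneg _) hΛ
  · exact (cm6b_int H.hG H.hG01 (hX.D_meas.pow_const 2) 1 hDb).const_mul _
  · exact mul_le_mul_of_nonneg_right (cm6b_g_le H Sd hlog _) (by positivity)

/-- (F5) -/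
theorem cm6b_Q (H : Cm6bH X G c b η τC τW) (Sd : Cm6bS G c b T Ev th) {Λ : ℝ} {kb : ℕ} (hkb : ∀ i ∈ G, b (c i) < kb)
    (hlog : ∀ k, ∫ i in G, cm6bQk G c b T th k i ≤ Λ) :
    ∫ i in G, Ev.indicator (fun i => 1 / cm6bRho G c T (c i)) i ≤ kb * Λ := by
  have hρm := (cm6b_rho_meas H.hG H.hc Sd.hT).comp H.hc
  have h1 : ∫ i in G, Ev.indicator (fun i => 1 / cm6bRho G c T (c i)) i ≤ ∫ i in G, ∑ k ∈ Finset.range kb, cm6bQk G c b T th k i := by
    refine setIntegral_mono_on ?_ (integrable_finsetSum _ (fun k _ => cm6b_Qk_int H Sd.hT Sd.hth k)) H.hG (fun i hi => ?_)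
    · refine cm6b_int H.hG H.hG01 ((measurable_const.div hρm).indicator Sd.hEv) (1 / th) (fun i _ => ?_)
      by_cases h : i ∈ Ev
      · rw [indicator_of_mem h, abs_of_nonneg (div_nonneg zero_le_one (cm6b_rho_nonneg _))]
        exact one_div_le_one_div_of_le Sd.hth (Sd.hρ i h)
      · rw [indicator_of_notMem h]; have := Sd.hth; simp; positivity
    · by_cases h : i ∈ Ev
      · rw [indicator_of_mem h]
        have h2 : cm6bQk G c b T th (b (c i)) i = 1 / cm6bRho G c T (c i) := by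
          unfold cm6bQk
          rw [indicator_of_mem]
          exact ⟨rfl, Sd.hρ i h⟩
        rw [← h2]
        exact Finset.single_le_sum (f := fun k => cm6bQk G c b T th k i) (fun k _ => cm6b_Qk_nonneg k i) (Finset.mem_range.2 (hkb i hi))
      · rw [indicator_of_notMem h]
        exact Finset.sum_nonneg (fun k _ => cm6b_Qk_nonneg k i)
  refine h1.trans ?_
  rw [integral_finsetSum _ (fun k _ => cm6b_Qk_int H Sd.hT Sd.hth k)]
  calc ∑ k ∈ Finset.range kb, ∫ i in G, cm6bQk G c b T th k i ≤ ∑ _k ∈ Finset.range kb, Λ := Finset.sum_le_sum (fun k _ => hlog k)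
    _ = kb * Λ := by simp

theorem cm6b_Q_int (H : Cm6bH X G c b η τC τW) (Sd : Cm6bS G c b T Ev th) :
    IntegrableOn (fun i => Ev.indicator (fun i => 1 / cm6bRho G c T (c i)) i) G volume := by
  have hρm := (cm6b_rho_meas H.hG H.hc Sd.hT).comp H.hc
  refine cm6b_int H.hG H.hG01 ((measurable_const.div hρm).indicator Sd.hEv) (1 / th) (fun i _ => ?_)
  by_cases h : i ∈ Ev
  · rw [indicator_of_mem h, abs_of_nonneg (div_nonneg zero_le_one (cm6b_rho_nonneg _))]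
    exact one_div_le_one_div_of_le Sd.hth (Sd.hρ i h)
  · rw [indicator_of_notMem h]; have := Sd.hth; simp; positivity

theorem cm6b_W_ne {i j : ℝ} (h : cm6bW G c T Ev i j ≠ 0) : j ∈ G ∧ (c i, c j) ∈ T := by
  unfold cm6bW at h
  have hj : j ∈ G := by
    by_contra hj
    exact h (indicator_of_notMem hj _)
  refine ⟨hj, ?_⟩
  rw [indicator_of_mem hj] at h
  by_contra hT
  exact h (cm6b_K_of_not (fun h' => hT h'.2))

end side

/-! ### the two sides together -/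

/-- **the abstract estimate with two sides**, before the choice of the relations -/
theorem cm6b_final {X : CmNum} {G : Set ℝ} {c : ℝ → ℝ} {b : ℝ → ℕ} {η τC τW : ℝ} {Tp Tm : Set (ℝ × ℝ)} {Ev : Set ℝ} {th : ℝ}
    (H : Cm6bH X G c b η τC τW) (Sp : Cm6bS G c b Tp Ev th) (Sm : Cm6bS G c b Tm Ev th)
    {q4 Λ : ℝ} {kb : ℕ} (hq4 : 0 ≤ q4) (hkb : ∀ i ∈ G, b (c i) < kb)
    (hQp : ∀ i ∈ Ev, ∀ j ∈ G, (c i, c j) ∈ Tp → j < i → X.Q4 i j ≤ q4)
    (hQm : ∀ i ∈ Ev, ∀ j ∈ G, (c i, c j) ∈ Tm → i < j → X.Q4 i j ≤ q4)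
    (hlogp : ∀ k, ∫ i in G, cm6bQk G c b Tp th k i ≤ Λ) (hlogm : ∀ k, ∫ i in G, cm6bQk G c b Tm th k i ≤ Λ)
    (hN : (volume (G \ Ev)).toReal ≤ 2 * kb * th) :
    ∫ u in G, X.D u ^ 2 ≤ 4 * kb * th + (2 + 64 * (1 + 576 * (1 + Λ)) * (1 + Λ)) * τC * (volume G).toReal
      + 16 * q4 * (volume G).toReal + 48 * η ^ 2 * (volume G).toReal + 64 * kb * Λ * τW := by
  have hX := H.hX
  have hfin : volume G < ⊤ := lt_of_le_of_lt (measure_mono H.hG01) measure_Icc_lt_top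
  have : IsFiniteMeasure (volume.restrict G) := ⟨by rw [Measure.restrict_apply_univ]; exact hfin⟩
  have hΛ : 0 ≤ Λ := (cm6b_g_nonneg (G := G) (c := c) (T := Tp) (Ev := Ev) 0).trans (cm6b_g_le H Sp hlogp 0)
  obtain ⟨ε, hεd⟩ : ∃ ε : ℝ, ε = 1 / (64 * (1 + Λ)) := ⟨_, rfl⟩
  have hε : 0 < ε := by rw [hεd]; positivity
  obtain ⟨E9, hE9⟩ : ∃ v : ℝ, v = 1 + 9 / ε := ⟨_, rfl⟩
  have hE9v : E9 = 1 + 576 * (1 + Λ) := by rw [hE9, hεd]; field_simp; ring
  have hE90 : 0 ≤ E9 := by rw [hE9v]; positivity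
  have e1 : 32 * ε * (1 + Λ) = 1 / 2 := by rw [hεd]; field_simp; norm_num
  have hTCb : ∀ j ∈ G, |X.TC j| ≤ 1 := fun j hj => by
    rw [abs_of_nonneg (hX.TC_nn j (H.hG01 hj))]; exact hX.TC_le j (H.hG01 hj)
  have hDb : ∀ j ∈ G, |X.D j ^ 2| ≤ 1 := fun j hj => by
    have h0 := hX.D_nn j (H.hG01 hj)
    have h1 := hX.D_le j (H.hG01 hj)
    rw [abs_of_nonneg (by positivity)]
    nlinarith
  -- integrability
  have i0 : Integrable (fun i => (G \ Ev).indicator (fun _ => (1 : ℝ)) i) (volume.restrict G) :=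
    cm6b_int H.hG H.hG01 (measurable_const.indicator (H.hG.diff Sp.hEv)) 1 (fun i _ => by
      by_cases h : i ∈ G \ Ev
      · rw [indicator_of_mem h]; simp
      · rw [indicator_of_notMem h]; simp)
  have i1 : Integrable (fun i => X.TC i) (volume.restrict G) := cm6b_int H.hG H.hG01 hX.TC_meas 1 hTCb
  have i2 : Integrable (fun i => ∫ j in G, cm6bK G c Tp Ev i (c j) * X.TC j) (volume.restrict G) := cm6b_A_int H Sp hX.TC_meas 1 hTCb
  have i3 : Integrable (fun i => ∫ j in G, cm6bK G c Tm Ev i (c j) * X.TC j) (volume.restrict G) := cm6b_A_int H Sm hX.TC_meas 1 hTCb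
  have i4 : Integrable (fun i => X.D i ^ 2) (volume.restrict G) := cm6b_int H.hG H.hG01 (hX.D_meas.pow_const 2) 1 hDb
  have i5 : Integrable (fun i => ∫ j in G, cm6bK G c Tp Ev i (c j) * X.D j ^ 2) (volume.restrict G) :=
    cm6b_A_int H Sp (hX.D_meas.pow_const 2) 1 hDb
  have i6 : Integrable (fun i => ∫ j in G, cm6bK G c Tm Ev i (c j) * X.D j ^ 2) (volume.restrict G) :=
    cm6b_A_int H Sm (hX.D_meas.pow_const 2) 1 hDb
  have i7 : Integrable (fun i => Ev.indicator (fun i => 1 / cm6bRho G c Tp (c i)) i) (volume.restrict G) := cm6b_Q_int H Sp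
  have i8 : Integrable (fun i => Ev.indicator (fun i => 1 / cm6bRho G c Tm (c i)) i) (volume.restrict G) := cm6b_Q_int H Sm
  -- the pointwise inequality
  have hpt : ∀ i ∈ G, X.D i ^ 2 ≤ (G \ Ev).indicator (fun _ => (1 : ℝ)) i + (8 * q4 + 24 * η ^ 2) + (1 + 32 * E9) * X.TC i
      + 16 * E9 * (∫ j in G, cm6bK G c Tp Ev i (c j) * X.TC j) + 16 * E9 * (∫ j in G, cm6bK G c Tm Ev i (c j) * X.TC j)
      + 32 * ε * X.D i ^ 2
      + 16 * ε * (∫ j in G, cm6bK G c Tp Ev i (c j) * X.D j ^ 2) + 16 * ε * (∫ j in G, cm6bK G c Tm Ev i (c j) * X.D j ^ 2)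
      + 16 * τW * Ev.indicator (fun i => 1 / cm6bRho G c Tp (c i)) i + 16 * τW * Ev.indicator (fun i => 1 / cm6bRho G c Tm (c i)) i := by
    intro i hiG
    have hi01 := H.hG01 hiG
    by_cases hi : i ∈ Ev
    · have hm := hX.master i hi01 (cm6bW G c Tp Ev i) (cm6bW G c Tm Ev i) (cm6b_W_wt H Sp hi) (cm6b_W_wt H Sm hi) q4 hq4
        (fun j _ hw hji => hQp i hi j (cm6b_W_ne hw).1 (cm6b_W_ne hw).2 hji)
        (fun j _ hw hij => hQm i hi j (cm6b_W_ne hw).1 (cm6b_W_ne hw).2 hij)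
      have sp := cm6b_side_le H Sp hε hi
      have sm := cm6b_side_le H Sm hε hi
      rw [← hE9] at sp sm
      rw [indicator_of_notMem (fun h => h.2 hi), indicator_of_mem hi, indicator_of_mem hi]
      linarith
    · have hmem : i ∈ G \ Ev := ⟨hiG, hi⟩
      rw [indicator_of_mem hmem, indicator_of_notMem hi, indicator_of_notMem hi]
      have d0 := hX.D_nn i hi01
      have d1 := hX.D_le i hi01
      have a1 : X.D i ^ 2 ≤ 1 := by nlinarith
      have a2 : 0 ≤ (1 + 32 * E9) * X.TC i := mul_nonneg (by positivity) (hX.TC_nn i hi01)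
      have a3 : 0 ≤ 16 * E9 * (∫ j in G, cm6bK G c Tp Ev i (c j) * X.TC j) :=
        mul_nonneg (by positivity) (setIntegral_nonneg H.hG (fun j hj => mul_nonneg (cm6b_K_nonneg _ _) (hX.TC_nn j (H.hG01 hj))))
      have a4 : 0 ≤ 16 * E9 * (∫ j in G, cm6bK G c Tm Ev i (c j) * X.TC j) :=
        mul_nonneg (by positivity) (setIntegral_nonneg H.hG (fun j hj => mul_nonneg (cm6b_K_nonneg _ _) (hX.TC_nn j (H.hG01 hj))))
      have a5 : 0 ≤ 32 * ε * X.D i ^ 2 := by positivity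
      have a6 : 0 ≤ 16 * ε * (∫ j in G, cm6bK G c Tp Ev i (c j) * X.D j ^ 2) :=
        mul_nonneg (by positivity) (setIntegral_nonneg H.hG (fun j _ => mul_nonneg (cm6b_K_nonneg _ _) (by positivity)))
      have a7 : 0 ≤ 16 * ε * (∫ j in G, cm6bK G c Tm Ev i (c j) * X.D j ^ 2) :=
        mul_nonneg (by positivity) (setIntegral_nonneg H.hG (fun j _ => mul_nonneg (cm6b_K_nonneg _ _) (by positivity)))
      have a8 : 0 ≤ 8 * q4 + 24 * η ^ 2 := by positivity
      linarith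
  -- integrate
  have hI := setIntegral_mono_on i4 (show Integrable _ (volume.restrict G) by fun_prop) H.hG hpt
  rw [cm6b_int10 _ _ _ _ _ _ i0 i1 i2 i3 i4 i5 i6 i7 i8] at hI
  -- the ten integrals
  have b0 : ∫ i in G, (G \ Ev).indicator (fun _ => (1 : ℝ)) i ≤ 2 * kb * th := by
    rw [setIntegral_indicator (H.hG.diff Sp.hEv), setIntegral_const, smul_eq_mul, mul_one]
    have : G ∩ (G \ Ev) = G \ Ev := inter_eq_right.2 sdiff_subset
    rw [this]
    exact hN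
  have bV : (volume.restrict G).real univ = (volume G).toReal := by
    simp [Measure.real]
  have b1 : ∫ i in G, X.TC i ≤ τC * (volume G).toReal := by
    have := H.hC (fun _ => 1) measurable_const (fun _ => zero_le_one) ⟨1, fun _ => le_rfl⟩
    simp only [one_mul, setIntegral_const, smul_eq_mul, mul_one] at this
    exact this
  have b2 := cm6b_ATC H Sp hlogp
  have b3 := cm6b_ATC H Sm hlogm
  have b5 := cm6b_AD H Sp hlogp
  have b6 := cm6b_AD H Sm hlogm
  have b7 := cm6b_Q H Sp hkb hlogp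
  have b8 := cm6b_Q H Sm hkb hlogm
  rw [bV] at hI
  generalize (∫ u in G, X.D u ^ 2) = ID at hI b5 b6 ⊢
  generalize (volume G).toReal = V at hI b1 b2 b3 ⊢
  have c1 := mul_le_mul_of_nonneg_left b1 (show 0 ≤ 1 + 32 * E9 by positivity)
  have c2 := mul_le_mul_of_nonneg_left b2 (show 0 ≤ 16 * E9 by positivity)
  have c3 := mul_le_mul_of_nonneg_left b3 (show 0 ≤ 16 * E9 by positivity)
  have c5 := mul_le_mul_of_nonneg_left b5 (show 0 ≤ 16 * ε by positivity)
  have c6 := mul_le_mul_of_nonneg_left b6 (show 0 ≤ 16 * ε by positivity)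
  have c7 := mul_le_mul_of_nonneg_left b7 (show 0 ≤ 16 * τW by have := H.hτW; positivity)
  have c8 := mul_le_mul_of_nonneg_left b8 (show 0 ≤ 16 * τW by have := H.hτW; positivity)
  have e2 : 32 * ε * ID + 16 * ε * (Λ * ID) + 16 * ε * (Λ * ID) = ID / 2 := by
    rw [show 32 * ε * ID + 16 * ε * (Λ * ID) + 16 * ε * (Λ * ID) = (32 * ε * (1 + Λ)) * ID by ring, e1]; ring
  rw [← hE9v]
  linarith

/-! ### the kernel bounds for a concrete side -/

section kernel

variable {X : CmNum} {G : Set ℝ} {c : ℝ → ℝ} {b : ℝ → ℕ} {η τC τW : ℝ} {T : Set (ℝ × ℝ)} {th : ℝ}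

theorem cm6b_bin_meas (H : Cm6bH X G c b η τC τW) (k : ℕ) : MeasurableSet {i | i ∈ G ∧ b (c i) = k} :=
  H.hG.inter ((H.hb.comp H.hc) (measurableSet_singleton k))

theorem cm6b_vol_ne_top (H : Cm6bH X G c b η τC τW) {A : Set ℝ} (hA : A ⊆ G) : volume A ≠ ⊤ :=
  (lt_of_le_of_lt (measure_mono (hA.trans H.hG01)) measure_Icc_lt_top).ne

/-- the part of the bin on the side `J i` of `i` is contained in the side of the label of `i` -/
theorem cm6b_rho_ge (H : Cm6bH X G c b η τC τW) (J : ℝ → Set ℝ)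
    (hJ : ∀ i ∈ G, ∀ j ∈ G, j ∈ J i → b (c j) = b (c i) → (c i, c j) ∈ T) {k : ℕ} {i : ℝ} (hi : i ∈ G) (hk : b (c i) = k) :
    (volume ({i | i ∈ G ∧ b (c i) = k} ∩ J i)).toReal ≤ cm6bRho G c T (c i) := by
  refine ENNReal.toReal_mono (cm6b_vol_ne_top H (cm6b_sec_sub _)) (measure_mono ?_)
  rintro j ⟨⟨hjG, hjk⟩, hjJ⟩
  exact ⟨hjG, hJ i hi j hjG hjJ (hjk.trans hk.symm)⟩

theorem cm6b_log_of (H : Cm6bH X G c b η τC τW) (hT : MeasurableSet T) (hth : 0 < th) (J : ℝ → Set ℝ)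
    (hJ : ∀ i ∈ G, ∀ j ∈ G, j ∈ J i → b (c j) = b (c i) → (c i, c j) ∈ T)
    (hJm : ∀ B : Set ℝ, volume B ≠ ⊤ → Measurable (fun i => (volume (B ∩ J i)).toReal))
    (hkl : ∀ B : Set ℝ, MeasurableSet B → volume B ≠ ⊤ → ∀ th : ℝ, 0 < th →
      ∫ i in B, 1 / max th (volume (B ∩ J i)).toReal ≤ 4 * (1 + Real.log (1 + (volume B).toReal / th))) (k : ℕ) :
    ∫ i in G, cm6bQk G c b T th k i ≤ 4 * (1 + Real.log (1 + (volume G).toReal / th)) := by
  obtain ⟨B, hB⟩ : ∃ B : Set ℝ, B = {i | i ∈ G ∧ b (c i) = k} := ⟨_, rfl⟩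
  have hBm : MeasurableSet B := hB ▸ cm6b_bin_meas H k
  have hBG : B ⊆ G := by rw [hB]; exact fun i hi => hi.1
  have hBf : volume B ≠ ⊤ := cm6b_vol_ne_top H hBG
  have h1 : ∫ i in G, cm6bQk G c b T th k i ≤ ∫ i in G, B.indicator (fun i => 1 / max th (volume (B ∩ J i)).toReal) i := by
    refine setIntegral_mono_on (cm6b_Qk_int H hT hth k) ?_ H.hG (fun i hi => ?_)
    · refine cm6b_int H.hG H.hG01 ((measurable_const.div (measurable_const.max (hJm B hBf))).indicator hBm) (1 / th) (fun i _ => ?_)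
      by_cases h : i ∈ B
      · rw [indicator_of_mem h, abs_of_nonneg (by positivity)]
        exact one_div_le_one_div_of_le hth (le_max_left _ _)
      · rw [indicator_of_notMem h]; simp; positivity
    · unfold cm6bQk
      by_cases h : i ∈ {i | b (c i) = k ∧ th ≤ cm6bRho G c T (c i)}
      · have hiB : i ∈ B := by rw [hB]; exact ⟨hi, h.1⟩
        rw [indicator_of_mem h, indicator_of_mem hiB]
        refine one_div_le_one_div_of_le (lt_of_lt_of_le hth (le_max_left _ _)) (max_le h.2 ?_)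
        rw [hB]
        exact cm6b_rho_ge H J hJ hi h.1
      · rw [indicator_of_notMem h]
        exact indicator_nonneg (fun _ _ => by positivity) i
  refine h1.trans ?_
  rw [setIntegral_indicator hBm, inter_eq_right.2 hBG]
  refine (hkl B hBm hBf th hth).trans ?_
  have hV : (volume B).toReal ≤ (volume G).toReal := ENNReal.toReal_mono (cm6b_vol_ne_top H subset_rfl) (measure_mono hBG)
  have h0 : (0 : ℝ) ≤ (volume B).toReal := ENNReal.toReal_nonneg
  have : Real.log (1 + (volume B).toReal / th) ≤ Real.log (1 + (volume G).toReal / th) := by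
    refine Real.log_le_log (by positivity) ?_
    gcongr
  linarith

theorem cm6b_small_of (H : Cm6bH X G c b η τC τW) (hth : 0 < th) (J : ℝ → Set ℝ)
    (hJ : ∀ i ∈ G, ∀ j ∈ G, j ∈ J i → b (c j) = b (c i) → (c i, c j) ∈ T)
    (hks : ∀ B : Set ℝ, MeasurableSet B → volume B ≠ ⊤ → ∀ th : ℝ, 0 < th →
      volume {i ∈ B | (volume (B ∩ J i)).toReal < th} ≤ ENNReal.ofReal th) (k : ℕ) :
    volume {i | i ∈ G ∧ b (c i) = k ∧ cm6bRho G c T (c i) < th} ≤ ENNReal.ofReal th := by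
  refine le_trans (measure_mono ?_) (hks {i | i ∈ G ∧ b (c i) = k} (cm6b_bin_meas H k) (cm6b_vol_ne_top H (fun i hi => hi.1)) th hth)
  rintro i ⟨hiG, hik, hρ⟩
  exact ⟨⟨hiG, hik⟩, lt_of_le_of_lt (cm6b_rho_ge H J hJ hiG hik) hρ⟩

end kernel

/-- the right side: same bin, larger label -/
def cm6bTp (b : ℝ → ℕ) : Set (ℝ × ℝ) := {p | b p.2 = b p.1 ∧ p.1 ≤ p.2}
/-- the left side: same bin, smaller label -/
def cm6bTm (b : ℝ → ℕ) : Set (ℝ × ℝ) := {p | b p.2 = b p.1 ∧ p.2 ≤ p.1}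

theorem cm6b_Tp_meas {b : ℝ → ℕ} (hb : Measurable b) : MeasurableSet (cm6bTp b) :=
  (measurableSet_eq_fun (hb.comp measurable_snd) (hb.comp measurable_fst)).inter (measurableSet_le measurable_fst measurable_snd)

theorem cm6b_Tm_meas {b : ℝ → ℕ} (hb : Measurable b) : MeasurableSet (cm6bTm b) :=
  (measurableSet_eq_fun (hb.comp measurable_snd) (hb.comp measurable_fst)).inter (measurableSet_le measurable_snd measurable_fst)

theorem cm6b_Ici_meas (B : Set ℝ) (hB : volume B ≠ ⊤) : Measurable (fun i => (volume (B ∩ Ici i)).toReal) := by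
  refine Antitone.measurable (fun i i' h => ?_)
  exact ENNReal.toReal_mono (ne_top_of_le_ne_top hB (measure_mono inter_subset_left))
    (measure_mono (inter_subset_inter_right _ (Ici_subset_Ici.2 h)))

theorem cm6b_Iic_meas (B : Set ℝ) (hB : volume B ≠ ⊤) : Measurable (fun i => (volume (B ∩ Iic i)).toReal) := by
  refine Monotone.measurable (fun i i' h => ?_)
  exact ENNReal.toReal_mono (ne_top_of_le_ne_top hB (measure_mono inter_subset_left))
    (measure_mono (inter_subset_inter_right _ (Iic_subset_Iic.2 h)))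

/-- **Lemma 3.11 (two-sided level averaging), (21), abstract form**, from the four kernel leaves -/
theorem cm6b_br_abs
    (hks : ∀ B : Set ℝ, MeasurableSet B → volume B ≠ ⊤ → ∀ th : ℝ, 0 < th →
      volume {i ∈ B | (volume (B ∩ Ici i)).toReal < th} ≤ ENNReal.ofReal th)
    (hks' : ∀ B : Set ℝ, MeasurableSet B → volume B ≠ ⊤ → ∀ th : ℝ, 0 < th →
      volume {i ∈ B | (volume (B ∩ Iic i)).toReal < th} ≤ ENNReal.ofReal th)
    (hkl : ∀ B : Set ℝ, MeasurableSet B → volume B ≠ ⊤ → ∀ th : ℝ, 0 < th →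
      ∫ i in B, 1 / max th (volume (B ∩ Ici i)).toReal ≤ 4 * (1 + Real.log (1 + (volume B).toReal / th)))
    (hkl' : ∀ B : Set ℝ, MeasurableSet B → volume B ≠ ⊤ → ∀ th : ℝ, 0 < th →
      ∫ i in B, 1 / max th (volume (B ∩ Iic i)).toReal ≤ 4 * (1 + Real.log (1 + (volume B).toReal / th)))
    (X : CmNum) (hX : X.Ok) (G : Set ℝ) (hG : MeasurableSet G) (hG01 : G ⊆ Icc 0 1)
    (c : ℝ → ℝ) (hc : Measurable c) (hcm : MonotoneOn c G)
    (b : ℝ → ℕ) (hb : Measurable b) (kb : ℕ) (hkb : ∀ i ∈ G, b (c i) < kb)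
    (η q4 τC τW th : ℝ) (hη : 0 ≤ η) (hq4 : 0 ≤ q4) (hτC : 0 ≤ τC) (hτW : 0 ≤ τW) (hth : 0 < th)
    (hS : ∀ i ∈ G, ∀ j ∈ G, b (c i) = b (c j) → |X.S j - X.S i| ≤ η)
    (hQ : ∀ i ∈ G, ∀ j ∈ G, c i = c j → X.Q4 i j ≤ q4)
    (hC : ∀ g : ℝ → ℝ, Measurable g → (∀ x, 0 ≤ g x) → (∃ B : ℝ, ∀ x, g x ≤ B) →
      ∫ j in G, g (c j) * X.TC j ≤ τC * ∫ j in G, g (c j))
    (hW : ∀ g : ℝ → ℝ, Measurable g → (∀ x, 0 ≤ g x) → (∃ B : ℝ, ∀ x, g x ≤ B) →
      ∫ j in G, g (c j) * X.TW j ≤ τW * ∫ j in G, g (c j)) :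
    ∫ u in G, X.D u ^ 2 ≤ cmBrR (volume G).toReal η q4 τC τW th kb := by
  have H : Cm6bH X G c b η τC τW := ⟨hX, hG, hG01, hc, hb, hη, hτC, hτW, hS, hC, hW⟩
  have hTp := cm6b_Tp_meas hb
  have hTm := cm6b_Tm_meas hb
  have hρp := (cm6b_rho_meas hG hc hTp).comp hc
  have hρm := (cm6b_rho_meas hG hc hTm).comp hc
  obtain ⟨Ev, hEvd⟩ : ∃ Ev : Set ℝ, Ev = {i | i ∈ G ∧ th ≤ cm6bRho G c (cm6bTp b) (c i) ∧ th ≤ cm6bRho G c (cm6bTm b) (c i)} := ⟨_, rfl⟩
  have hEvm : MeasurableSet Ev := by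
    rw [hEvd]
    exact hG.inter ((measurableSet_le measurable_const hρp).inter (measurableSet_le measurable_const hρm))
  have hEvG : Ev ⊆ G := by rw [hEvd]; exact fun i hi => hi.1
  have Sp : Cm6bS G c b (cm6bTp b) Ev th := ⟨hTp, fun x y h => h.1, hEvm, hEvG, hth, fun i hi => by rw [hEvd] at hi; exact hi.2.1⟩
  have Sm : Cm6bS G c b (cm6bTm b) Ev th := ⟨hTm, fun x y h => h.1, hEvm, hEvG, hth, fun i hi => by rw [hEvd] at hi; exact hi.2.2⟩
  have hJp : ∀ i ∈ G, ∀ j ∈ G, j ∈ Ici i → b (c j) = b (c i) → (c i, c j) ∈ cm6bTp b :=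
    fun i hi j hj hij hb' => ⟨hb', hcm hi hj hij⟩
  have hJm : ∀ i ∈ G, ∀ j ∈ G, j ∈ Iic i → b (c j) = b (c i) → (c i, c j) ∈ cm6bTm b :=
    fun i hi j hj hij hb' => ⟨hb', hcm hj hi hij⟩
  have hlogp := cm6b_log_of H hTp hth Ici hJp cm6b_Ici_meas hkl
  have hlogm := cm6b_log_of H hTm hth Iic hJm cm6b_Iic_meas hkl'
  have hsp := cm6b_small_of H hth Ici hJp hks
  have hsm := cm6b_small_of H hth Iic hJm hks'
  have hN : (volume (G \ Ev)).toReal ≤ 2 * kb * th := by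
    have hsub : G \ Ev ⊆ ⋃ k ∈ Finset.range kb, ({i | i ∈ G ∧ b (c i) = k ∧ cm6bRho G c (cm6bTp b) (c i) < th}
        ∪ {i | i ∈ G ∧ b (c i) = k ∧ cm6bRho G c (cm6bTm b) (c i) < th}) := by
      rintro i ⟨hiG, hiE⟩
      simp only [mem_iUnion, Finset.mem_range, exists_prop]
      refine ⟨b (c i), hkb i hiG, ?_⟩
      by_cases h1 : th ≤ cm6bRho G c (cm6bTp b) (c i)
      · right
        refine ⟨hiG, rfl, ?_⟩
        by_contra h2
        exact hiE (by rw [hEvd]; exact ⟨hiG, h1, not_lt.1 h2⟩)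
      · left
        exact ⟨hiG, rfl, not_le.1 h1⟩
    have h1 : volume (G \ Ev) ≤ ∑ _k ∈ Finset.range kb, (ENNReal.ofReal th + ENNReal.ofReal th) := by
      refine (measure_mono hsub).trans ((measure_biUnion_finset_le _ _).trans (Finset.sum_le_sum (fun k _ => ?_)))
      exact (measure_union_le _ _).trans (add_le_add (hsp k) (hsm k))
    have h2 : ∑ _k ∈ Finset.range kb, (ENNReal.ofReal th + ENNReal.ofReal th) = ENNReal.ofReal (2 * kb * th) := by
      rw [Finset.sum_const, Finset.card_range, ← ENNReal.ofReal_add hth.le hth.le, nsmul_eq_mul,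
        ← ENNReal.ofReal_natCast, ← ENNReal.ofReal_mul (by positivity)]
      congr 1
      ring
    rw [h2] at h1
    exact ENNReal.toReal_le_of_le_ofReal (by positivity) h1
  have hfinal := cm6b_final H Sp Sm hq4 hkb
    (fun i hi j hj hT hji => hQ i (hEvG hi) j hj (le_antisymm hT.2 (hcm hj (hEvG hi) hji.le)))
    (fun i hi j hj hT hij => hQ i (hEvG hi) j hj (le_antisymm (hcm (hEvG hi) hj hij.le) hT.2))
    hlogp hlogm hN
  refine hfinal.trans ?_
  unfold cmBrR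
  have hV0 : (0 : ℝ) ≤ (volume G).toReal := ENNReal.toReal_nonneg
  generalize (volume G).toReal = V at hV0 ⊢
  have hL1 : 1 ≤ 1 + Real.log (1 + V / th) := by
    have : 0 ≤ Real.log (1 + V / th) := Real.log_nonneg (by have : 0 ≤ V / th := by positivity
                                                            linarith)
    linarith
  generalize 1 + Real.log (1 + V / th) = L at hL1 ⊢
  have hk0 : (0 : ℝ) ≤ kb := Nat.cast_nonneg _
  have p1 : 2 + 64 * (1 + 576 * (1 + 4 * L)) * (1 + 4 * L) ≤ 1000000 * L ^ 2 := by nlinarith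
  have p2 : (2 + 64 * (1 + 576 * (1 + 4 * L)) * (1 + 4 * L)) * τC * V ≤ 1000000 * L ^ 2 * τC * V := by
    have := mul_le_mul_of_nonneg_right p1 (mul_nonneg hτC hV0)
    linarith
  have p3 : 0 ≤ kb * th := by positivity
  have p4 : 0 ≤ q4 * V := by positivity
  have p5 : 0 ≤ η ^ 2 * V := by positivity
  have p6 : 0 ≤ kb * (L * τW) := by positivity
  linarith

end

end Claimed.Agent.R286
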