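import Claimed.Agent.R286.Cmp.P6Defs
import Claimed.Agent.R286.Cmp.P6Br

/-!
# Row 286 (S0533), PE Section 3.4 (package P06): CONTRACT 1 = THE ABSTRACT LAYER      (owner helper294; adversary helper290)

Everything here is deterministic real analysis; it is used by PE (20), (21), (18), (19), Prop. 3.9 AND by LL 07 (C10) ("the whole-cap trace and bracket estimates PE (20)-(21)").
SIMPLIFICATION OF THE PAPER'S SAMPLING CONSTRUCTION (l.872-900): the two sides of an evaluation point `i` are made of COMPLETE units,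
   `R_i = {j ∈ G : bin j = bin i, lab i ≤ lab j}`,   `L_i = {j ∈ G : bin j = bin i, lab j ≤ lab i}`        (the unit of `i` belongs to both sides),
with the plain weights `1_{R_i}/|R_i|`.  No effective coordinate, no partial units: the kernel is unit-measurable in both variables, `|R_i| ≥ |bin ∩ [i,∞)|`, so both marginals are logarithmic.
Samples in the unit of `i` may have the reverse order: they pay `Q4` (as in the paper, l.934-948).

LEAVES (each independent of the others unless said):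
* `cm_kernel_small`, `cm_kernel_small'`, `cm_kernel_log`, `cm_kernel_log'`      the reciprocal side length
* `cm_br1`            ONE unit, arbitrary bounded density `ϖ` (broad cap slices: `ϖ = 1`;  radius form of (19): `ϖ = 1/α'`, units = height bins)
* `cm_br_abs`         Lemma 3.11 = (21), abstract (uses the kernel leaves)
* `cm_ut_cap_abs`     (20) on one cap, abstract
* `cm_density_le`     Lebesgue density: two-point bounds on a set give the a.e. pointwise bound
-/

set_option autoImplicit false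

namespace Claimed.Agent.R286

open MeasureTheory Set

noncomputable section

/-- bounded below version -/
theorem cm_ks_bdd (A : Set ℝ) (t : ENNReal) (hA : ∀ i ∈ A, volume (A ∩ Ici i) ≤ t) (hb : BddBelow A) :
    volume A ≤ t := by
  rcases A.eq_empty_or_nonempty with rfl | hne
  · simp
  apply ENNReal.le_of_forall_pos_le_add
  intro ε hε _
  have hε' : (0 : ℝ) < ε := by exact_mod_cast hε
  obtain ⟨i, hiA, hi⟩ := exists_lt_of_csInf_lt hne (lt_add_of_pos_right (sInf A) hε')
  have hsub : A ⊆ Ico (sInf A) i ∪ (A ∩ Ici i) := by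
    intro x hx
    by_cases hxi : x < i
    · exact Or.inl ⟨csInf_le hb hx, hxi⟩
    · exact Or.inr ⟨hx, not_lt.1 hxi⟩
  calc volume A ≤ volume (Ico (sInf A) i ∪ (A ∩ Ici i)) := measure_mono hsub
    _ ≤ volume (Ico (sInf A) i) + volume (A ∩ Ici i) := measure_union_le _ _
    _ ≤ ε + t := by
        gcongr
        · rw [Real.volume_Ico]
          rw [ENNReal.ofReal_le_iff_le_toReal (by simp)]
          simp only [ENNReal.coe_toReal]
          linarith
        · exact hA i hiA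
    _ = t + ε := add_comm _ _

theorem cm_ks (A : Set ℝ) (t : ENNReal) (hA : ∀ i ∈ A, volume (A ∩ Ici i) ≤ t) : volume A ≤ t := by
  have hU : A = ⋃ n : ℕ, A ∩ Ici (-(n : ℝ)) := by
    ext x
    simp only [mem_iUnion, mem_inter_iff, mem_Ici, exists_and_left, iff_self_and]
    intro _
    obtain ⟨n, hn⟩ := exists_nat_ge (-x)
    exact ⟨n, by linarith⟩
  have hmono : Monotone fun n : ℕ => A ∩ Ici (-(n : ℝ)) := by
    intro n m hnm x hx
    have : (n : ℝ) ≤ m := by exact_mod_cast hnm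
    exact ⟨hx.1, by have := hx.2; simp only [mem_Ici] at this ⊢; linarith⟩
  rw [hU, hmono.measure_iUnion]
  apply iSup_le
  intro n
  apply cm_ks_bdd
  · intro i hi
    refine le_trans (measure_mono ?_) (hA i hi.1)
    intro x hx
    exact ⟨hx.1.1, hx.2⟩
  · exact ⟨-(n : ℝ), fun x hx => hx.2⟩

theorem cm_ks' (A : Set ℝ) (t : ENNReal) (hA : ∀ i ∈ A, volume (A ∩ Iic i) ≤ t) : volume A ≤ t := by
  rw [← Measure.measure_neg (μ := (volume : Measure ℝ)) A]
  apply cm_ks
  intro i hi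
  have : -A ∩ Ici i = -(A ∩ Iic (-i)) := by
    ext x
    simp only [mem_inter_iff, mem_neg, mem_Ici, mem_Iic]
    constructor
    · rintro ⟨h1, h2⟩; exact ⟨h1, by linarith⟩
    · rintro ⟨h1, h2⟩; exact ⟨h1, by linarith⟩
  rw [this, Measure.measure_neg]
  exact hA (-i) hi

/-- the part of `B` whose right remainder is shorter than `th` has measure at most `th` -/
theorem cm_kernel_small (B : Set ℝ) (hB : MeasurableSet B) (hfin : volume B ≠ ⊤) (th : ℝ) (hth : 0 < th) :
    volume {i ∈ B | (volume (B ∩ Ici i)).toReal < th} ≤ ENNReal.ofReal th := by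
  apply cm_ks
  intro i hi
  have h1 : volume (B ∩ Ici i) ≠ ⊤ := ne_top_of_le_ne_top hfin (measure_mono inter_subset_left)
  have h2 : {i ∈ B | (volume (B ∩ Ici i)).toReal < th} ∩ Ici i ⊆ B ∩ Ici i := fun x hx => ⟨hx.1.1, hx.2⟩
  refine le_trans (measure_mono h2) ?_
  rw [ENNReal.le_ofReal_iff_toReal_le h1 hth.le]
  exact hi.2.le

theorem cm_kernel_small' (B : Set ℝ) (hB : MeasurableSet B) (hfin : volume B ≠ ⊤) (th : ℝ) (hth : 0 < th) :
    volume {i ∈ B | (volume (B ∩ Iic i)).toReal < th} ≤ ENNReal.ofReal th := by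
  apply cm_ks'
  intro i hi
  have h1 : volume (B ∩ Iic i) ≠ ⊤ := ne_top_of_le_ne_top hfin (measure_mono inter_subset_left)
  have h2 : {i ∈ B | (volume (B ∩ Iic i)).toReal < th} ∩ Iic i ⊆ B ∩ Iic i := fun x hx => ⟨hx.1.1, hx.2⟩
  refine le_trans (measure_mono h2) ?_
  rw [ENNReal.le_ofReal_iff_toReal_le h1 hth.le]
  exact hi.2.le

/-- pointwise dyadic bound -/
theorem cm_kl_pt (th : ℝ) (hth : 0 < th) (K : ℕ) (t : ℝ) (ht : t < 2 ^ K * th) :
    1 / max th t ≤ ∑ k ∈ Finset.range (K + 1), Set.indicator {s : ℝ | s < 2 ^ k * th} (fun _ => 2 / (2 ^ k * th)) t := by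
  classical
  have hex : ∃ j, t < 2 ^ j * th := ⟨K, ht⟩
  set j := Nat.find hex with hj
  have hjt : t < 2 ^ j * th := Nat.find_spec hex
  have hjK : j ≤ K := Nat.find_min' hex ht
  have hterm : 1 / max th t ≤ Set.indicator {s : ℝ | s < 2 ^ j * th} (fun _ => 2 / (2 ^ j * th)) t := by
    rw [Set.indicator_of_mem (show t ∈ {s : ℝ | s < 2 ^ j * th} from hjt)]
    have hm : 0 < max th t := lt_max_of_lt_left hth
    rw [div_le_div_iff₀ hm (by positivity)]
    rcases Nat.eq_zero_or_pos j with h0 | hpos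
    · rw [h0]; simp only [pow_zero, one_mul]
      have := le_max_left th t
      linarith
    · have hmin : ¬ t < 2 ^ (j - 1) * th := Nat.find_min hex (by omega)
      have h2 : (2 : ℝ) ^ j = 2 * 2 ^ (j - 1) := by
        conv_lhs => rw [show j = (j - 1) + 1 by omega]
        rw [pow_succ]; ring
      rw [h2]
      have := le_max_right th t
      push_neg at hmin
      nlinarith
  refine hterm.trans ?_
  apply Finset.single_le_sum (f := fun k => Set.indicator {s : ℝ | s < 2 ^ k * th} (fun _ => 2 / (2 ^ k * th)) t)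
  · intro k _
    apply Set.indicator_nonneg
    intro _ _
    positivity
  · exact Finset.mem_range.2 (by omega)

/-- the abstract form of the logarithmic bound -/
theorem cm_kl_aux (B : Set ℝ) (hB : MeasurableSet B) (hfin : volume B ≠ ⊤) (φ : ℝ → ℝ) (hφm : Measurable φ)
    (hφV : ∀ i, φ i ≤ (volume B).toReal)
    (hsmall : ∀ T : ℝ, 0 < T → volume {i ∈ B | φ i < T} ≤ ENNReal.ofReal T) (th : ℝ) (hth : 0 < th) :
    ∫ i in B, 1 / max th (φ i) ≤ 4 * (1 + Real.log (1 + (volume B).toReal / th)) := by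
  set V := (volume B).toReal with hV
  have hV0 : 0 ≤ V := ENNReal.toReal_nonneg
  haveI : IsFiniteMeasure (volume.restrict B) := ⟨by rw [Measure.restrict_apply_univ]; exact lt_top_iff_ne_top.2 hfin⟩
  set y := 1 + V / th with hy
  have hy1 : 1 ≤ y := by rw [hy]; have : 0 ≤ V / th := by positivity
                         linarith
  set K := ⌈Real.logb 2 y⌉₊ with hK
  have hK1 : y ≤ 2 ^ K := by
    have h1 : Real.logb 2 y ≤ K := Nat.le_ceil _
    have h2 : y = (2 : ℝ) ^ (Real.logb 2 y) := by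
      rw [Real.rpow_logb (by norm_num) (by norm_num) (by linarith)]
    rw [h2, ← Real.rpow_natCast]
    exact Real.rpow_le_rpow_of_exponent_le (by norm_num) h1
  have hK2 : (K : ℝ) ≤ Real.logb 2 y + 1 := (Nat.ceil_lt_add_one (Real.logb_nonneg (by norm_num) hy1)).le
  have hVK : V < 2 ^ K * th := by
    have : y * th ≤ 2 ^ K * th := mul_le_mul_of_nonneg_right hK1 hth.le
    have e : y * th = th + V := by rw [hy]; field_simp
    linarith
  have hmS : ∀ k : ℕ, MeasurableSet {i : ℝ | φ i < 2 ^ k * th} := fun k => measurableSet_lt hφm measurable_const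
  have hpt : ∀ i, 1 / max th (φ i) ≤ ∑ k ∈ Finset.range (K + 1), Set.indicator {i : ℝ | φ i < 2 ^ k * th} (fun _ => 2 / (2 ^ k * th)) i := by
    intro i
    have := cm_kl_pt th hth K (φ i) (lt_of_le_of_lt (hφV i) hVK)
    refine this.trans (le_of_eq ?_)
    apply Finset.sum_congr rfl
    intro k _
    simp only [Set.indicator, mem_setOf_eq]
  have hint1 : ∀ k ∈ Finset.range (K + 1), Integrable (Set.indicator {i : ℝ | φ i < 2 ^ k * th} (fun _ => 2 / (2 ^ k * th))) (volume.restrict B) := by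
    intro k _
    exact (integrable_const _).indicator (hmS k)
  have hint0 : Integrable (fun i => 1 / max th (φ i)) (volume.restrict B) := by
    apply Integrable.mono' (integrable_const (1 / th))
    · exact (measurable_const.div (measurable_const.max hφm)).aestronglyMeasurable
    · refine Filter.Eventually.of_forall (fun i => ?_)
      have hm : 0 < max th (φ i) := lt_max_of_lt_left hth
      rw [Real.norm_of_nonneg (by positivity)]
      exact one_div_le_one_div_of_le hth (le_max_left _ _)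
  have hstep : ∫ i in B, 1 / max th (φ i) ≤ ∑ k ∈ Finset.range (K + 1), (2 : ℝ) := by
    calc ∫ i in B, 1 / max th (φ i) ≤ ∫ i in B, ∑ k ∈ Finset.range (K + 1), Set.indicator {i : ℝ | φ i < 2 ^ k * th} (fun _ => 2 / (2 ^ k * th)) i :=
          integral_mono hint0 (integrable_finset_sum _ hint1) hpt
      _ = ∑ k ∈ Finset.range (K + 1), ∫ i in B, Set.indicator {i : ℝ | φ i < 2 ^ k * th} (fun _ => 2 / (2 ^ k * th)) i :=
          integral_finset_sum _ hint1
      _ ≤ ∑ k ∈ Finset.range (K + 1), (2 : ℝ) := by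
          apply Finset.sum_le_sum
          intro k _
          rw [integral_indicator_const _ (hmS k), smul_eq_mul]
          have hT : (0 : ℝ) < 2 ^ k * th := by positivity
          have h1 : (volume.restrict B).real {i : ℝ | φ i < 2 ^ k * th} ≤ 2 ^ k * th := by
            unfold Measure.real
            rw [Measure.restrict_apply (hmS k)]
            have h2 : {i : ℝ | φ i < 2 ^ k * th} ∩ B = {i ∈ B | φ i < 2 ^ k * th} := by
              ext x; simp only [mem_inter_iff, mem_setOf_eq]; tauto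
            rw [h2]
            exact ENNReal.toReal_le_of_le_ofReal hT.le (hsmall _ hT)
          calc _ ≤ (2 ^ k * th) * (2 / (2 ^ k * th)) := mul_le_mul_of_nonneg_right h1 (by positivity)
            _ = 2 := by field_simp
  refine hstep.trans ?_
  rw [Finset.sum_const, Finset.card_range, nsmul_eq_mul]
  push_cast
  have hlog : Real.logb 2 y ≤ 2 * Real.log y := by
    unfold Real.logb
    rw [div_le_iff₀ (Real.log_pos (by norm_num))]
    have h2 : (1 / 2 : ℝ) ≤ Real.log 2 := by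
      have := Real.log_two_gt_d9
      linarith
    have h3 : 0 ≤ Real.log y := Real.log_nonneg hy1
    nlinarith
  nlinarith

/-- the integral of the reciprocal right remainder, cut at `th`, is logarithmic (true value: `1 + log(V/th)`) -/
theorem cm_kernel_log (B : Set ℝ) (hB : MeasurableSet B) (hfin : volume B ≠ ⊤) (th : ℝ) (hth : 0 < th) :
    ∫ i in B, 1 / max th (volume (B ∩ Ici i)).toReal ≤ 4 * (1 + Real.log (1 + (volume B).toReal / th)) := by
  apply cm_kl_aux B hB hfin (fun i => (volume (B ∩ Ici i)).toReal) _ _ _ th hth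
  · apply Antitone.measurable
    intro i j hij
    apply ENNReal.toReal_mono (ne_top_of_le_ne_top hfin (measure_mono inter_subset_left))
    exact measure_mono (inter_subset_inter_right _ (Ici_subset_Ici.2 hij))
  · intro i
    exact ENNReal.toReal_mono hfin (measure_mono inter_subset_left)
  · intro T hT
    exact cm_kernel_small B hB hfin T hT

theorem cm_kernel_log' (B : Set ℝ) (hB : MeasurableSet B) (hfin : volume B ≠ ⊤) (th : ℝ) (hth : 0 < th) :
    ∫ i in B, 1 / max th (volume (B ∩ Iic i)).toReal ≤ 4 * (1 + Real.log (1 + (volume B).toReal / th)) := by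
  apply cm_kl_aux B hB hfin (fun i => (volume (B ∩ Iic i)).toReal) _ _ _ th hth
  · apply Monotone.measurable
    intro i j hij
    apply ENNReal.toReal_mono (ne_top_of_le_ne_top hfin (measure_mono inter_subset_left))
    exact measure_mono (inter_subset_inter_right _ (Iic_subset_Iic.2 hij))
  · intro i
    exact ENNReal.toReal_mono hfin (measure_mono inter_subset_left)
  · intro T hT
    exact cm_kernel_small' B hB hfin T hT

/-- Young inequality of the one-unit bracket -/
theorem cm_br1_young (ti tj s η Di Dj : ℝ) (hti : 0 ≤ ti) (htj : 0 ≤ tj) (hs : s ≤ η) :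
    (ti + tj) * (s + 3 * (Di + Dj)) ≤ η ^ 2 / 2 + 1153 * (ti ^ 2 + tj ^ 2) + (1 / 128) * (Di ^ 2 + Dj ^ 2) := by
  have h1 : (ti + tj) * s ≤ (ti + tj) * η := mul_le_mul_of_nonneg_left hs (by linarith)
  nlinarith [sq_nonneg (24 * (ti + tj) - (Di + Dj) / 16), sq_nonneg (ti - tj), sq_nonneg (Di - Dj), sq_nonneg (η - (ti + tj))]

/-- **ONE UNIT** ("the unordered comparison", l.1004): both sides of every point = the whole set `G`, with the density `ϖ`.
Proof: `master` with `wp = wm = 1_G ϖ/ν(G)`; Young with `ε = 1/128`; integrate `dν(i)`; absorb `∫ ϖ D²` (finite). -/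
theorem cm_br1 (X : CmNum) (hX : X.Ok) (G : Set ℝ) (hG : MeasurableSet G) (hG01 : G ⊆ Icc 0 1)
    (ϖ : ℝ → ℝ) (hϖm : Measurable ϖ) (hϖ0 : ∀ u, 0 ≤ ϖ u) (hϖb : ∃ B : ℝ, ∀ u, ϖ u ≤ B)
    (hpos : 0 < ∫ u in G, ϖ u) (η q4 : ℝ) (hη : 0 ≤ η) (hq4 : 0 ≤ q4)
    (hS : ∀ i ∈ G, ∀ j ∈ G, |X.S j - X.S i| ≤ η) (hQ : ∀ i ∈ G, ∀ j ∈ G, X.Q4 i j ≤ q4) :
    ∫ u in G, ϖ u * X.D u ^ 2 ≤ 200000 * ((∫ u in G, ϖ u) * (η ^ 2 + q4) + (∫ u in G, ϖ u * X.TC u)
      + (∫ u in G, ϖ u ^ 2 * X.TW u) / (∫ u in G, ϖ u)) := by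
  obtain ⟨Bd, hBd⟩ := hϖb
  have hBd0 : 0 ≤ Bd := (hϖ0 0).trans (hBd 0)
  have hfinG : volume G < ⊤ := lt_of_le_of_lt (measure_mono hG01) (by simp)
  have : IsFiniteMeasure (volume.restrict G) := ⟨by rw [Measure.restrict_apply_univ]; exact hfinG⟩
  have hI : ∀ (F : ℝ → ℝ), Measurable F → ∀ C : ℝ, (∀ u ∈ G, |F u| ≤ C) → Integrable F (volume.restrict G) := by
    intro F hF C hC
    apply Integrable.mono' (integrable_const C) hF.aestronglyMeasurable
    rw [ae_restrict_iff' hG]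
    exact Filter.Eventually.of_forall hC
  set Z := ∫ u in G, ϖ u with hZ
  set IT := ∫ u in G, ϖ u * X.TC u with hIT
  set ID := ∫ u in G, ϖ u * X.D u ^ 2 with hID
  set IW := ∫ u in G, ϖ u ^ 2 * X.TW u with hIW
  have iϖ : Integrable ϖ (volume.restrict G) := hI ϖ hϖm Bd (fun u _ => by rw [abs_of_nonneg (hϖ0 u)]; exact hBd u)
  have iT : Integrable (fun u => ϖ u * X.TC u) (volume.restrict G) := by
    apply hI _ (hϖm.mul hX.TC_meas) Bd
    intro u hu
    have h0 := hX.TC_nn u (hG01 hu)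
    have h1 := hX.TC_le u (hG01 hu)
    show |ϖ u * X.TC u| ≤ Bd
    rw [abs_of_nonneg (mul_nonneg (hϖ0 u) h0)]
    calc ϖ u * X.TC u ≤ Bd * 1 := mul_le_mul (hBd u) h1 h0 hBd0
      _ = Bd := mul_one _
  have iD : Integrable (fun u => ϖ u * X.D u ^ 2) (volume.restrict G) := by
    apply hI _ (hϖm.mul (hX.D_meas.pow_const 2)) Bd
    intro u hu
    have h0 := hX.D_nn u (hG01 hu)
    have h1 := hX.D_le u (hG01 hu)
    have h2 : X.D u ^ 2 ≤ 1 := by nlinarith
    show |ϖ u * X.D u ^ 2| ≤ Bd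
    rw [abs_of_nonneg (mul_nonneg (hϖ0 u) (sq_nonneg _))]
    calc ϖ u * X.D u ^ 2 ≤ Bd * 1 := mul_le_mul (hBd u) h2 (sq_nonneg _) hBd0
      _ = Bd := mul_one _
  have hlin : ∀ A Bc Cc : ℝ, Integrable (fun j => A * ϖ j + Bc * (ϖ j * X.TC j) + Cc * (ϖ j * X.D j ^ 2)) (volume.restrict G) ∧
      ∫ j in G, (A * ϖ j + Bc * (ϖ j * X.TC j) + Cc * (ϖ j * X.D j ^ 2)) = A * Z + Bc * IT + Cc * ID := by
    intro A Bc Cc
    have j1 : Integrable (fun j => A * ϖ j) (volume.restrict G) := iϖ.const_mul A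
    have j2 : Integrable (fun j => Bc * (ϖ j * X.TC j)) (volume.restrict G) := iT.const_mul Bc
    have j3 : Integrable (fun j => Cc * (ϖ j * X.D j ^ 2)) (volume.restrict G) := iD.const_mul Cc
    have j12 : Integrable (fun j => A * ϖ j + Bc * (ϖ j * X.TC j)) (volume.restrict G) := j1.add j2
    refine ⟨j12.add j3, ?_⟩
    rw [integral_add j12 j3, integral_add j1 j2, integral_const_mul, integral_const_mul, integral_const_mul]
  have hIT0 : 0 ≤ IT := setIntegral_nonneg hG (fun u hu => mul_nonneg (hϖ0 u) (hX.TC_nn u (hG01 hu)))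
  have hIW0 : 0 ≤ IW := setIntegral_nonneg hG (fun u hu => mul_nonneg (sq_nonneg _) (hX.TW_nn u (hG01 hu)))
  -- the weight
  set w : ℝ → ℝ := G.indicator (fun j => ϖ j / Z) with hw
  have hwG : ∀ j, w j ≠ 0 → j ∈ G := by
    intro j hj
    by_contra hn
    exact hj (indicator_of_notMem hn _)
  have hwF : ∀ F : ℝ → ℝ, (fun j => w j * F j) = G.indicator (fun j => ϖ j / Z * F j) := by
    intro F
    ext j
    by_cases hj : j ∈ G
    · simp [hw, indicator_of_mem hj]
    · simp [hw, indicator_of_notMem hj]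
  have hwint : ∀ F : ℝ → ℝ, ∫ j, w j * F j = ∫ j in G, ϖ j / Z * F j := by
    intro F
    rw [hwF F, integral_indicator hG]
  have hone : ∫ j in G, ϖ j / Z = 1 := by
    rw [integral_div, ← hZ, div_self hpos.ne']
  have hW : CmWt w := by
    refine ⟨(hϖm.div_const Z).indicator hG, fun j => indicator_nonneg (fun u _ => div_nonneg (hϖ0 u) hpos.le) j, ⟨Bd / Z, fun j => ?_⟩, fun j hj => ?_, ?_⟩
    · by_cases hj : j ∈ G
      · rw [hw, indicator_of_mem hj]; exact div_le_div_of_nonneg_right (hBd j) hpos.le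
      · rw [hw, indicator_of_notMem hj]; exact div_nonneg hBd0 hpos.le
    · exact indicator_of_notMem (fun h => hj (hG01 h)) _
    · rw [hw, integral_indicator hG]; exact hone
  -- the side
  have hside : ∀ i ∈ G, X.side i w ≤ (3 / 4) * η ^ 2 + 1153 * (X.TC i + IT / Z) + (1 / 128) * (X.D i ^ 2 + ID / Z) + IW / Z ^ 2 := by
    intro i hi
    unfold CmNum.side
    have e1 : ∫ j, w j * ((Real.sqrt (X.TC i) + Real.sqrt (X.TC j)) * (|X.S j - X.S i| + 3 * (X.D i + X.D j)))
        ≤ η ^ 2 / 2 + 1153 * (X.TC i + IT / Z) + (1 / 128) * (X.D i ^ 2 + ID / Z) := by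
      rw [hwint]
      have hub := (hlin ((η ^ 2 / 2 + 1153 * X.TC i + (1 / 128) * X.D i ^ 2) / Z) (1153 / Z) ((1 / 128) / Z)).1
      calc ∫ j in G, ϖ j / Z * ((Real.sqrt (X.TC i) + Real.sqrt (X.TC j)) * (|X.S j - X.S i| + 3 * (X.D i + X.D j)))
          ≤ ∫ j in G, ((η ^ 2 / 2 + 1153 * X.TC i + (1 / 128) * X.D i ^ 2) / Z * ϖ j + 1153 / Z * (ϖ j * X.TC j) + (1 / 128) / Z * (ϖ j * X.D j ^ 2)) := by
            apply integral_mono_of_nonneg _ hub
            · rw [Filter.EventuallyLE, ae_restrict_iff' hG]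
              refine Filter.Eventually.of_forall (fun j hj => ?_)
              have y := cm_br1_young (Real.sqrt (X.TC i)) (Real.sqrt (X.TC j)) (|X.S j - X.S i|) η (X.D i) (X.D j) (Real.sqrt_nonneg _) (Real.sqrt_nonneg _) (hS i hi j hj)
              rw [Real.sq_sqrt (hX.TC_nn i (hG01 hi)), Real.sq_sqrt (hX.TC_nn j (hG01 hj))] at y
              have hq : 0 ≤ ϖ j / Z := div_nonneg (hϖ0 j) hpos.le
              calc _ ≤ ϖ j / Z * (η ^ 2 / 2 + 1153 * (X.TC i + X.TC j) + (1 / 128) * (X.D i ^ 2 + X.D j ^ 2)) := mul_le_mul_of_nonneg_left y hq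
                _ = _ := by ring
            · rw [Filter.EventuallyLE, ae_restrict_iff' hG]
              refine Filter.Eventually.of_forall (fun j hj => ?_)
              have hq : 0 ≤ ϖ j / Z := div_nonneg (hϖ0 j) hpos.le
              have d1 := hX.D_nn i (hG01 hi)
              have d2 := hX.D_nn j (hG01 hj)
              simp only [Pi.zero_apply]
              have := Real.sqrt_nonneg (X.TC i)
              have := Real.sqrt_nonneg (X.TC j)
              have := abs_nonneg (X.S j - X.S i)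
              positivity
        _ = (η ^ 2 / 2 + 1153 * X.TC i + (1 / 128) * X.D i ^ 2) / Z * Z + 1153 / Z * IT + (1 / 128) / Z * ID :=
            (hlin _ _ _).2
        _ = _ := by field_simp; ring
    have e2 : ∫ j, w j ^ 2 * X.TW j = IW / Z ^ 2 := by
      have : (fun j => w j ^ 2 * X.TW j) = G.indicator (fun j => (ϖ j ^ 2 * X.TW j) / Z ^ 2) := by
        ext j
        by_cases hj : j ∈ G
        · simp only [hw, indicator_of_mem hj]; ring
        · simp [hw, indicator_of_notMem hj]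
      rw [this, integral_indicator hG, integral_div]
    have e3 : (∫ j, w j * (X.S j - X.S i)) ^ 2 ≤ η ^ 2 := by
      rw [hwint]
      have hb : ‖∫ j in G, ϖ j / Z * (X.S j - X.S i)‖ ≤ ∫ j in G, η * (ϖ j / Z) := by
        apply norm_integral_le_of_norm_le ((iϖ.div_const Z).const_mul η)
        rw [ae_restrict_iff' hG]
        refine Filter.Eventually.of_forall (fun j hj => ?_)
        have hq : 0 ≤ ϖ j / Z := div_nonneg (hϖ0 j) hpos.le
        rw [norm_mul, Real.norm_of_nonneg hq, Real.norm_eq_abs, mul_comm]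
        exact mul_le_mul_of_nonneg_right (hS i hi j hj) hq
      rw [integral_const_mul, hone, mul_one, Real.norm_eq_abs] at hb
      exact sq_le_sq' (by linarith [neg_abs_le (∫ j in G, ϖ j / Z * (X.S j - X.S i))]) (le_trans (le_abs_self _) hb)
    rw [e2]
    linarith
  -- the pointwise bound
  set c1 := 8 * q4 + 32 * ((3 / 4) * η ^ 2 + 1153 * (IT / Z) + (1 / 128) * (ID / Z) + IW / Z ^ 2) with hc1
  have hpt : ∀ i ∈ G, ϖ i * X.D i ^ 2 ≤ c1 * ϖ i + 36897 * (ϖ i * X.TC i) + (1 / 4) * (ϖ i * X.D i ^ 2) := by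
    intro i hi
    have hm := hX.master i (hG01 hi) w w hW hW q4 hq4 (fun j _ hj _ => hQ i hi j (hwG j hj)) (fun j _ hj _ => hQ i hi j (hwG j hj))
    have hs := hside i hi
    have h1 : X.D i ^ 2 ≤ c1 + 36897 * X.TC i + (1 / 4) * X.D i ^ 2 := by
      rw [hc1]; linarith
    calc ϖ i * X.D i ^ 2 ≤ ϖ i * (c1 + 36897 * X.TC i + (1 / 4) * X.D i ^ 2) := mul_le_mul_of_nonneg_left h1 (hϖ0 i)
      _ = _ := by ring
  have hint : ID ≤ c1 * Z + 36897 * IT + (1 / 4) * ID := by
    calc ID ≤ ∫ i in G, (c1 * ϖ i + 36897 * (ϖ i * X.TC i) + (1 / 4) * (ϖ i * X.D i ^ 2)) :=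
          setIntegral_mono_on iD (hlin _ _ _).1 hG hpt
      _ = _ := (hlin _ _ _).2
  have hc1Z : c1 * Z = 8 * q4 * Z + 24 * η ^ 2 * Z + 36896 * IT + (1 / 4) * ID + 32 * (IW / Z) := by
    rw [hc1]; field_simp; ring
  rw [hc1Z] at hint
  have hWZ : 0 ≤ IW / Z := div_nonneg hIW0 hpos.le
  have hq : 0 ≤ Z * q4 := mul_nonneg hpos.le hq4
  have he : 0 ≤ Z * η ^ 2 := mul_nonneg hpos.le (sq_nonneg _)
  nlinarith

/-- **Lemma 3.11 (two-sided level averaging), (21), ABSTRACT FORM.**   `c` = unit label (monotone on the group), `b ∘ c` = bin label (`kb` bins), `η` = oscillation of `S` in a bin, `q4` = bound of `E|X_i-X_j|⁴` inside a unit,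
`τC, τW` = unit averages of `E tr C²`, `E W` (tested against unit-measurable functions), `th` = length of the discarded strips.

PROOF (all constants checked by 294).   `B_k = {i ∈ G : b (c i) = k}`, `R_i = {j ∈ G : b (c j) = b (c i), c i ≤ c j}`, `L_i` likewise with `c j ≤ c i`, `ρ±(i) = |R_i|, |L_i|`, `Ev = {i ∈ G : th ≤ ρ⁺ i, th ≤ ρ⁻ i}`, `Λ' = 4 Lg`, `Lg = 1 + log(1 + |G|/th)`.
 (0) `c` monotone on `G` gives `B_k ∩ [i,∞) ⊆ R_i`; so `|G \ Ev| ≤ 2 kb th` (`cm_kernel_small`, `'`), and `∫_{Ev ∩ B_k} 1/ρ± ≤ Λ'` (`cm_kernel_log`, `'`).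
 (1) for `i ∈ Ev` use `hX.master` with `wp = 1_{R_i}/ρ⁺ i`, `wm = 1_{L_i}/ρ⁻ i`, and `q4`: if `j ∈ R_i`, `j < i` then `c j ≤ c i ≤ c j`, so `hQ` applies.
 (2) with `t = √TC`:  `(t_i+t_j)(η + 3D_i + 3D_j) ≤ η²/2 + (1 + 9/ε)(t_i² + t_j²) + ε (D_i² + D_j²)`;   `∫ w² TW = ρ⁻² ∫_{R_i} TW ≤ τW/ρ` (`hW` with an indicator);   `(∫ w (S_j - S_i))² ≤ η²`.
 (3) integrate over `i ∈ Ev` (Tonelli):  `∫_{Ev} ⨍_{R_i} F(j) dj di = ∫_G F(j) κ⁺(j) dj`, `κ⁺(j) = g (c j)`, `g x = ∫_{i ∈ Ev, b (c i) = b x, c i ≤ x} 1/ρ⁺ i ≤ Λ'`;   `F = TC`: `≤ τC Λ' |G|` by `hC`;   `F = D²`: `≤ Λ' I_D`.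
 (4) `I_D = ∫_G D² ≤ |G \ Ev| + ∫_{Ev} (TC + 8 q4 + 16 (side⁺ + side⁻))`
        `≤ 2 kb th + τC|G| + 8 q4 |G| + 32 [ (3/4) η² |G| + (1 + 9/ε)(1 + Λ') τC |G| + ε (1 + Λ') I_D + kb Λ' τW ]`;   take `ε = 1/(64 (1 + Λ'))`, absorb `I_D/2` (finite: `D ≤ 1`), use `1 + Λ' ≤ 5 Lg`. -/
theorem cm_br_abs (X : CmNum) (hX : X.Ok) (G : Set ℝ) (hG : MeasurableSet G) (hG01 : G ⊆ Icc 0 1)
    (c : ℝ → ℝ) (hc : Measurable c) (hcm : MonotoneOn c G)
    (b : ℝ → ℕ) (hb : Measurable b) (kb : ℕ) (hkb : ∀ i ∈ G, b (c i) < kb)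
    (η q4 τC τW th : ℝ) (hη : 0 ≤ η) (hq4 : 0 ≤ q4) (hτC : 0 ≤ τC) (hτW : 0 ≤ τW) (hth : 0 < th)
    (hS : ∀ i ∈ G, ∀ j ∈ G, b (c i) = b (c j) → |X.S j - X.S i| ≤ η)
    (hQ : ∀ i ∈ G, ∀ j ∈ G, c i = c j → X.Q4 i j ≤ q4)
    (hC : ∀ g : ℝ → ℝ, Measurable g → (∀ x, 0 ≤ g x) → (∃ B : ℝ, ∀ x, g x ≤ B) →
      ∫ j in G, g (c j) * X.TC j ≤ τC * ∫ j in G, g (c j))
    (hW : ∀ g : ℝ → ℝ, Measurable g → (∀ x, 0 ≤ g x) → (∃ B : ℝ, ∀ x, g x ≤ B) →
      ∫ j in G, g (c j) * X.TW j ≤ τW * ∫ j in G, g (c j)) :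
    ∫ u in G, X.D u ^ 2 ≤ cmBrR (volume G).toReal η q4 τC τW th kb :=
  cm6b_br_abs cm_kernel_small cm_kernel_small' cm_kernel_log cm_kernel_log' X hX G hG hG01 c hc hcm b hb kb hkb
    η q4 τC τW th hη hq4 hτC hτW hth hS hQ hC hW

/-- **(20) on one cap, abstract**: `α' = Mf(α)` on `[r1,r2]`, clock inequality with the constant `cn`, `S` increases by at most `dS` through the interior, `ef ≥ eg`. -/
theorem cm_ut_cap_abs (al S TH ef Mf : ℝ → ℝ) (r1 r2 cn dS eg : ℝ) (h12 : r1 < r2)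
    (halm : MonotoneOn al (Icc r1 r2)) (halc : ContinuousOn al (Icc r1 r2))
    (hMc : ContinuousOn Mf (Icc (al r1) (al r2))) (hMpos : ∀ u ∈ Icc (al r1) (al r2), 0 < Mf u)
    (hMm : MonotoneOn Mf (Icc (al r1) (al r2)))
    (hal : ∀ s t, r1 ≤ s → s ≤ t → t ≤ r2 → al t - al s = ∫ r in s..t, Mf (al r))
    (hTHm : Measurable TH) (hTH0 : ∀ u ∈ Icc (al r1) (al r2), 0 ≤ TH u) (hTH1 : ∀ u ∈ Icc (al r1) (al r2), TH u ≤ 1)
    (hefc : ContinuousOn ef (Icc r1 r2)) (hcn : 0 < cn) (heg : 0 < eg) (hef : ∀ r ∈ Ioo r1 r2, eg ≤ ef r)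
    (hclock : ∀ s t, r1 ≤ s → s ≤ t → t ≤ r2 → cn * ∫ r in s..t, ef r * TH (al r) ≤ S (al t) - S (al s))
    (hdS : ∀ s t, r1 < s → s ≤ t → t < r2 → S (al t) - S (al s) ≤ dS) :
    (∫ r in r1..r2, TH (al r) ≤ dS / (cn * eg)) ∧
    (∫ u in Ioo (al r1) (al r2), TH u ≤ Mf (al r2) * (dS / (cn * eg))) ∧
    Mf (al r1) * (r2 - r1) ≤ al r2 - al r1 := by
  have hmaps : ∀ r ∈ Icc r1 r2, al r ∈ Icc (al r1) (al r2) := fun r hr =>
    ⟨halm (left_mem_Icc.2 h12.le) hr hr.1, halm hr (right_mem_Icc.2 h12.le) hr.2⟩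
  set g : ℝ → ℝ := fun r => TH (al r) with hg
  have hg0 : ∀ r ∈ Icc r1 r2, 0 ≤ g r := fun r hr => hTH0 _ (hmaps r hr)
  have hg1 : ∀ r ∈ Icc r1 r2, g r ≤ 1 := fun r hr => hTH1 _ (hmaps r hr)
  have hgI : IntegrableOn g (Icc r1 r2) volume := by
    apply Integrable.mono' (integrable_const (1 : ℝ))
    · exact (hTHm.comp_aemeasurable (halc.aemeasurable measurableSet_Icc)).aestronglyMeasurable
    · rw [ae_restrict_iff' measurableSet_Icc]
      refine Filter.Eventually.of_forall (fun r hr => ?_)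
      rw [Real.norm_of_nonneg (hg0 r hr)]
      exact hg1 r hr
  have hgi : ∀ s t, r1 ≤ s → s ≤ t → t ≤ r2 → IntervalIntegrable g volume s t := by
    intro s t hs hst ht
    rw [intervalIntegrable_iff_integrableOn_Icc_of_le hst]
    exact hgI.mono_set (Icc_subset_Icc hs ht)
  have hce : 0 < cn * eg := mul_pos hcn heg
  have key : ∀ s t, r1 < s → s ≤ t → t < r2 → ∫ r in s..t, g r ≤ dS / (cn * eg) := by
    intro s t hs hst ht
    rw [le_div_iff₀ hce]
    have h1 : cn * ∫ r in s..t, ef r * g r ≤ dS := (hclock s t hs.le hst ht.le).trans (hdS s t hs hst ht)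
    have h2 : ∫ r in s..t, eg * g r ≤ ∫ r in s..t, ef r * g r := by
      apply intervalIntegral.integral_mono_on hst ((hgi s t hs.le hst ht.le).const_mul eg)
      · apply (hgi s t hs.le hst ht.le).continuousOn_mul
        rw [uIcc_of_le hst]
        exact hefc.mono (Icc_subset_Icc hs.le ht.le)
      · intro x hx
        have hx' : x ∈ Ioo r1 r2 := ⟨lt_of_lt_of_le hs hx.1, lt_of_le_of_lt hx.2 ht⟩
        exact mul_le_mul_of_nonneg_right (hef x hx') (hg0 x (Ioo_subset_Icc_self hx'))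
    rw [intervalIntegral.integral_const_mul] at h2
    calc (∫ r in s..t, g r) * (cn * eg) = cn * (eg * ∫ r in s..t, g r) := by ring
      _ ≤ cn * ∫ r in s..t, ef r * g r := mul_le_mul_of_nonneg_left h2 hcn.le
      _ ≤ dS := h1
  have hshort : ∀ s t, r1 ≤ s → s ≤ t → t ≤ r2 → ∫ r in s..t, g r ≤ t - s := by
    intro s t hs hst ht
    calc ∫ r in s..t, g r ≤ ∫ _r in s..t, (1 : ℝ) := by
          apply intervalIntegral.integral_mono_on hst (hgi s t hs hst ht) intervalIntegrable_const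
          intro x hx
          exact hg1 x ⟨hs.trans hx.1, hx.2.trans ht⟩
      _ = t - s := by simp
  have P1 : ∫ r in r1..r2, g r ≤ dS / (cn * eg) := by
    apply le_of_forall_pos_le_add
    intro ε hε
    set e := min (ε / 2) ((r2 - r1) / 3) with he
    have he0 : 0 < e := lt_min (by linarith) (by linarith)
    have he1 : e ≤ ε / 2 := min_le_left _ _
    have he2 : e ≤ (r2 - r1) / 3 := min_le_right _ _
    have i1 := hgi r1 (r1 + e) le_rfl (by linarith) (by linarith)
    have i2 := hgi (r1 + e) (r2 - e) (by linarith) (by linarith) (by linarith)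
    have i3 := hgi (r2 - e) r2 (by linarith) (by linarith) le_rfl
    have hsplit : ∫ r in r1..r2, g r = (∫ r in r1..(r1 + e), g r) + (∫ r in (r1 + e)..(r2 - e), g r) + ∫ r in (r2 - e)..r2, g r := by
      rw [intervalIntegral.integral_add_adjacent_intervals i1 i2, intervalIntegral.integral_add_adjacent_intervals (i1.trans i2) i3]
    rw [hsplit]
    have a1 := hshort r1 (r1 + e) le_rfl (by linarith) (by linarith)
    have a2 := key (r1 + e) (r2 - e) (by linarith) (by linarith) (by linarith)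
    have a3 := hshort (r2 - e) r2 (by linarith) (by linarith) le_rfl
    linarith
  have hMal : ContinuousOn (fun r => Mf (al r)) (Icc r1 r2) := hMc.comp halc hmaps
  have hMi : ∀ s t, r1 ≤ s → s ≤ t → t ≤ r2 → IntervalIntegrable (fun r => Mf (al r)) volume s t := by
    intro s t hs hst ht
    apply ContinuousOn.intervalIntegrable
    rw [uIcc_of_le hst]
    exact hMal.mono (Icc_subset_Icc hs ht)
  have hstrict : StrictMonoOn al (Icc r1 r2) := by
    intro s hs t ht hst
    have h1 := hal s t hs.1 hst.le ht.2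
    have h2 : 0 < ∫ r in s..t, Mf (al r) := by
      apply intervalIntegral.intervalIntegral_pos_of_pos_on (hMi s t hs.1 hst.le ht.2) _ hst
      intro x hx
      exact hMpos _ (hmaps x ⟨hs.1.trans hx.1.le, hx.2.le.trans ht.2⟩)
    linarith
  have hderiv : ∀ x ∈ Ioo r1 r2, HasDerivWithinAt al (Mf (al x)) (Ioo r1 r2) x := by
    intro x hx
    have h1 : HasDerivAt (fun t => ∫ r in r1..t, Mf (al r)) (Mf (al x)) x := by
      apply intervalIntegral.integral_hasDerivAt_right (hMi r1 x le_rfl hx.1.le hx.2.le)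
      · exact (hMal.mono Ioo_subset_Icc_self).stronglyMeasurableAtFilter isOpen_Ioo x hx
      · exact hMal.continuousAt (Icc_mem_nhds hx.1 hx.2)
    have h2 : HasDerivWithinAt (fun t => al r1 + ∫ r in r1..t, Mf (al r)) (Mf (al x)) (Ioo r1 r2) x :=
      (h1.const_add (al r1)).hasDerivWithinAt
    apply h2.congr
    · intro t ht
      have := hal r1 t le_rfl ht.1.le ht.2.le
      linarith
    · have := hal r1 x le_rfl hx.1.le hx.2.le
      linarith
  have himg : al '' Ioo r1 r2 = Ioo (al r1) (al r2) := by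
    apply Subset.antisymm
    · rintro _ ⟨x, hx, rfl⟩
      exact ⟨hstrict (left_mem_Icc.2 h12.le) (Ioo_subset_Icc_self hx) hx.1, hstrict (Ioo_subset_Icc_self hx) (right_mem_Icc.2 h12.le) hx.2⟩
    · exact intermediate_value_Ioo h12.le halc
  have hr2 : al r2 ∈ Icc (al r1) (al r2) := hmaps r2 (right_mem_Icc.2 h12.le)
  have hr1 : al r1 ∈ Icc (al r1) (al r2) := hmaps r1 (left_mem_Icc.2 h12.le)
  refine ⟨P1, ?_, ?_⟩
  · rw [← himg, integral_image_eq_integral_abs_deriv_smul measurableSet_Ioo hderiv (hstrict.injOn.mono Ioo_subset_Icc_self)]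
    have hb : ∫ x in Ioo r1 r2, |Mf (al x)| • TH (al x) ≤ ∫ x in Ioo r1 r2, Mf (al r2) * g x := by
      apply setIntegral_mono_on _ ((hgI.mono_set Ioo_subset_Icc_self).const_mul _) measurableSet_Ioo
      · intro x hx
        have hx' := Ioo_subset_Icc_self hx
        rw [smul_eq_mul, abs_of_pos (hMpos _ (hmaps x hx'))]
        exact mul_le_mul_of_nonneg_right (hMm (hmaps x hx') hr2 (hmaps x hx').2) (hg0 x hx')
      · have : IntegrableOn (fun x => |Mf (al x)| * g x) (Icc r1 r2) volume := by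
          have h3 := (hgi r1 r2 le_rfl h12.le le_rfl).continuousOn_mul (g := fun x => |Mf (al x)|) (by rw [uIcc_of_le h12.le]; exact hMal.abs)
          rwa [intervalIntegrable_iff_integrableOn_Icc_of_le h12.le] at h3
        exact this.mono_set Ioo_subset_Icc_self
    refine hb.trans ?_
    rw [integral_const_mul, ← integral_Ioc_eq_integral_Ioo, ← intervalIntegral.integral_of_le h12.le]
    exact mul_le_mul_of_nonneg_left P1 (hMpos _ hr2).le
  · rw [hal r1 r2 le_rfl h12.le le_rfl]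
    calc Mf (al r1) * (r2 - r1) = ∫ _r in r1..r2, Mf (al r1) := by simp; ring
      _ ≤ _ := by
        apply intervalIntegral.integral_mono_on h12.le intervalIntegrable_const (hMi r1 r2 le_rfl h12.le le_rfl)
        intro x hx
        exact hMm hr1 (hmaps x hx) (hmaps x hx).1

/-- **Lebesgue density**: two-point integral bounds between the points of a measurable set give the pointwise bound a.e. on the set -/
theorem cm_density_le (F : ℝ → ℝ) (hF : LocallyIntegrable F volume) (Zs : Set ℝ) (hZ : MeasurableSet Zs) (hZ0 : Zs ⊆ Ici 0) (c : ℝ)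
    (h : ∀ r1 ∈ Zs, ∀ r2 ∈ Zs, r1 < r2 → r2 ≤ 2 * r1 → ∫ r in r1..r2, F r ≤ c * (r2 - r1)) :
    ∀ᵐ r ∂(volume.restrict Zs), F r ≤ c := by
  have hI : ∀ x y : ℝ, IntervalIntegrable F volume x y := fun x y =>
    intervalIntegrable_iff.mpr ((hF.integrableOn_isCompact isCompact_uIcc).mono_set uIoc_subset_uIcc)
  have h1 := LocallyIntegrable.ae_hasDerivAt_integral hF
  have h2 : ∀ᵐ r ∂(volume : Measure ℝ), r ∉ {x ∈ Zs | nhdsWithin x (Zs ∩ Ioi x) = ⊥} :=
    (countable_setOfPred_isolated_right_within (s := Zs)).ae_notMem volume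
  have h3 : ∀ᵐ r ∂(volume : Measure ℝ), r ∉ ({0} : Set ℝ) := (countable_singleton (0 : ℝ)).ae_notMem volume
  rw [ae_restrict_iff' hZ]
  filter_upwards [h1, h2, h3] with r d1 d2 d3 hr
  have hr0 : 0 < r := lt_of_le_of_ne (hZ0 hr) (fun e => d3 (by rw [mem_singleton_iff]; exact e.symm))
  have hne : (nhdsWithin r (Zs ∩ Ioi r)).NeBot := ⟨fun hbot => d2 ⟨hr, hbot⟩⟩
  have hs := (hasDerivAt_iff_tendsto_slope.1 (d1 0)).mono_left
    (nhdsWithin_mono r (fun y hy => ne_of_gt hy.2) : nhdsWithin r (Zs ∩ Ioi r) ≤ nhdsWithin r {r}ᶜ)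
  refine le_of_tendsto hs ?_
  have e1 : ∀ᶠ y in nhdsWithin r (Zs ∩ Ioi r), y ∈ Zs ∩ Ioi r := self_mem_nhdsWithin
  have e2 : ∀ᶠ y in nhdsWithin r (Zs ∩ Ioi r), y < 2 * r := nhdsWithin_le_nhds (Iio_mem_nhds (by linarith))
  filter_upwards [e1, e2] with y hy hy2
  have hyr : r < y := hy.2
  rw [slope_def_field, intervalIntegral.integral_interval_sub_left (hI 0 y) (hI 0 r), div_le_iff₀ (by linarith)]
  exact h r hr y hy.1 hyr hy2.le

end

end Claimed.Agent.R286
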