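import Claimed.Agent.R286.Cmp.P6X18

/-!
# Row 286 (S0533), PE Section 3.4 (package P06): CUT OF THE EXITS `cm_x_ce_small`, `cm_x_ce_large` = PE Prop. 3.9 at a fixed strength      (architect helper31; head of P06 helper294; prefix `cm6e_`)

TEX[PE:comp:bracket] comparisons.tex l.983-1085 ("Broad cap units and the initial wall", "Proof of Proposition 3.9").   Deterministic; rests on `Cmp/P6X18.lean`, `Cmp/P6Geo.lean`, `Cmp/Num.lean`, `Cmp/Prof.lean`.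
EXITS  `cm6e_small`, `cm6e_large` = the statements of `cm_x_ce_small`, `cm_x_ce_large` (P6Out) verbatim.

`A = A_λ`, `F = cm6xF q X = D² + (S-r)²`, `W u = e(r u)`, `Y = KY A`, `Λ = log n`, `δ = P.dl`.
* OUTER part `[C1 A, 1]` (only if `A` is small):  dyads `[v, 2v]`, `W ≤ e(v)/c`, `cm6x_dyad`, `e(v) v R18² ≤ K Λ E`  (`cm6e_out_arith`), `O(Λ)` dyads (`cm6e_dyadic`, `cm6e_count`).
* INNER part `[u0, U]`, `U = C1 A` or `1`, under the frame `Cm6eIn` (`r, S, D ≤ Y`, `‖X‖_{2q} ≤ Cp q √Y` on `[u0, 32 U]`):  `W ≤ λ`;  `[u0, u0 + 16 u_*]` is discarded (`F ≤ 2 Y²`, `λ A² u_* = n^{2δ} E`);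
  a dyad `J = [v, min(2v,U)]`, `v ≥ u0 + 16 u_*`, is covered (`cm6x_cover`, `Gam = 8`) by the floor (total mass `≤ n^{-δ} u_*`), the ordinary group (`cm6x_br_opt`, `Gam = 32`, `l0 = 4 n^{-δ} L`, `eg = λ n^{-δ}/(2 KY)`)
  and at most 8 broad caps, each enlarged to the slice `(max(α cL, v/2), min(α cR, 4v))` of length `≥ v/2` (`cm_br_slice`).
LEAVES = the `sorry`s; each is independent of the others.   Claim by Lean name in `claim286`; prove IN PLACE (small) or in `Cmp/P6CE<Name>.lean` + one-line splice.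
-/

set_option autoImplicit false

namespace Claimed.Agent.R286

open MeasureTheory Set

noncomputable section

/-- the right side of `cm_br_slice` for a slice `(a,b)`, `v/2 ≤ a`, `v/2 ≤ b - a`, `b ≤ 4v`, of a cap with `len + io ≤ l1` -/
def cm6eS (P : CmCall) (Kg Lp v Y eg l1 Cq : ℝ) (qq : ℕ) : ℝ :=
  200000 * (4 * v * ((Kg * Lp * l1) ^ 2 + cmQ4 (Kg * Lp * l1) Cq Y qq) + 8 / v ^ 2 * (P.M (4 * v) * (Kg ^ 2 * Lp ^ 2 * l1 / (P.N * eg))))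

/-- **the inner frame**: on `[u0, min(U2,1)]` radii, `S`, `D` are at most `Y = KY A_λ` and the raw moments are at the scale `Y` -/
structure Cm6eIn (K : CmK) (P : CmCall) (lam : ℝ) (q : CmQ P) (X : CmNum) (KY U2 : ℝ) : Prop where
  KY1 : 1 ≤ KY
  r_le : ∀ u ∈ Icc P.u0 1, u ≤ U2 → q.r u ≤ KY * P.Al lam
  S_le : ∀ u ∈ Icc P.u0 1, u ≤ U2 → X.S u ≤ KY * P.Al lam
  D_le : ∀ u ∈ Icc P.u0 1, u ≤ U2 → X.D u ≤ KY * P.Al lam
  NX_le : ∀ qq : ℕ, 1 ≤ qq → ∀ u ∈ Icc P.u0 1, u ≤ U2 → X.NX qq u ≤ K.Cp qq * Real.sqrt (KY * P.Al lam)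

/-- the bound of one inner dyad (before multiplication by `λ`) -/
def cm6eB (K : CmK) (P : CmCall) (lam Lp v KY Cl : ℝ) (qq : ℕ) : ℝ :=
  2 * (KY * P.Al lam) ^ 2 * (P.N ^ (-P.dl) * P.us)
    + 3 * K.Kg * Lp ^ 2 * cm6xR 32 K.Kg Lp P.N v (KY * P.Al lam) (lam * P.N ^ (-P.dl) / (2 * KY)) (4 * (P.N ^ (-P.dl) * P.L)) (K.Cp qq) (P.N ^ (-(10 : ℝ))) qq
    + 8 * (3 * K.Kg * Lp ^ 2 * cm6eS P K.Kg Lp v (KY * P.Al lam) (lam * P.N ^ (-P.dl) / (2 * KY)) (P.N ^ (-P.dl) * P.L * (Cl * P.Lam + 1)) (K.Cp qq) qq)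

theorem cm6e_eqns_cite : True := by
  have := @cm6eS.eq_1; have := @cm6eB.eq_1
  trivial

/-! ## 0. generic tools -/

/-- **summation over dyads** (Mathlib only).   Induction on `j`, `a` general: `Icc a b ⊆ Icc a (min (2a) b) ∪ Icc (2a) b`. -/
theorem cm6e_dyadic {Φ : ℝ → ℝ} {a b Bd : ℝ} (ha : 0 < a) (hΦi : IntegrableOn Φ (Icc a b)) (hΦ0 : ∀ u ∈ Icc a b, 0 ≤ Φ u) (hBd : 0 ≤ Bd)
    (hB : ∀ v ∈ Icc a b, ∫ u in Icc v (min (2 * v) b), Φ u ≤ Bd) (j : ℕ) (hj : b ≤ 2 ^ j * a) : ∫ u in Icc a b, Φ u ≤ j * Bd := by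
  induction j generalizing a with
  | zero =>
    have hv : volume (Icc a b) = 0 := by
      rw [Real.volume_Icc, ENNReal.ofReal_eq_zero]
      simp only [pow_zero, one_mul] at hj
      linarith
    rw [setIntegral_measure_zero _ hv]
    simp
  | succ j ih =>
    rcases lt_or_ge b a with hab | hab
    · rw [Icc_eq_empty (not_le.2 hab)]
      simp only [Measure.restrict_empty, integral_zero_measure]
      positivity
    have hs : Icc a (min (2 * a) b) ⊆ Icc a b := Icc_subset_Icc_right (min_le_right _ _)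
    have ht : Icc (2 * a) b ⊆ Icc a b := Icc_subset_Icc_left (by linarith)
    have hU : Icc a b = Icc a (min (2 * a) b) ∪ Icc (2 * a) b := by
      apply Subset.antisymm
      · intro u hu
        rcases le_total u (2 * a) with h | h
        · exact Or.inl ⟨hu.1, le_min h hu.2⟩
        · exact Or.inr ⟨h, hu.2⟩
      · exact union_subset hs ht
    have h1 := cm6x_union_le measurableSet_Icc hΦi hΦ0 hs ht
    rw [← hU] at h1
    have h2 := hB a ⟨le_rfl, hab⟩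
    have h3 := ih (a := 2 * a) (by linarith) (hΦi.mono_set ht) (fun u hu => hΦ0 u (ht hu)) (fun v hv => hB v (ht hv))
      (by rw [pow_succ] at hj; linarith)
    push_cast
    linarith

/-- the number of dyads is `O(log n)` -/
theorem cm6e_count {cE D0 c0 : ℝ} (h0 : 0 < c0) : ∃ Cj : ℝ, 0 < Cj ∧ ∀ P : CmCall, P.Ok cE D0 → ∀ a b : ℝ, c0 * P.N ^ (-(1 : ℝ)) ≤ a → a ≤ b → b ≤ 1 →
    ∃ j : ℕ, b ≤ 2 ^ j * a ∧ (j : ℝ) ≤ Cj * P.Lam := by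
  refine ⟨3 + 2 * |Real.log c0|, by positivity, ?_⟩
  intro P hP a b ha hab hb
  have hN := cm_N_pos hP
  have hΛ := cm_Lam_ge_one hP
  set y := P.N / c0 with hy
  have hy0 : 0 < y := by positivity
  have hm1 : 1 ≤ max y 1 := le_max_right _ _
  refine ⟨⌈Real.logb 2 (max y 1)⌉₊, ?_, ?_⟩
  · have h1 : Real.logb 2 (max y 1) ≤ (⌈Real.logb 2 (max y 1)⌉₊ : ℝ) := Nat.le_ceil _
    have h2 : max y 1 ≤ 2 ^ ⌈Real.logb 2 (max y 1)⌉₊ := by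
      have e : max y 1 = (2 : ℝ) ^ (Real.logb 2 (max y 1)) := by
        rw [Real.rpow_logb (by norm_num) (by norm_num) (by linarith)]
      rw [← Real.rpow_natCast]
      calc max y 1 = (2 : ℝ) ^ (Real.logb 2 (max y 1)) := e
        _ ≤ _ := Real.rpow_le_rpow_of_exponent_le (by norm_num) h1
    have h3 : 1 ≤ y * a := by
      have e : P.N ^ (-(1 : ℝ)) = 1 / P.N := by rw [Real.rpow_neg hN.le, Real.rpow_one, one_div]
      rw [e] at ha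
      have : y * (c0 * (1 / P.N)) = 1 := by rw [hy]; field_simp
      calc (1 : ℝ) = y * (c0 * (1 / P.N)) := this.symm
        _ ≤ y * a := mul_le_mul_of_nonneg_left ha hy0.le
    have ha0 : 0 < a := lt_of_lt_of_le (by positivity) ha
    calc b ≤ 1 := hb
      _ ≤ y * a := h3
      _ ≤ 2 ^ ⌈Real.logb 2 (max y 1)⌉₊ * a := mul_le_mul_of_nonneg_right ((le_max_left _ _).trans h2) ha0.le
  · have h1 : (⌈Real.logb 2 (max y 1)⌉₊ : ℝ) ≤ Real.logb 2 (max y 1) + 1 :=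
      (Nat.ceil_lt_add_one (Real.logb_nonneg (by norm_num) hm1)).le
    have h2 : Real.log (max y 1) ≤ P.Lam + |Real.log c0| := by
      rcases le_total y 1 with h | h
      · rw [max_eq_right h, Real.log_one]
        have := abs_nonneg (Real.log c0)
        linarith
      · rw [max_eq_left h, hy, Real.log_div hN.ne' h0.ne']
        have := neg_abs_le (Real.log c0)
        unfold CmCall.Lam
        linarith
    have h3 : Real.logb 2 (max y 1) ≤ 2 * (P.Lam + |Real.log c0|) := by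
      unfold Real.logb
      rw [div_le_iff₀ (Real.log_pos (by norm_num))]
      have hl2 : (1 / 2 : ℝ) ≤ Real.log 2 := by
        have := Real.log_two_gt_d9
        linarith
      have h4 : 0 ≤ P.Lam + |Real.log c0| := by positivity
      nlinarith
    have h5 := abs_nonneg (Real.log c0)
    nlinarith

/-- absorption of constants and logarithms: `C Λ^j ≤ n^η` for `n ≥ n0` -/
theorem cm6e_absorb {cE D0 : ℝ} (j : ℕ) {C η : ℝ} (hη : 0 < η) : ∃ n0 : ℕ, ∀ P : CmCall, P.Ok cE D0 → n0 ≤ P.n → C * P.Lam ^ j ≤ P.N ^ η := by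
  obtain ⟨C', hC', h⟩ := cm_log_pow j (ε := η / 2) (by positivity)
  obtain ⟨n0, hn0⟩ := exists_nat_ge ((|C| * C' + 1) ^ (2 / η))
  refine ⟨n0, ?_⟩
  intro P hP hn
  have hN := cm_N_ge hP
  have hN0 : 0 < P.N := by linarith
  have h1 := h P.N (by linarith)
  have h2 : (|C| * C' + 1) ^ (2 / η) ≤ P.N := hn0.trans (by unfold CmCall.N; exact_mod_cast hn)
  have h3 : |C| * C' + 1 ≤ P.N ^ (η / 2) := by
    have hb : (0 : ℝ) ≤ |C| * C' + 1 := by positivity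
    have := Real.rpow_le_rpow (by positivity) h2 (show 0 ≤ η / 2 by positivity)
    rw [← Real.rpow_mul hb] at this
    have e : 2 / η * (η / 2) = 1 := by field_simp
    rwa [e, Real.rpow_one] at this
  have h4 : 0 ≤ P.Lam ^ j := pow_nonneg (by have := cm_Lam_ge_one hP; linarith) j
  have h5 : 0 < P.N ^ (η / 2) := Real.rpow_pos_of_pos hN0 _
  calc C * P.Lam ^ j ≤ |C| * P.Lam ^ j := mul_le_mul_of_nonneg_right (le_abs_self C) h4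
    _ ≤ |C| * (C' * P.N ^ (η / 2)) := mul_le_mul_of_nonneg_left h1 (abs_nonneg C)
    _ = (|C| * C') * P.N ^ (η / 2) := by ring
    _ ≤ P.N ^ (η / 2) * P.N ^ (η / 2) := mul_le_mul_of_nonneg_right (by linarith) h5.le
    _ = P.N ^ η := by rw [← Real.rpow_add hN0]; congr 1; ring

section generic

variable {P : CmCall} {cE D0 lam Kg Lp : ℝ} {q : CmQ P} {X : CmNum} {Z : CmCaps}

/-- the weighted integrand of (7) is integrable on the working interval -/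
theorem cm6e_int (hc : 0 < cE) (hP : P.Ok cE D0) (hX : X.Ok) (q : CmQ P) (lam : ℝ) : IntegrableOn (fun u => P.e lam (q.r u) * cm6xF q X u) (Icc P.u0 1) := by
  refine (cm6x_int hc hP hX q).bdd_mul (c := |lam|) ?_ ?_
  · exact ((cm_e_cont P lam).comp_continuousOn (cm_q_r_cont hc hP q)).aestronglyMeasurable measurableSet_Icc
  · refine Filter.Eventually.of_forall (fun u => ?_)
    unfold CmCall.e
    rw [Real.norm_eq_abs, abs_mul, abs_of_pos (cm_f_pos _)]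
    exact mul_le_of_le_one_right (abs_nonneg _) (cm_f_le_one _)

theorem cm6e_F_nonneg (q : CmQ P) (X : CmNum) (u : ℝ) : 0 ≤ cm6xF q X u := by
  unfold cm6xF
  positivity

/-- **(21) + (9),(10) on a group**: `∫_G F ≤ (1 + Kg Lp²) ∫_G D² + Kg Lp² |G| l0² ≤ 3 Kg Lp² R`   (`cm6x_br_opt`, `cm6x_mis_grp`, `cm6x_R_ge`, `cm6x_grp_sub`, `cm6x_int`) -/
theorem cm6e_grp_gen (hc : 0 < cE) (hP : P.Ok cE D0) (hl : 0 < lam) (hX : X.Ok) (hG : CmGeo P lam q X Z Kg Lp)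
    {G : Set ℝ} (hGr : Z.IsGroup q.al G) {v Gam y0 l0 eg th Cq : ℝ} {qq : ℕ}
    (hv : 0 < v) (hGam : 1 ≤ Gam) (hy0 : 0 < y0) (hl0 : 0 ≤ l0) (heg0 : 0 < eg) (hth : 0 < th) (hCq : 0 ≤ Cq) (hqq : 3 ≤ qq)
    (hband : G ⊆ Icc (v / Gam) (Gam * v))
    (hratio : ∀ i, Z.cL i < Z.cR i → Z.capM q.al i ⊆ G → q.al (Z.cR i) + P.us ≤ Gam * (q.al (Z.cL i) + P.us))
    (hwall : ∀ i, Z.cL i < Z.cR i → Z.capM q.al i ⊆ G → Z.io P.rmin i = 0 ∨ P.us ≤ q.al (Z.cR i) - q.al (Z.cL i))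
    (hlen : ∀ i, Z.cL i < Z.cR i → Z.capM q.al i ⊆ G → Z.len i + Z.io P.rmin i ≤ l0)
    (heg : ∀ u ∈ G, eg ≤ P.e lam (q.r u)) (hS : ∀ u ∈ G, X.S u ≤ y0) (hNX : ∀ u ∈ G, X.NX qq u ≤ Cq * Real.sqrt y0) :
    ∫ u in G, cm6xF q X u ≤ 3 * Kg * Lp ^ 2 * cm6xR Gam Kg Lp P.N v y0 eg l0 Cq th qq := by
  have hsub := cm6x_grp_sub hc hP hG hGr
  have hR := cm6x_br_opt hc hP hl hX hG hGr hv hGam hy0 hl0 heg0 hth hCq hqq hband hratio hwall hlen heg hS hNX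
  have hmis := cm6x_mis_grp hc hP hG hGr hlen
  have hRge := cm6x_R_ge (qq := qq) hGam hG.Kg1 hG.Lp1 (cm_N_pos hP) hv hy0 heg0 hl0 hCq hth
  set R := cm6xR Gam Kg Lp P.N v y0 eg l0 Cq th qq with hRdef
  have hKL : 1 ≤ Kg * Lp ^ 2 := by
    have h1 := hG.Kg1
    have h2 := hG.Lp1
    nlinarith [mul_le_mul h2 h2 zero_le_one (by linarith : (0 : ℝ) ≤ Lp)]
  have iD : IntegrableOn (fun u => X.D u ^ 2) G := (cm6x_intD hc hP hX).mono_set hsub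
  have iF : IntegrableOn (cm6xF q X) G := (cm6x_int hc hP hX q).mono_set hsub
  have hGfin : volume G ≠ ⊤ := ne_top_of_le_ne_top (by simp) (measure_mono hband)
  have hvol : (volume G).toReal ≤ Gam * v := by
    apply ENNReal.toReal_le_of_le_ofReal (by positivity)
    refine (measure_mono hband).trans ?_
    rw [Real.volume_Icc]
    apply ENNReal.ofReal_le_ofReal
    have : 0 ≤ v / Gam := by positivity
    linarith
  have iC : IntegrableOn (fun _ : ℝ => Kg * Lp ^ 2 * l0 ^ 2) G := integrableOn_const hGfin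
  have i2 : IntegrableOn (fun u => (1 + Kg * Lp ^ 2) * X.D u ^ 2 + Kg * Lp ^ 2 * l0 ^ 2) G := (iD.const_mul _).add iC
  calc ∫ u in G, cm6xF q X u ≤ ∫ u in G, ((1 + Kg * Lp ^ 2) * X.D u ^ 2 + Kg * Lp ^ 2 * l0 ^ 2) := by
        apply setIntegral_mono_on iF i2 hGr.meas
        intro u hu
        have := hmis u hu
        unfold cm6xF
        linarith
    _ = (1 + Kg * Lp ^ 2) * (∫ u in G, X.D u ^ 2) + Kg * Lp ^ 2 * l0 ^ 2 * (volume G).toReal := by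
        rw [integral_add (iD.const_mul _) iC, integral_const_mul, integral_const, smul_eq_mul, Measure.real,
          Measure.restrict_apply_univ]
        ring
    _ ≤ (1 + Kg * Lp ^ 2) * R + Kg * Lp ^ 2 * (Gam * v * l0 ^ 2) := by
        have h1 := mul_le_mul_of_nonneg_left hR (show 0 ≤ 1 + Kg * Lp ^ 2 by linarith)
        have h2 : Kg * Lp ^ 2 * l0 ^ 2 * (volume G).toReal ≤ Kg * Lp ^ 2 * l0 ^ 2 * (Gam * v) :=
          mul_le_mul_of_nonneg_left hvol (by positivity)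
        nlinarith
    _ ≤ 3 * Kg * Lp ^ 2 * R := by
        have h0 : 0 ≤ R := le_trans (by positivity) hRge
        have h1 := mul_le_mul_of_nonneg_left hRge (show 0 ≤ Kg * Lp ^ 2 by linarith)
        nlinarith

/-- `cmQ4` is nondecreasing in its first argument -/
theorem cm6e_Q4_mono {ω ω' Cq y0 : ℝ} {qq : ℕ} (hqq : 3 ≤ qq) (h0 : 0 ≤ ω) (h : ω ≤ ω') (hCq : 0 ≤ Cq) (hy0 : 0 ≤ y0) : cmQ4 ω Cq y0 qq ≤ cmQ4 ω' Cq y0 qq := by
  unfold cmQ4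
  have hq : (3 : ℝ) ≤ qq := by exact_mod_cast hqq
  have he : 0 ≤ 1 - 1 / ((qq : ℝ) - 1) := by
    have : 1 / ((qq : ℝ) - 1) ≤ 1 := by
      rw [div_le_one (by linarith)]
      linarith
    linarith
  exact mul_le_mul_of_nonneg_right (Real.rpow_le_rpow h0 h he) (Real.rpow_nonneg (by positivity) _)

/-- the wall term is at most `rmin`, and nonnegative -/
theorem cm6e_io_le {P : CmCall} {cE D0 : ℝ} (hP : P.Ok cE D0) (Z : CmCaps) (i : ℕ) : 0 ≤ Z.io P.rmin i ∧ Z.io P.rmin i ≤ P.rmin := by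
  unfold CmCaps.io
  split_ifs
  · exact ⟨hP.r0, le_rfl⟩
  · exact ⟨le_rfl, hP.r0⟩

/-- the end masses of a cap -/
theorem cm6e_ends {P : CmCall} {cE D0 lam Kg Lp : ℝ} {q : CmQ P} {X : CmNum} {Z : CmCaps} (hc : 0 < cE) (hP : P.Ok cE D0)
    (hG : CmGeo P lam q X Z Kg Lp) (i : ℕ) : 0 ≤ q.al (Z.cL i) ∧ q.al (Z.cL i) ≤ q.al (Z.cR i) ∧ q.al (Z.cR i) ≤ 1 := by
  have h1 := cm_q_al_mem hc hP q (cm_g_cL_mem hG i)
  have h2 := cm_q_al_mem hc hP q (cm_g_cR_mem hG i)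
  exact ⟨hP.u00.trans h1.1, (cm_q_al_strictMono hc hP q).monotoneOn (cm_g_cL_mem hG i) (cm_g_cR_mem hG i) (hG.cap_le i), h2.2⟩

/-- length + wall term of an ARBITRARY cap: `cm_cap_len`, `cm_log_us`, `cm_rmin_le` -/
theorem cm6e_len_all (hc : 0 < cE) (hD : 0 < D0) : ∃ Cl : ℝ, 0 < Cl ∧ ∀ (P : CmCall) (lam Kg Lp : ℝ) (q : CmQ P) (X : CmNum) (Z : CmCaps), P.Ok cE D0 → CmGeo P lam q X Z Kg Lp →
    ∀ i, Z.len i + Z.io P.rmin i ≤ P.N ^ (-P.dl) * P.L * (Cl * P.Lam + 1) := by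
  obtain ⟨C, hC, h⟩ := cm_log_us (cE := cE) (D0 := D0) hc hD
  refine ⟨C, hC, ?_⟩
  intro P lam Kg Lp q X Z hP hG i
  obtain ⟨e1, e2, e3⟩ := cm6e_ends hc hP hG i
  have h1 := cm_cap_len hc hP hG i
  have h2 := h P hP _ _ e1 e2 e3
  have h3 := (cm6e_io_le hP Z i).2.trans (cm_rmin_le hc hP)
  have h4 : 0 ≤ P.N ^ (-P.dl) * P.L := mul_nonneg (Real.rpow_nonneg (cm_N_pos hP).le _) (cm_L_pos hc hP).le
  have h5 := mul_le_mul_of_nonneg_left h2 h4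
  nlinarith

/-- length + wall term of an ORDINARY cap with the ratio `8`: `log 8 ≤ 3` -/
theorem cm6e_len_ord (hc : 0 < cE) (hP : P.Ok cE D0) (hG : CmGeo P lam q X Z Kg Lp) {i : ℕ} (hi : Z.Ord P q.al 8 i) :
    Z.len i + Z.io P.rmin i ≤ 4 * (P.N ^ (-P.dl) * P.L) := by
  obtain ⟨e1, e2, e3⟩ := cm6e_ends hc hP hG i
  have hus := cm_us_pos hc hP
  have h1 := cm_cap_len hc hP hG i
  have h3 := (cm6e_io_le hP Z i).2.trans (cm_rmin_le hc hP)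
  have h4 : 0 ≤ P.N ^ (-P.dl) * P.L := mul_nonneg (Real.rpow_nonneg (cm_N_pos hP).le _) (cm_L_pos hc hP).le
  have h2 : Real.log ((q.al (Z.cR i) + P.us) / (q.al (Z.cL i) + P.us)) ≤ 3 := by
    have hr : (q.al (Z.cR i) + P.us) / (q.al (Z.cL i) + P.us) ≤ 8 := by
      rw [div_le_iff₀ (by linarith)]
      exact hi.2.1
    have hpos : 0 < (q.al (Z.cR i) + P.us) / (q.al (Z.cL i) + P.us) := by
      apply div_pos <;> linarith
    have h8 : Real.log 8 ≤ 3 := by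
      have e : (8 : ℝ) = 2 ^ 3 := by norm_num
      rw [e, Real.log_pow]
      have := Real.log_two_lt_d9
      push_cast
      linarith
    exact (Real.log_le_log hpos hr).trans h8
  have h5 := mul_le_mul_of_nonneg_left h2 h4
  nlinarith

/-- **the slice of a broad cap** (ratio `8`) meeting `[v, 2v]`: with `a = max (α cL) (v/2)`, `b = min (α cR) (4v)`:  if `u` is a common point then `(u/2,u)` or `(u,2u)` lies in the cap -/
theorem cm6e_slice_geo (hc : 0 < cE) (hP : P.Ok cE D0) (hG : CmGeo P lam q X Z Kg Lp) {i : ℕ} {v v2 : ℝ} (hv : 0 < v) (hv2 : v2 ≤ 2 * v)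
    (hB : Z.Broad P q.al 8 i) (hmeet : (Z.capM q.al i ∩ Icc v v2).Nonempty) :
    v / 2 ≤ min (q.al (Z.cR i)) (4 * v) - max (q.al (Z.cL i)) (v / 2) ∧
      Z.capM q.al i ∩ Icc v v2 ⊆ Ioo (max (q.al (Z.cL i)) (v / 2)) (min (q.al (Z.cR i)) (4 * v)) ∧
      Ioo (max (q.al (Z.cL i)) (v / 2)) (min (q.al (Z.cR i)) (4 * v)) ⊆ Z.capM q.al i := by
  obtain ⟨e1, e2, e3⟩ := cm6e_ends hc hP hG i
  have hus := cm_us_pos hc hP
  obtain ⟨u, hu1, hu2⟩ := hmeet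
  have hA : q.al (Z.cL i) < u := hu1.1
  have hBq : u < q.al (Z.cR i) := hu1.2
  have hbr := hB.2
  refine ⟨?_, ?_, ?_⟩
  · have h1 := hu2.1
    have h2 := hu2.2
    rcases max_cases (q.al (Z.cL i)) (v / 2) with ⟨ha, _⟩ | ⟨ha, _⟩ <;>
    rcases min_cases (q.al (Z.cR i)) (4 * v) with ⟨hb, _⟩ | ⟨hb, _⟩ <;> rw [ha, hb] <;> linarith
  · intro w hw
    have w1 : q.al (Z.cL i) < w := hw.1.1
    have w2 : w < q.al (Z.cR i) := hw.1.2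
    have w3 := hw.2.1
    have w4 := hw.2.2
    exact ⟨max_lt w1 (by linarith), lt_min w2 (by linarith)⟩
  · intro w hw
    exact ⟨lt_of_le_of_lt (le_max_left _ _) hw.1, lt_of_lt_of_le hw.2 (min_le_left _ _)⟩

/-- arithmetic of the slice: the right side of `cm_br_slice` against `cm6eS` -/
theorem cm6e_slice_num {a b v ℓ l1 Kg Lp Mb M4 N eg Q Q' : ℝ} (hv : 0 < v) (ha2 : v / 2 ≤ a) (g1 : v / 2 ≤ b - a) (hb4 : b ≤ 4 * v)
    (hKg : 1 ≤ Kg) (hLp : 1 ≤ Lp) (hN : 0 < N) (heg : 0 < eg) (hℓ0 : 0 ≤ ℓ) (hl1 : ℓ ≤ l1) (hM0 : 0 < Mb) (hM : Mb ≤ M4) (hQ0 : 0 ≤ Q) (hQ : Q ≤ Q') :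
    200000 * ((b - a) * ((Kg * Lp * ℓ) ^ 2 + Q) + (1 / a ^ 2 + 1 / (a * (b - a))) * (Mb * (Kg ^ 2 * Lp ^ 2 * ℓ / (N * eg))))
      ≤ 200000 * (4 * v * ((Kg * Lp * l1) ^ 2 + Q') + 8 / v ^ 2 * (M4 * (Kg ^ 2 * Lp ^ 2 * l1 / (N * eg)))) ∧
    (b - a) * l1 ^ 2 ≤ 200000 * (4 * v * ((Kg * Lp * l1) ^ 2 + Q') + 8 / v ^ 2 * (M4 * (Kg ^ 2 * Lp ^ 2 * l1 / (N * eg)))) := by
  have ha0 : 0 < a := by linarith
  have hba0 : 0 < b - a := by linarith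
  have hba : b - a ≤ 4 * v := by linarith
  have hl10 : 0 ≤ l1 := hℓ0.trans hl1
  have hKL0 : 0 ≤ Kg * Lp := by positivity
  have hKL1 : 1 ≤ Kg * Lp := by
    calc (1 : ℝ) = 1 * 1 := by ring
      _ ≤ Kg * Lp := mul_le_mul hKg hLp zero_le_one (by linarith)
  have hsq : (Kg * Lp * ℓ) ^ 2 ≤ (Kg * Lp * l1) ^ 2 :=
    pow_le_pow_left₀ (by positivity) (mul_le_mul_of_nonneg_left hl1 hKL0) 2
  have hinv : 1 / a ^ 2 + 1 / (a * (b - a)) ≤ 8 / v ^ 2 := by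
    have h1 : 1 / a ^ 2 ≤ 4 / v ^ 2 := by
      rw [div_le_div_iff₀ (by positivity) (by positivity)]
      have : (v / 2) ^ 2 ≤ a ^ 2 := pow_le_pow_left₀ (by positivity) ha2 2
      linarith
    have h2 : 1 / (a * (b - a)) ≤ 4 / v ^ 2 := by
      rw [div_le_div_iff₀ (mul_pos ha0 hba0) (by positivity)]
      have : (v / 2) * (v / 2) ≤ a * (b - a) := mul_le_mul ha2 g1 (by positivity) ha0.le
      linarith
    have e : 8 / v ^ 2 = 4 / v ^ 2 + 4 / v ^ 2 := by ring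
    rw [e]; linarith
  have hT : Mb * (Kg ^ 2 * Lp ^ 2 * ℓ / (N * eg)) ≤ M4 * (Kg ^ 2 * Lp ^ 2 * l1 / (N * eg)) := by
    apply mul_le_mul hM _ (by positivity) (hM0.le.trans hM)
    exact div_le_div_of_nonneg_right (mul_le_mul_of_nonneg_left hl1 (by positivity)) (by positivity)
  have hT0 : 0 ≤ Mb * (Kg ^ 2 * Lp ^ 2 * ℓ / (N * eg)) := by positivity
  have t1 : (b - a) * ((Kg * Lp * ℓ) ^ 2 + Q) ≤ 4 * v * ((Kg * Lp * l1) ^ 2 + Q') :=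
    mul_le_mul hba (by linarith) (by positivity) (by positivity)
  have t2 : (1 / a ^ 2 + 1 / (a * (b - a))) * (Mb * (Kg ^ 2 * Lp ^ 2 * ℓ / (N * eg)))
      ≤ 8 / v ^ 2 * (M4 * (Kg ^ 2 * Lp ^ 2 * l1 / (N * eg))) :=
    mul_le_mul hinv hT hT0 (by positivity)
  refine ⟨by linarith, ?_⟩
  have s1 : l1 ^ 2 ≤ (Kg * Lp * l1) ^ 2 := by
    apply pow_le_pow_left₀ hl10
    calc l1 = 1 * l1 := by ring
      _ ≤ Kg * Lp * l1 := mul_le_mul_of_nonneg_right hKL1 hl10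
  have s2 : (b - a) * l1 ^ 2 ≤ 4 * v * (Kg * Lp * l1) ^ 2 := mul_le_mul hba s1 (by positivity) (by positivity)
  have s3 : 0 ≤ 8 / v ^ 2 * (M4 * (Kg ^ 2 * Lp ^ 2 * l1 / (N * eg))) := le_trans (by positivity) t2
  have s4 : 0 ≤ 4 * v * (Kg * Lp * l1) ^ 2 := by positivity
  have s5 : 0 ≤ 4 * v * Q' := by have := hQ0.trans hQ; positivity
  have e : 4 * v * ((Kg * Lp * l1) ^ 2 + Q') = 4 * v * (Kg * Lp * l1) ^ 2 + 4 * v * Q' := by ring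
  rw [e]
  linarith

/-- **the mismatch on a cap**: (10) -/
theorem cm6e_mis_cap (hc : 0 < cE) (hP : P.Ok cE D0) (hG : CmGeo P lam q X Z Kg Lp) {i : ℕ} {l1 : ℝ} (hl1 : Z.len i + Z.io P.rmin i ≤ l1) :
    ∀ u ∈ Z.capM q.al i, (X.S u - q.r u) ^ 2 ≤ Kg * Lp ^ 2 * (X.D u ^ 2 + l1 ^ 2) := by
  intro u hu
  have hKg := hG.Kg1
  have hlen0 : 0 ≤ Z.len i := by unfold CmCaps.len; linarith [hG.cap_le i]
  have hio0 := (cm6e_io_le hP Z i).1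
  rw [cm_capM_image hc hP hG i] at hu
  obtain ⟨r, hr, rfl⟩ := hu
  have hr01 : r ∈ Icc P.rmin 1 := cm_g_cap_sub hG i (Ioo_subset_Icc_self hr)
  rw [q.r_al r hr01]
  refine (hG.cap_mis i r hr).trans (mul_le_mul_of_nonneg_left ?_ (by positivity))
  have h1 : (Z.len i + Z.io P.rmin i) ^ 2 ≤ l1 ^ 2 := pow_le_pow_left₀ (by positivity) hl1 2
  have h2 : 0 ≤ Z.len i * Z.io P.rmin i := mul_nonneg hlen0 hio0
  nlinarith

/-- **(21) + (10) on the slice of a broad cap** (l.984-1011): `cm6e_slice_geo`, `cm_br_slice`, `cap_mis`, `cm6e_Q4_mono`, `cm_M_mono`;   `1/a² + 1/(a(b-a)) ≤ 8/v²`, `b - a ≤ 4v` -/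
theorem cm6e_slice (hc : 0 < cE) (hP : P.Ok cE D0) (hl : 0 < lam) (hX : X.Ok) (hG : CmGeo P lam q X Z Kg Lp) {i : ℕ} {v v2 y0 eg l1 Cq : ℝ} {qq : ℕ}
    (hv : 0 < v) (hv2 : v2 ≤ 2 * v) (hB : Z.Broad P q.al 8 i) (hmeet : (Z.capM q.al i ∩ Icc v v2).Nonempty)
    (hy0 : 0 < y0) (heg0 : 0 < eg) (hCq : 0 ≤ Cq) (hqq : 3 ≤ qq) (hl1 : Z.len i + Z.io P.rmin i ≤ l1)
    (heg : ∀ u ∈ Icc P.u0 1, u ≤ 4 * v → eg ≤ P.e lam (q.r u)) (hNX : ∀ u ∈ Icc P.u0 1, u ≤ 4 * v → X.NX qq u ≤ Cq * Real.sqrt y0) :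
    ∫ u in Z.capM q.al i ∩ Icc v v2, cm6xF q X u ≤ 3 * Kg * Lp ^ 2 * cm6eS P Kg Lp v y0 eg l1 Cq qq := by
  obtain ⟨g1, g2, g3⟩ := cm6e_slice_geo hc hP hG hv hv2 hB hmeet
  obtain ⟨e1, e2, e3⟩ := cm6e_ends hc hP hG i
  set a := max (q.al (Z.cL i)) (v / 2) with ha
  set b := min (q.al (Z.cR i)) (4 * v) with hb
  have ha2 : v / 2 ≤ a := le_max_right _ _
  have ha0 : 0 < a := by linarith
  have hab : a < b := by linarith
  have hb4 : b ≤ 4 * v := min_le_right _ _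
  have hsub01 : Ioo a b ⊆ Icc P.u0 1 := g3.trans (cm_capM_sub hc hP hG i)
  have hKg := hG.Kg1
  have hLp := hG.Lp1
  have hN := cm_N_pos hP
  have hKL : 1 ≤ Kg * Lp ^ 2 := by
    calc (1 : ℝ) = 1 * 1 ^ 2 := by ring
      _ ≤ Kg * Lp ^ 2 := mul_le_mul hKg (pow_le_pow_left₀ zero_le_one hLp 2) (by positivity) (by linarith)
  have hlen0 : 0 ≤ Z.len i := by unfold CmCaps.len; linarith [hG.cap_le i]
  have hio0 := (cm6e_io_le hP Z i).1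
  have hℓ0 : 0 ≤ Z.len i + Z.io P.rmin i := by positivity
  have hD := cm_br_slice hc hP hl hX hG (i := i) (a := a) (b := b) (y0 := y0) (eg := eg) (Cq := Cq) (qq := qq) ha0 hab g3 hy0 heg0 hCq hqq
    (fun u hu => heg u (hsub01 hu) (hu.2.le.trans hb4)) (fun u hu => hNX u (hsub01 hu) (hu.2.le.trans hb4))
  obtain ⟨n1, n2⟩ := cm6e_slice_num (a := a) (b := b) (Kg := Kg) (Lp := Lp) (N := P.N) (eg := eg) hv ha2 g1 hb4 hKg hLp hN heg0 hℓ0 hl1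
    (cm_M_pos hc hP (show (0 : ℝ) ≤ b by linarith))
    (cm_M_mono hc hP (show (0 : ℝ) ≤ b by linarith) (show (0 : ℝ) ≤ 4 * v by linarith) hb4)
    (cm6x_Q4_nn (Cq := Cq) (y0 := y0) qq (show 0 ≤ Kg * Lp * (Z.len i + Z.io P.rmin i) by positivity) hCq)
    (cm6e_Q4_mono (Cq := Cq) (y0 := y0) hqq (show 0 ≤ Kg * Lp * (Z.len i + Z.io P.rmin i) by positivity)
      (mul_le_mul_of_nonneg_left hl1 (by positivity)) hCq hy0.le)
  have hDS : ∫ u in Ioo a b, X.D u ^ 2 ≤ cm6eS P Kg Lp v y0 eg l1 Cq qq := hD.trans n1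
  have hSl : (b - a) * l1 ^ 2 ≤ cm6eS P Kg Lp v y0 eg l1 Cq qq := n2
  generalize cm6eS P Kg Lp v y0 eg l1 Cq qq = Sg at hDS hSl ⊢
  have hSg0 : 0 ≤ Sg := le_trans (mul_nonneg (by linarith) (sq_nonneg _)) hSl
  have hmis := cm6e_mis_cap hc hP hG hl1
  have iD : IntegrableOn (fun u => X.D u ^ 2) (Ioo a b) := (cm6x_intD hc hP hX).mono_set hsub01
  have iF : IntegrableOn (cm6xF q X) (Ioo a b) := (cm6x_int hc hP hX q).mono_set hsub01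
  have iC : IntegrableOn (fun _ : ℝ => Kg * Lp ^ 2 * l1 ^ 2) (Ioo a b) := integrableOn_const (by simp)
  have i2 : IntegrableOn (fun u => (1 + Kg * Lp ^ 2) * X.D u ^ 2 + Kg * Lp ^ 2 * l1 ^ 2) (Ioo a b) := (iD.const_mul _).add iC
  calc ∫ u in Z.capM q.al i ∩ Icc v v2, cm6xF q X u ≤ ∫ u in Ioo a b, cm6xF q X u :=
        setIntegral_mono_set iF (Filter.Eventually.of_forall (fun u => cm6e_F_nonneg q X u)) (Filter.Eventually.of_forall g2)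
    _ ≤ ∫ u in Ioo a b, ((1 + Kg * Lp ^ 2) * X.D u ^ 2 + Kg * Lp ^ 2 * l1 ^ 2) := by
        apply setIntegral_mono_on iF i2 measurableSet_Ioo
        intro u hu
        have := hmis u (g3 hu)
        unfold cm6xF
        linarith
    _ = (1 + Kg * Lp ^ 2) * (∫ u in Ioo a b, X.D u ^ 2) + Kg * Lp ^ 2 * ((b - a) * l1 ^ 2) := by
        rw [integral_add (iD.const_mul _) iC, integral_const_mul, integral_const, smul_eq_mul, Measure.real,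
          Measure.restrict_apply_univ, Real.volume_Ioo, ENNReal.toReal_ofReal (by linarith)]
        ring
    _ ≤ (1 + Kg * Lp ^ 2) * Sg + Kg * Lp ^ 2 * Sg := by
        have h1 := mul_le_mul_of_nonneg_left hDS (show 0 ≤ 1 + Kg * Lp ^ 2 by linarith)
        have h2 := mul_le_mul_of_nonneg_left hSl (show 0 ≤ Kg * Lp ^ 2 by linarith)
        linarith
    _ ≤ 3 * Kg * Lp ^ 2 * Sg := by
        have := mul_le_mul_of_nonneg_right hKL hSg0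
        linarith

end generic

/-! ## 1. the outer part -/

/-- one outer dyad: `cm6x_dyad` with `Gam = 2`;   for `u ≥ v`: `r u ≥ c u ≥ c v`, `e(r u) ≤ e(c v) ≤ e(v)/c` (`cm_e_anti`, `cm_e_scale` with `G = 1/c`) -/
theorem cm6e_out_dyad (K : CmK) (hK : K.Ok) {ε : ℝ} (hε : 0 < ε) :
    ∃ (K1 : ℝ) (n0 : ℕ), 0 < K1 ∧ ∀ (P : CmCall) (lam : ℝ) (q : CmQ P) (X : CmNum) (Z : CmCaps) (Lp x : ℝ),
      CmStd K P lam q X Z Lp x → n0 ≤ P.n → ∀ v : ℝ, cm6xC1 K 2 * x ≤ v → v ≤ 1 →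
        ∫ u in Icc v (min (2 * v) 1), P.e lam (q.r u) * cm6xF q X u ≤ K1 * P.N ^ (2 * ε) * (P.e lam v * v * P.R18 lam v ^ 2) := by
  obtain ⟨K1, n0, hK1, h⟩ := cm6x_dyad K hK hε (Gam := 2) (by norm_num)
  have hc0 := hK.c0
  refine ⟨K1 / K.c, n0, by positivity, fun P lam q X Z Lp x hS hn v hv hv1 => ?_⟩
  have hP := hS.base.ok
  have hc := hK.cE0
  have hl := hS.base.lam0
  have hd := hP.d0
  obtain ⟨hv0, h4, h5, h6, h7, h8⟩ := cm6x_dy K hK (Gam := 2) (by norm_num) hS.x0 hv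
  have h0 := h P lam q X Z Lp x hS hn v hv hv1
  have hu0 : P.u0 ≤ v / 2 := hS.u0x.trans h7
  have hsub2 : Icc (v / 2) (min (2 * v) 1) ⊆ Icc P.u0 1 := Icc_subset_Icc hu0 (min_le_right _ _)
  have hsub1 : Icc v (min (2 * v) 1) ⊆ Icc (v / 2) (min (2 * v) 1) := Icc_subset_Icc_left (by linarith)
  have iF2 : IntegrableOn (cm6xF q X) (Icc (v / 2) (min (2 * v) 1)) := (cm6x_int hc hP hS.base.num q).mono_set hsub2
  have iF1 : IntegrableOn (cm6xF q X) (Icc v (min (2 * v) 1)) := iF2.mono_set hsub1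
  have iW : IntegrableOn (fun u => P.e lam (q.r u) * cm6xF q X u) (Icc v (min (2 * v) 1)) :=
    (cm6e_int hc hP hS.base.num q lam).mono_set (hsub1.trans hsub2)
  have hev : P.e lam (K.c * v) ≤ P.e lam v / K.c := by
    have := cm_e_scale (P := P) hd hl.le (G := 1 / K.c) (r := K.c * v) (by rw [le_div_iff₀ hc0]; linarith [hK.c1]) (by positivity)
    have e1 : 1 / K.c * (K.c * v) = v := by field_simp
    rw [e1, div_le_iff₀ (by positivity)] at this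
    rw [le_div_iff₀ hc0]
    calc P.e lam (K.c * v) * K.c ≤ (P.e lam v * (1 / K.c)) * K.c := mul_le_mul_of_nonneg_right this hc0.le
      _ = P.e lam v := by field_simp
  have hpt : ∀ u ∈ Icc v (min (2 * v) 1), P.e lam (q.r u) * cm6xF q X u ≤ P.e lam v / K.c * cm6xF q X u := by
    intro u hu
    have hu1 : u ≤ 1 := hu.2.trans (min_le_right _ _)
    have hr := (hS.reg u (by linarith [hu.1]) hu1 (by linarith [hu.1])).1
    have h1 : K.c * v ≤ q.r u := (mul_le_mul_of_nonneg_left hu.1 hc0.le).trans hr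
    exact mul_le_mul_of_nonneg_right ((cm_e_anti P hd hl.le h1).trans hev) (cm6e_F_nonneg q X u)
  have hev0 : 0 ≤ P.e lam v / K.c := div_nonneg (cm_e_nonneg P hl.le v) hc0.le
  calc ∫ u in Icc v (min (2 * v) 1), P.e lam (q.r u) * cm6xF q X u
      ≤ ∫ u in Icc v (min (2 * v) 1), P.e lam v / K.c * cm6xF q X u :=
        setIntegral_mono_on iW (iF1.const_mul _) measurableSet_Icc hpt
    _ = P.e lam v / K.c * ∫ u in Icc v (min (2 * v) 1), cm6xF q X u := integral_const_mul _ _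
    _ ≤ P.e lam v / K.c * ∫ u in Icc (v / 2) (min (2 * v) 1), cm6xF q X u := by
        apply mul_le_mul_of_nonneg_left _ hev0
        exact setIntegral_mono_set iF2 (Filter.Eventually.of_forall (fun u => cm6e_F_nonneg q X u)) hsub1.eventuallyLE
    _ ≤ P.e lam v / K.c * (K1 * P.N ^ (2 * ε) * v * P.R18 lam v ^ 2) := mul_le_mul_of_nonneg_left h0 hev0
    _ = _ := by ring

/-- **the four contributions** (l.1036-1049): `R18² ≤ 4 (a1² + a2² + a3² + a4²)`;   `e v a1² = (e v)^{1/3} n^{-2/3} ≤ (C d³ Λ)^{1/3} n^{-2/3}` (`cm_ev_log`, `cm_d_E`);   `e v a2² = 1/(n v) ≤ 1/(n ca a)` (`cm_us_a`);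
`e v a3² ≤ C Λ n^{-δ} E`;   `e v a4² ≤ C Λ n^δ d³ u_*² = C Λ n^δ E d³/(n² E³)` (`cm_d_nE`). -/
theorem cm6e_out_arith {cE D0 ca : ℝ} (hc : 0 < cE) (hD : 0 < D0) (ha : 0 < ca) :
    ∃ K2 : ℝ, 0 < K2 ∧ ∀ (P : CmCall) (lam v : ℝ), P.Ok cE D0 → 0 < lam → lam ≤ P.d ^ 2 → ca * P.a ≤ v → v ≤ 1 →
      P.e lam v * v * P.R18 lam v ^ 2 ≤ K2 * P.Lam * P.E := by
  obtain ⟨C, hC, hev⟩ := cm_ev_log (D0 := D0) hc
  obtain ⟨c, hcd⟩ : ∃ c, c = cE⁻¹ := ⟨_, rfl⟩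
  have hc0 : 0 < c := by rw [hcd]; exact inv_pos.2 hc
  refine ⟨4 * ((1 + C * c ^ 3) + c ^ 3 / ca + C + C * c ^ 3), by positivity, ?_⟩
  intro P lam v hP hl hl2 hav hv1
  have hN := cm_N_pos hP
  have hN1 : 1 ≤ P.N := by linarith [cm_N_ge hP]
  have hE := cm_E_pos hc hP
  have hd := hP.d0
  have hap := cm_a_pos hc hP
  have hus := cm_us_pos hc hP
  have hLam := cm_Lam_ge_one hP
  have hv0 : 0 < v := lt_of_lt_of_le (by positivity) hav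
  have he := cm_e_pos P hl v
  obtain ⟨w, hw⟩ : ∃ w, w = P.e lam v * v := ⟨_, rfl⟩
  have hw0 : 0 < w := by rw [hw]; positivity
  have hwC : w ≤ C * P.d ^ 3 * P.Lam := by rw [hw]; exact hev P hP lam v hl.le hl2 hv0.le hv1
  have hY1 : P.N ^ (-(3 * P.m)) ≤ 1 := Real.rpow_le_one_of_one_le_of_nonpos hN1 (by linarith [hP.m0])
  have hY0 : 0 < P.N ^ (-(3 * P.m)) := Real.rpow_pos_of_pos hN _
  have b1 : P.us ≤ c ^ 3 * P.N ^ (-(3 * P.m)) * P.a := by rw [hcd]; exact cm_us_a hc hP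
  have b3 : P.d ^ 3 ≤ c ^ 3 * P.N ^ (-(3 * P.m)) * (P.N ^ 2 * P.E ^ 3) := by rw [hcd]; exact cm_d_nE hc hP
  have b3' : P.d ^ 3 ≤ c ^ 3 * (P.N ^ 2 * P.E ^ 3) := by
    refine b3.trans ?_
    have : c ^ 3 * P.N ^ (-(3 * P.m)) ≤ c ^ 3 * 1 := mul_le_mul_of_nonneg_left hY1 (by positivity)
    calc _ ≤ c ^ 3 * 1 * (P.N ^ 2 * P.E ^ 3) := mul_le_mul_of_nonneg_right this (by positivity)
      _ = _ := by ring
  -- first term
  obtain ⟨a1, ha1⟩ : ∃ a1, a1 = (P.N * P.e lam v * v) ^ (-(1 / 3 : ℝ)) := ⟨_, rfl⟩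
  obtain ⟨a2, ha2⟩ : ∃ a2, a2 = (P.N * P.e lam v * v ^ 2) ^ (-(1 / 2 : ℝ)) := ⟨_, rfl⟩
  obtain ⟨a3, ha3⟩ : ∃ a3, a3 = (P.N ^ (-P.dl) * P.E / P.d ^ 3) ^ (1 / 2 : ℝ) := ⟨_, rfl⟩
  obtain ⟨a4, ha4⟩ : ∃ a4, a4 = P.N ^ (P.dl / 2) * P.us := ⟨_, rfl⟩
  have t1 : w * a1 ^ 2 ≤ (1 + C * c ^ 3) * P.Lam * P.E := by
    have hx : 0 < P.N * P.e lam v * v := by positivity
    obtain ⟨t, ht⟩ : ∃ t, t = (P.N * P.e lam v * v) ^ (1 / 3 : ℝ) := ⟨_, rfl⟩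
    have ht0 : 0 < t := by rw [ht]; exact Real.rpow_pos_of_pos hx _
    have ht3 : t ^ 3 = P.N * w := by
      rw [ht, ← Real.rpow_natCast, ← Real.rpow_mul hx.le, hw]; norm_num; ring
    have e1 : a1 = t⁻¹ := by rw [ha1, ht, Real.rpow_neg hx.le]
    have hK1 : (1 : ℝ) ≤ 1 + C * c ^ 3 := by have : 0 < C * c ^ 3 := by positivity
                                             linarith
    have hle : t ≤ (1 + C * c ^ 3) * P.Lam * P.E * P.N := by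
      refine le_of_pow_le_pow_left₀ (n := 3) (by norm_num) (by positivity) ?_
      rw [ht3]
      have h1 : w ≤ (C * c ^ 3) * P.Lam * (P.N ^ 2 * P.E ^ 3) := by
        calc w ≤ C * P.d ^ 3 * P.Lam := hwC
          _ ≤ C * (c ^ 3 * (P.N ^ 2 * P.E ^ 3)) * P.Lam :=
              mul_le_mul_of_nonneg_right (mul_le_mul_of_nonneg_left b3' hC.le) (by linarith)
          _ = _ := by ring
      have h2 : (C * c ^ 3) * P.Lam ≤ (1 + C * c ^ 3) ^ 3 * P.Lam ^ 3 := by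
        have g1 : C * c ^ 3 ≤ (1 + C * c ^ 3) ^ 3 := by
          have := le_self_pow₀ hK1 (show (3 : ℕ) ≠ 0 by norm_num)
          linarith
        have g2 : P.Lam ≤ P.Lam ^ 3 := le_self_pow₀ hLam (by norm_num)
        exact mul_le_mul g1 g2 (by linarith) (by positivity)
      calc P.N * w ≤ P.N * ((C * c ^ 3) * P.Lam * (P.N ^ 2 * P.E ^ 3)) := mul_le_mul_of_nonneg_left h1 hN.le
        _ ≤ P.N * ((1 + C * c ^ 3) ^ 3 * P.Lam ^ 3 * (P.N ^ 2 * P.E ^ 3)) :=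
            mul_le_mul_of_nonneg_left (mul_le_mul_of_nonneg_right h2 (by positivity)) hN.le
        _ = ((1 + C * c ^ 3) * P.Lam * P.E * P.N) ^ 3 := by ring
    have e2 : w * a1 ^ 2 = t / P.N := by
      have : w = t ^ 3 / P.N := by rw [ht3]; field_simp
      rw [e1, this]; field_simp
    rw [e2, div_le_iff₀ hN]
    exact hle
  have t2 : w * a2 ^ 2 ≤ c ^ 3 / ca * P.Lam * P.E := by
    have hx : 0 < P.N * P.e lam v * v ^ 2 := by positivity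
    have e1 : a2 ^ 2 = (P.N * P.e lam v * v ^ 2)⁻¹ := by
      rw [ha2, ← Real.rpow_natCast, ← Real.rpow_mul hx.le, ← Real.rpow_neg_one]; norm_num
    have e2 : w * a2 ^ 2 = 1 / (P.N * v) := by rw [e1, hw]; field_simp
    rw [e2]
    have h1 : P.us ≤ c ^ 3 * P.a := by
      refine b1.trans ?_
      have : c ^ 3 * P.N ^ (-(3 * P.m)) ≤ c ^ 3 * 1 := mul_le_mul_of_nonneg_left hY1 (by positivity)
      calc _ ≤ c ^ 3 * 1 * P.a := mul_le_mul_of_nonneg_right this hap.le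
        _ = _ := by ring
    have h2 : 1 ≤ c ^ 3 * P.a * (P.N * P.E) := by
      have : P.us * (P.N * P.E) = 1 := by unfold CmCall.us; field_simp
      rw [← this]
      exact mul_le_mul_of_nonneg_right h1 (by positivity)
    have h3 : 1 / (P.N * v) ≤ c ^ 3 / ca * P.E := by
      rw [div_le_iff₀ (by positivity)]
      have h4 : c ^ 3 / ca * P.E * (P.N * v) = c ^ 3 * (v / ca) * (P.N * P.E) := by field_simp
      rw [h4]
      have h5 : P.a ≤ v / ca := by rw [le_div_iff₀ ha]; linarith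
      refine h2.trans (mul_le_mul_of_nonneg_right (mul_le_mul_of_nonneg_left h5 (by positivity)) (by positivity))
    refine h3.trans ?_
    have : c ^ 3 / ca * 1 ≤ c ^ 3 / ca * P.Lam := mul_le_mul_of_nonneg_left hLam (by positivity)
    calc c ^ 3 / ca * P.E = c ^ 3 / ca * 1 * P.E := by ring
      _ ≤ _ := mul_le_mul_of_nonneg_right this hE.le
  have hDl1 : P.N ^ (-P.dl) ≤ 1 := Real.rpow_le_one_of_one_le_of_nonpos hN1 (by linarith [cm_dl_pos hP])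
  have hDl0 : 0 < P.N ^ (-P.dl) := Real.rpow_pos_of_pos hN _
  have t3 : w * a3 ^ 2 ≤ C * P.Lam * P.E := by
    have hx : 0 < P.N ^ (-P.dl) * P.E / P.d ^ 3 := by positivity
    have e1 : a3 ^ 2 = P.N ^ (-P.dl) * P.E / P.d ^ 3 := by
      rw [ha3, ← Real.rpow_natCast, ← Real.rpow_mul hx.le]; norm_num
    rw [e1]
    calc w * (P.N ^ (-P.dl) * P.E / P.d ^ 3) ≤ (C * P.d ^ 3 * P.Lam) * (1 * P.E / P.d ^ 3) := by
          refine mul_le_mul hwC ?_ hx.le (by positivity)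
          exact div_le_div_of_nonneg_right (mul_le_mul_of_nonneg_right hDl1 hE.le) (by positivity)
      _ = C * P.Lam * P.E := by field_simp
  have t4 : w * a4 ^ 2 ≤ C * c ^ 3 * P.Lam * P.E := by
    have e1 : a4 ^ 2 = P.N ^ P.dl * P.us ^ 2 := by
      rw [ha4, mul_pow, ← Real.rpow_natCast (P.N ^ (P.dl / 2)), ← Real.rpow_mul hN.le]
      congr 2; push_cast; ring
    have hk1 : P.N ^ P.dl * P.N ^ (-(3 * P.m)) ≤ 1 := by
      rw [← Real.rpow_add hN]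
      refine Real.rpow_le_one_of_one_le_of_nonpos hN1 ?_
      have := hP.m0
      unfold CmCall.dl; linarith
    have hp : 0 < P.N ^ P.dl := Real.rpow_pos_of_pos hN _
    have h1 : P.d ^ 3 * (P.N ^ P.dl * P.us ^ 2) ≤ c ^ 3 * P.E := by
      have e2 : P.us ^ 2 = 1 / (P.N ^ 2 * P.E ^ 2) := by unfold CmCall.us; field_simp
      rw [e2]
      calc P.d ^ 3 * (P.N ^ P.dl * (1 / (P.N ^ 2 * P.E ^ 2)))
          ≤ (c ^ 3 * P.N ^ (-(3 * P.m)) * (P.N ^ 2 * P.E ^ 3)) * (P.N ^ P.dl * (1 / (P.N ^ 2 * P.E ^ 2))) :=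
            mul_le_mul_of_nonneg_right b3 (by positivity)
        _ = c ^ 3 * P.E * (P.N ^ P.dl * P.N ^ (-(3 * P.m))) := by field_simp
        _ ≤ c ^ 3 * P.E * 1 := mul_le_mul_of_nonneg_left hk1 (by positivity)
        _ = c ^ 3 * P.E := by ring
    rw [e1]
    calc w * (P.N ^ P.dl * P.us ^ 2) ≤ (C * P.d ^ 3 * P.Lam) * (P.N ^ P.dl * P.us ^ 2) :=
          mul_le_mul_of_nonneg_right hwC (by positivity)
      _ = C * P.Lam * (P.d ^ 3 * (P.N ^ P.dl * P.us ^ 2)) := by ring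
      _ ≤ C * P.Lam * (c ^ 3 * P.E) := mul_le_mul_of_nonneg_left h1 (by positivity)
      _ = _ := by ring
  unfold CmCall.R18
  rw [← ha1, ← ha2, ← ha3, ← ha4, ← hw]
  have hsq : (a1 + a2 + a3 + a4) ^ 2 ≤ 4 * (a1 ^ 2 + a2 ^ 2 + a3 ^ 2 + a4 ^ 2) := by
    nlinarith [sq_nonneg (a1 - a2), sq_nonneg (a1 - a3), sq_nonneg (a1 - a4), sq_nonneg (a2 - a3), sq_nonneg (a2 - a4), sq_nonneg (a3 - a4)]
  calc w * (a1 + a2 + a3 + a4) ^ 2 ≤ w * (4 * (a1 ^ 2 + a2 ^ 2 + a3 ^ 2 + a4 ^ 2)) := mul_le_mul_of_nonneg_left hsq hw0.le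
    _ = 4 * (w * a1 ^ 2 + w * a2 ^ 2 + w * a3 ^ 2 + w * a4 ^ 2) := by ring
    _ ≤ 4 * ((1 + C * c ^ 3) * P.Lam * P.E + c ^ 3 / ca * P.Lam * P.E + C * P.Lam * P.E + C * c ^ 3 * P.Lam * P.E) := by linarith
    _ = 4 * ((1 + C * c ^ 3) + c ^ 3 / ca + C + C * c ^ 3) * P.Lam * P.E := by ring

/-- **the outer part**.   GLUE: `cm6e_dyadic` on `[a,b] = [C1 x, 1]` (nothing to prove if `C1 x > 1`), `cm6e_out_dyad` with `ε = mm/40000` (`2ε = δ/2`), `cm6e_out_arith`, `cm6e_count` (`C1 x ≥ ca a ≥ ca cE n^{-1}`, `cm_a_ge`), `cm6e_absorb`. -/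
theorem cm6e_outer (K : CmK) (hK : K.Ok) :
    ∃ n0 : ℕ, ∀ (P : CmCall) (lam : ℝ) (q : CmQ P) (X : CmNum) (Z : CmCaps) (Lp x : ℝ), CmStd K P lam q X Z Lp x → n0 ≤ P.n →
      ∫ u in Icc (cm6xC1 K 2 * x) 1, P.e lam (q.r u) * cm6xF q X u ≤ P.N ^ P.dl * P.E := by
  have hmm := hK.mm0
  have hc := hK.cE0
  obtain ⟨K1, n1, hK1, hdy⟩ := cm6e_out_dyad K hK (ε := K.mm / 40000) (by positivity)
  obtain ⟨K2, hK2, har⟩ := cm6e_out_arith hc hK.D00 hK.ca0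
  obtain ⟨Cj, hCj, hcnt⟩ := cm6e_count (cE := K.cE) (D0 := K.D0) (c0 := K.ca * K.cE) (mul_pos hK.ca0 hc)
  obtain ⟨n2, hab⟩ := cm6e_absorb (cE := K.cE) (D0 := K.D0) 2 (C := Cj * K1 * K2) (η := K.mm / 20000) (by positivity)
  refine ⟨max n1 n2, fun P lam q X Z Lp x hS hn => ?_⟩
  have hP := hS.base.ok
  have hl := hS.base.lam0
  have hN := cm_N_pos hP
  have hN1 : 1 ≤ P.N := by linarith [cm_N_ge hP]
  have hE := cm_E_pos hc hP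
  have hΛ := cm_Lam_ge_one hP
  have hC1 := cm6x_C1_ge K hK (Gam := 2) (by norm_num)
  have hx0 := hS.x0
  have hxa : x ≤ cm6xC1 K 2 * x := by nlinarith [hC1.1]
  have hgoal0 : 0 ≤ P.N ^ P.dl * P.E := mul_nonneg (Real.rpow_nonneg hN.le _) hE.le
  rcases lt_or_ge 1 (cm6xC1 K 2 * x) with h1 | h1
  · rw [Icc_eq_empty (not_le.2 h1)]
    simpa using hgoal0
  have ha0 : 0 < cm6xC1 K 2 * x := lt_of_lt_of_le hx0 hxa
  have hsub : Icc (cm6xC1 K 2 * x) 1 ⊆ Icc P.u0 1 := Icc_subset_Icc_left (hS.u0x.trans hxa)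
  have hlow : K.ca * K.cE * P.N ^ (-(1 : ℝ)) ≤ cm6xC1 K 2 * x := by
    have e1 := cm_a_ge hc hP
    have e2 : P.N ^ (-(1 : ℝ)) ≤ P.N ^ (-(1 / 6 : ℝ) + P.m) :=
      Real.rpow_le_rpow_of_exponent_le hN1 (by linarith [hP.m0])
    calc K.ca * K.cE * P.N ^ (-(1 : ℝ)) ≤ K.ca * K.cE * P.N ^ (-(1 / 6 : ℝ) + P.m) :=
          mul_le_mul_of_nonneg_left e2 (mul_pos hK.ca0 hc).le
      _ = K.ca * (K.cE * P.N ^ (-(1 / 6 : ℝ) + P.m)) := by ring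
      _ ≤ K.ca * P.a := mul_le_mul_of_nonneg_left e1 hK.ca0.le
      _ ≤ x := hS.xa
      _ ≤ _ := hxa
  obtain ⟨j, hj1, hj2⟩ := hcnt P hP _ 1 hlow h1 le_rfl
  have hNe : 0 < P.N ^ (2 * (K.mm / 40000)) := Real.rpow_pos_of_pos hN _
  have hBd0 : 0 ≤ K1 * P.N ^ (2 * (K.mm / 40000)) * (K2 * P.Lam * P.E) := by positivity
  have hmain := cm6e_dyadic (Φ := fun u => P.e lam (q.r u) * cm6xF q X u) (a := cm6xC1 K 2 * x) (b := 1)
    (Bd := K1 * P.N ^ (2 * (K.mm / 40000)) * (K2 * P.Lam * P.E)) ha0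
    ((cm6e_int hc hP hS.base.num q lam).mono_set hsub)
    (fun u _ => mul_nonneg (cm_e_nonneg P hl.le _) (cm6e_F_nonneg q X u)) hBd0
    (fun v hv => by
      have a1 := hdy P lam q X Z Lp x hS (le_trans (le_max_left _ _) hn) v hv.1 hv.2
      have a2 := har P lam v hP hl hS.base.lam1 (hS.xa.trans (hxa.trans hv.1)) hv.2
      exact a1.trans (mul_le_mul_of_nonneg_left a2 (by positivity))) j hj1
  have hab' := hab P hP (le_trans (le_max_right _ _) hn)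
  calc ∫ u in Icc (cm6xC1 K 2 * x) 1, P.e lam (q.r u) * cm6xF q X u
      ≤ j * (K1 * P.N ^ (2 * (K.mm / 40000)) * (K2 * P.Lam * P.E)) := hmain
    _ ≤ (Cj * P.Lam) * (K1 * P.N ^ (2 * (K.mm / 40000)) * (K2 * P.Lam * P.E)) := mul_le_mul_of_nonneg_right hj2 hBd0
    _ = (Cj * K1 * K2 * P.Lam ^ 2) * (P.N ^ (2 * (K.mm / 40000)) * P.E) := by ring
    _ ≤ P.N ^ (K.mm / 20000) * (P.N ^ (2 * (K.mm / 40000)) * P.E) := mul_le_mul_of_nonneg_right hab' (by positivity)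
    _ = P.N ^ P.dl * P.E := by
        rw [← mul_assoc, ← Real.rpow_add hN]
        congr 2
        unfold CmCall.dl
        rw [hS.base.m_eq]
        ring

/-! ## 2. the inner part -/

/-- pointwise bounds in the frame -/
theorem cm6e_in_pt {K : CmK} (hK : K.Ok) {P : CmCall} {lam Lp KY U2 : ℝ} {q : CmQ P} {X : CmNum} {Z : CmCaps} (hb : CmBase K P lam q X Z Lp) (hI : Cm6eIn K P lam q X KY U2)
    {u : ℝ} (hu : u ∈ Icc P.u0 1) (hu2 : u ≤ U2) : cm6xF q X u ≤ 2 * (KY * P.Al lam) ^ 2 ∧ lam * P.N ^ (-P.dl) / (2 * KY) ≤ P.e lam (q.r u) ∧ P.e lam (q.r u) ≤ lam := by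
  have hP := hb.ok
  have hu' : u ∈ Icc (0 : ℝ) 1 := ⟨hP.u00.trans hu.1, hu.2⟩
  have hr0 : 0 ≤ q.r u := hP.r0.trans (q.r_mem u hu).1
  have hr := hI.r_le u hu hu2
  have hS := hI.S_le u hu hu2
  have hD := hI.D_le u hu hu2
  have hS0 := hb.num.S_nn u hu'
  have hD0 := hb.num.D_nn u hu'
  refine ⟨?_, cm_e_inner hK.cE0 hP hb.lam0 hb.lam1 hI.KY1 hr0 hr, cm_e_le P hb.lam0.le _⟩
  unfold cm6xF
  have h1 : X.D u ^ 2 ≤ (KY * P.Al lam) ^ 2 := pow_le_pow_left₀ hD0 hD 2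
  have h2 : (X.S u - q.r u) ^ 2 ≤ (KY * P.Al lam) ^ 2 := by
    apply sq_le_sq' <;> linarith
  linarith

/-- the floor part of an inner dyad: `cm_floor_mass`, `cm6e_in_pt` -/
theorem cm6e_in_floor {K : CmK} (hK : K.Ok) {P : CmCall} {lam Lp KY U2 : ℝ} {q : CmQ P} {X : CmNum} {Z : CmCaps} (hb : CmBase K P lam q X Z Lp) (hI : Cm6eIn K P lam q X KY U2)
    {v1 v2 : ℝ} (h1 : P.u0 ≤ v1) (h2 : v2 ≤ 1) (h3 : v2 ≤ U2) :
    ∫ u in q.al '' Z.Fl ∩ Icc v1 v2, cm6xF q X u ≤ 2 * (KY * P.Al lam) ^ 2 * (P.N ^ (-P.dl) * P.us) := by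
  have hP := hb.ok
  have hmass : volume (q.al '' Z.Fl ∩ Icc v1 v2) ≤ ENNReal.ofReal (P.N ^ (-P.dl) * P.us) :=
    (measure_mono inter_subset_left).trans (cm_floor_mass hK.cE0 hP hb.geo)
  have hfin : volume (q.al '' Z.Fl ∩ Icc v1 v2) < ⊤ := lt_of_le_of_lt hmass ENNReal.ofReal_lt_top
  have hpos : 0 ≤ P.N ^ (-P.dl) * P.us := mul_nonneg (Real.rpow_pos_of_pos (cm_N_pos hP) _).le (cm_us_pos hK.cE0 hP).le
  have hm2 : volume.real (q.al '' Z.Fl ∩ Icc v1 v2) ≤ P.N ^ (-P.dl) * P.us := by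
    have e1 := ENNReal.toReal_mono ENNReal.ofReal_ne_top hmass
    rwa [ENNReal.toReal_ofReal hpos] at e1
  have hF : ∀ u ∈ q.al '' Z.Fl ∩ Icc v1 v2, ‖cm6xF q X u‖ ≤ 2 * (KY * P.Al lam) ^ 2 := by
    rintro u ⟨-, hu1, hu2⟩
    rw [Real.norm_eq_abs, abs_of_nonneg (cm6e_F_nonneg q X u)]
    exact (cm6e_in_pt hK hb hI ⟨h1.trans hu1, hu2.trans h2⟩ (hu2.trans h3)).1
  have h4 := norm_setIntegral_le_of_norm_le_const hfin hF
  calc ∫ u in q.al '' Z.Fl ∩ Icc v1 v2, cm6xF q X u ≤ ‖∫ u in q.al '' Z.Fl ∩ Icc v1 v2, cm6xF q X u‖ := Real.le_norm_self _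
    _ ≤ 2 * (KY * P.Al lam) ^ 2 * volume.real (q.al '' Z.Fl ∩ Icc v1 v2) := h4
    _ ≤ 2 * (KY * P.Al lam) ^ 2 * (P.N ^ (-P.dl) * P.us) := mul_le_mul_of_nonneg_left hm2 (by positivity)

/-- the ordinary group of an inner dyad: `cm_grp_isGroup`, `cm_grp_cap`, `cm_grp_band` (`Gam = 8`: `grp ⊆ [v/16, 16 v2] ⊆ [v/32, 32 v]`), `cm6e_len_ord`, `cm6e_grp_gen` with `Gam := 32`, `cm6e_in_pt` -/
theorem cm6e_in_grp {K : CmK} (hK : K.Ok) {P : CmCall} {lam Lp KY U : ℝ} {q : CmQ P} {X : CmNum} {Z : CmCaps} (hb : CmBase K P lam q X Z Lp) (hI : Cm6eIn K P lam q X KY (32 * U))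
    {v : ℝ} (h1 : P.u0 + 16 * P.us ≤ v) (h2 : v ≤ U) (hU : U ≤ 1) {qq : ℕ} (hqq : 3 ≤ qq) :
    ∫ u in Z.grp P q.al 8 (Icc v (min (2 * v) U)), cm6xF q X u ≤
      3 * K.Kg * Lp ^ 2 * cm6xR 32 K.Kg Lp P.N v (KY * P.Al lam) (lam * P.N ^ (-P.dl) / (2 * KY)) (4 * (P.N ^ (-P.dl) * P.L)) (K.Cp qq) (P.N ^ (-(10 : ℝ))) qq := by
  have hP := hb.ok
  have hc := hK.cE0
  have hG := hb.geo
  have hus := cm_us_pos hc hP
  have hN := cm_N_pos hP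
  have hv : 0 < v := by linarith [hP.u00]
  have hKY0 : 0 < KY := lt_of_lt_of_le one_pos hI.KY1
  have hGr : Z.IsGroup q.al (Z.grp P q.al 8 (Icc v (min (2 * v) U))) := cm_grp_isGroup hc hP hG measurableSet_Icc
  have hsub := cm6x_grp_sub hc hP hG hGr
  have hband0 := cm_grp_band hc hP hG (Gam := 8) (v1 := v) (v2 := min (2 * v) U) (J := Icc v (min (2 * v) U)) (by norm_num)
    (by linarith [hP.u00]) subset_rfl
  have hband : Z.grp P q.al 8 (Icc v (min (2 * v) U)) ⊆ Icc (v / 32) (32 * v) := by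
    intro u hu
    have := hband0 hu
    have hm : min (2 * v) U ≤ 2 * v := min_le_left _ _
    constructor
    · have : v / (2 * 8) ≤ u := this.1
      have h3 : v / 32 ≤ v / (2 * 8) := by
        apply div_le_div_of_nonneg_left hv.le (by norm_num) (by norm_num)
      linarith
    · have : u ≤ 2 * 8 * min (2 * v) U := this.2
      linarith
  have hU2 : ∀ u ∈ Z.grp P q.al 8 (Icc v (min (2 * v) U)), u ≤ 32 * U := by
    intro u hu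
    have := (hband0 hu).2
    have hm : min (2 * v) U ≤ U := min_le_right _ _
    have hU0 : 0 ≤ U := hv.le.trans h2
    linarith
  have hAl : 0 < P.Al lam := by
    unfold CmCall.Al
    have := cm_E_pos hc hP
    have h4 := Real.sqrt_pos.2 hb.lam0
    have h5 := Real.sqrt_pos.2 hN
    have h6 := Real.rpow_pos_of_pos hN P.dl
    positivity
  have hNd : 0 < P.N ^ (-P.dl) := Real.rpow_pos_of_pos hN _
  refine cm6e_grp_gen hc hP hb.lam0 hb.num hG hGr hv (by norm_num) (by positivity) (by have := cm_L_pos hc hP; positivity)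
    (by have := hb.lam0; positivity) (Real.rpow_pos_of_pos hN _) (le_trans zero_le_one (hK.Cp1 qq)) hqq hband ?_ ?_ ?_ ?_ ?_ ?_
  · intro i hi hs
    have h3 := (cm_grp_cap hc hP hG hi hs).1.2.1
    have h4 : 0 ≤ q.al (Z.cL i) + P.us := by
      have := (cm_q_al_mem hc hP q ⟨hG.cap_lo i, (hG.cap_le i).trans (hG.cap_hi i)⟩).1
      linarith [hP.u00]
    linarith
  · intro i hi hs
    exact (cm_grp_cap hc hP hG hi hs).1.2.2
  · intro i hi hs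
    exact cm6e_len_ord hc hP hG (cm_grp_cap hc hP hG hi hs).1
  · intro u hu
    exact (cm6e_in_pt hK hb hI (hsub hu) (hU2 u hu)).2.1
  · intro u hu
    exact hI.S_le u (hsub hu) (hU2 u hu)
  · intro u hu
    exact hI.NX_le qq (by omega) u (hsub hu) (hU2 u hu)

/-- **one inner dyad**.   GLUE: `cm6x_cover` (`Gam = 8`, `F = cm6xF`), `Ioo u0 (u0+u_*) ∩ J = ∅`, `cm6e_in_floor`, `cm6e_in_grp`, `card B ≤ 4 v2/v ≤ 8`, `cm6e_slice` with `l1` from `cm6e_len_all`. -/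
theorem cm6e_in_dyad (K : CmK) (hK : K.Ok) : ∃ Cl : ℝ, 0 < Cl ∧ ∀ (P : CmCall) (lam : ℝ) (q : CmQ P) (X : CmNum) (Z : CmCaps) (Lp KY U : ℝ), CmBase K P lam q X Z Lp →
    Cm6eIn K P lam q X KY (32 * U) → U ≤ 1 → ∀ v : ℝ, P.u0 + 16 * P.us ≤ v → v ≤ U → ∀ qq : ℕ, 3 ≤ qq →
      ∫ u in Icc v (min (2 * v) U), cm6xF q X u ≤ cm6eB K P lam Lp v KY Cl qq := by
  obtain ⟨Cl, hCl, hlen⟩ := cm6e_len_all hK.cE0 hK.D00
  refine ⟨Cl, hCl, fun P lam q X Z Lp KY U hb hI hU v h1 h2 qq hqq => ?_⟩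
  have hP := hb.ok
  have hc := hK.cE0
  have hG := hb.geo
  have hus := cm_us_pos hc hP
  have hN := cm_N_pos hP
  have hv : 0 < v := by linarith [hP.u00]
  have hKY0 : 0 < KY := lt_of_lt_of_le one_pos hI.KY1
  have hKg : 0 < K.Kg := lt_of_lt_of_le one_pos hK.Kg1
  have hLp : 0 < Lp := lt_of_lt_of_le one_pos hG.Lp1
  have hCq : 0 ≤ K.Cp qq := le_trans zero_le_one (hK.Cp1 qq)
  have hLam := cm_Lam_ge_one hP
  have hL := cm_L_pos hc hP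
  have hAl : 0 < P.Al lam := by
    unfold CmCall.Al
    have := cm_E_pos hc hP
    have h4 := Real.sqrt_pos.2 hb.lam0
    have h5 := Real.sqrt_pos.2 hN
    have h6 := Real.rpow_pos_of_pos hN P.dl
    positivity
  have hNd : 0 < P.N ^ (-P.dl) := Real.rpow_pos_of_pos hN _
  have hlam := hb.lam0
  obtain ⟨v2, hv2d⟩ : ∃ v2, v2 = min (2 * v) U := ⟨_, rfl⟩
  rw [← hv2d]
  have hv2a : v2 ≤ 2 * v := hv2d ▸ min_le_left _ _
  have hv2b : v2 ≤ U := hv2d ▸ min_le_right _ _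
  have hvv2 : v ≤ v2 := hv2d ▸ le_min (by linarith) h2
  obtain ⟨B, hB1, hB2, hB3⟩ := cm6x_cover hc hP hG (Gam := 8) (v1 := v) (v2 := v2) le_rfl hv (by linarith) hvv2 (hv2b.trans hU)
    (cm6x_int hc hP hb.num q) (fun u _ => cm6e_F_nonneg q X u)
  have e1 := cm6e_in_floor hK hb hI (v1 := v) (v2 := v2) (by linarith) (hv2b.trans hU) (by linarith)
  have e2 := cm6e_in_grp hK hb hI h1 h2 hU hqq
  rw [← hv2d] at e2
  have e4 : ∫ u in Ioo P.u0 (P.u0 + P.us) ∩ Icc v v2, cm6xF q X u = 0 := by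
    have : Ioo P.u0 (P.u0 + P.us) ∩ Icc v v2 = ∅ := by
      ext u
      simp only [mem_inter_iff, mem_Ioo, mem_Icc, mem_empty_iff_false, iff_false, not_and, not_le]
      intro hu hu'
      linarith [hu.2]
    rw [this]; simp
  obtain ⟨Sb, hSb⟩ : ∃ Sb, Sb = 3 * K.Kg * Lp ^ 2 * cm6eS P K.Kg Lp v (KY * P.Al lam) (lam * P.N ^ (-P.dl) / (2 * KY)) (P.N ^ (-P.dl) * P.L * (Cl * P.Lam + 1)) (K.Cp qq) qq := ⟨_, rfl⟩
  have hSb0 : 0 ≤ Sb := by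
    rw [hSb]
    have hM := cm_M_pos hc hP (u := 4 * v) (by linarith)
    have hQ : 0 ≤ cmQ4 (K.Kg * Lp * (P.N ^ (-P.dl) * P.L * (Cl * P.Lam + 1))) (K.Cp qq) (KY * P.Al lam) qq := by
      unfold cmQ4
      exact mul_nonneg (Real.rpow_nonneg (by positivity) _) (Real.rpow_nonneg (by positivity) _)
    unfold cm6eS
    positivity
  have e3 : ∑ i ∈ B, ∫ u in Z.capM q.al i ∩ Icc v v2, cm6xF q X u ≤ 8 * Sb := by
    have h3 : ∀ i ∈ B, ∫ u in Z.capM q.al i ∩ Icc v v2, cm6xF q X u ≤ Sb := by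
      intro i hi
      rw [hSb]
      refine cm6e_slice hc hP hlam hb.num hG hv hv2a (hB1 i hi).1 (hB1 i hi).2 (by positivity) (by positivity) hCq hqq
        (hlen P lam K.Kg Lp q X Z hP hG i) ?_ ?_
      · intro u hu hu4
        exact (cm6e_in_pt hK hb hI hu (by linarith)).2.1
      · intro u hu hu4
        exact hI.NX_le qq (by omega) u hu (by linarith)
    have h4 := Finset.sum_le_card_nsmul B _ Sb h3
    rw [nsmul_eq_mul] at h4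
    have h5 : (B.card : ℝ) ≤ 8 := by
      refine hB2.trans ?_
      rw [div_le_iff₀ hv]
      linarith
    exact h4.trans (mul_le_mul_of_nonneg_right h5 hSb0)
  unfold cm6eB
  rw [← hSb]
  linarith

/-! ### arithmetic kit of `cm6e_in_arith` (helper170; abstract reals) -/

/-- the `2/3` power term -/
theorem cm6e_ar_p1 {lam v Y T us X : ℝ} (hl : 0 < lam) (hY : 0 < Y) (hT : 0 < T) (hus : 0 < us) (huv : us ≤ v) (hX : 0 ≤ X)
    (h : lam ^ 3 * Y ^ 2 * T ^ 2 ≤ X ^ 3 * us) : lam * (v * (Y * T / v ^ 2) ^ (2 / 3 : ℝ)) ≤ X := by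
  have hv : 0 < v := lt_of_lt_of_le hus huv
  have hb : 0 < Y * T / v ^ 2 := by positivity
  obtain ⟨p, hp⟩ : ∃ p, p = (Y * T / v ^ 2) ^ (2 / 3 : ℝ) := ⟨_, rfl⟩
  have hp0 : 0 < p := by rw [hp]; exact Real.rpow_pos_of_pos hb _
  have hp3 : p ^ 3 = (Y * T / v ^ 2) ^ 2 := by
    rw [hp, ← Real.rpow_natCast, ← Real.rpow_mul hb.le, ← Real.rpow_natCast]; norm_num
  rw [← hp]
  refine le_of_pow_le_pow_left₀ (n := 3) (by norm_num) hX ?_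
  have e1 : (lam * (v * p)) ^ 3 = lam ^ 3 * Y ^ 2 * T ^ 2 / v := by
    rw [mul_pow, mul_pow, hp3]; field_simp
  rw [e1, div_le_iff₀ hv]
  exact h.trans (mul_le_mul_of_nonneg_left huv (by positivity))

/-- closed form bound of `cmQ4`: `cmQ4 ω Cq Y q ≤ (2 Cq)³ ω Y (Y/ω)^s`, `s = 1/(q-1)` -/
theorem cm6e_ar_q4 {ω Y Cq M : ℝ} {qq : ℕ} (hqq : 3 ≤ qq) (hω : 0 < ω) (hY : 0 < Y) (hCq : 1 ≤ Cq) (hM : Y ≤ M * ω) :
    cmQ4 ω Cq Y qq ≤ (2 * Cq) ^ 3 * (ω * Y) * M ^ (1 / ((qq : ℝ) - 1)) := by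
  have hq3 : (3 : ℝ) ≤ (qq : ℝ) := by exact_mod_cast hqq
  have hq1 : (0 : ℝ) < (qq : ℝ) - 1 := by linarith
  obtain ⟨s, hs⟩ : ∃ s, s = 1 / ((qq : ℝ) - 1) := ⟨_, rfl⟩
  have hs0 : 0 < s := by rw [hs]; positivity
  have he2 : 2 * (qq : ℝ) / ((qq : ℝ) - 1) = 2 * (1 + s) := by rw [hs]; field_simp; ring
  have hs1 : s ≤ 1 / 2 := by
    rw [hs, div_le_div_iff₀ hq1 (by norm_num)]; linarith
  unfold cmQ4
  rw [he2, ← hs]
  have hsq : 0 < Real.sqrt Y := Real.sqrt_pos.2 hY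
  have h2C : (1 : ℝ) ≤ 2 * Cq := by linarith
  have e1 : (2 * Cq * Real.sqrt Y) ^ (2 * (1 + s)) = (2 * Cq) ^ (2 * (1 + s)) * (Y * Y ^ s) := by
    rw [Real.mul_rpow (by linarith) hsq.le, Real.sqrt_eq_rpow, ← Real.rpow_mul hY.le]
    congr 1
    rw [show (1 / 2 : ℝ) * (2 * (1 + s)) = 1 + s by ring, Real.rpow_add hY, Real.rpow_one]
  have e2 : ω ^ (1 - s) = ω * (ω ^ s)⁻¹ := by
    rw [Real.rpow_sub hω, Real.rpow_one]; rfl
  have e3 : (2 * Cq) ^ (2 * (1 + s)) ≤ (2 * Cq) ^ 3 := by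
    rw [← Real.rpow_natCast (2 * Cq) 3]
    exact Real.rpow_le_rpow_of_exponent_le h2C (by push_cast; linarith)
  have e4 : Y ^ s * (ω ^ s)⁻¹ ≤ M ^ s := by
    rw [← Real.inv_rpow hω.le, ← Real.mul_rpow hY.le (inv_pos.2 hω).le]
    refine Real.rpow_le_rpow (by positivity) ?_ hs0.le
    rw [← div_eq_mul_inv, div_le_iff₀ hω]; exact hM
  have hp1 : 0 < Y ^ s := Real.rpow_pos_of_pos hY _
  have hp2 : 0 < (ω ^ s)⁻¹ := inv_pos.2 (Real.rpow_pos_of_pos hω _)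
  rw [e1, e2]
  calc ω * (ω ^ s)⁻¹ * ((2 * Cq) ^ (2 * (1 + s)) * (Y * Y ^ s))
      = (2 * Cq) ^ (2 * (1 + s)) * (ω * Y) * (Y ^ s * (ω ^ s)⁻¹) := by ring
    _ ≤ (2 * Cq) ^ 3 * (ω * Y) * M ^ s :=
        mul_le_mul (mul_le_mul_of_nonneg_right e3 (by positivity)) e4 (by positivity) (by positivity)

/-- cube root bound -/
theorem cm6e_ar_cbrt {z X : ℝ} (hz : 0 ≤ z) (hX : 0 ≤ X) (h : z ≤ X ^ 3) : z ^ (1 / 3 : ℝ) ≤ X := by
  have h1 := Real.rpow_le_rpow hz h (show (0 : ℝ) ≤ 1 / 3 by norm_num)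
  rw [← Real.rpow_natCast X 3, ← Real.rpow_mul hX] at h1
  norm_num at h1
  exact h1

theorem cm6e_ar_x0 {N E us A lam D KY : ℝ} (hb : lam * A ^ 2 = N * D ^ 2 * E ^ 2) (hc : us * (N * E) = 1) (hD : 1 ≤ D) (hE : 0 < E) :
    lam * (2 * (KY * A) ^ 2 * (D⁻¹ * us)) ≤ 2 * KY ^ 2 * (D ^ 2 * E) := by
  have hD0 : 0 < D := by linarith
  have e : lam * (2 * (KY * A) ^ 2 * (D⁻¹ * us)) = 2 * KY ^ 2 * (D * E) := by
    calc lam * (2 * (KY * A) ^ 2 * (D⁻¹ * us)) = 2 * KY ^ 2 * (lam * A ^ 2) * (D⁻¹ * us) := by ring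
      _ = 2 * KY ^ 2 * (N * D ^ 2 * E ^ 2) * (D⁻¹ * us) := by rw [hb]
      _ = 2 * KY ^ 2 * (D * E) * (D * D⁻¹) * (us * (N * E)) := by ring
      _ = 2 * KY ^ 2 * (D * E) := by rw [hc, mul_inv_cancel₀ hD0.ne']; ring
  rw [e]
  have : D * E ≤ D ^ 2 * E := mul_le_mul_of_nonneg_right (le_self_pow₀ hD (by norm_num)) hE.le
  exact mul_le_mul_of_nonneg_left this (by positivity)

/-- the unit trace bound `T` in closed form -/
theorem cm6e_ar_T {N lam D KY Kg Lp : ℝ} (hN : 0 < N) (hl : 0 < lam) (hD : 0 < D) (hKY : 0 < KY) :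
    2 * 32 ^ 2 * Kg ^ 2 * Lp ^ 2 / (N * (lam * D⁻¹ / (2 * KY))) = 4096 * Kg ^ 2 * KY * Lp ^ 2 * D / (N * lam) := by
  field_simp
  ring

theorem cm6e_ar_x1 {N E us A lam D KY cT Lp v : ℝ} (hN : 0 < N) (hE : 0 < E) (hus : 0 < us) (hA : 0 < A) (hl : 0 < lam) (hD : 1 ≤ D) (hKY : 1 ≤ KY)
    (hcT : 1 ≤ cT) (hLp : 1 ≤ Lp) (hb : lam * A ^ 2 = N * D ^ 2 * E ^ 2) (hc : us * (N * E) = 1) (huv : us ≤ v) :
    lam * (v * (KY * A * (cT * Lp ^ 2 * D / (N * lam)) / v ^ 2) ^ (2 / 3 : ℝ)) ≤ KY * cT * Lp ^ 2 * (D ^ 2 * E) := by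
  have hD0 : 0 < D := by linarith
  have hKY0 : 0 < KY := by linarith
  have hcT0 : 0 < cT := by linarith
  have hLp0 : 0 < Lp := by linarith
  refine cm6e_ar_p1 hl (by positivity) (by positivity) hus huv (by positivity) ?_
  have e1 : lam ^ 3 * (KY * A) ^ 2 * (cT * Lp ^ 2 * D / (N * lam)) ^ 2 = KY ^ 2 * cT ^ 2 * Lp ^ 4 * D ^ 4 * E ^ 2 / N := by
    calc lam ^ 3 * (KY * A) ^ 2 * (cT * Lp ^ 2 * D / (N * lam)) ^ 2
        = (lam * A ^ 2) * (KY ^ 2 * cT ^ 2 * Lp ^ 4 * D ^ 2) / N ^ 2 := by field_simp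
      _ = (N * D ^ 2 * E ^ 2) * (KY ^ 2 * cT ^ 2 * Lp ^ 4 * D ^ 2) / N ^ 2 := by rw [hb]
      _ = _ := by field_simp
  have hus' : us = 1 / (N * E) := by rw [eq_div_iff (by positivity)]; exact hc
  have e2 : (KY * cT * Lp ^ 2 * (D ^ 2 * E)) ^ 3 * us = KY ^ 3 * cT ^ 3 * Lp ^ 6 * D ^ 6 * E ^ 2 / N := by
    rw [hus']; field_simp
  rw [e1, e2]
  apply div_le_div_of_nonneg_right _ hN.le
  apply mul_le_mul_of_nonneg_right _ (by positivity)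
  have g1 : KY ^ 2 ≤ KY ^ 3 := pow_le_pow_right₀ hKY (by norm_num)
  have g2 : cT ^ 2 ≤ cT ^ 3 := pow_le_pow_right₀ hcT (by norm_num)
  have g3 : Lp ^ 4 ≤ Lp ^ 6 := pow_le_pow_right₀ hLp (by norm_num)
  have g4 : D ^ 4 ≤ D ^ 6 := pow_le_pow_right₀ hD (by norm_num)
  exact mul_le_mul (mul_le_mul (mul_le_mul g1 g2 (by positivity) (by positivity)) g3 (by positivity) (by positivity)) g4
    (by positivity) (by positivity)

theorem cm6e_ar_x2 {N E us lam D cT Lp v : ℝ} (hN : 0 < N) (hE : 0 < E) (hus : 0 < us) (hl : 0 < lam) (hD : 1 ≤ D)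
    (hcT : 0 < cT) (hc : us * (N * E) = 1) (huv : us ≤ v) :
    lam * (v * (cT * Lp ^ 2 * D / (N * lam) / v ^ 2)) ≤ cT * Lp ^ 2 * (D ^ 2 * E) := by
  have hD0 : 0 < D := by linarith
  have hv : 0 < v := lt_of_lt_of_le hus huv
  have e1 : lam * (v * (cT * Lp ^ 2 * D / (N * lam) / v ^ 2)) = cT * Lp ^ 2 * D / (N * v) := by field_simp
  rw [e1, div_le_iff₀ (by positivity)]
  have h1 : 1 ≤ v * (N * E) := by rw [← hc]; exact mul_le_mul_of_nonneg_right huv (by positivity)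
  have h2 : D ≤ D ^ 2 := le_self_pow₀ hD (by norm_num)
  calc cT * Lp ^ 2 * D = cT * Lp ^ 2 * D * 1 := by ring
    _ ≤ cT * Lp ^ 2 * D ^ 2 * (v * (N * E)) :=
        mul_le_mul (mul_le_mul_of_nonneg_left h2 (by positivity)) h1 (by norm_num) (by positivity)
    _ = cT * Lp ^ 2 * (D ^ 2 * E) * (N * v) := by ring

theorem cm6e_ar_x3 {N E us L A lam D KY Kg Lp μ c v : ℝ} (hN : 0 < N) (hE : 0 < E) (hL : 0 < L) (hLus : L ≤ us) (hA : 0 < A) (hl : 0 < lam) (hD : 1 ≤ D)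
    (hKY : 0 < KY) (hc0 : 0 < c) (hb : lam * A ^ 2 = N * D ^ 2 * E ^ 2) (hc : us * (N * E) = 1) (husA : us ≤ c ^ 3 * A) (hv0 : 0 < v) (hvA : v ≤ KY * A) :
    lam * (v * (Kg * Lp * (D⁻¹ * L * μ)) ^ 2) ≤ Kg ^ 2 * Lp ^ 2 * μ ^ 2 * KY * c ^ 3 * (D ^ 2 * E) := by
  have hD0 : 0 < D := by linarith
  have hus : 0 < us := lt_of_lt_of_le hL hLus
  have hDi : D⁻¹ ≤ 1 := inv_le_one_of_one_le₀ hD
  have hDi0 : 0 < D⁻¹ := inv_pos.2 hD0
  have h1 : (D⁻¹ * L) ^ 2 ≤ us * (c ^ 3 * A) := by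
    have : D⁻¹ * L ≤ us := by
      calc D⁻¹ * L ≤ 1 * us := mul_le_mul hDi hLus hL.le (by norm_num)
        _ = us := one_mul _
    calc (D⁻¹ * L) ^ 2 = (D⁻¹ * L) * (D⁻¹ * L) := by ring
      _ ≤ us * (c ^ 3 * A) := mul_le_mul this (this.trans husA) (by positivity) hus.le
  calc lam * (v * (Kg * Lp * (D⁻¹ * L * μ)) ^ 2) = (Kg ^ 2 * Lp ^ 2 * μ ^ 2 * lam) * (v * (D⁻¹ * L) ^ 2) := by ring
    _ ≤ (Kg ^ 2 * Lp ^ 2 * μ ^ 2 * lam) * ((KY * A) * (us * (c ^ 3 * A))) :=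
        mul_le_mul_of_nonneg_left (mul_le_mul hvA h1 (by positivity) (by positivity)) (by positivity)
    _ = Kg ^ 2 * Lp ^ 2 * μ ^ 2 * KY * c ^ 3 * us * (lam * A ^ 2) := by ring
    _ = Kg ^ 2 * Lp ^ 2 * μ ^ 2 * KY * c ^ 3 * us * (N * D ^ 2 * E ^ 2) := by rw [hb]
    _ = Kg ^ 2 * Lp ^ 2 * μ ^ 2 * KY * c ^ 3 * (D ^ 2 * E) * (us * (N * E)) := by ring
    _ = _ := by rw [hc, mul_one]

theorem cm6e_ar_x4 {N E us L A lam D KY Kg Lp μ Cq M v : ℝ} {qq : ℕ} (hqq : 3 ≤ qq) (hN : 0 < N) (hE : 0 < E) (hL : 0 < L) (hLus : L ≤ us) (hA : 0 < A)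
    (hl : 0 < lam) (hD : 1 ≤ D) (hKY : 0 < KY) (hCq : 1 ≤ Cq) (hg : 1 ≤ Kg * Lp * μ) (hb : lam * A ^ 2 = N * D ^ 2 * E ^ 2) (hc : us * (N * E) = 1)
    (hv0 : 0 < v) (hvA : v ≤ KY * A) (hM0 : 0 ≤ M) (hM : KY * A ≤ M * (D⁻¹ * L)) (hMs : M ^ (1 / ((qq : ℝ) - 1)) ≤ D) :
    lam * (v * cmQ4 (Kg * Lp * (D⁻¹ * L * μ)) Cq (KY * A) qq) ≤ (2 * Cq) ^ 3 * KY ^ 2 * (Kg * Lp * μ) * (D ^ 2 * E) := by
  have hD0 : 0 < D := by linarith
  have hDi0 : 0 < D⁻¹ := inv_pos.2 hD0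
  have hg0 : 0 < Kg * Lp * μ := by linarith
  have hω : 0 < Kg * Lp * (D⁻¹ * L * μ) := by
    have : Kg * Lp * (D⁻¹ * L * μ) = (Kg * Lp * μ) * (D⁻¹ * L) := by ring
    rw [this]; positivity
  have hM' : KY * A ≤ M * (Kg * Lp * (D⁻¹ * L * μ)) := by
    refine hM.trans ?_
    have : Kg * Lp * (D⁻¹ * L * μ) = (Kg * Lp * μ) * (D⁻¹ * L) := by ring
    rw [this]
    exact mul_le_mul_of_nonneg_left (le_mul_of_one_le_left (by positivity) hg) hM0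
  have h1 := cm6e_ar_q4 hqq hω (by positivity : 0 < KY * A) hCq hM'
  have hMs0 : 0 ≤ M ^ (1 / ((qq : ℝ) - 1)) := Real.rpow_nonneg hM0 _
  have h2 : cmQ4 (Kg * Lp * (D⁻¹ * L * μ)) Cq (KY * A) qq ≤ (2 * Cq) ^ 3 * (Kg * Lp * (D⁻¹ * L * μ) * (KY * A)) * D :=
    h1.trans (mul_le_mul_of_nonneg_left hMs (by positivity))
  have h3 : (0 : ℝ) ≤ (2 * Cq) ^ 3 * (Kg * Lp * (D⁻¹ * L * μ) * (KY * A)) * D := by positivity
  calc lam * (v * cmQ4 (Kg * Lp * (D⁻¹ * L * μ)) Cq (KY * A) qq)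
      ≤ lam * ((KY * A) * ((2 * Cq) ^ 3 * (Kg * Lp * (D⁻¹ * L * μ) * (KY * A)) * D)) :=
        mul_le_mul_of_nonneg_left (mul_le_mul hvA h2 (cm6x_Q4_nn qq hω.le (by linarith)) (by positivity)) hl.le
    _ = (2 * Cq) ^ 3 * KY ^ 2 * (Kg * Lp * μ) * (D * D⁻¹) * (lam * A ^ 2) * L := by ring
    _ = (2 * Cq) ^ 3 * KY ^ 2 * (Kg * Lp * μ) * (N * D ^ 2 * E ^ 2) * L := by rw [hb, mul_inv_cancel₀ hD0.ne']; ring
    _ ≤ (2 * Cq) ^ 3 * KY ^ 2 * (Kg * Lp * μ) * (N * D ^ 2 * E ^ 2) * us := mul_le_mul_of_nonneg_left hLus (by positivity)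
    _ = (2 * Cq) ^ 3 * KY ^ 2 * (Kg * Lp * μ) * (D ^ 2 * E) * (us * (N * E)) := by ring
    _ = _ := by rw [hc, mul_one]

theorem cm6e_ar_x8 {N E L lam D KY Kg Lp μ M4 v : ℝ} (hN : 0 < N) (hE : 0 < E) (hL : 0 < L) (hl : 0 < lam) (hD : 1 ≤ D) (hKY : 0 < KY) (hμ : 0 ≤ μ)
    (hv0 : 0 < v) (hM4 : M4 * L ≤ 30 * (D * v ^ 2) * (N * E)) :
    lam * (8 / v ^ 2 * (M4 * (Kg ^ 2 * Lp ^ 2 * (D⁻¹ * L * μ) / (N * (lam * D⁻¹ / (2 * KY)))))) ≤ 480 * KY * Kg ^ 2 * Lp ^ 2 * μ * (D ^ 2 * E) := by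
  have hD0 : 0 < D := by linarith
  have e1 : lam * (8 / v ^ 2 * (M4 * (Kg ^ 2 * Lp ^ 2 * (D⁻¹ * L * μ) / (N * (lam * D⁻¹ / (2 * KY))))))
      = (16 * KY * Kg ^ 2 * Lp ^ 2 * μ / (v ^ 2 * N)) * (M4 * L) := by
    field_simp
    ring
  rw [e1]
  calc (16 * KY * Kg ^ 2 * Lp ^ 2 * μ / (v ^ 2 * N)) * (M4 * L)
      ≤ (16 * KY * Kg ^ 2 * Lp ^ 2 * μ / (v ^ 2 * N)) * (30 * (D * v ^ 2) * (N * E)) := mul_le_mul_of_nonneg_left hM4 (by positivity)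
    _ = 480 * KY * Kg ^ 2 * Lp ^ 2 * μ * (D * E) := by field_simp; ring
    _ ≤ 480 * KY * Kg ^ 2 * Lp ^ 2 * μ * (D ^ 2 * E) :=
        mul_le_mul_of_nonneg_left (mul_le_mul_of_nonneg_right (le_self_pow₀ hD (by norm_num)) hE.le) (by positivity)

theorem cm6e_ar_x5 {N E A lam D KY D0 c cT Lp v : ℝ} (hN : 1 ≤ N) (hE : 0 < E) (hl : 0 < lam) (hD : 1 ≤ D) (hcT : 1 ≤ cT) (hLp : 1 ≤ Lp)
    (hb : lam * A ^ 2 = N * D ^ 2 * E ^ 2) (hNE : N * E ^ 2 ≤ D0 ^ 4) (hD2 : D ^ 2 ≤ N) (hlD : lam ≤ D0 ^ 2) (h9 : 1 ≤ c ^ 2 * (N * E))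
    (hv0 : 0 < v) (hv1 : v ≤ 1) :
    lam * ((3 + ((KY * A) ^ 2 * v ^ 2 / (cT * Lp ^ 2 * D / (N * lam))) ^ (1 / 3 : ℝ)) * (N ^ 10)⁻¹) ≤ D0 ^ 2 * (4 + KY ^ 2 * D0 ^ 4) * c ^ 2 * (D ^ 2 * E) := by
  have hN0 : 0 < N := by linarith
  have hD0 : 0 < D := by linarith
  have hcT0 : 0 < cT := by linarith
  have hLp0 : 0 < Lp := by linarith
  obtain ⟨k, hk⟩ : ∃ k, k = KY ^ 2 * D0 ^ 4 := ⟨_, rfl⟩
  have hk0 : 0 ≤ k := by rw [hk]; positivity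
  rw [← hk]
  have hz : (KY * A) ^ 2 * v ^ 2 / (cT * Lp ^ 2 * D / (N * lam)) ≤ ((1 + k) * N) ^ 3 := by
    have e1 : (KY * A) ^ 2 * v ^ 2 / (cT * Lp ^ 2 * D / (N * lam)) = KY ^ 2 * N * (lam * A ^ 2) * v ^ 2 / (cT * Lp ^ 2 * D) := by
      field_simp
    rw [e1, hb, div_le_iff₀ (by positivity)]
    have g1 : (1 : ℝ) ≤ cT * Lp ^ 2 * D := by
      have : (1 : ℝ) ≤ Lp ^ 2 := one_le_pow₀ hLp
      calc (1 : ℝ) = 1 * 1 * 1 := by norm_num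
        _ ≤ cT * Lp ^ 2 * D := mul_le_mul (mul_le_mul hcT this (by norm_num) (by linarith)) hD (by norm_num) (by positivity)
    have g2 : v ^ 2 ≤ 1 := pow_le_one₀ hv0.le hv1
    have g3 : KY ^ 2 * N * (N * D ^ 2 * E ^ 2) ≤ k * N ^ 2 := by
      calc KY ^ 2 * N * (N * D ^ 2 * E ^ 2) = KY ^ 2 * N * (D ^ 2 * (N * E ^ 2)) := by ring
        _ ≤ KY ^ 2 * N * (N * D0 ^ 4) := mul_le_mul_of_nonneg_left (mul_le_mul hD2 hNE (by positivity) hN0.le) (by positivity)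
        _ = k * N ^ 2 := by rw [hk]; ring
    have g4 : k * N ^ 2 ≤ ((1 + k) * N) ^ 3 := by
      have a1 : k ≤ (1 + k) ^ 3 := by
        have := le_self_pow₀ (show (1 : ℝ) ≤ 1 + k by linarith) (show (3 : ℕ) ≠ 0 by norm_num)
        linarith
      have a2 : N ^ 2 ≤ N ^ 3 := pow_le_pow_right₀ hN (by norm_num)
      rw [mul_pow]
      exact mul_le_mul a1 a2 (by positivity) (by positivity)
    have g5 : 0 ≤ KY ^ 2 * N * (N * D ^ 2 * E ^ 2) := by positivity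
    calc KY ^ 2 * N * (N * D ^ 2 * E ^ 2) * v ^ 2 ≤ KY ^ 2 * N * (N * D ^ 2 * E ^ 2) * 1 := mul_le_mul_of_nonneg_left g2 g5
      _ = KY ^ 2 * N * (N * D ^ 2 * E ^ 2) := mul_one _
      _ ≤ ((1 + k) * N) ^ 3 := g3.trans g4
      _ = ((1 + k) * N) ^ 3 * 1 := (mul_one _).symm
      _ ≤ ((1 + k) * N) ^ 3 * (cT * Lp ^ 2 * D) := mul_le_mul_of_nonneg_left g1 (by positivity)
  have hP5 := cm6e_ar_cbrt (by positivity) (by positivity) hz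
  have h1 : 3 + ((KY * A) ^ 2 * v ^ 2 / (cT * Lp ^ 2 * D / (N * lam))) ^ (1 / 3 : ℝ) ≤ (4 + k) * N := by nlinarith
  have h0 : 0 ≤ 3 + ((KY * A) ^ 2 * v ^ 2 / (cT * Lp ^ 2 * D / (N * lam))) ^ (1 / 3 : ℝ) := by
    have := Real.rpow_nonneg (show 0 ≤ (KY * A) ^ 2 * v ^ 2 / (cT * Lp ^ 2 * D / (N * lam)) by positivity) (1 / 3 : ℝ)
    linarith
  have hi : 0 < (N ^ 10)⁻¹ := by positivity
  have h2 : N * (N ^ 10)⁻¹ ≤ c ^ 2 * E := by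
    have e : N * (N ^ 10)⁻¹ = (N ^ 9)⁻¹ := by field_simp
    rw [e, inv_le_iff_one_le_mul₀ (by positivity)]
    have a1 : N ≤ N ^ 9 := le_self_pow₀ hN (by norm_num)
    calc (1 : ℝ) ≤ c ^ 2 * (N * E) := h9
      _ = (c ^ 2 * E) * N := by ring
      _ ≤ (c ^ 2 * E) * N ^ 9 := mul_le_mul_of_nonneg_left a1 (by positivity)
  calc lam * ((3 + ((KY * A) ^ 2 * v ^ 2 / (cT * Lp ^ 2 * D / (N * lam))) ^ (1 / 3 : ℝ)) * (N ^ 10)⁻¹)
      ≤ D0 ^ 2 * (((4 + k) * N) * (N ^ 10)⁻¹) :=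
        mul_le_mul hlD (mul_le_mul_of_nonneg_right h1 hi.le) (by positivity) (by positivity)
    _ = D0 ^ 2 * (4 + k) * (N * (N ^ 10)⁻¹) := by ring
    _ ≤ D0 ^ 2 * (4 + k) * (c ^ 2 * E) := mul_le_mul_of_nonneg_left h2 (by positivity)
    _ = D0 ^ 2 * (4 + k) * c ^ 2 * (1 * E) := by ring
    _ ≤ D0 ^ 2 * (4 + k) * c ^ 2 * (D ^ 2 * E) :=
        mul_le_mul_of_nonneg_left (mul_le_mul_of_nonneg_right (one_le_pow₀ hD) hE.le) (by positivity)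

section frame

variable {P : CmCall} {cE D0 lam : ℝ}

theorem cm6e_fr_D (hP : P.Ok cE D0) : 1 ≤ P.N ^ P.dl ∧ P.N ^ (-P.dl) = (P.N ^ P.dl)⁻¹ ∧ (P.N ^ P.dl) ^ 2 ≤ P.N := by
  have hN := cm_N_pos hP
  have hN1 : 1 ≤ P.N := by linarith [cm_N_ge hP]
  refine ⟨Real.one_le_rpow hN1 (cm_dl_pos hP).le, Real.rpow_neg hN.le _, ?_⟩
  rw [← Real.rpow_natCast, ← Real.rpow_mul hN.le]
  calc P.N ^ (P.dl * ((2 : ℕ) : ℝ)) ≤ P.N ^ (1 : ℝ) := by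
        refine Real.rpow_le_rpow_of_exponent_le hN1 ?_
        have := hP.m1
        unfold CmCall.dl; push_cast; linarith
    _ = P.N := Real.rpow_one _

theorem cm6e_fr_b (hc : 0 < cE) (hP : P.Ok cE D0) (hl : 0 < lam) : lam * P.Al lam ^ 2 = P.N * (P.N ^ P.dl) ^ 2 * P.E ^ 2 := by
  have hN := cm_N_pos hP
  rw [cm_lam_Al_sq hc hP hl, Real.rpow_add hN, Real.rpow_one, ← Real.rpow_natCast (P.N ^ P.dl), ← Real.rpow_mul hN.le]
  congr 3; push_cast; ring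

theorem cm6e_fr_us (hc : 0 < cE) (hP : P.Ok cE D0) : P.us * (P.N * P.E) = 1 := by
  have hN := cm_N_pos hP
  have hE := cm_E_pos hc hP
  unfold CmCall.us; field_simp

theorem cm6e_fr_usA (hc : 0 < cE) (hP : P.Ok cE D0) (hl : 0 < lam) (hl2 : lam ≤ P.d ^ 2) : P.us ≤ cE⁻¹ ^ 3 * P.Al lam := by
  have hN := cm_N_pos hP
  have hN1 : 1 ≤ P.N := by linarith [cm_N_ge hP]
  have hap := cm_a_pos hc hP
  have hY1 : P.N ^ (-(3 * P.m)) ≤ 1 := Real.rpow_le_one_of_one_le_of_nonpos hN1 (by linarith [hP.m0])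
  have hc3 : 0 < cE⁻¹ ^ 3 := by positivity
  have h1 : P.a ≤ P.Al lam := by
    refine le_trans ?_ (cm_Al_ge hc hP hl hl2)
    exact le_mul_of_one_le_left hap.le (cm6e_fr_D hP).1
  calc P.us ≤ cE⁻¹ ^ 3 * P.N ^ (-(3 * P.m)) * P.a := cm_us_a hc hP
    _ ≤ cE⁻¹ ^ 3 * 1 * P.Al lam := mul_le_mul (mul_le_mul_of_nonneg_left hY1 hc3.le) h1 hap.le (by positivity)
    _ = _ := by ring

theorem cm6e_fr_NE (hc : 0 < cE) (hP : P.Ok cE D0) : P.N * P.E ^ 2 ≤ D0 ^ 4 := by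
  have hN := cm_N_pos hP
  have hE := cm_E_pos hc hP
  have hd := hP.d0
  have h1 : P.E ^ 2 ≤ (P.N ^ (-(1 / 2 : ℝ)) * P.d ^ 2) ^ 2 := pow_le_pow_left₀ hE.le hP.E2 2
  have e1 : (P.N ^ (-(1 / 2 : ℝ))) ^ 2 = P.N⁻¹ := by
    rw [← Real.rpow_natCast, ← Real.rpow_mul hN.le, ← Real.rpow_neg_one]; norm_num
  rw [mul_pow, e1] at h1
  have h2 : P.d ^ 4 ≤ D0 ^ 4 := pow_le_pow_left₀ hd.le hP.d1 4
  calc P.N * P.E ^ 2 ≤ P.N * (P.N⁻¹ * (P.d ^ 2) ^ 2) := mul_le_mul_of_nonneg_left h1 hN.le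
    _ = P.d ^ 4 := by field_simp
    _ ≤ D0 ^ 4 := h2

theorem cm6e_fr_th (hP : P.Ok cE D0) : P.N ^ (-(10 : ℝ)) = (P.N ^ 10)⁻¹ := by
  have hN := cm_N_pos hP
  rw [Real.rpow_neg hN.le, ← Real.rpow_natCast]; norm_num

theorem cm6e_fr_A (hc : 0 < cE) (hD : 0 < D0) (hP : P.Ok cE D0) (hl : 0 < lam) (hl10 : P.N ^ (-(10 : ℝ)) ≤ lam) :
    P.Al lam ≤ P.N ^ 5 * P.N ^ P.dl * D0 ^ 2 := by
  have hN := cm_N_pos hP
  have hp : 0 < P.N ^ P.dl := Real.rpow_pos_of_pos hN _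
  refine le_of_pow_le_pow_left₀ (n := 2) (by norm_num) (by positivity) ?_
  have h1 := cm6e_fr_b hc hP hl
  rw [cm6e_fr_th hP] at hl10
  have h2 : (P.N ^ 10)⁻¹ * P.Al lam ^ 2 ≤ P.N * (P.N ^ P.dl) ^ 2 * P.E ^ 2 := by
    rw [← h1]; exact mul_le_mul_of_nonneg_right hl10 (sq_nonneg _)
  have h3 := cm6e_fr_NE hc hP
  have h4 : P.Al lam ^ 2 ≤ P.N ^ 10 * (P.N * (P.N ^ P.dl) ^ 2 * P.E ^ 2) := by
    rw [inv_mul_le_iff₀ (by positivity)] at h2; exact h2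
  calc P.Al lam ^ 2 ≤ P.N ^ 10 * (P.N * (P.N ^ P.dl) ^ 2 * P.E ^ 2) := h4
    _ = P.N ^ 10 * (P.N ^ P.dl) ^ 2 * (P.N * P.E ^ 2) := by ring
    _ ≤ P.N ^ 10 * (P.N ^ P.dl) ^ 2 * D0 ^ 4 := mul_le_mul_of_nonneg_left h3 (by positivity)
    _ = (P.N ^ 5 * P.N ^ P.dl * D0 ^ 2) ^ 2 := by ring

theorem cm6e_fr_L (hc : 0 < cE) (hD : 0 < D0) (hP : P.Ok cE D0) : 1 ≤ (1 + cE⁻¹ ^ 3) * D0 ^ 2 * (P.N * P.L) := by
  have hN := cm_N_pos hP
  have hN1 : 1 ≤ P.N := by linarith [cm_N_ge hP]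
  have hd := hP.d0
  have hap := cm_a_pos hc hP
  have hus := cm_us_pos hc hP
  have hc3 : 0 < cE⁻¹ ^ 3 := by positivity
  have hhalf : P.N⁻¹ ≤ P.N ^ (-(1 / 2 : ℝ)) := by
    rw [← Real.rpow_neg_one]; exact Real.rpow_le_rpow_of_exponent_le hN1 (by norm_num)
  have h1 : 1 ≤ D0 ^ 2 * (P.N * P.us) := by
    have a1 := cm_us_ge hc hP
    have a2 : P.N⁻¹ / D0 ^ 2 ≤ P.us := (div_le_div_of_nonneg_right hhalf (by positivity)).trans a1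
    rw [div_le_iff₀ (by positivity), inv_le_iff_one_le_mul₀ hN] at a2
    linarith
  have h2 : 1 ≤ cE⁻¹ ^ 3 * D0 ^ 2 * (P.N * (P.a ^ 3 / P.d ^ 2)) := by
    have a1 := cm_a_ge hc hP
    have a2 : (cE * P.N ^ (-(1 / 6 : ℝ) + P.m)) ^ 3 ≤ P.a ^ 3 := pow_le_pow_left₀ (by positivity) a1 3
    have a3 : P.N⁻¹ ≤ (P.N ^ (-(1 / 6 : ℝ) + P.m)) ^ 3 := by
      rw [← Real.rpow_natCast, ← Real.rpow_mul hN.le, ← Real.rpow_neg_one]
      refine Real.rpow_le_rpow_of_exponent_le hN1 ?_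
      have := hP.m0
      push_cast; linarith
    have a4 : cE ^ 3 * P.N⁻¹ ≤ P.a ^ 3 := by
      refine le_trans ?_ a2
      rw [mul_pow]; exact mul_le_mul_of_nonneg_left a3 (by positivity)
    have a5 : 1 ≤ cE⁻¹ ^ 3 * (P.N * P.a ^ 3) := by
      have := mul_le_mul_of_nonneg_left a4 (show 0 ≤ cE⁻¹ ^ 3 * P.N by positivity)
      have e : cE⁻¹ ^ 3 * P.N * (cE ^ 3 * P.N⁻¹) = 1 := by field_simp
      rw [e] at this
      linarith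
    have a6 : P.a ^ 3 ≤ D0 ^ 2 * (P.a ^ 3 / P.d ^ 2) := by
      rw [← mul_div_assoc, le_div_iff₀ (by positivity)]
      have : P.d ^ 2 ≤ D0 ^ 2 := pow_le_pow_left₀ hd.le hP.d1 2
      nlinarith [pow_pos hap 3]
    calc (1 : ℝ) ≤ cE⁻¹ ^ 3 * (P.N * P.a ^ 3) := a5
      _ ≤ cE⁻¹ ^ 3 * (P.N * (D0 ^ 2 * (P.a ^ 3 / P.d ^ 2))) :=
          mul_le_mul_of_nonneg_left (mul_le_mul_of_nonneg_left a6 hN.le) hc3.le
      _ = _ := by ring
  unfold CmCall.L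
  rcases le_total P.us (P.a ^ 3 / P.d ^ 2) with hle | hle
  · rw [min_eq_left hle]
    have : 0 ≤ cE⁻¹ ^ 3 * (D0 ^ 2 * (P.N * P.us)) := by positivity
    nlinarith
  · rw [min_eq_right hle]
    have : 0 ≤ D0 ^ 2 * (P.N * (P.a ^ 3 / P.d ^ 2)) := by positivity
    nlinarith

theorem cm6e_fr_E (hc : 0 < cE) (hP : P.Ok cE D0) : 1 ≤ cE⁻¹ ^ 2 * (P.N * P.E) := by
  have hN := cm_N_pos hP
  have hN1 : 1 ≤ P.N := by linarith [cm_N_ge hP]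
  have hE := cm_E_pos hc hP
  have h1 := cm_us_le hc hP
  have h2 : P.N ^ (-(1 / 6 : ℝ) - 2 * P.m) ≤ 1 := Real.rpow_le_one_of_one_le_of_nonpos hN1 (by linarith [hP.m0])
  have h3 : P.us ≤ cE⁻¹ ^ 2 := by
    refine h1.trans ?_
    calc cE⁻¹ ^ 2 * P.N ^ (-(1 / 6 : ℝ) - 2 * P.m) ≤ cE⁻¹ ^ 2 * 1 := mul_le_mul_of_nonneg_left h2 (by positivity)
      _ = _ := mul_one _
  rw [← cm6e_fr_us hc hP]
  exact mul_le_mul_of_nonneg_right h3 (by positivity)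

theorem cm6e_fr_M (hc : 0 < cE) (hP : P.Ok cE D0) {v : ℝ} (huv : P.us ≤ v) :
    P.M (4 * v) * P.L ≤ 30 * (P.N ^ P.dl * v ^ 2) * (P.N * P.E) := by
  have hN := cm_N_pos hP
  have hE := cm_E_pos hc hP
  have hd := hP.d0
  have hus := cm_us_pos hc hP
  have hL := cm_L_pos hc hP
  have hv : 0 < v := lt_of_lt_of_le hus huv
  have hp : 0 < P.N ^ P.dl := Real.rpow_pos_of_pos hN _
  have hu := cm6e_fr_us hc hP
  have h1 : P.d ^ 3 * P.L * P.us / P.E ≤ 1 := (cm_dLus hc hP).1.trans (cm_dLus hc hP).2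
  have h2 : P.d ^ 3 / P.E * P.L ≤ P.N * P.E := by
    have e : P.d ^ 3 / P.E * P.L = (P.d ^ 3 * P.L * P.us / P.E) * (P.N * P.E) := by
      calc P.d ^ 3 / P.E * P.L = (P.d ^ 3 / P.E * P.L) * (P.us * (P.N * P.E)) := by rw [hu, mul_one]
        _ = _ := by ring
    rw [e]
    calc _ ≤ 1 * (P.N * P.E) := mul_le_mul_of_nonneg_right h1 (by positivity)
      _ = _ := one_mul _
  have h3 : 4 * v + P.us ≤ 5 * v := by linarith
  have h4 : 4 * v + P.us ≤ 5 * v ^ 2 * (P.N * P.E) := by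
    calc 4 * v + P.us = (4 * v + P.us) * (P.us * (P.N * P.E)) := by rw [hu, mul_one]
      _ ≤ (5 * v) * (v * (P.N * P.E)) :=
          mul_le_mul h3 (mul_le_mul_of_nonneg_right huv (by positivity)) (by positivity) (by positivity)
      _ = _ := by ring
  have h5 : (4 * v + P.us) ^ 2 ≤ 25 * v ^ 2 := by
    calc (4 * v + P.us) ^ 2 ≤ (5 * v) ^ 2 := pow_le_pow_left₀ (by positivity) h3 2
      _ = _ := by ring
  unfold CmCall.M
  calc P.N ^ P.dl * ((4 * v + P.us) / P.L + P.d ^ 3 / P.E * (4 * v + P.us) ^ 2) * P.L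
      = P.N ^ P.dl * ((4 * v + P.us) + (P.d ^ 3 / P.E * P.L) * (4 * v + P.us) ^ 2) := by field_simp
    _ ≤ P.N ^ P.dl * (5 * v ^ 2 * (P.N * P.E) + (P.N * P.E) * (25 * v ^ 2)) :=
        mul_le_mul_of_nonneg_left (add_le_add h4 (mul_le_mul h2 h5 (by positivity) (by positivity))) hp.le
    _ = _ := by ring

theorem cm6e_fr_Lg (hP : P.Ok cE D0) {v : ℝ} (hv0 : 0 ≤ v) (hv1 : v ≤ 1) :
    0 ≤ Real.log (1 + 32 * v / (P.N ^ 10)⁻¹) ∧ 1 + Real.log (1 + 32 * v / (P.N ^ 10)⁻¹) ≤ 15 * P.Lam := by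
  have hN := cm_N_pos hP
  have hN3 := cm_N_ge hP
  have hLam := cm_Lam_ge_one hP
  have e : 32 * v / (P.N ^ 10)⁻¹ = 32 * v * P.N ^ 10 := by rw [div_inv_eq_mul]
  rw [e]
  have h0 : 0 ≤ 32 * v * P.N ^ 10 := by positivity
  refine ⟨Real.log_nonneg (by linarith), ?_⟩
  have h1 : 1 + 32 * v * P.N ^ 10 ≤ P.N ^ 14 := by
    have a1 : (1 : ℝ) ≤ P.N ^ 10 := one_le_pow₀ (by linarith)
    have a2 : 32 * v * P.N ^ 10 ≤ 32 * 1 * P.N ^ 10 := by gcongr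
    have a3 : (33 : ℝ) ≤ P.N ^ 4 := by
      calc (33 : ℝ) ≤ 3 ^ 4 := by norm_num
        _ ≤ P.N ^ 4 := pow_le_pow_left₀ (by norm_num) hN3 4
    calc 1 + 32 * v * P.N ^ 10 ≤ 33 * P.N ^ 10 := by linarith
      _ ≤ P.N ^ 4 * P.N ^ 10 := mul_le_mul_of_nonneg_right a3 (by positivity)
      _ = P.N ^ 14 := by ring
  have h2 := Real.log_le_log (by linarith) h1
  rw [Real.log_pow] at h2
  unfold CmCall.Lam at *
  push_cast at h2
  linarith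

end frame

/-- assembly of the nine contributions -/
theorem cm6e_ar_asm {x0 x1 x2 x3 x4 x5 x6 x7 x8 k0 k1 k2 k3 k4 k5 k6 k7 k8 U W Lg Lp Kg c1 : ℝ}
    (hU : 0 ≤ U) (hW : 1 ≤ W) (hLg0 : 0 ≤ Lg) (hLg : Lg ≤ W) (hLp0 : 0 ≤ Lp) (hLp : Lp ≤ W) (hKg : 0 ≤ Kg) (hc1 : 0 ≤ c1)
    (hk0 : 0 ≤ k0) (hk1 : 0 ≤ k1) (hk2 : 0 ≤ k2) (hk3 : 0 ≤ k3) (hk4 : 0 ≤ k4) (hk5 : 0 ≤ k5) (hk6 : 0 ≤ k6) (hk7 : 0 ≤ k7) (hk8 : 0 ≤ k8)
    (h0 : x0 ≤ k0 * U) (h1 : x1 ≤ k1 * U) (h2 : x2 ≤ k2 * U) (h3 : x3 ≤ k3 * U) (h4 : x4 ≤ k4 * U) (h5 : x5 ≤ k5 * U)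
    (h6 : x6 ≤ k6 * U) (h7 : x7 ≤ k7 * U) (h8 : x8 ≤ k8 * U) :
    x0 + 3 * Kg * Lp ^ 2 * (c1 * Lg ^ 2 * (x1 + x2 + x3 + x4) + 1000000 * x5) + 8 * (3 * Kg * Lp ^ 2 * (200000 * (4 * (x6 + x7) + x8)))
      ≤ (k0 + 3 * Kg * (c1 * (k1 + k2 + k3 + k4) + 1000000 * k5) + 8 * (3 * Kg * (200000 * (4 * (k6 + k7) + k8)))) * (W ^ 4 * U) := by
  have hW0 : 0 ≤ W := by linarith
  have hW2 : (1 : ℝ) ≤ W ^ 2 := one_le_pow₀ hW
  have hW4 : (1 : ℝ) ≤ W ^ 4 := one_le_pow₀ hW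
  have hLg2 : Lg ^ 2 ≤ W ^ 2 := pow_le_pow_left₀ hLg0 hLg 2
  have hLp2 : Lp ^ 2 ≤ W ^ 2 := pow_le_pow_left₀ hLp0 hLp 2
  have a0 : x0 ≤ k0 * (W ^ 4 * U) := h0.trans (mul_le_mul_of_nonneg_left (le_mul_of_one_le_left hU hW4) hk0)
  have s1 : x1 + x2 + x3 + x4 ≤ (k1 + k2 + k3 + k4) * U := by linarith
  have a1 : c1 * Lg ^ 2 * (x1 + x2 + x3 + x4) ≤ c1 * W ^ 2 * ((k1 + k2 + k3 + k4) * U) :=
    (mul_le_mul_of_nonneg_left s1 (by positivity)).trans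
      (mul_le_mul_of_nonneg_right (mul_le_mul_of_nonneg_left hLg2 hc1) (by positivity))
  have a2 : 1000000 * x5 ≤ 1000000 * k5 * (W ^ 2 * U) := by
    have : k5 * U ≤ k5 * (W ^ 2 * U) := mul_le_mul_of_nonneg_left (le_mul_of_one_le_left hU hW2) hk5
    linarith
  have a3 : c1 * Lg ^ 2 * (x1 + x2 + x3 + x4) + 1000000 * x5 ≤ (c1 * (k1 + k2 + k3 + k4) + 1000000 * k5) * (W ^ 2 * U) := by
    have e : (c1 * (k1 + k2 + k3 + k4) + 1000000 * k5) * (W ^ 2 * U) = c1 * W ^ 2 * ((k1 + k2 + k3 + k4) * U) + 1000000 * k5 * (W ^ 2 * U) := by ring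
    rw [e]; linarith
  have a4 : 3 * Kg * Lp ^ 2 * (c1 * Lg ^ 2 * (x1 + x2 + x3 + x4) + 1000000 * x5)
      ≤ 3 * Kg * W ^ 2 * ((c1 * (k1 + k2 + k3 + k4) + 1000000 * k5) * (W ^ 2 * U)) :=
    (mul_le_mul_of_nonneg_left a3 (by positivity)).trans
      (mul_le_mul_of_nonneg_right (mul_le_mul_of_nonneg_left hLp2 (by positivity)) (by positivity))
  have s3 : 200000 * (4 * (x6 + x7) + x8) ≤ (200000 * (4 * (k6 + k7) + k8)) * (W ^ 2 * U) := by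
    have b1 : 200000 * (4 * (x6 + x7) + x8) ≤ (200000 * (4 * (k6 + k7) + k8)) * U := by linarith
    exact b1.trans (mul_le_mul_of_nonneg_left (le_mul_of_one_le_left hU hW2) (by positivity))
  have a5 : 3 * Kg * Lp ^ 2 * (200000 * (4 * (x6 + x7) + x8)) ≤ 3 * Kg * W ^ 2 * ((200000 * (4 * (k6 + k7) + k8)) * (W ^ 2 * U)) :=
    (mul_le_mul_of_nonneg_left s3 (by positivity)).trans
      (mul_le_mul_of_nonneg_right (mul_le_mul_of_nonneg_left hLp2 (by positivity)) (by positivity))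
  have e : (k0 + 3 * Kg * (c1 * (k1 + k2 + k3 + k4) + 1000000 * k5) + 8 * (3 * Kg * (200000 * (4 * (k6 + k7) + k8)))) * (W ^ 4 * U)
      = k0 * (W ^ 4 * U) + 3 * Kg * W ^ 2 * ((c1 * (k1 + k2 + k3 + k4) + 1000000 * k5) * (W ^ 2 * U))
        + 8 * (3 * Kg * W ^ 2 * ((200000 * (4 * (k6 + k7) + k8)) * (W ^ 2 * U))) := by ring
  rw [e]
  linarith

/-- **the arithmetic of an inner dyad** (l.1051-1073).   `λ A² = n^{1+2δ} E²` (`cm_lam_Al_sq`), `u_* = 1/(nE)`, so `λ A² u_* = n^{2δ} E`;   `L ≤ u_* ≤ v ≤ KY A`;   `T = c Lp² n^{δ-1}/λ`: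
`λ v (Y T/v²)^{2/3} ≤ c Lp^{4/3} n^{4δ/3} E`;   `λ v T/v² ≤ c Lp² n^δ E`;   `λ v ω² ≤ c Lp² λ A u_*²`;   `λ v cmQ4 = c λ v ω Y (Y/ω)^s`, `Y/ω ≤ n^{20}` (`λ ≥ n^{-10}`), `s = 1/(qq-1) ≤ δ/40`;
slice: `M(4v) n^{-δ} L ≤ (4v+u_*)(1 + (4v+u_*)/u_*) ≤ 30 v²/u_*` (`cm_dLus`), `λ/(n eg u_*) = 2 KY n^δ E`;   logarithms: `Lp ≤ CL Λ`, `cm_log_pow`. -/
theorem cm6e_in_arith (K : CmK) (hK : K.Ok) {KY Cl : ℝ} (hKY : 1 ≤ KY) (hCl : 0 < Cl) :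
    ∃ (qq : ℕ) (n0 : ℕ), 3 ≤ qq ∧ ∀ (P : CmCall) (lam Lp v : ℝ), P.Ok K.cE K.D0 → P.m = K.mm → P.N ^ (-(10 : ℝ)) ≤ lam → lam ≤ P.d ^ 2 →
      1 ≤ Lp → Lp ≤ K.CL * P.Lam → 16 * P.us ≤ v → v ≤ KY * P.Al lam → v ≤ 1 → n0 ≤ P.n →
        lam * cm6eB K P lam Lp v KY Cl qq ≤ P.N ^ (3 * P.dl) * P.E := by
  have hc := hK.cE0
  have hD00 := hK.D00
  obtain ⟨δ, hδ⟩ : ∃ δ, δ = K.mm / 10000 := ⟨_, rfl⟩
  have hδ0 : 0 < δ := by rw [hδ]; have := hK.mm0; positivity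
  obtain ⟨qq, hqq3, hqs⟩ : ∃ qq : ℕ, 3 ≤ qq ∧ 8 * (1 / ((qq : ℝ) - 1)) ≤ δ := by
    refine ⟨⌈8 / δ⌉₊ + 3, by omega, ?_⟩
    have h1 : 8 / δ ≤ (⌈8 / δ⌉₊ : ℝ) := Nat.le_ceil _
    push_cast
    have h2 : 0 < (⌈8 / δ⌉₊ : ℝ) + 3 - 1 := by
      have : (0 : ℝ) ≤ (⌈8 / δ⌉₊ : ℝ) := Nat.cast_nonneg _
      linarith
    rw [mul_one_div, div_le_iff₀ h2]
    rw [div_le_iff₀ hδ0] at h1
    nlinarith
  obtain ⟨c, hcd⟩ : ∃ c, c = K.cE⁻¹ := ⟨_, rfl⟩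
  have hc0 : 0 < c := by rw [hcd]; exact inv_pos.2 hc
  obtain ⟨Kg, hKg⟩ : ∃ Kg, Kg = K.Kg := ⟨_, rfl⟩
  have hKg1 : 1 ≤ Kg := by rw [hKg]; exact hK.Kg1
  obtain ⟨Cq, hCq⟩ : ∃ Cq, Cq = K.Cp qq := ⟨_, rfl⟩
  have hCq1 : 1 ≤ Cq := by rw [hCq]; exact hK.Cp1 qq
  obtain ⟨D0, hD0⟩ : ∃ D0, D0 = K.D0 := ⟨_, rfl⟩
  have hD0p : 0 < D0 := by rw [hD0]; exact hD00
  obtain ⟨cT, hcT⟩ : ∃ cT, cT = 4096 * Kg ^ 2 * KY := ⟨_, rfl⟩
  have hKY0 : 0 < KY := by linarith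
  have hKg0 : 0 < Kg := by linarith
  have hcT1 : 1 ≤ cT := by
    rw [hcT]
    have : (1 : ℝ) ≤ Kg ^ 2 := one_le_pow₀ hKg1
    calc (1 : ℝ) = 1 * 1 * 1 := by norm_num
      _ ≤ 4096 * Kg ^ 2 * KY := mul_le_mul (mul_le_mul (by norm_num) this (by norm_num) (by norm_num)) hKY (by norm_num) (by positivity)
  obtain ⟨Ktot, hKtot⟩ : ∃ Ktot, Ktot = (2 * KY ^ 2 + 3 * Kg * (10000000 * 32 ^ 3 * (KY * cT + cT + 16 * Kg ^ 2 * KY * c ^ 3 + 4 * ((2 * Cq) ^ 3 * KY ^ 2 * Kg))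
      + 1000000 * (D0 ^ 2 * (4 + KY ^ 2 * D0 ^ 4) * c ^ 2)) + 8 * (3 * Kg * (200000 * (4 * (Kg ^ 2 * KY * c ^ 3 + (2 * Cq) ^ 3 * KY ^ 2 * Kg) + 480 * KY * Kg ^ 2)))) := ⟨_, rfl⟩
  obtain ⟨n2, hn2⟩ := cm6e_absorb (cE := K.cE) (D0 := K.D0) 8 (C := Ktot * (K.CL + Cl + 15) ^ 8) hδ0
  refine ⟨qq, max n2 ⌈KY * D0 ^ 2 * ((1 + c ^ 3) * D0 ^ 2)⌉₊, hqq3, ?_⟩
  intro P lam Lp v hP hm hl10 hl2 hLp1 hLp hv16 hvA hv1 hn
  have hN := cm_N_pos hP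
  have hN1 : 1 ≤ P.N := by linarith [cm_N_ge hP]
  have hE := cm_E_pos hc hP
  have hus := cm_us_pos hc hP
  have hL := cm_L_pos hc hP
  have hLam := cm_Lam_ge_one hP
  have hl : 0 < lam := lt_of_lt_of_le (Real.rpow_pos_of_pos hN _) hl10
  have hdl : P.dl = δ := by unfold CmCall.dl; rw [hm, hδ]
  unfold cm6eB cm6xR cm6eS
  rw [← hKg, ← hCq, (cm6e_fr_D hP).2.1, cm6e_fr_th hP]
  obtain ⟨hD1, -, hD2⟩ := cm6e_fr_D hP
  have hDp : 0 < P.N ^ P.dl := by linarith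
  rw [cm6e_ar_T hN hl hDp hKY0, ← hcT, show (4 : ℝ) * ((P.N ^ P.dl)⁻¹ * P.L) = (P.N ^ P.dl)⁻¹ * P.L * 4 by ring]
  have hb := cm6e_fr_b hc hP hl
  have hcu := cm6e_fr_us hc hP
  have hLus : P.L ≤ P.us := cm_L_le_us
  have husA : P.us ≤ c ^ 3 * P.Al lam := by rw [hcd]; exact cm6e_fr_usA hc hP hl hl2
  have hNE : P.N * P.E ^ 2 ≤ D0 ^ 4 := by rw [hD0]; exact cm6e_fr_NE hc hP
  have hA5 : P.Al lam ≤ P.N ^ 5 * P.N ^ P.dl * D0 ^ 2 := by rw [hD0]; exact cm6e_fr_A hc hD00 hP hl hl10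
  have hLlo : 1 ≤ (1 + c ^ 3) * D0 ^ 2 * (P.N * P.L) := by rw [hcd, hD0]; exact cm6e_fr_L hc hD00 hP
  have hElo : 1 ≤ c ^ 2 * (P.N * P.E) := by rw [hcd]; exact cm6e_fr_E hc hP
  have huv : P.us ≤ v := by linarith
  have hv0 : 0 < v := lt_of_lt_of_le hus huv
  have hM4 := cm6e_fr_M hc hP huv
  obtain ⟨hLg0, hLg15⟩ := cm6e_fr_Lg hP hv0.le hv1
  have hA0 : 0 < P.Al lam := by
    by_contra h
    push Not at h
    have : KY * P.Al lam ≤ 0 := mul_nonpos_of_nonneg_of_nonpos hKY0.le h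
    linarith
  have hlD : lam ≤ D0 ^ 2 := hl2.trans (by rw [hD0]; exact pow_le_pow_left₀ hP.d0.le hP.d1 2)
  obtain ⟨W, hW⟩ : ∃ W, W = (K.CL + Cl + 15) * P.Lam := ⟨_, rfl⟩
  have hCL1 := hK.CL1
  have hLam0 : 0 < P.Lam := by linarith
  have hW15 : 15 * P.Lam ≤ W := by
    rw [hW]; exact mul_le_mul_of_nonneg_right (by linarith) hLam0.le
  have hW1 : 1 ≤ W := by linarith
  have hW0 : 0 < W := by linarith
  have hLpW : Lp ≤ W := hLp.trans (by rw [hW]; exact mul_le_mul_of_nonneg_right (by linarith) hLam0.le)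
  obtain ⟨μ, hμ⟩ : ∃ μ, μ = Cl * P.Lam + 1 := ⟨_, rfl⟩
  have hμ1 : 1 ≤ μ := by
    rw [hμ]
    have : 0 < Cl * P.Lam := by positivity
    linarith
  have hμW : μ ≤ W := by
    rw [hμ, hW]
    have e : (K.CL + Cl + 15) * P.Lam = Cl * P.Lam + (K.CL + 15) * P.Lam := by ring
    have : 1 ≤ (K.CL + 15) * P.Lam := by
      calc (1 : ℝ) = 1 * 1 := by norm_num
        _ ≤ (K.CL + 15) * P.Lam := mul_le_mul (by linarith) hLam (by norm_num) (by linarith)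
    linarith
  rw [← hμ]
  have hn1 : KY * D0 ^ 2 * ((1 + c ^ 3) * D0 ^ 2) ≤ P.N := by
    have : ((⌈KY * D0 ^ 2 * ((1 + c ^ 3) * D0 ^ 2)⌉₊ : ℕ) : ℝ) ≤ (P.n : ℝ) := by exact_mod_cast (le_max_right _ _).trans hn
    exact (Nat.le_ceil _).trans this
  have hMbig : KY * P.Al lam ≤ P.N ^ 8 * ((P.N ^ P.dl)⁻¹ * P.L) := by
    calc KY * P.Al lam ≤ KY * (P.N ^ 5 * P.N ^ P.dl * D0 ^ 2) := mul_le_mul_of_nonneg_left hA5 hKY0.le
      _ = KY * (P.N ^ 5 * P.N ^ P.dl * D0 ^ 2) * 1 := (mul_one _).symm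
      _ ≤ KY * (P.N ^ 5 * P.N ^ P.dl * D0 ^ 2) * ((1 + c ^ 3) * D0 ^ 2 * (P.N * P.L)) := mul_le_mul_of_nonneg_left hLlo (by positivity)
      _ = (KY * D0 ^ 2 * ((1 + c ^ 3) * D0 ^ 2)) * (P.N ^ P.dl) ^ 2 * (P.N ^ 6 * ((P.N ^ P.dl)⁻¹ * P.L)) := by field_simp
      _ ≤ P.N * P.N * (P.N ^ 6 * ((P.N ^ P.dl)⁻¹ * P.L)) :=
          mul_le_mul_of_nonneg_right (mul_le_mul hn1 hD2 (by positivity) hN.le) (by positivity)
      _ = _ := by ring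
  have hMs : (P.N ^ 8) ^ (1 / ((qq : ℝ) - 1)) ≤ P.N ^ P.dl := by
    rw [← Real.rpow_natCast P.N 8, ← Real.rpow_mul hN.le, hdl]
    exact Real.rpow_le_rpow_of_exponent_le hN1 (by push_cast; exact hqs)
  obtain ⟨Z, hZ⟩ : ∃ Z, Z = (P.N ^ P.dl) ^ 2 * P.E := ⟨_, rfl⟩
  have hZ0 : 0 < Z := by rw [hZ]; positivity
  have hLp0 : 0 < Lp := by linarith
  have hμ0 : 0 < μ := by linarith
  have w2 : W ^ 2 ≤ W ^ 4 := pow_le_pow_right₀ hW1 (by norm_num)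
  have w3 : W ^ 3 ≤ W ^ 4 := pow_le_pow_right₀ hW1 (by norm_num)
  have w1 : W ≤ W ^ 4 := le_self_pow₀ hW1 (by norm_num)
  have w0 : (1 : ℝ) ≤ W ^ 4 := one_le_pow₀ hW1
  have r1 : Lp ≤ W ^ 4 := hLpW.trans w1
  have r2 : Lp ^ 2 ≤ W ^ 4 := (pow_le_pow_left₀ hLp0.le hLpW 2).trans w2
  have r22 : Lp ^ 2 * μ ^ 2 ≤ W ^ 4 := by
    calc Lp ^ 2 * μ ^ 2 ≤ W ^ 2 * W ^ 2 :=
          mul_le_mul (pow_le_pow_left₀ hLp0.le hLpW 2) (pow_le_pow_left₀ hμ0.le hμW 2) (by positivity) (by positivity)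
      _ = W ^ 4 := by ring
  have r11 : Lp * μ ≤ W ^ 4 := by
    calc Lp * μ ≤ W * W := mul_le_mul hLpW hμW hμ0.le hW0.le
      _ = W ^ 2 := by ring
      _ ≤ W ^ 4 := w2
  have r21 : Lp ^ 2 * μ ≤ W ^ 4 := by
    calc Lp ^ 2 * μ ≤ W ^ 2 * W := mul_le_mul (pow_le_pow_left₀ hLp0.le hLpW 2) hμW hμ0.le (by positivity)
      _ = W ^ 3 := by ring
      _ ≤ W ^ 4 := w3
  have lift : ∀ k t : ℝ, 0 ≤ k → t ≤ W ^ 4 → k * t * Z ≤ k * (W ^ 4 * Z) := by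
    intro k t hk ht
    calc k * t * Z = k * (t * Z) := by ring
      _ ≤ k * (W ^ 4 * Z) := mul_le_mul_of_nonneg_left (mul_le_mul_of_nonneg_right ht hZ0.le) hk
  have b0 := (cm6e_ar_x0 (KY := KY) hb hcu hD1 hE).trans (le_of_eq (by rw [← hZ]; ring) |>.trans (lift (2 * KY ^ 2) 1 (by positivity) w0))
  have b1 := (cm6e_ar_x1 hN hE hus hA0 hl hD1 hKY hcT1 hLp1 hb hcu huv).trans
    (le_of_eq (by rw [← hZ]) |>.trans (lift (KY * cT) (Lp ^ 2) (by positivity) r2))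
  have b2 := (cm6e_ar_x2 (Lp := Lp) hN hE hus hl hD1 (by linarith : 0 < cT) hcu huv).trans
    (le_of_eq (by rw [← hZ]) |>.trans (lift cT (Lp ^ 2) (by positivity) r2))
  have b3 := (cm6e_ar_x3 (Kg := Kg) (Lp := Lp) (μ := 4) hN hE hL hLus hA0 hl hD1 hKY0 hc0 hb hcu husA hv0 hvA).trans
    (le_of_eq (by rw [← hZ]; ring) |>.trans (lift (16 * Kg ^ 2 * KY * c ^ 3) (Lp ^ 2) (by positivity) r2))
  have g4 : 1 ≤ Kg * Lp * 4 := by
    calc (1 : ℝ) = 1 * 1 * 1 := by norm_num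
      _ ≤ Kg * Lp * 4 := mul_le_mul (mul_le_mul hKg1 hLp1 (by norm_num) hKg0.le) (by norm_num) (by norm_num) (by positivity)
  have b4 := (cm6e_ar_x4 (μ := 4) hqq3 hN hE hL hLus hA0 hl hD1 hKY0 hCq1 g4 hb hcu hv0 hvA (by positivity) hMbig hMs).trans
    (le_of_eq (by rw [← hZ]; ring) |>.trans (lift (4 * ((2 * Cq) ^ 3 * KY ^ 2 * Kg)) Lp (by positivity) r1))
  have b5 := (cm6e_ar_x5 (KY := KY) (c := c) hN1 hE hl hD1 hcT1 hLp1 hb hNE hD2 hlD hElo hv0 hv1).trans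
    (le_of_eq (by rw [← hZ]; ring) |>.trans (lift (D0 ^ 2 * (4 + KY ^ 2 * D0 ^ 4) * c ^ 2) 1 (by positivity) w0))
  have b6 := (cm6e_ar_x3 (Kg := Kg) (Lp := Lp) (μ := μ) hN hE hL hLus hA0 hl hD1 hKY0 hc0 hb hcu husA hv0 hvA).trans
    (le_of_eq (by rw [← hZ]; ring) |>.trans (lift (Kg ^ 2 * KY * c ^ 3) (Lp ^ 2 * μ ^ 2) (by positivity) r22))
  have gμ : 1 ≤ Kg * Lp * μ := by
    calc (1 : ℝ) = 1 * 1 * 1 := by norm_num
      _ ≤ Kg * Lp * μ := mul_le_mul (mul_le_mul hKg1 hLp1 (by norm_num) hKg0.le) hμ1 (by norm_num) (by positivity)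
  have b7 := (cm6e_ar_x4 (μ := μ) hqq3 hN hE hL hLus hA0 hl hD1 hKY0 hCq1 gμ hb hcu hv0 hvA (by positivity) hMbig hMs).trans
    (le_of_eq (by rw [← hZ]; ring) |>.trans (lift ((2 * Cq) ^ 3 * KY ^ 2 * Kg) (Lp * μ) (by positivity) r11))
  have b8 := (cm6e_ar_x8 (Kg := Kg) (Lp := Lp) (μ := μ) hN hE hL hl hD1 hKY0 hμ0.le hv0 hM4).trans
    (le_of_eq (by rw [← hZ]; ring) |>.trans (lift (480 * KY * Kg ^ 2) (Lp ^ 2 * μ) (by positivity) r21))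
  have hasm := cm6e_ar_asm (Kg := Kg) (c1 := 10000000 * 32 ^ 3) (Lp := Lp) (W := W) (Lg := 1 + Real.log (1 + 32 * v / (P.N ^ 10)⁻¹))
    (show 0 ≤ W ^ 4 * Z by positivity) hW1 (by linarith) (hLg15.trans hW15) hLp0.le hLpW hKg0.le (by norm_num)
    (by positivity) (by positivity) (by positivity) (by positivity) (by positivity) (by positivity) (by positivity) (by positivity) (by positivity)
    b0 b1 b2 b3 b4 b5 b6 b7 b8
  rw [← hKtot] at hasm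
  refine le_trans (le_of_eq (by ring)) (hasm.trans ?_)
  have habs := hn2 P hP ((le_max_left _ _).trans hn)
  have e3 : P.N ^ (3 * P.dl) = (P.N ^ P.dl) ^ 3 := by
    rw [← Real.rpow_natCast (P.N ^ P.dl), ← Real.rpow_mul hN.le]; congr 1; push_cast; ring
  rw [e3]
  calc Ktot * (W ^ 4 * (W ^ 4 * Z)) = (Ktot * (K.CL + Cl + 15) ^ 8 * P.Lam ^ 8) * Z := by rw [hW]; ring
    _ ≤ P.N ^ δ * Z := mul_le_mul_of_nonneg_right habs hZ0.le
    _ = (P.N ^ P.dl) ^ 3 * P.E := by rw [hZ, hdl]; ring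

/-- the discarded initial interval: `F ≤ 2 Y²`, `W ≤ λ`, `λ A² u_* = n^{2δ} E` -/
theorem cm6e_in_disc {K : CmK} (hK : K.Ok) {P : CmCall} {lam Lp KY U : ℝ} {q : CmQ P} {X : CmNum} {Z : CmCaps} (hb : CmBase K P lam q X Z Lp) (hI : Cm6eIn K P lam q X KY (32 * U))
    (hU0 : P.u0 ≤ U) (hU : U ≤ 1) :
    ∫ u in Icc P.u0 (min (P.u0 + 16 * P.us) U), P.e lam (q.r u) * cm6xF q X u ≤ 32 * KY ^ 2 * (P.N ^ (2 * P.dl) * P.E) := by
  have hP := hb.ok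
  have hc := hK.cE0
  have hN := cm_N_pos hP
  have hE := cm_E_pos hc hP
  have hus := cm_us_pos hc hP
  have hl := hb.lam0
  have hUn : 0 ≤ U := hP.u00.trans hU0
  have hF : ∀ u ∈ Icc P.u0 (min (P.u0 + 16 * P.us) U), ‖P.e lam (q.r u) * cm6xF q X u‖ ≤ lam * (2 * (KY * P.Al lam) ^ 2) := by
    intro u hu
    have hu1 : u ∈ Icc P.u0 1 := ⟨hu.1, (hu.2.trans (min_le_right _ _)).trans hU⟩
    have hu2 : u ≤ 32 * U := by linarith [hu.2.trans (min_le_right _ _)]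
    obtain ⟨a1, -, a3⟩ := cm6e_in_pt hK hb hI hu1 hu2
    have e0 := cm_e_nonneg P hl.le (q.r u)
    have f0 := cm6e_F_nonneg q X u
    rw [Real.norm_eq_abs, abs_of_nonneg (mul_nonneg e0 f0)]
    exact mul_le_mul a3 a1 f0 hl.le
  have hfin : volume (Icc P.u0 (min (P.u0 + 16 * P.us) U)) < ⊤ := by
    rw [Real.volume_Icc]; exact ENNReal.ofReal_lt_top
  have hI2 := norm_setIntegral_le_of_norm_le_const hfin hF
  have hvol : volume.real (Icc P.u0 (min (P.u0 + 16 * P.us) U)) ≤ 16 * P.us := by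
    rw [Measure.real, Real.volume_Icc]
    apply ENNReal.toReal_le_of_le_ofReal (by positivity)
    apply ENNReal.ofReal_le_ofReal
    linarith [min_le_left (P.u0 + 16 * P.us) U]
  have hlA := cm_lam_Al_sq hc hP hl
  calc ∫ u in Icc P.u0 (min (P.u0 + 16 * P.us) U), P.e lam (q.r u) * cm6xF q X u
      ≤ ‖∫ u in Icc P.u0 (min (P.u0 + 16 * P.us) U), P.e lam (q.r u) * cm6xF q X u‖ := le_abs_self _
    _ ≤ lam * (2 * (KY * P.Al lam) ^ 2) * volume.real (Icc P.u0 (min (P.u0 + 16 * P.us) U)) := hI2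
    _ ≤ lam * (2 * (KY * P.Al lam) ^ 2) * (16 * P.us) := mul_le_mul_of_nonneg_left hvol (by positivity)
    _ = 32 * KY ^ 2 * ((lam * P.Al lam ^ 2) * P.us) := by ring
    _ = 32 * KY ^ 2 * (P.N ^ (2 * P.dl) * P.E) := by
        rw [hlA, Real.rpow_add hN, Real.rpow_one]
        unfold CmCall.us
        field_simp

/-- **the inner part**.   GLUE: `Icc u0 U ⊆ Icc u0 (min (u0+16u_*) U) ∪ Icc (u0+16u_*) U`; `cm6e_in_disc`; on the second set `W ≤ λ` (`cm6e_in_pt`), `cm6e_dyadic` with `Φ = λ F`, `cm6e_in_dyad` + `cm6e_in_arith`,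
`cm6e_count` (`a = u0 + 16 u_* ≥ u_* ≥ n^{-1}/D0²`, `cm_us_ge`), `cm6e_absorb`. -/
theorem cm6e_inner (K : CmK) (hK : K.Ok) {KY : ℝ} (hKY : 1 ≤ KY) :
    ∃ n0 : ℕ, ∀ (P : CmCall) (lam : ℝ) (q : CmQ P) (X : CmNum) (Z : CmCaps) (Lp U : ℝ), CmBase K P lam q X Z Lp → n0 ≤ P.n → P.N ^ (-(10 : ℝ)) ≤ lam →
      P.u0 ≤ U → U ≤ 1 → U ≤ KY * P.Al lam → Cm6eIn K P lam q X KY (32 * U) →
        ∫ u in Icc P.u0 U, P.e lam (q.r u) * cm6xF q X u ≤ P.N ^ (4 * P.dl) * P.E := by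
  have hD0 := hK.D00
  have hmm := hK.mm0
  obtain ⟨Cl, hCl, hdy⟩ := cm6e_in_dyad K hK
  obtain ⟨qq, n1, hqq, har⟩ := cm6e_in_arith K hK hKY hCl
  obtain ⟨Cj, hCj, hcount⟩ := cm6e_count (cE := K.cE) (D0 := K.D0) (c0 := 1 / K.D0 ^ 2) (by positivity)
  obtain ⟨n2, hn2⟩ := cm6e_absorb (cE := K.cE) (D0 := K.D0) 0 (C := 64 * KY ^ 2) (η := 2 * (K.mm / 10000)) (by positivity)
  obtain ⟨n3, hn3⟩ := cm6e_absorb (cE := K.cE) (D0 := K.D0) 1 (C := 2 * Cj) (η := K.mm / 10000) (by positivity)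
  refine ⟨max n1 (max n2 n3), fun P lam q X Z Lp U hb hn hlam hU0 hU1 hUA hI => ?_⟩
  have hP := hb.ok
  have hc := hK.cE0
  have hX := hb.num
  have hN := cm_N_pos hP
  have hN1 : 1 ≤ P.N := by linarith [cm_N_ge hP]
  have hE := cm_E_pos hc hP
  have hus := cm_us_pos hc hP
  have hl := hb.lam0
  have hdl : P.dl = K.mm / 10000 := by unfold CmCall.dl; rw [hb.m_eq]
  have b2 := hn2 P hP (le_trans (le_trans (le_max_left _ _) (le_max_right _ _)) hn)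
  have b3 := hn3 P hP (le_trans (le_trans (le_max_right _ _) (le_max_right _ _)) hn)
  rw [pow_zero, mul_one, ← hdl] at b2
  rw [pow_one, ← hdl] at b3
  have hUn : 0 ≤ U := hP.u00.trans hU0
  have hdisc := cm6e_in_disc hK hb hI hU0 hU1
  have p2 : 0 < P.N ^ (2 * P.dl) := Real.rpow_pos_of_pos hN _
  have p3 : 0 < P.N ^ (3 * P.dl) := Real.rpow_pos_of_pos hN _
  have p1 : 0 < P.N ^ P.dl := Real.rpow_pos_of_pos hN _
  have e22 : P.N ^ (2 * P.dl) * P.N ^ (2 * P.dl) = P.N ^ (4 * P.dl) := by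
    rw [← Real.rpow_add hN]; congr 1; ring
  have e13 : P.N ^ P.dl * P.N ^ (3 * P.dl) = P.N ^ (4 * P.dl) := by
    rw [← Real.rpow_add hN]; congr 1; ring
  have c1 : 32 * KY ^ 2 * (P.N ^ (2 * P.dl) * P.E) ≤ P.N ^ (4 * P.dl) * P.E / 2 := by
    have : 64 * KY ^ 2 * (P.N ^ (2 * P.dl) * P.E) ≤ P.N ^ (2 * P.dl) * (P.N ^ (2 * P.dl) * P.E) :=
      mul_le_mul_of_nonneg_right b2 (by positivity)
    rw [← mul_assoc (P.N ^ (2 * P.dl)), e22] at this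
    linarith
  have p4 : 0 < P.N ^ (4 * P.dl) * P.E := mul_pos (Real.rpow_pos_of_pos hN _) hE
  rcases lt_or_ge U (P.u0 + 16 * P.us) with hcase | hcase
  · rw [min_eq_right hcase.le] at hdisc
    linarith
  rw [min_eq_left hcase] at hdisc
  set a := P.u0 + 16 * P.us with ha
  have ha0 : 0 < a := by linarith [hP.u00]
  have hua : P.u0 ≤ a := by linarith
  have hint := (cm6e_int hc hP hX q lam).mono_set (Icc_subset_Icc_right hU1 : Icc P.u0 U ⊆ Icc P.u0 1)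
  have hnn : ∀ u, 0 ≤ P.e lam (q.r u) * cm6xF q X u := fun u => mul_nonneg (cm_e_nonneg P hl.le _) (cm6e_F_nonneg q X u)
  have hsplit : ∫ u in Icc P.u0 U, P.e lam (q.r u) * cm6xF q X u ≤
      (∫ u in Icc P.u0 a, P.e lam (q.r u) * cm6xF q X u) + ∫ u in Icc a U, P.e lam (q.r u) * cm6xF q X u := by
    have h := cm6x_union_le (T := Icc P.u0 U) measurableSet_Icc hint (fun u _ => hnn u) (Icc_subset_Icc_right hcase) (Icc_subset_Icc_left hua)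
    rwa [Icc_union_Icc_eq_Icc hua hcase] at h
  have hsubaU : Icc a U ⊆ Icc P.u0 1 := Icc_subset_Icc hua hU1
  have hFi : IntegrableOn (fun u => lam * cm6xF q X u) (Icc a U) := ((cm6x_int hc hP hX q).mono_set hsubaU).const_mul lam
  have hmono : ∫ u in Icc a U, P.e lam (q.r u) * cm6xF q X u ≤ ∫ u in Icc a U, lam * cm6xF q X u := by
    refine setIntegral_mono_on ((cm6e_int hc hP hX q lam).mono_set hsubaU) hFi measurableSet_Icc (fun u _ => ?_)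
    exact mul_le_mul_of_nonneg_right (cm_e_le P hl.le _) (cm6e_F_nonneg q X u)
  obtain ⟨j, hj1, hj2⟩ := hcount P hP a U (by
    have h1 := cm_us_ge hc hP
    have h2 : P.N ^ (-(1 : ℝ)) ≤ P.N ^ (-(1 / 2 : ℝ)) := Real.rpow_le_rpow_of_exponent_le hN1 (by norm_num)
    have h3 : 1 / K.D0 ^ 2 * P.N ^ (-(1 : ℝ)) ≤ P.N ^ (-(1 / 2 : ℝ)) / K.D0 ^ 2 := by
      rw [div_mul_eq_mul_div, one_mul]
      exact div_le_div_of_nonneg_right h2 (by positivity)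
    linarith [hP.u00]) hcase hU1
  have hdyad := cm6e_dyadic (Φ := fun u => lam * cm6xF q X u) (Bd := P.N ^ (3 * P.dl) * P.E) ha0 hFi
    (fun u _ => mul_nonneg hl.le (cm6e_F_nonneg q X u)) (by positivity) (fun v hv => by
      rw [integral_const_mul]
      have h1 := hdy P lam q X Z Lp KY U hb hI hU1 v hv.1 hv.2 qq hqq
      have h2 := har P lam Lp v hP hb.m_eq hlam hb.lam1 hb.geo.Lp1 hb.Lp_le (by linarith [hv.1, hP.u00]) (hv.2.trans hUA) (hv.2.trans hU1)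
        (le_trans (le_max_left _ _) hn)
      exact (mul_le_mul_of_nonneg_left h1 hl.le).trans h2) j hj1
  have c2 : (j : ℝ) * (P.N ^ (3 * P.dl) * P.E) ≤ P.N ^ (4 * P.dl) * P.E / 2 := by
    have h1 : 2 * (j : ℝ) ≤ P.N ^ P.dl := by linarith
    have h2 : 2 * (j : ℝ) * (P.N ^ (3 * P.dl) * P.E) ≤ P.N ^ P.dl * (P.N ^ (3 * P.dl) * P.E) := mul_le_mul_of_nonneg_right h1 (by positivity)
    rw [← mul_assoc (P.N ^ P.dl), e13] at h2
    linarith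
  linarith

/-! ## 3. frames and exits -/

/-- `KY` of the small case -/
def cm6eKY (K : CmK) : ℝ := (K.C + K.Cp 1 ^ 2) * (32 * cm6xC1 K 2 + K.C0 + 1)

theorem cm6e_Al_pos {cE D0 : ℝ} (hc : 0 < cE) {P : CmCall} (hP : P.Ok cE D0) {lam : ℝ} (hl : 0 < lam) : 0 < P.Al lam := by
  have hN := cm_N_pos hP
  have hE := cm_E_pos hc hP
  unfold CmCall.Al
  have h1 : 0 < Real.sqrt P.N := Real.sqrt_pos.2 hN
  have h2 : 0 < Real.sqrt lam := Real.sqrt_pos.2 hl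
  positivity

/-- for `n ≥ n0` the scale `x = A_λ` is a standard scale: `cm_Al_ge`, `cm_e_Al`, `n^δ ≥ max ca ce` -/
theorem cm6e_std (K : CmK) (hK : K.Ok) : ∃ n0 : ℕ, ∀ (P : CmCall) (lam : ℝ) (q : CmQ P) (X : CmNum) (Z : CmCaps) (Lp : ℝ), CmBase K P lam q X Z Lp → n0 ≤ P.n →
    P.Al lam ≤ 1 → P.u0 ≤ P.Al lam → q.Reg K.c K.C K.C0 (P.Al lam) → X.Raw (P.Al lam) K.Cp → CmStd K P lam q X Z Lp (P.Al lam) := by
  obtain ⟨n0, hn0⟩ := cm6e_absorb (cE := K.cE) (D0 := K.D0) 0 (C := max K.ca K.ce) (η := K.mm / 10000) (by have := hK.mm0; positivity)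
  refine ⟨n0, fun P lam q X Z Lp hb hn hA1 hu0 hreg hraw => ?_⟩
  have hP := hb.ok
  have hc := hK.cE0
  have h1 := hn0 P hP hn
  rw [pow_zero, mul_one] at h1
  have hdl : P.dl = K.mm / 10000 := by unfold CmCall.dl; rw [hb.m_eq]
  rw [← hdl] at h1
  have ha := cm_a_pos hc hP
  have hN := cm_N_pos hP
  have hE := cm_E_pos hc hP
  refine ⟨hb, cm6e_Al_pos hc hP hb.lam0, hA1, ?_, ?_, hu0, hreg, hraw⟩
  · calc K.ca * P.a ≤ P.N ^ P.dl * P.a := mul_le_mul_of_nonneg_right ((le_max_left _ _).trans h1) ha.le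
      _ ≤ P.Al lam := cm_Al_ge hc hP hb.lam0 hb.lam1
  · calc K.ce * (P.N * P.E ^ 2) ≤ P.N ^ P.dl * (P.N * P.E ^ 2) := mul_le_mul_of_nonneg_right ((le_max_right _ _).trans h1) (by positivity)
      _ ≤ _ := cm_e_Al hc hP hb.lam0 hb.lam1 le_rfl

/-- the frame of the small case, `U = C1 A`: `cm_q_reg_r` (needs `max (32 C1) C0 A ≤ 1`), `Raw`, `s_nx`, `d_nr` -/
theorem cm6e_frame_small (K : CmK) (hK : K.Ok) {P : CmCall} {lam Lp : ℝ} {q : CmQ P} {X : CmNum} {Z : CmCaps} (hb : CmBase K P lam q X Z Lp)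
    (hA : (32 * cm6xC1 K 2 + K.C0) * P.Al lam ≤ 1) (hreg : q.Reg K.c K.C K.C0 (P.Al lam)) (hraw : X.Raw (P.Al lam) K.Cp) :
    Cm6eIn K P lam q X (cm6eKY K) (32 * (cm6xC1 K 2 * P.Al lam)) := by
  have hP := hb.ok
  have hc := hK.cE0
  have hX := hb.num
  have hA0 := cm6e_Al_pos hc hP hb.lam0
  obtain ⟨hC1a, -, -, -⟩ := cm6x_C1_ge K hK (Gam := 2) (by norm_num)
  have hC0 := hK.C01
  have hCp := hK.Cp1 1
  have hCC := hK.C1
  set A := P.Al lam with hAdef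
  set C1 := cm6xC1 K 2 with hC1def
  have hCp2 : 1 ≤ K.Cp 1 ^ 2 := one_le_pow₀ hCp
  have hKYdef : cm6eKY K = (K.C + K.Cp 1 ^ 2) * (32 * C1 + K.C0 + 1) := rfl
  have hW : 0 < 32 * C1 + K.C0 + 1 := by linarith
  have hKY1 : 1 ≤ cm6eKY K := by
    rw [hKYdef]
    have h1 : 1 ≤ K.C + K.Cp 1 ^ 2 := by linarith
    have h2 : 1 ≤ 32 * C1 + K.C0 + 1 := by linarith
    calc (1 : ℝ) = 1 * 1 := by ring
      _ ≤ _ := mul_le_mul h1 h2 zero_le_one (by linarith)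
  have hsub : Icc P.u0 1 ⊆ Icc (0 : ℝ) 1 := Icc_subset_Icc_left hP.u00
  -- `u + A ≤ (32 C1 + 1) A`
  have hWA : 0 ≤ (32 * C1 + K.C0 + 1) * A := by positivity
  have hux : ∀ u, u ≤ 32 * (C1 * A) → u + A ≤ (32 * C1 + K.C0 + 1) * A := by
    intro u hu
    have : 0 ≤ K.C0 * A := by positivity
    nlinarith
  have hk1 : K.Cp 1 ^ 2 * ((32 * C1 + K.C0 + 1) * A) ≤ cm6eKY K * A := by
    rw [hKYdef]
    have : K.Cp 1 ^ 2 ≤ K.C + K.Cp 1 ^ 2 := by linarith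
    calc K.Cp 1 ^ 2 * ((32 * C1 + K.C0 + 1) * A) ≤ (K.C + K.Cp 1 ^ 2) * ((32 * C1 + K.C0 + 1) * A) := mul_le_mul_of_nonneg_right this hWA
      _ = _ := by ring
  have hk0 : (32 * C1 + K.C0 + 1) * A ≤ cm6eKY K * A := by
    refine le_trans ?_ hk1
    calc (32 * C1 + K.C0 + 1) * A = 1 * ((32 * C1 + K.C0 + 1) * A) := (one_mul _).symm
      _ ≤ _ := mul_le_mul_of_nonneg_right hCp2 hWA
  refine ⟨hKY1, fun u hu hu2 => ?_, fun u hu hu2 => ?_, fun u hu hu2 => ?_, fun qq hqq u hu hu2 => ?_⟩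
  · have hmax : max (32 * C1) K.C0 ≤ 32 * C1 + K.C0 := max_le (by linarith) (by linarith)
    have h1 := cm_q_reg_r hc hP q (K := 32 * C1) (u := u) (by linarith : 0 < K.C) hA0 hreg hu.1 (by linarith)
      ((mul_le_mul_of_nonneg_right hmax hA0.le).trans hA)
    refine h1.trans ?_
    rw [hKYdef]
    have e1 : K.C * max (32 * C1) K.C0 ≤ (K.C + K.Cp 1 ^ 2) * (32 * C1 + K.C0 + 1) :=
      mul_le_mul (by linarith) (by linarith) (le_trans (by linarith) (le_max_right _ _)) (by linarith)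
    exact mul_le_mul_of_nonneg_right e1 hA0.le
  · have hu' := hsub hu
    rw [hX.s_nx u hu']
    have n0 := hX.NX_nn 1 u hu'
    have w1 := (hraw u hu').1 1 le_rfl
    have hux0 : 0 ≤ u + A := by linarith [hu'.1]
    calc X.NX 1 u ^ 2 ≤ (K.Cp 1 * Real.sqrt (u + A)) ^ 2 := by gcongr
      _ = K.Cp 1 ^ 2 * (u + A) := by rw [mul_pow, Real.sq_sqrt hux0]
      _ ≤ K.Cp 1 ^ 2 * ((32 * C1 + K.C0 + 1) * A) := mul_le_mul_of_nonneg_left (hux u hu2) (by positivity)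
      _ ≤ _ := hk1
  · have hu' := hsub hu
    have w2 := (hraw u hu').2
    have hux0 : 0 ≤ u + A := by linarith [hu'.1]
    have hCpsq : K.Cp 1 ≤ K.Cp 1 ^ 2 := by nlinarith
    calc X.D u ≤ X.NR u := hX.d_nr u hu'
      _ ≤ K.Cp 1 * (u + A) := w2
      _ ≤ K.Cp 1 ^ 2 * ((32 * C1 + K.C0 + 1) * A) := mul_le_mul hCpsq (hux u hu2) hux0 (by positivity)
      _ ≤ _ := hk1
  · have hu' := hsub hu
    have w1 := (hraw u hu').1 qq hqq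
    refine w1.trans (mul_le_mul_of_nonneg_left (Real.sqrt_le_sqrt ((hux u hu2).trans hk0)) (by linarith [hK.Cp1 qq]))

/-- the frame of the large case, `U = 1`: trivial bounds -/
theorem cm6e_frame_large (K : CmK) (hK : K.Ok) {κ0 : ℝ} (hκ : 0 < κ0) {P : CmCall} {lam Lp : ℝ} {q : CmQ P} {X : CmNum} {Z : CmCaps} (hb : CmBase K P lam q X Z Lp)
    (hA : κ0 ≤ P.Al lam) : Cm6eIn K P lam q X (max 1 (1 / κ0)) (32 * 1) := by
  have hP := hb.ok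
  have hX := hb.num
  have hsub : Icc P.u0 1 ⊆ Icc (0 : ℝ) 1 := Icc_subset_Icc_left hP.u00
  have hKA : 1 ≤ max 1 (1 / κ0) * P.Al lam := by
    calc (1 : ℝ) = 1 / κ0 * κ0 := by field_simp
      _ ≤ max 1 (1 / κ0) * P.Al lam := mul_le_mul (le_max_right _ _) hA hκ.le (le_trans zero_le_one (le_max_left _ _))
  refine ⟨le_max_left _ _, fun u hu _ => (q.r_mem u hu).2.trans hKA, fun u hu _ => (hX.S_le u (hsub hu)).trans hKA,
    fun u hu _ => (hX.D_le u (hsub hu)).trans hKA, fun qq _ u hu _ => (hX.NX_le qq u (hsub hu)).trans ?_⟩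
  have h1 : 1 ≤ Real.sqrt (max 1 (1 / κ0) * P.Al lam) := by
    have := Real.sqrt_le_sqrt hKA
    rwa [Real.sqrt_one] at this
  calc (1 : ℝ) = 1 * 1 := by ring
    _ ≤ _ := mul_le_mul (hK.Cp1 qq) h1 zero_le_one (by linarith [hK.Cp1 qq])

theorem cm6e_toIcc {P : CmCall} (q : CmQ P) (X : CmNum) (lam : ℝ) (hu : P.u0 ≤ 1) :
    ∫ u in P.u0..1, P.e lam (q.r u) * (X.D u ^ 2 + (X.S u - q.r u) ^ 2) = ∫ u in Icc P.u0 1, P.e lam (q.r u) * cm6xF q X u := by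
  rw [intervalIntegral.integral_of_le hu, integral_Icc_eq_integral_Ioc]
  rfl

theorem cm6e_union_le {f : ℝ → ℝ} {A B : Set ℝ} (hA : MeasurableSet A) (hB : MeasurableSet B) (hf : IntegrableOn f (A ∪ B))
    (h0 : ∀ u ∈ A ∪ B, 0 ≤ f u) : ∫ u in A ∪ B, f u ≤ (∫ u in A, f u) + ∫ u in B, f u := by
  have e : A ∪ B = A ∪ (B \ A) := by rw [union_diff_self]
  have hfA : IntegrableOn f A := hf.mono_set subset_union_left
  have hfB : IntegrableOn f B := hf.mono_set subset_union_right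
  rw [e, setIntegral_union disjoint_sdiff_right (hB.diff hA) hfA (hfB.mono_set diff_subset)]
  have : ∫ u in B \ A, f u ≤ ∫ u in B, f u := by
    apply setIntegral_mono_set hfB
    · rw [Filter.EventuallyLE, ae_restrict_iff' hB]
      exact Filter.Eventually.of_forall fun u hu => h0 u (Or.inr hu)
    · exact Filter.Eventually.of_forall (fun u hu => hu.1)
  linarith

theorem cm6e_Npow {cE D0 : ℝ} {P : CmCall} (hP : P.Ok cE D0) {a b : ℝ} (h : a ≤ b) : P.N ^ a ≤ P.N ^ b :=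
  Real.rpow_le_rpow_of_exponent_le (by linarith [cm_N_ge hP]) h

/-- **Prop. 3.9, `A_λ` small** = the statement of `cm_x_ce_small`.   GLUE: `κ0 = 1/(32 C1 + C0)`, `U = C1 A`; `∫_{u0}^1 = ∫_{Icc u0 1} ≤ ∫_{Icc u0 U} + ∫_{Icc U 1}` (`cm6e_int`, nonnegativity);
`cm6e_inner` (`KY = cm6eKY K ≥ C1`), `cm6e_frame_small`, `cm6e_std`, `cm6e_outer`;   `(n^{4δ} + n^δ)/4 ≤ n^{10δ}`. -/
theorem cm6e_small (K : CmK) (hK : K.Ok) :
    ∃ (κ0 : ℝ) (n0 : ℕ), 0 < κ0 ∧ ∀ (P : CmCall) (lam : ℝ) (q : CmQ P) (X : CmNum) (Z : CmCaps) (Lp : ℝ),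
      CmBase K P lam q X Z Lp → n0 ≤ P.n → P.N ^ (-(10 : ℝ)) ≤ lam → P.Al lam ≤ κ0 → P.u0 ≤ P.Al lam →
      q.Reg K.c K.C K.C0 (P.Al lam) → X.Raw (P.Al lam) K.Cp →
        (1 / 4) * ∫ u in P.u0..1, P.e lam (q.r u) * (X.D u ^ 2 + (X.S u - q.r u) ^ 2) ≤ P.N ^ (10 * P.dl) * P.E := by
  obtain ⟨hC1a, hC1b, hC1c, hC1d⟩ := cm6x_C1_ge K hK (Gam := 2) (by norm_num)
  have hC0 := hK.C01
  have hCp := hK.Cp1 1
  have hCC := hK.C1
  have hKY : 1 ≤ cm6eKY K := by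
    unfold cm6eKY
    have h1 : 1 ≤ K.C + K.Cp 1 ^ 2 := by nlinarith
    have h2 : 1 ≤ 32 * cm6xC1 K 2 + K.C0 + 1 := by linarith
    nlinarith
  have hKYC : cm6xC1 K 2 ≤ cm6eKY K := by
    unfold cm6eKY
    have h1 : 1 ≤ K.C + K.Cp 1 ^ 2 := by nlinarith
    have h2 : cm6xC1 K 2 ≤ 32 * cm6xC1 K 2 + K.C0 + 1 := by linarith
    nlinarith
  obtain ⟨n1, h1⟩ := cm6e_inner K hK hKY
  obtain ⟨n2, h2⟩ := cm6e_std K hK
  obtain ⟨n3, h3⟩ := cm6e_outer K hK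
  have hden : 0 < 32 * cm6xC1 K 2 + K.C0 := by linarith
  refine ⟨1 / (32 * cm6xC1 K 2 + K.C0), max n1 (max n2 n3), by positivity, fun P lam q X Z Lp hb hn hl hA hu0 hreg hraw => ?_⟩
  have hn1 : n1 ≤ P.n := le_trans (le_max_left _ _) hn
  have hn2 : n2 ≤ P.n := le_trans (le_trans (le_max_left _ _) (le_max_right _ _)) hn
  have hn3 : n3 ≤ P.n := le_trans (le_trans (le_max_right _ _) (le_max_right _ _)) hn
  have hP := hb.ok
  have hu01 : P.u0 ≤ 1 := by linarith [hP.u01]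
  have hA0 : 0 ≤ P.Al lam := le_trans hP.u00 hu0
  have hA1 : (32 * cm6xC1 K 2 + K.C0) * P.Al lam ≤ 1 := by
    rw [le_div_iff₀ hden] at hA
    linarith
  have hAle : P.Al lam ≤ 1 := by nlinarith
  have hU1 : cm6xC1 K 2 * P.Al lam ≤ 1 := by nlinarith
  have hU0 : P.u0 ≤ cm6xC1 K 2 * P.Al lam := by nlinarith
  have hin := h1 P lam q X Z Lp (cm6xC1 K 2 * P.Al lam) hb hn1 hl hU0 hU1 (mul_le_mul_of_nonneg_right hKYC hA0)
    (cm6e_frame_small K hK hb hA1 hreg hraw)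
  have hout := h3 P lam q X Z Lp (P.Al lam) (h2 P lam q X Z Lp hb hn2 hAle hu0 hreg hraw) hn3
  rw [cm6e_toIcc q X lam hu01]
  have hint := cm6e_int hK.cE0 hP hb.num q lam
  have hnn : ∀ u, 0 ≤ P.e lam (q.r u) * cm6xF q X u := fun u => mul_nonneg (cm_e_nonneg P hb.lam0.le _) (cm6e_F_nonneg q X u)
  have hsplit : ∫ u in Icc P.u0 1, P.e lam (q.r u) * cm6xF q X u ≤
      (∫ u in Icc P.u0 (cm6xC1 K 2 * P.Al lam), P.e lam (q.r u) * cm6xF q X u) + ∫ u in Icc (cm6xC1 K 2 * P.Al lam) 1, P.e lam (q.r u) * cm6xF q X u := by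
    rw [← Icc_union_Icc_eq_Icc hU0 hU1]
    refine cm6e_union_le measurableSet_Icc measurableSet_Icc ?_ (fun u _ => hnn u)
    rw [Icc_union_Icc_eq_Icc hU0 hU1]
    exact hint
  have hE := cm_E_pos hK.cE0 hP
  have hd := cm_dl_pos hP
  have h4 : P.N ^ (4 * P.dl) ≤ P.N ^ (10 * P.dl) := cm6e_Npow hP (by linarith)
  have h5 : P.N ^ P.dl ≤ P.N ^ (10 * P.dl) := cm6e_Npow hP (by linarith)
  have h6 : 0 < P.N ^ (10 * P.dl) := Real.rpow_pos_of_pos (cm_N_pos hP) _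
  nlinarith [mul_le_mul_of_nonneg_right h4 hE.le, mul_le_mul_of_nonneg_right h5 hE.le, mul_pos h6 hE]

/-- **Prop. 3.9, `A_λ` bounded below** = the statement of `cm_x_ce_large`.   GLUE: `cm6e_inner` with `U = 1`, `KY = max 1 (1/κ0)`, `cm6e_frame_large`. -/
theorem cm6e_large (K : CmK) (hK : K.Ok) {κ0 : ℝ} (hκ : 0 < κ0) :
    ∃ n0 : ℕ, ∀ (P : CmCall) (lam : ℝ) (q : CmQ P) (X : CmNum) (Z : CmCaps) (Lp : ℝ),
      CmBase K P lam q X Z Lp → n0 ≤ P.n → P.N ^ (-(10 : ℝ)) ≤ lam → κ0 ≤ P.Al lam →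
        (1 / 4) * ∫ u in P.u0..1, P.e lam (q.r u) * (X.D u ^ 2 + (X.S u - q.r u) ^ 2) ≤ P.N ^ (10 * P.dl) * P.E := by
  obtain ⟨n0, h0⟩ := cm6e_inner K hK (KY := max 1 (1 / κ0)) (le_max_left _ _)
  refine ⟨n0, fun P lam q X Z Lp hb hn hl hA => ?_⟩
  have hP := hb.ok
  have hu01 : P.u0 ≤ 1 := by linarith [hP.u01]
  have hKA : 1 ≤ max 1 (1 / κ0) * P.Al lam := by
    calc (1 : ℝ) = 1 / κ0 * κ0 := by field_simp
      _ ≤ max 1 (1 / κ0) * P.Al lam := mul_le_mul (le_max_right _ _) hA hκ.le (le_trans zero_le_one (le_max_left _ _))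
  have h1 := h0 P lam q X Z Lp 1 hb hn hl hu01 le_rfl hKA (cm6e_frame_large K hK hκ hb hA)
  rw [cm6e_toIcc q X lam hu01]
  have hE := cm_E_pos hK.cE0 hP
  have hd := cm_dl_pos hP
  have h2 : P.N ^ (4 * P.dl) ≤ P.N ^ (10 * P.dl) := cm6e_Npow hP (by linarith)
  have h3 : 0 < P.N ^ (4 * P.dl) := Real.rpow_pos_of_pos (cm_N_pos hP) _
  nlinarith [mul_le_mul_of_nonneg_right h2 hE.le, mul_pos h3 hE]

end

end Claimed.Agent.R286
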