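import Claimed.Agent.R286.Cmp.P6Out
import Claimed.Agent.R286.Cmp.DefsSk
import Claimed.Agent.R286.Exit.CmpRaw
import Claimed.Agent.R286.Exit.CmpSplit

/-!
# Row 286 (S0533), PE Section 3.4 (package P06): GLUE of the exits `Exit/CmpDir`, `Exit/CmpErr`      (owner helper294)

From the abstract exits of `Cmp/P6Out.lean` to the SK vocabulary (`CmI`, `I.num`).   The supplies of the other packages are collected in ONE record `CmkSup`: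
* `geo`   = `exit_cmp_geo` (255 / 106), constants first;      * `num` = `cmk_num_ok` (295 / 21);      * `mx0`, `d20` = signs of limits (295).
Raw moments and the good split are cited directly (`exit_cmp_raw`, `exit_cmp_split`, 247).
-/

set_option autoImplicit false

namespace Claimed.Agent.R286

open MeasureTheory Set

noncomputable section

/-- the supplies of P04 and of the instance file -/
structure CmkSup (mlo cE D0 Tm : ℝ) : Prop where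
  geo : ∃ (Kg CL : ℝ) (n0 : ℕ), 1 ≤ Kg ∧ 1 ≤ CL ∧ ∀ I : CmI, mlo ≤ I.P.m → I.Std cE D0 Tm → MonotoneOn I.h0 (Icc I.P.u0 1) → n0 ≤ I.P.n →
    ∃ (Z : CmCaps) (Lp : ℝ), CmGeo I.P I.lam I.q I.num Z Kg Lp ∧ Lp ≤ CL * I.P.Lam
  num : ∀ I : CmI, I.Std cE D0 Tm → I.num.Ok
  mx0 : ∀ I : CmI, I.Std cE D0 Tm → ∀ (l : ℕ) (p : GhPos), p.Ok 1 → 0 ≤ cmkMX I.P.n I.b I.h l p
  d20 : ∀ I : CmI, I.Std cE D0 Tm → ∀ u ∈ Icc (0 : ℝ) 1, 0 ≤ cmkD2 I.P.n I.b I.h (ghPosA u)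

theorem cm6g_posA_ok {u : ℝ} (hu : u ∈ Icc (0 : ℝ) 1) : (ghPosA u).Ok 1 := by
  refine ⟨hu.1, hu.2, ?_, ?_⟩ <;> simp [ghPosA, GhPos.lam]

theorem cm6g_posA_u (u : ℝ) : (ghPosA u).u = u := rfl

/-- the clamp of `cmkNum` is invisible on `[0,1]` -/
theorem cm6g_cl {u : ℝ} (hu : u ∈ Icc (0 : ℝ) 1) : cmkCl u = u := by
  simp only [cmkCl, min_eq_left hu.2, max_eq_right hu.1]

/-- the raw moments (12) in the form `X.Raw` -/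
theorem cm6g_raw {mm cE D0 Tm ca ce c C C0 : ℝ} (hs : CmkSup mm cE D0 Tm) (hmm : 0 < mm) (hcE : 0 < cE) (hD0 : 0 < D0) (hTm : 0 < Tm)
    (hca : 0 < ca) (hce : 0 < ce) (hc : 0 < c) (hC : 0 < C) (hC0 : 0 < C0) :
    ∃ Cp : ℕ → ℝ, (∀ q, 1 ≤ Cp q) ∧ ∀ (I : CmI) (x : ℝ), I.Std cE D0 Tm → MonotoneOn I.h0 (Icc I.P.u0 1) → I.P.m = mm →
      I.Loc ca ce c C C0 x → I.P.u0 ≤ x → I.num.Raw x Cp := by
  classical
  have hex : ∀ l : ℕ, ∃ K : ℝ, 0 < K ∧ (1 ≤ l → ∀ (I : CmI) (x : ℝ), mm ≤ I.P.m → I.Std cE D0 Tm → MonotoneOn I.h0 (Set.Icc I.P.u0 1) → I.P.u0 ≤ x →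
      I.Loc ca ce c C C0 x → ∀ p : GhPos, p.Ok 1 →
        cmkMX I.P.n I.b I.h l p ≤ (K * (p.u + x)) ^ l ∧ cmkMR I.P.n I.b I.h l p ≤ (K * (p.u + x)) ^ (2 * l)) := by
    intro l
    by_cases hl : 1 ≤ l
    · obtain ⟨K, hK, h⟩ := exit_cmp_raw mm cE D0 Tm ca ce c C C0 hmm hcE hD0 hTm hca hce hc hC hC0 l hl
      exact ⟨K, hK, fun _ => h⟩
    · exact ⟨1, one_pos, fun h => absurd h hl⟩
  choose Kf hKf0 hKf using hex
  refine ⟨fun q => max 1 (max (Real.sqrt (Kf q)) (Kf q)), fun q => le_max_left _ _, ?_⟩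
  intro I x hStd hmono hm hLoc hu0 u hu
  have hpos := cm6g_posA_ok hu
  have hux : 0 ≤ u + x := add_nonneg hu.1 hLoc.x0.le
  constructor
  · intro q hq
    have h1 := (hKf q hq I x hm.ge hStd hmono hu0 hLoc (ghPosA u) hpos).1
    rw [cm6g_posA_u] at h1
    have h0 := hs.mx0 I hStd q (ghPosA u) hpos
    have hqR : (0 : ℝ) < q := by exact_mod_cast hq
    have hb : 0 ≤ Kf q * (u + x) := mul_nonneg (hKf0 q).le hux
    show (cmkMX I.P.n I.b I.h q (ghPosA (cmkCl u))) ^ (1 / (2 * (q : ℝ))) ≤ _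
    rw [cm6g_cl hu]
    calc (cmkMX I.P.n I.b I.h q (ghPosA u)) ^ (1 / (2 * (q : ℝ)))
        ≤ ((Kf q * (u + x)) ^ q) ^ (1 / (2 * (q : ℝ))) := Real.rpow_le_rpow h0 h1 (by positivity)
      _ = (Kf q * (u + x)) ^ ((1 : ℝ) / 2) := by
          rw [← Real.rpow_natCast, ← Real.rpow_mul hb]
          congr 1
          field_simp
      _ = Real.sqrt (Kf q) * Real.sqrt (u + x) := by
          rw [← Real.sqrt_eq_rpow, Real.sqrt_mul (hKf0 q).le]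
      _ ≤ max 1 (max (Real.sqrt (Kf q)) (Kf q)) * Real.sqrt (u + x) :=
          mul_le_mul_of_nonneg_right (le_trans (le_max_left _ _) (le_max_right _ _)) (Real.sqrt_nonneg _)
  · have h1 := (hKf 1 le_rfl I x hm.ge hStd hmono hu0 hLoc (ghPosA u) hpos).2
    rw [cm6g_posA_u] at h1
    have hb : 0 ≤ Kf 1 * (u + x) := mul_nonneg (hKf0 1).le hux
    show Real.sqrt (skCB I.P.n 1 I.b I.h (ghPosA (cmkCl u))) ≤ _
    rw [cm6g_cl hu]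
    have h2 : skCB I.P.n 1 I.b I.h (ghPosA u) ≤ (Kf 1 * (u + x)) ^ 2 := h1
    calc Real.sqrt (skCB I.P.n 1 I.b I.h (ghPosA u)) ≤ Real.sqrt ((Kf 1 * (u + x)) ^ 2) := Real.sqrt_le_sqrt h2
      _ = Kf 1 * (u + x) := Real.sqrt_sq hb
      _ ≤ max 1 (max (Real.sqrt (Kf 1)) (Kf 1)) * (u + x) :=
          mul_le_mul_of_nonneg_right (le_trans (le_max_right _ _) (le_max_right _ _)) hux

/-- weakening of the constants of outer regularity -/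
theorem cm6g_reg {P : CmCall} (q : CmQ P) {c C C0 x : ℝ} (hx : 0 ≤ x) (hu0 : 0 ≤ P.u0) (h : q.Reg c C C0 x) : q.Reg (min c 1) (max C 1) (max C0 1) x := by
  intro u h1 h2 h3
  have hu : 0 ≤ u := le_trans hu0 h3
  have h4 : C0 * x ≤ u := le_trans (mul_le_mul_of_nonneg_right (le_max_left _ _) hx) h1
  obtain ⟨ha, hb⟩ := h u h4 h2 h3
  exact ⟨le_trans (mul_le_mul_of_nonneg_right (min_le_left _ _) hu) ha, le_trans hb (mul_le_mul_of_nonneg_right (le_max_left _ _) hu)⟩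

/-- the record of constants -/
def cm6gK (mm cE D0 c C C0 ca ce Kg CL : ℝ) (Cp : ℕ → ℝ) : CmK :=
  { mm := mm, cE := cE, D0 := D0, c := min c 1, C := max C 1, C0 := max C0 1, ca := ca, ce := ce, Kg := Kg, CL := CL, Cp := Cp }

/-- **from the SK hypotheses to `CmBase`** -/
theorem cm6g_base {mm cE D0 Tm : ℝ} (hs : CmkSup mm cE D0 Tm) :
    ∃ (Kg CL : ℝ) (n0 : ℕ), 1 ≤ Kg ∧ 1 ≤ CL ∧ ∀ (c C C0 ca ce : ℝ) (Cp : ℕ → ℝ) (I : CmI), I.Std cE D0 Tm → MonotoneOn I.h0 (Icc I.P.u0 1) → I.P.m = mm →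
      n0 ≤ I.P.n → ∃ (Z : CmCaps) (Lp : ℝ), CmBase (cm6gK mm cE D0 c C C0 ca ce Kg CL Cp) I.P I.lam I.q I.num Z Lp := by
  obtain ⟨Kg, CL, n0, hKg, hCL, h⟩ := hs.geo
  refine ⟨Kg, CL, n0, hKg, hCL, ?_⟩
  intro c C C0 ca ce Cp I hStd hmono hm hn
  obtain ⟨Z, Lp, hgeo, hLp⟩ := h I hm.ge hStd hmono hn
  exact ⟨Z, Lp, { ok := hStd.ok, m_eq := hm, lam0 := hStd.lam0, lam1 := hStd.lam1, num := hs.num I hStd, geo := hgeo, Lp_le := hLp }⟩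

/-- **from the SK hypotheses to `CmStd`** -/
theorem cm6g_std {mm cE D0 Tm ca ce c C C0 : ℝ} (hs : CmkSup mm cE D0 Tm) (hmm : 0 < mm) (hcE : 0 < cE) (hD0 : 0 < D0) (hTm : 0 < Tm)
    (hca : 0 < ca) (hce : 0 < ce) (hc : 0 < c) (hcC : c ≤ C) (hC0 : 0 < C0) :
    ∃ (K : CmK) (n0 : ℕ), K.Ok ∧ K.c = min c 1 ∧ K.C = max C 1 ∧ K.C0 = max C0 1 ∧
      ∀ (I : CmI) (x : ℝ), I.Std cE D0 Tm → MonotoneOn I.h0 (Icc I.P.u0 1) → I.P.m = mm → I.Loc ca ce c C C0 x → I.P.u0 ≤ x → n0 ≤ I.P.n →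
        ∃ (Z : CmCaps) (Lp : ℝ), CmStd K I.P I.lam I.q I.num Z Lp x := by
  obtain ⟨Kg, CL, n0, hKg, hCL, hb⟩ := cm6g_base hs
  obtain ⟨Cp, hCp1, hraw⟩ := cm6g_raw hs hmm hcE hD0 hTm hca hce hc (lt_of_lt_of_le hc hcC) hC0
  refine ⟨cm6gK mm cE D0 c C C0 ca ce Kg CL Cp, n0, ?_, rfl, rfl, rfl, ?_⟩
  · exact { mm0 := hmm, cE0 := hcE, D00 := hD0, c0 := lt_min hc one_pos, c1 := min_le_right _ _, C1 := le_max_right _ _, C01 := le_max_right _ _,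
            ca0 := hca, ce0 := hce, Kg1 := hKg, CL1 := hCL, Cp1 := hCp1 }
  · intro I x hStd hmono hm hLoc hu0 hn
    obtain ⟨Z, Lp, hbase⟩ := hb c C C0 ca ce Cp I hStd hmono hm hn
    exact ⟨Z, Lp, { base := hbase, x0 := hLoc.x0, x1 := hLoc.x1, xa := hLoc.xa, ex := hLoc.xe, u0x := hu0,
                    reg := cm6g_reg I.q hLoc.x0.le hStd.ok.u00 hLoc.reg, raw := hraw I x hStd hmono hm hLoc hu0 }⟩

/-! ## Prop. 3.8 -/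

theorem cm6g_dir18 {mm cE D0 Tm ca ce c C C0 ε Gam : ℝ} (hs : CmkSup mm cE D0 Tm) (hmm : 0 < mm) (hcE : 0 < cE) (hD0 : 0 < D0) (hTm : 0 < Tm)
    (hca : 0 < ca) (hce : 0 < ce) (hc : 0 < c) (hcC : c ≤ C) (hC0 : 0 < C0) (hε : 0 < ε) (hGam : 1 ≤ Gam) :
    ∃ (K1 C1 : ℝ) (n0 : ℕ), 0 < K1 ∧ 1 ≤ C1 ∧ ∀ (I : CmI) (x : ℝ), I.Std cE D0 Tm → MonotoneOn I.h0 (Icc I.P.u0 1) → I.P.m = mm → I.Loc ca ce c C C0 x →
      I.P.u0 ≤ x → n0 ≤ I.P.n → ∀ v : ℝ, C1 * x ≤ v → v ≤ 1 →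
        ∫ u in Icc (v / Gam) (Gam * v) ∩ Icc I.P.u0 1, I.num.D u ^ 2 ≤ K1 * I.P.N ^ (2 * ε) * v * I.P.R18 I.lam v ^ 2 := by
  obtain ⟨K, n0, hK, -, -, -, hstd⟩ := cm6g_std hs hmm hcE hD0 hTm hca hce hc hcC hC0
  obtain ⟨K1, C1, n1, hK1, hC1, h⟩ := cm_x18 K hK hε hGam
  refine ⟨K1, C1, max n0 n1, hK1, hC1, ?_⟩
  intro I x hStd hmono hm hLoc hu0 hn v hv1 hv2
  obtain ⟨Z, Lp, hS⟩ := hstd I x hStd hmono hm hLoc hu0 (le_trans (le_max_left _ _) hn)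
  exact h I.P I.lam I.q I.num Z Lp x hS (le_trans (le_max_right _ _) hn) v hv1 hv2

theorem cm6g_dir19m {mm cE D0 Tm ca ce c C C0 c' C' : ℝ} (hs : CmkSup mm cE D0 Tm) (hmm : 0 < mm) (hcE : 0 < cE) (hD0 : 0 < D0) (hTm : 0 < Tm)
    (hca : 0 < ca) (hce : 0 < ce) (hc : 0 < c) (hcC : c ≤ C) (hC0 : 0 < C0) (hc' : 0 < c') (hC' : c' ≤ C') :
    ∃ (K1 : ℝ) (n0 : ℕ), 0 < K1 ∧ ∀ (I : CmI) (x : ℝ), I.Std cE D0 Tm → MonotoneOn I.h0 (Icc I.P.u0 1) → I.P.m = mm → I.Loc ca ce c C C0 x →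
      I.P.u0 ≤ x → n0 ≤ I.P.n →
      ∫ u in {u | u ∈ Icc (c' * x) (C' * x) ∩ Icc I.P.u0 1 ∧ I.q.r u ≤ C' * x}, I.num.D u ^ 2 ≤ K1 * I.P.N ^ (-I.P.m) * x ^ 3 := by
  obtain ⟨K, n0, hK, -, -, -, hstd⟩ := cm6g_std hs hmm hcE hD0 hTm hca hce hc hcC hC0
  obtain ⟨K1, n1, hK1, h⟩ := cm_x19_mass K hK hc' hC'
  refine ⟨K1, max n0 n1, hK1, ?_⟩
  intro I x hStd hmono hm hLoc hu0 hn
  obtain ⟨Z, Lp, hS⟩ := hstd I x hStd hmono hm hLoc hu0 (le_trans (le_max_left _ _) hn)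
  exact h I.P I.lam I.q I.num Z Lp x hS (le_trans (le_max_right _ _) hn)

theorem cm6g_dir19r {mm cE D0 Tm ca ce c C C0 c' C' : ℝ} (hs : CmkSup mm cE D0 Tm) (hmm : 0 < mm) (hcE : 0 < cE) (hD0 : 0 < D0) (hTm : 0 < Tm)
    (hca : 0 < ca) (hce : 0 < ce) (hc : 0 < c) (hcC : c ≤ C) (hC0 : 0 < C0) (hc' : 0 < c') (hC' : c' ≤ C') :
    ∃ (K1 : ℝ) (n0 : ℕ), 0 < K1 ∧ ∀ (I : CmI) (x : ℝ), I.Std cE D0 Tm → MonotoneOn I.h0 (Icc I.P.u0 1) → I.P.m = mm → I.Loc ca ce c C C0 x →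
      I.P.u0 ≤ x → n0 ≤ I.P.n →
      ∫ r in {r | r ∈ Icc I.P.rmin 1 ∧ r ≤ C' * x ∧ I.q.al r ∈ Icc (c' * x) (C' * x)}, I.num.D (I.q.al r) ^ 2
        ≤ K1 * I.P.N ^ (-(I.P.dl / 16)) * x ^ 3 := by
  obtain ⟨K, n0, hK, -, -, -, hstd⟩ := cm6g_std hs hmm hcE hD0 hTm hca hce hc hcC hC0
  obtain ⟨K1, n1, hK1, h⟩ := cm_x19_rad K hK hc' hC'
  refine ⟨K1, max n0 n1, hK1, ?_⟩
  intro I x hStd hmono hm hLoc hu0 hn
  obtain ⟨Z, Lp, hS⟩ := hstd I x hStd hmono hm hLoc hu0 (le_trans (le_max_left _ _) hn)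
  exact h I.P I.lam I.q I.num Z Lp x hS (le_trans (le_max_right _ _) hn)

theorem cm6g_dir19i {mm cE D0 Tm ca ce c C C0 cd C' η : ℝ} (hs : CmkSup mm cE D0 Tm) (hmm : 0 < mm) (hcE : 0 < cE) (hD0 : 0 < D0) (hTm : 0 < Tm)
    (hca : 0 < ca) (hce : 0 < ce) (hc : 0 < c) (hcC : c ≤ C) (hC0 : 0 < C0) (hcd : 0 < cd) (hC' : 0 < C') (hη : 0 < η) :
    ∃ (κ : ℝ) (n0 : ℕ), 0 < κ ∧ ∀ (I : CmI) (x : ℝ), I.Std cE D0 Tm → MonotoneOn I.h0 (Icc I.P.u0 1) → I.P.m = mm → I.Loc ca ce c C C0 x → n0 ≤ I.P.n →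
      cd * x ^ 2 ≤ I.P.e I.lam x → I.P.u0 ≤ κ * x →
        ∫ u in (0 : ℝ)..(min (C' * cmW I.P I.lam x) 1), I.num.D u ≤ η * x ^ 2 := by
  obtain ⟨K, n0, hK, -, -, -, hstd⟩ := cm6g_std hs hmm hcE hD0 hTm hca hce hc hcC hC0
  obtain ⟨κ, n1, hκ, h⟩ := cm_x19_int K hK hcd hC' hη
  refine ⟨min κ 1, max n0 n1, lt_min hκ one_pos, ?_⟩
  intro I x hStd hmono hm hLoc hn hd hu0
  have hx := hLoc.x0.le
  have hu1 : I.P.u0 ≤ x := le_trans hu0 (by nlinarith [min_le_right κ 1])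
  have hu2 : I.P.u0 ≤ κ * x := le_trans hu0 (mul_le_mul_of_nonneg_right (min_le_left _ _) hx)
  obtain ⟨Z, Lp, hS⟩ := hstd I x hStd hmono hm hLoc hu1 (le_trans (le_max_left _ _) hn)
  exact h I.P I.lam I.q I.num Z Lp x hS (le_trans (le_max_right _ _) hn) hd hu2

theorem cm6g_pow_large {a : ℝ} (B : ℝ) (ha : 0 < a) : ∃ n0 : ℕ, ∀ n : ℕ, n0 ≤ n → B ≤ (n : ℝ) ^ a := by
  have h := ((tendsto_rpow_atTop ha).comp tendsto_natCast_atTop_atTop).eventually_ge_atTop B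
  obtain ⟨n0, h0⟩ := Filter.eventually_atTop.1 h
  exact ⟨n0, h0⟩

theorem cm6g_W_ge (P : CmCall) (lam x : ℝ) : x ≤ cmW P lam x := le_max_left _ _

theorem cm6g_split {mm cE D0 Tm ca ce c C C0 cd : ℝ} (hs : CmkSup mm cE D0 Tm) (hmm : 0 < mm) (hcE : 0 < cE) (hD0 : 0 < D0) (hTm : 0 < Tm)
    (hca : 0 < ca) (hce : 0 < ce) (hc : 0 < c) (hcC : c ≤ C) (hC0 : 0 < C0) (hcd : 0 < cd) :
    ∃ c2 c3 : ℝ, 0 < c2 ∧ 0 < c3 ∧ ∀ G0 : ℝ, 1 ≤ G0 → ∃ (κ0 c' C' : ℝ) (Cl : ℕ → ℝ) (n0 : ℕ), 0 < κ0 ∧ 0 < c' ∧ c' ≤ C' ∧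
      ∀ (I : CmI) (x : ℝ), I.Std cE D0 Tm → MonotoneOn I.h0 (Icc I.P.u0 1) → I.P.m = mm → I.Loc ca ce c C C0 x → I.P.u0 ≤ x → n0 ≤ I.P.n →
        cd * x ^ 2 ≤ I.P.e I.lam x → cmW I.P I.lam x ≤ κ0 →
        ∃ us : ℝ, us ≤ 1 ∧ G0 * x ≤ us ∧ C0 * x ≤ us ∧ c' * cmW I.P I.lam x ≤ us ∧ us ≤ C' * cmW I.P I.lam x ∧
          c' * cmW I.P I.lam x ≤ I.num.S us ∧ I.num.S us ≤ C' * cmW I.P I.lam x ∧
          (∀ l : ℕ, 1 ≤ l → cmkMRc I.P.n I.b I.h l (ghPosA us) ≤ (Cl l * I.P.N ^ (-c2) * cmW I.P I.lam x) ^ (2 * l)) ∧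
          I.num.D us ≤ I.P.N ^ (-c3) * (x ^ 2 / cmW I.P I.lam x) := by
  obtain ⟨K, n0, hK, hKc, hKC, -, hstd⟩ := cm6g_std hs hmm hcE hD0 hTm hca hce hc hcC hC0
  obtain ⟨c2, C2, K0, N0, Kf, hc2, hC2, -, hsplit⟩ := exit_cmp_split mm cE D0 Tm ca ce c C C0 2 (mm / 2) hmm hcE hD0 hTm hca hce hc
    (lt_of_lt_of_le hc hcC) hC0 one_le_two (by positivity) le_rfl
  obtain ⟨C1s, n1, hC1s, hband⟩ := cm_x_Sband K hK hcd
  obtain ⟨C1e, n2, hC1e, hsel⟩ := cm_x_select K hK hcd (one_le_two : (1 : ℝ) ≤ 2)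
  obtain ⟨n3, hn3⟩ := cm6g_pow_large (a := mm / 2) 3 (by positivity)
  refine ⟨c2, mm / 2, hc2, by positivity, ?_⟩
  intro G0 hG0
  set Γ : ℝ := max (max C1s C1e) (max (max G0 C2) (max C0 1)) with hΓ
  have hΓ1 : 1 ≤ Γ := le_trans (le_max_right C0 1) (le_trans (le_max_right _ _) (le_max_right _ _))
  have hΓs : C1s ≤ Γ := le_trans (le_max_left _ _) (le_max_left _ _)
  have hΓe : C1e ≤ Γ := le_trans (le_max_right _ _) (le_max_left _ _)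
  have hΓG : G0 ≤ Γ := le_trans (le_max_left _ _) (le_trans (le_max_left _ _) (le_max_right _ _))
  have hΓ2 : C2 ≤ Γ := le_trans (le_max_right _ _) (le_trans (le_max_left _ _) (le_max_right _ _))
  have hΓ0 : C0 ≤ Γ := le_trans (le_max_left _ _) (le_trans (le_max_right _ _) (le_max_right _ _))
  have hΓpos : 0 < Γ := lt_of_lt_of_le one_pos hΓ1
  have hKc0 : 0 < K.c := hK.c0
  have hKc1 : K.c ≤ 1 := hK.c1
  have hKC1 : 1 ≤ K.C := hK.C1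
  refine ⟨1 / (2 * Γ ^ 2), K.c / 2 * Γ, 3 * K.C * Γ, fun l => Kf l * Γ, max (max n0 N0) (max (max n1 n2) n3), by positivity, by positivity, ?_, ?_⟩
  · apply mul_le_mul_of_nonneg_right _ hΓpos.le
    linarith
  intro I x hStd hmono hm hLoc hu0 hn hd hW
  have hn0 : n0 ≤ I.P.n := le_trans (le_trans (le_max_left _ _) (le_max_left _ _)) hn
  have hN0 : N0 ≤ I.P.n := le_trans (le_trans (le_max_right _ _) (le_max_left _ _)) hn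
  have hn1 : n1 ≤ I.P.n := le_trans (le_trans (le_trans (le_max_left _ _) (le_max_left _ _)) (le_max_right _ _)) hn
  have hn2 : n2 ≤ I.P.n := le_trans (le_trans (le_trans (le_max_right _ _) (le_max_left _ _)) (le_max_right _ _)) hn
  have hn3' : n3 ≤ I.P.n := le_trans (le_trans (le_max_right _ _) (le_max_right _ _)) hn
  obtain ⟨Z, Lp, hS⟩ := hstd I x hStd hmono hm hLoc hu0 hn0
  set W := cmW I.P I.lam x with hWdef
  have hx0 : 0 < x := hLoc.x0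
  have hxW : x ≤ W := cm6g_W_ge _ _ _
  have hW0 : 0 < W := lt_of_lt_of_le hx0 hxW
  set v := Γ * W with hv
  have hv0 : 0 < v := mul_pos hΓpos hW0
  have hΓv : Γ * v ≤ 1 / 2 := by
    have : Γ * v = Γ ^ 2 * W := by rw [hv]; ring
    rw [this]
    calc Γ ^ 2 * W ≤ Γ ^ 2 * (1 / (2 * Γ ^ 2)) := mul_le_mul_of_nonneg_left hW (by positivity)
      _ = 1 / 2 := by field_simp
  have hv12 : v ≤ 1 / 2 := le_trans (le_mul_of_one_le_left hv0.le hΓ1) hΓv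
  -- the window of the good split
  have hNpos : 0 < I.P.N := by
    have : (3 : ℝ) ≤ I.P.N := by
      have := hStd.ok.n3
      show (3 : ℝ) ≤ (I.P.n : ℝ)
      exact_mod_cast this
    linarith
  set θ := I.P.N ^ (-(mm / 2)) with hθ
  have hθ0 : 0 < θ := Real.rpow_pos_of_pos hNpos _
  obtain ⟨t0, ht1, ht2, -, hgood⟩ := hsplit I x hm.ge hStd hmono hu0 hLoc hN0 v (11 / 10 * v) (19 / 10 * v)
    (le_trans (mul_le_mul hΓ2 hxW hx0.le hΓpos.le) le_rfl) (le_trans (mul_le_mul_of_nonneg_right hΓ2 hv0.le) (by linarith))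
    (by linarith) (by linarith) (by linarith)
  have hθv : 0 < θ * v := mul_pos hθ0 hv0
  -- selection
  have h3 : (3 : ℝ) ≤ I.P.N ^ (mm / 2) := hn3 I.P.n hn3'
  have hθ3 : θ ≤ 1 / 3 := by
    rw [hθ, Real.rpow_neg hNpos.le, one_div]
    exact inv_anti₀ (by norm_num) h3
  have hlen : I.P.N ^ (-I.P.m) * v ≤ (t0 + θ * v / 3) - t0 := by
    have : I.P.N ^ (-I.P.m) = θ * θ := by
      rw [hθ, ← Real.rpow_add hNpos, hm]; congr 1; ring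
    rw [this]
    have h4 : θ * (θ * v) ≤ 1 / 3 * (θ * v) := mul_le_mul_of_nonneg_right hθ3 hθv.le
    linarith
  obtain ⟨u, hu, hDu⟩ := hsel I.P I.lam I.q I.num Z Lp x hS hn2 hd v (mul_le_mul_of_nonneg_right hΓe hW0.le) (by linarith)
    t0 (t0 + θ * v / 3) (by linarith) (by linarith) (by linarith) hlen
  have hu1 : 11 / 10 * v ≤ u := by linarith [hu.1]
  have hu2 : u ≤ 19 / 10 * v := by linarith [hu.2]
  obtain ⟨hSlo, hShi⟩ := hband I.P I.lam I.q I.num Z Lp x hS hn1 hd v (mul_le_mul_of_nonneg_right hΓs hW0.le) (by linarith) u ⟨hu1, hu2⟩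
  have huv : v ≤ u := by linarith
  refine ⟨u, by linarith, ?_, ?_, ?_, ?_, ?_, ?_, ?_, ?_⟩
  · exact le_trans (mul_le_mul hΓG hxW hx0.le hΓpos.le) huv
  · exact le_trans (mul_le_mul hΓ0 hxW hx0.le hΓpos.le) huv
  · calc K.c / 2 * Γ * W = K.c / 2 * v := by rw [hv]; ring
      _ ≤ 1 * v := mul_le_mul_of_nonneg_right (by linarith) hv0.le
      _ ≤ u := by linarith
  · calc u ≤ 3 * 1 * v := by linarith
      _ ≤ 3 * K.C * v := mul_le_mul_of_nonneg_right (by linarith) hv0.le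
      _ = 3 * K.C * Γ * W := by rw [hv]; ring
  · calc K.c / 2 * Γ * W = K.c / 2 * v := by rw [hv]; ring
      _ ≤ _ := hSlo
  · calc I.num.S u ≤ 3 * K.C * v := hShi
      _ = 3 * K.C * Γ * W := by rw [hv]; ring
  · intro l hl
    have hpos : (ghPosA u).Ok 1 := cm6g_posA_ok ⟨by linarith, by linarith⟩
    have := (hgood l hl (ghPosA u) hpos hu.1 hu.2).1
    calc cmkMRc I.P.n I.b I.h l (ghPosA u) ≤ (Kf l * I.P.N ^ (-c2) * v) ^ (2 * l) := this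
      _ = (Kf l * Γ * I.P.N ^ (-c2) * W) ^ (2 * l) := by rw [hv]; ring
  · have : I.P.N ^ (-(I.P.m / 2)) = θ := by rw [hθ, hm]
    rw [← this]; exact hDu

/-! ## Prop. 3.9 -/

/-- the integral (7) in the numbers `I.num` -/
theorem cm6g_err_eq {mm cE D0 Tm : ℝ} (hs : CmkSup mm cE D0 Tm) (I : CmI) (hStd : I.Std cE D0 Tm) :
    cmkErr I.P I.lam I.b0 I.h0 I.q = (1 / 4) * ∫ u in I.P.u0..1, I.P.e I.lam (I.q.r u) * (I.num.D u ^ 2 + (I.num.S u - I.q.r u) ^ 2) := by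
  unfold cmkErr
  congr 1
  apply intervalIntegral.integral_congr
  intro u hu
  have h01 : I.P.u0 ≤ 1 := le_trans hStd.ok.u01 (by norm_num)
  rw [uIcc_of_le h01] at hu
  have hu' : u ∈ Icc (0 : ℝ) 1 := ⟨le_trans hStd.ok.u00 hu.1, hu.2⟩
  have hD : I.num.D u ^ 2 = cmkD2 I.P.n I.b I.h (ghPosA u) := by
    show Real.sqrt (cmkD2 I.P.n I.b I.h (ghPosA (cmkCl u))) ^ 2 = _
    rw [cm6g_cl hu']
    exact Real.sq_sqrt (hs.d20 I hStd u hu')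
  have hS : I.num.S u = skCS I.P.n 1 I.b I.h (ghPosA u) := by
    show skCS I.P.n 1 I.b I.h (ghPosA (cmkCl u)) = _
    rw [cm6g_cl hu']
  show _ = I.P.e I.lam (I.q.r u) * (I.num.D u ^ 2 + (I.num.S u - I.q.r u) ^ 2)
  rw [hD, hS]
  rfl

theorem cm6g_K_ok {mm cE D0 c C C0 ca ce Kg CL : ℝ} {Cp : ℕ → ℝ} (hmm : 0 < mm) (hcE : 0 < cE) (hD0 : 0 < D0) (hc : 0 < c) (hca : 0 < ca) (hce : 0 < ce)
    (hKg : 1 ≤ Kg) (hCL : 1 ≤ CL) (hCp : ∀ q, 1 ≤ Cp q) : (cm6gK mm cE D0 c C C0 ca ce Kg CL Cp).Ok :=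
  { mm0 := hmm, cE0 := hcE, D00 := hD0, c0 := lt_min hc one_pos, c1 := min_le_right _ _, C1 := le_max_right _ _, C01 := le_max_right _ _,
    ca0 := hca, ce0 := hce, Kg1 := hKg, CL1 := hCL, Cp1 := hCp }

/-- the scale `A_λ` satisfies the local hypotheses with `ca = ce = 1` -/
theorem cm6g_loc_Al {cE D0 Tm c C C0 : ℝ} (hcE : 0 < cE) (I : CmI) (hStd : I.Std cE D0 Tm) (h1 : I.P.Al I.lam ≤ 1) (hreg : I.q.Reg c C C0 (I.P.Al I.lam)) :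
    I.Loc 1 1 c C C0 (I.P.Al I.lam) := by
  have hok := hStd.ok
  have hN1 : 1 ≤ I.P.N ^ I.P.dl := Real.one_le_rpow (by linarith [cm_N_ge hok]) (cm_dl_pos hok).le
  have ha := cm_a_pos hcE hok
  have hA := cm_Al_ge hcE hok hStd.lam0 hStd.lam1
  have haA : I.P.a ≤ I.P.Al I.lam := le_trans (le_mul_of_one_le_left ha.le hN1) hA
  have hE := cm_e_Al hcE hok hStd.lam0 hStd.lam1 (le_refl (I.P.Al I.lam))
  have hNE : 0 ≤ I.P.N * I.P.E ^ 2 := mul_nonneg (cm_N_pos hok).le (sq_nonneg _)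
  exact { x0 := lt_of_lt_of_le ha haA, x1 := h1, xa := by rw [one_mul]; exact haA,
          xe := by rw [one_mul]; exact le_trans (le_mul_of_one_le_left hNE hN1) hE, reg := hreg }

theorem cm6g_err_small {mm cE D0 Tm c C C0 : ℝ} (hs : CmkSup mm cE D0 Tm) (hmm : 0 < mm) (hcE : 0 < cE) (hD0 : 0 < D0) (hTm : 0 < Tm)
    (hc : 0 < c) (hcC : c ≤ C) (hC0 : 0 < C0) :
    ∃ (κ0 : ℝ) (n0 : ℕ), 0 < κ0 ∧ ∀ I : CmI, I.Std cE D0 Tm → MonotoneOn I.h0 (Icc I.P.u0 1) → I.P.m = mm → n0 ≤ I.P.n → I.P.N ^ (-(10 : ℝ)) ≤ I.lam →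
      I.P.Al I.lam ≤ κ0 → I.P.u0 ≤ I.P.Al I.lam → I.q.Reg c C C0 (I.P.Al I.lam) →
        cmkErr I.P I.lam I.b0 I.h0 I.q ≤ I.P.N ^ (10 * I.P.dl) * I.P.E := by
  obtain ⟨Kg, CL, n0, hKg, hCL, hb⟩ := cm6g_base hs
  obtain ⟨Cp, hCp1, hraw⟩ := cm6g_raw (ca := 1) (ce := 1) hs hmm hcE hD0 hTm one_pos one_pos hc (lt_of_lt_of_le hc hcC) hC0
  have hK := cm6g_K_ok (C := C) (C0 := C0) hmm hcE hD0 hc one_pos one_pos hKg hCL hCp1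
  obtain ⟨κ0, n1, hκ0, h⟩ := cm_x_ce_small _ hK
  refine ⟨min κ0 1, max n0 n1, lt_min hκ0 one_pos, ?_⟩
  intro I hStd hmono hm hn hlam hA hu0 hreg
  obtain ⟨Z, Lp, hbase⟩ := hb c C C0 1 1 Cp I hStd hmono hm (le_trans (le_max_left _ _) hn)
  have hLoc := cm6g_loc_Al hcE I hStd (le_trans hA (min_le_right _ _)) hreg
  rw [cm6g_err_eq hs I hStd]
  exact h I.P I.lam I.q I.num Z Lp hbase (le_trans (le_max_right _ _) hn) hlam (le_trans hA (min_le_left _ _)) hu0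
    (cm6g_reg I.q hLoc.x0.le hStd.ok.u00 hreg) (hraw I _ hStd hmono hm hLoc hu0)

theorem cm6g_err_large {mm cE D0 Tm κ : ℝ} (hs : CmkSup mm cE D0 Tm) (hmm : 0 < mm) (hcE : 0 < cE) (hD0 : 0 < D0) (hκ : 0 < κ) :
    ∃ n0 : ℕ, ∀ I : CmI, I.Std cE D0 Tm → MonotoneOn I.h0 (Icc I.P.u0 1) → I.P.m = mm → n0 ≤ I.P.n → I.P.N ^ (-(10 : ℝ)) ≤ I.lam → κ ≤ I.P.Al I.lam →
      cmkErr I.P I.lam I.b0 I.h0 I.q ≤ I.P.N ^ (10 * I.P.dl) * I.P.E := by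
  obtain ⟨Kg, CL, n0, hKg, hCL, hb⟩ := cm6g_base hs
  have hK := cm6g_K_ok (c := 1) (C := 1) (C0 := 1) (Cp := fun _ => 1) hmm hcE hD0 one_pos one_pos one_pos hKg hCL (fun _ => le_rfl)
  obtain ⟨n1, h⟩ := cm_x_ce_large _ hK hκ
  refine ⟨max n0 n1, ?_⟩
  intro I hStd hmono hm hn hlam hA
  obtain ⟨Z, Lp, hbase⟩ := hb 1 1 1 1 1 (fun _ => 1) I hStd hmono hm (le_trans (le_max_left _ _) hn)
  rw [cm6g_err_eq hs I hStd]
  exact h I.P I.lam I.q I.num Z Lp hbase (le_trans (le_max_right _ _) hn) hlam hA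

/-! ## the sweep -/

/-- the supplies of Lemma 3.1 (envelope) in the SK vocabulary (= `cm4_min_total`, `cm4_min_lip`, `cm4_min_zero`, `cm4_min_mono` of 255) -/
structure CmkEnvSup (mlo cE D0 : ℝ) : Prop where
  total : ∃ N0 : ℕ, ∀ P : CmCall, P.Ok cE D0 → mlo ≤ P.m → N0 ≤ P.n → ∀ (b0 h0 : ℝ → ℝ) (lam0 lam1 K : ℝ), 0 < lam0 → lam0 ≤ lam1 →
    CmkSweep P lam1 b0 h0 → (∀ l ∈ Ico lam0 lam1, ∃ q : CmQ P, CmkMin P l b0 h0 q ∧ cmkErr P l b0 h0 q ≤ K) →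
    skCPr P.n 1 b0 h0 ≤ cmkVal P lam1 b0 h0 ∧ cmkVal P lam1 b0 h0 ≤ skCPr P.n 1 b0 h0 + K * Real.log (lam1 / lam0) + lam0 / 2
  small : ∃ N0 : ℕ, ∀ P : CmCall, P.Ok cE D0 → mlo ≤ P.m → N0 ≤ P.n → ∀ (b0 h0 : ℝ → ℝ) (lam1 : ℝ), 0 ≤ lam1 → CmkSweep P lam1 b0 h0 →
    skCPr P.n 1 b0 h0 ≤ cmkVal P lam1 b0 h0 ∧ cmkVal P lam1 b0 h0 ≤ skCPr P.n 1 b0 h0 + lam1 / 2
  attain : ∃ N0 : ℕ, ∀ P : CmCall, P.Ok cE D0 → mlo ≤ P.m → N0 ≤ P.n → ∀ (b0 h0 : ℝ → ℝ) (lam : ℝ), 0 ≤ lam → CmkAdm P lam b0 h0 →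
    ∃ q : CmQ P, CmkMin P lam b0 h0 q

/-- arithmetic of the sweep: `n^(10δ) E log(λ n^10) + n^(-10)/2 ≤ n^(20δ) E` -/
theorem cm6g_sweep_arith {mm cE D0 : ℝ} (hmm : 0 < mm) (hcE : 0 < cE) (_hD0 : 0 < D0) :
    ∃ n0 : ℕ, ∀ P : CmCall, P.Ok cE D0 → P.m = mm → n0 ≤ P.n →
      P.N ^ (-(10 : ℝ)) / 2 ≤ P.N ^ (20 * P.dl) * P.E ∧
      ∀ lam1 : ℝ, P.N ^ (-(10 : ℝ)) ≤ lam1 → lam1 ≤ P.d ^ 2 →
        P.N ^ (10 * P.dl) * P.E * Real.log (lam1 / P.N ^ (-(10 : ℝ))) + P.N ^ (-(10 : ℝ)) / 2 ≤ P.N ^ (20 * P.dl) * P.E := by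
  set δ : ℝ := mm / 10000 with hδ
  have hδ0 : 0 < δ := by positivity
  obtain ⟨C, hC, hlog⟩ := cm_log_pow 1 (ε := 5 * δ) (by positivity)
  obtain ⟨n1, hn1⟩ := exists_nat_ge (1 / cE ^ 2)
  obtain ⟨n2, hn2⟩ := exists_nat_ge (D0 ^ 2)
  obtain ⟨n3, hn3⟩ := exists_nat_ge ((11 * C + 1) ^ (1 / (5 * δ)))
  refine ⟨max n1 (max n2 n3), fun P hP hm hn => ?_⟩
  have hN3 := cm_N_ge hP
  have hN0 := cm_N_pos hP
  have hN1 : (1 : ℝ) ≤ P.N := by linarith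
  have hdl : P.dl = δ := by simp only [CmCall.dl, hm, hδ]
  have hNa : 1 / cE ^ 2 ≤ P.N := hn1.trans (by
    unfold CmCall.N; exact_mod_cast (le_max_left _ _).trans hn)
  have hNb : D0 ^ 2 ≤ P.N := hn2.trans (by
    unfold CmCall.N; exact_mod_cast ((le_max_left _ _).trans (le_max_right _ _)).trans hn)
  have hNc : (11 * C + 1) ^ (1 / (5 * δ)) ≤ P.N := hn3.trans (by
    unfold CmCall.N; exact_mod_cast ((le_max_right _ _).trans (le_max_right _ _)).trans hn)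
  have hE0 := cm_E_pos hcE hP
  have hE : cE ^ 2 / P.N ≤ P.E := by
    have h1 := cm_us_le hcE hP
    have h2 : P.N ^ (-(1 / 6 : ℝ) - 2 * P.m) ≤ 1 := Real.rpow_le_one_of_one_le_of_nonpos hN1 (by have := hP.m0; linarith)
    have h3 : P.us ≤ cE⁻¹ ^ 2 := h1.trans (by simpa using mul_le_mul_of_nonneg_left h2 (by positivity : (0 : ℝ) ≤ cE⁻¹ ^ 2))
    unfold CmCall.us at h3
    rw [div_le_iff₀ (by positivity)] at h3
    rw [div_le_iff₀ hN0]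
    have h4 : cE ^ 2 * (cE⁻¹ ^ 2 * (P.N * P.E)) = P.E * P.N := by field_simp
    calc cE ^ 2 = cE ^ 2 * 1 := by ring
      _ ≤ cE ^ 2 * (cE⁻¹ ^ 2 * (P.N * P.E)) := mul_le_mul_of_nonneg_left h3 (by positivity)
      _ = P.E * P.N := h4
  have hs0 : 0 < P.N ^ (-(10 : ℝ)) := Real.rpow_pos_of_pos hN0 _
  have hs : P.N ^ (-(10 : ℝ)) ≤ P.E := by
    have h1 : P.N ^ (-(10 : ℝ)) ≤ P.N ^ (-(2 : ℝ)) := Real.rpow_le_rpow_of_exponent_le hN1 (by norm_num)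
    have h2 : P.N ^ (-(2 : ℝ)) = 1 / P.N ^ 2 := by
      rw [Real.rpow_neg hN0.le, one_div]
      congr 1
      exact_mod_cast Real.rpow_natCast P.N 2
    have h3 : 1 / P.N ^ 2 ≤ cE ^ 2 / P.N := by
      rw [div_le_div_iff₀ (by positivity) hN0]
      rw [div_le_iff₀ (by positivity)] at hNa
      nlinarith
    linarith
  have hA1 : 1 ≤ P.N ^ (10 * δ) := Real.one_le_rpow hN1 (by positivity)
  have hAA : P.N ^ (20 * δ) = P.N ^ (10 * δ) * P.N ^ (10 * δ) := by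
    rw [← Real.rpow_add hN0]; ring_nf
  have hBB : P.N ^ (10 * δ) = P.N ^ (5 * δ) * P.N ^ (5 * δ) := by
    rw [← Real.rpow_add hN0]; ring_nf
  have hB0 : 0 < P.N ^ (5 * δ) := Real.rpow_pos_of_pos hN0 _
  have hB1 : 1 ≤ P.N ^ (5 * δ) := Real.one_le_rpow hN1 (by positivity)
  have hBc : 11 * C + 1 ≤ P.N ^ (5 * δ) := by
    have h1 := Real.rpow_le_rpow (by positivity) hNc (by positivity : (0 : ℝ) ≤ 5 * δ)
    rwa [← Real.rpow_mul (by positivity), one_div, inv_mul_cancel₀ (by positivity), Real.rpow_one] at h1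
  have hlN : Real.log P.N ≤ C * P.N ^ (5 * δ) := by simpa using hlog P.N hN1
  have hmain : 11 * Real.log P.N + 1 ≤ P.N ^ (10 * δ) := by
    rw [hBB]
    calc 11 * Real.log P.N + 1 ≤ 11 * (C * P.N ^ (5 * δ)) + P.N ^ (5 * δ) := by linarith
      _ = (11 * C + 1) * P.N ^ (5 * δ) := by ring
      _ ≤ P.N ^ (5 * δ) * P.N ^ (5 * δ) := mul_le_mul_of_nonneg_right hBc hB0.le
  rw [hdl]
  have hAE : 0 < P.N ^ (10 * δ) * P.E := by positivity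
  have hEle : P.E ≤ P.N ^ (10 * δ) * P.E := by nlinarith
  refine ⟨?_, fun lam1 hl0 hl1 => ?_⟩
  · rw [hAA]
    have : P.N ^ (10 * δ) * P.E ≤ P.N ^ (10 * δ) * P.N ^ (10 * δ) * P.E := by nlinarith
    linarith
  · have hd2 : P.d ^ 2 ≤ D0 ^ 2 := pow_le_pow_left₀ hP.d0.le hP.d1 2
    have hq : lam1 / P.N ^ (-(10 : ℝ)) ≤ P.N ^ (11 : ℝ) := by
      rw [div_le_iff₀ hs0, ← Real.rpow_add hN0]
      norm_num
      linarith
    have hq0 : 0 < lam1 / P.N ^ (-(10 : ℝ)) := div_pos (lt_of_lt_of_le hs0 hl0) hs0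
    have hlg : Real.log (lam1 / P.N ^ (-(10 : ℝ))) ≤ 11 * Real.log P.N := by
      have := Real.log_le_log hq0 hq
      rwa [Real.log_rpow hN0] at this
    rw [hAA]
    calc P.N ^ (10 * δ) * P.E * Real.log (lam1 / P.N ^ (-(10 : ℝ))) + P.N ^ (-(10 : ℝ)) / 2
        ≤ P.N ^ (10 * δ) * P.E * (11 * Real.log P.N) + P.N ^ (10 * δ) * P.E := by
          have := mul_le_mul_of_nonneg_left hlg hAE.le
          linarith
      _ = P.N ^ (10 * δ) * P.E * (11 * Real.log P.N + 1) := by ring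
      _ ≤ P.N ^ (10 * δ) * P.E * P.N ^ (10 * δ) := mul_le_mul_of_nonneg_left hmain hAE.le
      _ = P.N ^ (10 * δ) * P.N ^ (10 * δ) * P.E := by ring

/-- `h0` is nondecreasing on the working interval if the strength `0` is admissible -/
theorem cm6g_h0_mono {P : CmCall} {b0 h0 : ℝ → ℝ} (q : CmQ P) (hu0 : 0 ≤ P.u0) (h : CmkAdm P 0 b0 h0) : MonotoneOn h0 (Icc P.u0 1) := by
  have hm := (h q).2.1
  intro u hu v hv huv
  have h1 := hm (⟨le_trans hu0 hu.1, hu.2⟩ : u ∈ Icc (0 : ℝ) 1) (⟨le_trans hu0 hv.1, hv.2⟩ : v ∈ Icc (0 : ℝ) 1) huv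
  simpa [CmQ.hq, hu.1, hv.1, cm_e_zero] using h1

/-- the standing hypotheses at a strength of a sweep -/
theorem cm6g_sweep_std {cE D0 Tm : ℝ} {P : CmCall} {b0 h0 : ℝ → ℝ} {lam1 l : ℝ} (hok : P.Ok cE D0) (hl0 : 0 < l) (hl1 : l ≤ lam1) (hlam : lam1 ≤ P.d ^ 2)
    (hsw : CmkSweep P lam1 b0 h0) (hb : b0 1 ≤ Tm) (hh : h0 1 + P.d ^ 2 ≤ Tm) (q : CmQ P) (hq : CmkMin P l b0 h0 q) :
    (⟨P, l, b0, h0, q⟩ : CmI).Std cE D0 Tm := by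
  have h01 : P.u0 ≤ 1 := le_trans hok.u01 (by norm_num)
  have hrm : P.rmin ≤ 1 := by
    have := q.r_mem 1 ⟨h01, le_rfl⟩
    exact le_trans this.1 this.2
  refine { ok := hok, lam0 := hl0, lam1 := le_trans hl1 hlam, adm := hsw l hl0.le hl1, min := hq, bT := ?_, hT := ?_ }
  · show q.bq l b0 1 ≤ Tm
    have := cm_e_nonneg P hl0.le (q.r 1)
    simp only [CmQ.bq, h01, if_true]
    linarith
  · show q.hq l h0 1 ≤ Tm
    have h1 := cm_e_le P hl0.le (q.r 1)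
    simp only [CmQ.hq, h01, if_true, cm_q_r_one q hrm, mul_one] at h1 ⊢
    linarith

theorem cm6g_sweep {mm cE D0 Tm c C C0 : ℝ} (hs : CmkSup mm cE D0 Tm) (he : CmkEnvSup mm cE D0) (hmm : 0 < mm) (hcE : 0 < cE) (hD0 : 0 < D0) (hTm : 0 < Tm)
    (hc : 0 < c) (hcC : c ≤ C) (hC0 : 0 < C0) :
    ∃ (κ0 : ℝ) (n0 : ℕ), 0 < κ0 ∧ ∀ (P : CmCall) (b0 h0 : ℝ → ℝ) (lam1 : ℝ), P.Ok cE D0 → P.m = mm → n0 ≤ P.n → 0 ≤ lam1 → lam1 ≤ P.d ^ 2 →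
      P.u0 ≤ P.a → CmkSweep P lam1 b0 h0 → b0 1 ≤ Tm → h0 1 + P.d ^ 2 ≤ Tm →
      (∀ l : ℝ, P.N ^ (-(10 : ℝ)) ≤ l → l ≤ lam1 → ∃ q : CmQ P, CmkMin P l b0 h0 q ∧ (P.Al l ≤ κ0 → q.Reg c C C0 (P.Al l))) →
        skCPr P.n 1 b0 h0 ≤ cmkVal P lam1 b0 h0 ∧ cmkVal P lam1 b0 h0 ≤ skCPr P.n 1 b0 h0 + P.N ^ (20 * P.dl) * P.E := by
  obtain ⟨κ0, n1, hκ0, hsm⟩ := cm6g_err_small hs hmm hcE hD0 hTm hc hcC hC0
  obtain ⟨n2, hlg⟩ := cm6g_err_large hs hmm hcE hD0 hκ0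
  obtain ⟨n3, htot⟩ := he.total
  obtain ⟨n4, hsml⟩ := he.small
  obtain ⟨n5, har⟩ := cm6g_sweep_arith hmm hcE hD0
  refine ⟨κ0, max (max n1 n2) (max (max n3 n4) n5), hκ0, ?_⟩
  intro P b0 h0 lam1 hok hm hn hl0 hl1 hu0 hsw hb hh hmin
  have hn1 : n1 ≤ P.n := le_trans (le_trans (le_max_left _ _) (le_max_left _ _)) hn
  have hn2 : n2 ≤ P.n := le_trans (le_trans (le_max_right _ _) (le_max_left _ _)) hn
  have hn3 : n3 ≤ P.n := le_trans (le_trans (le_trans (le_max_left _ _) (le_max_left _ _)) (le_max_right _ _)) hn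
  have hn4 : n4 ≤ P.n := le_trans (le_trans (le_trans (le_max_right _ _) (le_max_left _ _)) (le_max_right _ _)) hn
  have hn5 : n5 ≤ P.n := le_trans (le_trans (le_max_right _ _) (le_max_right _ _)) hn
  obtain ⟨ha1, ha2⟩ := har P hok hm hn5
  have hNpos := cm_N_pos hok
  have hθ : 0 < P.N ^ (-(10 : ℝ)) := Real.rpow_pos_of_pos hNpos _
  by_cases hcase : P.N ^ (-(10 : ℝ)) ≤ lam1
  · obtain ⟨h1, h2⟩ := htot P hok hm.ge hn3 b0 h0 (P.N ^ (-(10 : ℝ))) lam1 (P.N ^ (10 * P.dl) * P.E) hθ hcase hsw (by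
      intro l hl
      obtain ⟨q, hq, hreg⟩ := hmin l hl.1 hl.2.le
      refine ⟨q, hq, ?_⟩
      have hlpos : 0 < l := lt_of_lt_of_le hθ hl.1
      have hStd := cm6g_sweep_std (Tm := Tm) hok hlpos hl.2.le hl1 hsw hb hh q hq
      have hmono : MonotoneOn h0 (Icc P.u0 1) := cm6g_h0_mono q hok.u00 (hsw 0 le_rfl hl0)
      have hN1 : 1 ≤ P.N ^ P.dl := Real.one_le_rpow (by linarith [cm_N_ge hok]) (cm_dl_pos hok).le
      have haA : P.a ≤ P.Al l := le_trans (le_mul_of_one_le_left (cm_a_pos hcE hok).le hN1) (cm_Al_ge hcE hok hlpos (le_trans hl.2.le hl1))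
      rcases le_total (P.Al l) κ0 with hA | hA
      · exact hsm ⟨P, l, b0, h0, q⟩ hStd hmono hm hn1 hl.1 hA (le_trans hu0 haA) (hreg hA)
      · exact hlg ⟨P, l, b0, h0, q⟩ hStd hmono hm hn2 hl.1 hA)
    refine ⟨h1, le_trans h2 ?_⟩
    have := ha2 lam1 hcase hl1
    linarith
  · have hcase' := lt_of_not_ge hcase
    obtain ⟨h1, h2⟩ := hsml P hok hm.ge hn4 b0 h0 lam1 hl0 hsw
    refine ⟨h1, le_trans h2 ?_⟩
    linarith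

end

end Claimed.Agent.R286
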