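import Claimed.Agent.R286.Cmp.P6Glue
import Claimed.Agent.R286.Pe6.Imports

/-!
# Row 286 (S0533), package P06: GLUE of the exit `Exit/P6Sweep`      (owner helper294)
The uniform sweep statement `cm6g_sweep` read along an ultrafilter, in the vocabulary of PE Sec. 6 (`P6D`, `P6Seq`, `P6ImpSweep`).
SECOND PART (helper290): `P6ImpS18` = the import `BcpS18` of LL07 Step 3 (`Bud/Cp.lean`) for an abstract pressure; `cm6s_s18` (SK pressure, PROVED from `cm6x_dyad`), `cm6s_s18_congr`; exit `Exit/P6S18.lean`.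
-/

set_option autoImplicit false

namespace Claimed.Agent.R286

open MeasureTheory Set Filter Topology Asymptotics

noncomputable section

theorem cm6s_obj (D : P6D) (lam : ℝ) (q : CmQ D.P) : D.obj (fun n => skCPr n 1) lam q.r = cmkObj D.P lam D.b0 D.h0 q := rfl

theorem cm6s_min (D : P6D) (lam : ℝ) (q : CmQ D.P) : D.IsMin (fun n => skCPr n 1) lam q.r ↔ CmkMin D.P lam D.b0 D.h0 q := by
  constructor
  · intro h q'
    have := h.2 q'.r ⟨q', rfl⟩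
    rwa [cm6s_obj, cm6s_obj] at this
  · intro h
    refine ⟨⟨q, rfl⟩, ?_⟩
    rintro r' ⟨q', rfl⟩
    rw [cm6s_obj, cm6s_obj]
    exact h q'

theorem cm6s_val (P : CmCall) (lam : ℝ) (b0 h0 : ℝ → ℝ) (q : CmQ P) (h : CmkMin P lam b0 h0 q) : cmkVal P lam b0 h0 = cmkObj P lam b0 h0 q := by
  have : Nonempty (CmQ P) := ⟨q⟩
  apply le_antisymm
  · exact ciInf_le ⟨cmkObj P lam b0 h0 q, by rintro _ ⟨q', rfl⟩; exact h q'⟩ q
  · exact le_ciInf fun q' => h q'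

theorem cm6s_adm (D : P6D) (lam : ℝ) (h : D.Fam lam) : CmkAdm D.P lam D.b0 D.h0 := fun q => h q.r ⟨q, rfl⟩

theorem cm6s_sweep (hsup : ∀ mm cE D0 Tm : ℝ, 0 < mm → 0 < cE → 0 < D0 → 0 < Tm → CmkSup mm cE D0 Tm)
    (henv : ∀ mm cE D0 : ℝ, 0 < mm → 0 < cE → 0 < D0 → CmkEnvSup mm cE D0) (c : P6C) (hc : c.Ok) :
    P6ImpSweep (fun n => skCPr n 1) c := by
  intro U D c1 C1 hc1 hC1 hseq hord hreg
  have hTm : 0 < c.K + c.D0 ^ 2 := by have := hc.K_pos; have := hc.D0_pos; positivity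
  have hs := hsup c.m c.cE c.D0 (c.K + c.D0 ^ 2) hc.m_pos hc.cE_pos hc.D0_pos hTm
  have he := henv c.m c.cE c.D0 hc.m_pos hc.cE_pos hc.D0_pos
  obtain ⟨κ0, n0, -, hsw⟩ := cm6g_sweep (c := c1) (C := C1) (C0 := 1) hs he hc.m_pos hc.cE_pos hc.D0_pos hTm hc1 hC1.le one_pos
  obtain ⟨n1, hatt⟩ := he.attain
  have hn : ∀ᶠ k in U, ((max n0 n1 : ℕ) : ℝ) ≤ (D k).P.N := hseq.n_top.eventually_ge_atTop _
  have hu0 : ∀ᶠ k in U, ‖(D k).P.u0‖ ≤ 1 * ‖(D k).P.a‖ := hseq.u0_small.bound one_pos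
  filter_upwards [hn, hu0, hseq.m_eq, hseq.ok, hseq.clk, hord, hreg] with k hn hu0 hm hok hclk hord hreg
  intro lam r hl0 hl1 hmin
  obtain ⟨⟨q, rfl⟩, -⟩ := id hmin
  have hnn : max n0 n1 ≤ (D k).P.n := by
    have h' : ((max n0 n1 : ℕ) : ℝ) ≤ ((D k).P.n : ℝ) := hn
    exact_mod_cast h'
  have ha : 0 < (D k).P.a := cm_a_pos hc.cE_pos hok
  have hu0' : (D k).P.u0 ≤ (D k).P.a := by
    have := le_trans (le_abs_self _) hu0
    rwa [one_mul, Real.norm_eq_abs, abs_of_pos ha] at this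
  have hb1 := (hclk 1 ⟨zero_le_one, le_rfl⟩)
  have hd : (D k).P.d ^ 2 ≤ c.D0 ^ 2 := pow_le_pow_left₀ hok.d0.le hok.d1 2
  have hsweep : CmkSweep (D k).P lam (D k).b0 (D k).h0 := fun l h0 h1 => cm6s_adm (D k) l (hord.2 l h0 (le_trans h1 hl1))
  have := hsw (D k).P (D k).b0 (D k).h0 lam hok hm (le_trans (le_max_left _ _) hnn) hl0 hl1 hu0' hsweep
    (by linarith [le_abs_self ((D k).b0 1), hb1.1, sq_nonneg c.D0]) (by linarith [le_abs_self ((D k).h0 1), hb1.2]) (by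
      intro l h1 h2
      have hNpos := cm_N_pos hok
      have hlpos : 0 ≤ l := le_trans (Real.rpow_pos_of_pos hNpos _).le h1
      obtain ⟨q', hq'⟩ := hatt (D k).P hok hm.ge (le_trans (le_max_right _ _) hnn) (D k).b0 (D k).h0 l hlpos (hsweep l hlpos h2)
      exact ⟨q', hq', fun _ => hreg l q'.r h1 (le_trans h2 hl1) ((cm6s_min (D k) l q').2 hq')⟩)
  have hval := cm6s_val (D k).P lam (D k).b0 (D k).h0 q ((cm6s_min (D k) lam q).1 hmin)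
  rw [hval] at this
  show 0 ≤ (D k).obj (fun n => skCPr n 1) lam q.r - skCPr (D k).P.n 1 (D k).b0 (D k).h0 ∧
    (D k).obj (fun n => skCPr n 1) lam q.r - skCPr (D k).P.n 1 (D k).b0 (D k).h0 ≤ _
  rw [cm6s_obj]
  constructor <;> linarith [this.1, this.2]

/-! ## (18) + Lemma 3.3 on macroscopic bands: `S - r → 0` in `L¹_loc(0,1)`      (helper290; consumer: LL07 Step 3, `BcpS18` of `Bud/Cp.lean`) -/

/-- **uniform form**: ONE enlarged dyad `[κ,1] = [v/Gam, min(Gam v,1)]`, `v = 1`, `Gam = 1/κ` of `cm6x_dyad` -/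
theorem cm6g_s18 {mm cE D0 Tm ca ce c C C0 ε κ : ℝ} (hs : CmkSup mm cE D0 Tm) (hmm : 0 < mm) (hcE : 0 < cE) (hD0 : 0 < D0) (hTm : 0 < Tm)
    (hca : 0 < ca) (hce : 0 < ce) (hc : 0 < c) (hcC : c ≤ C) (hC0 : 0 < C0) (hε : 0 < ε) (hκ : 0 < κ) (hκ1 : κ ≤ 1) :
    ∃ (K1 C1 : ℝ) (n0 : ℕ), 0 < K1 ∧ 1 ≤ C1 ∧ ∀ (I : CmI) (x : ℝ), I.Std cE D0 Tm → MonotoneOn I.h0 (Icc I.P.u0 1) → I.P.m = mm → I.Loc ca ce c C C0 x →
      I.P.u0 ≤ x → n0 ≤ I.P.n → C1 * x ≤ 1 →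
        IntegrableOn (cm6xF I.q I.num) (Icc κ 1) ∧ ∫ u in Icc κ 1, cm6xF I.q I.num u ≤ K1 * I.P.N ^ (2 * ε) * I.P.R18 I.lam 1 ^ 2 := by
  obtain ⟨K, n0, hK, -, -, -, hstd⟩ := cm6g_std hs hmm hcE hD0 hTm hca hce hc hcC hC0
  have hGam : 1 ≤ 1 / κ := by rw [le_div_iff₀ hκ]; linarith
  obtain ⟨K1, n1, hK1, h⟩ := cm6x_dyad K hK hε hGam
  have hC1 := cm6x_C1_ge K hK hGam
  refine ⟨K1, cm6xC1 K (1 / κ), max n0 n1, hK1, hC1.1, ?_⟩
  intro I x hStd hmono hm hLoc hu0 hn hx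
  obtain ⟨Z, Lp, hS⟩ := hstd I x hStd hmono hm hLoc hu0 (le_trans (le_max_left _ _) hn)
  have h1 := h I.P I.lam I.q I.num Z Lp x hS (le_trans (le_max_right _ _) hn) 1 hx le_rfl
  have e1 : (1 : ℝ) / (1 / κ) = κ := by field_simp
  have e2 : min (1 / κ * 1) 1 = 1 := by rw [mul_one]; exact min_eq_right hGam
  rw [e1, e2, mul_one] at h1
  refine ⟨?_, h1⟩
  have hd := cm6x_dy K hK hGam hS.x0 hx
  have hu0κ : I.P.u0 ≤ κ := by
    have := hd.2.2.2.2.1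
    rw [e1] at this
    exact hu0.trans this
  exact (cm6x_int hcE hStd.ok hS.base.num I.q).mono_set (Icc_subset_Icc_left hu0κ)

/-- an `L¹` bound from an `L²` bound, no measurability of the integrand needed -/
theorem cm6s_l1_of_l2 {g F : ℝ → ℝ} {κ δ A : ℝ} (hκ : 0 < κ) (hκ2 : κ < 1 / 2) (hδ : 0 < δ) (hF : IntegrableOn F (Icc κ 1)) (hg : ∀ u ∈ Icc κ 1, g u ^ 2 ≤ F u)
    (hA : ∫ u in Icc κ 1, F u ≤ A) : ∫ v in κ..(1 - κ), |g v| ≤ δ + A / δ := by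
  have hle : κ ≤ 1 - κ := by linarith
  rw [intervalIntegral.integral_of_le hle]
  have hsub : Ioc κ (1 - κ) ⊆ Icc κ 1 := fun u hu => ⟨hu.1.le, by linarith [hu.2]⟩
  have hF0 : ∀ u ∈ Icc κ 1, 0 ≤ F u := fun u hu => (sq_nonneg _).trans (hg u hu)
  have hGi : IntegrableOn (fun u => δ + F u / δ) (Icc κ 1) :=
    (integrableOn_const (by simp)).add (hF.div_const δ)
  have h1 : ∫ v in Ioc κ (1 - κ), |g v| ≤ ∫ v in Ioc κ (1 - κ), (δ + F v / δ) := by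
    refine integral_mono_of_nonneg (Filter.Eventually.of_forall fun _ => abs_nonneg _) (hGi.mono_set hsub) ?_
    refine (ae_restrict_iff' measurableSet_Ioc).2 (Filter.Eventually.of_forall fun u hu => ?_)
    have h2 := hg u (hsub hu)
    have h3 : |g u| ≤ δ + g u ^ 2 / δ := by
      rw [← sq_abs]
      have h4 : 0 ≤ |g u| := abs_nonneg _
      rcases le_total |g u| δ with h | h
      · have : 0 ≤ |g u| ^ 2 / δ := by positivity
        linarith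
      · have : |g u| ≤ |g u| ^ 2 / δ := by
          rw [le_div_iff₀ hδ]; nlinarith
        linarith
    have h5 : g u ^ 2 / δ ≤ F u / δ := div_le_div_of_nonneg_right h2 hδ.le
    linarith
  have h2 : ∫ v in Ioc κ (1 - κ), (δ + F v / δ) ≤ ∫ v in Icc κ 1, (δ + F v / δ) := by
    refine setIntegral_mono_set hGi ?_ (Filter.Eventually.of_forall hsub)
    refine (ae_restrict_iff' measurableSet_Icc).2 (Filter.Eventually.of_forall fun u hu => ?_)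
    have := hF0 u hu
    show (0 : ℝ) ≤ δ + F u / δ
    positivity
  have h3 : ∫ v in Icc κ 1, (δ + F v / δ) = δ * (1 - κ) + (∫ v in Icc κ 1, F v) / δ := by
    have hci : IntegrableOn (fun _ : ℝ => δ) (Icc κ 1) := integrableOn_const (by simp)
    rw [integral_add hci (hF.div_const δ), integral_div, setIntegral_const]
    simp only [Real.volume_real_Icc, smul_eq_mul]
    rw [max_eq_left (by linarith)]
    ring
  have h4 : δ * (1 - κ) ≤ δ := by nlinarith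
  have h5 : (∫ v in Icc κ 1, F v) / δ ≤ A / δ := div_le_div_of_nonneg_right hA hδ.le
  linarith

/-- **PE (18) + Lemma 3.3 on macroscopic bands**, in the frame of PE Sec. 6, for an abstract pressure `fn` and an abstract first overlap moment `Sn`:
at a minimiser which is regular above `x → 0`, if the bracket `R18` of (18) is power small on `[κ,1]`, then `S - r → 0` in `L¹_loc(0,1)`.
`BcpS18 W c` (`Bud/Cp.lean`, helper286) is `P6ImpS18 (bcpFn W) (fun n => (W.ps n).S) c` by definition.      TEX[PE:comp:direct-moments] TEX[PE:comp:geometry] -/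
def P6ImpS18 (fn : ℕ → (ℝ → ℝ) → (ℝ → ℝ) → ℝ) (Sn : ℕ → (ℝ → ℝ) → (ℝ → ℝ) → ℝ → ℝ) (c : P6C) : Prop :=
  ∀ (U : Ultrafilter ℕ) (D : ℕ → P6D) (lam x : ℕ → ℝ) (r : ℕ → ℝ → ℝ) (c1 C1 C0 : ℝ), 0 < c1 → 0 < C1 → 0 < C0 → P6Seq U c D →
    (∀ᶠ k in U, 0 < lam k ∧ lam k ≤ (D k).P.d ^ 2) → (∀ᶠ k in U, (D k).Fam (lam k)) →
    (∀ᶠ k in U, (D k).IsMin fn (lam k) (r k)) →
    (∀ᶠ k in U, 0 < x k) → Tendsto x U (𝓝 0) →
    (fun k => (D k).P.a) =O[U] x →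
    (fun k => (D k).P.N * (D k).P.E ^ 2) =O[U] (fun k => (D k).P.e (lam k) (x k) * x k ^ 2) →
    (∀ᶠ k in U, P6Reg (D k).P.u0 (r k) c1 C1 C0 (x k)) →
    (∀ κ : ℝ, 0 < κ → ∃ s : ℝ, 0 < s ∧ ∀ᶠ k in U, ∀ v, κ ≤ v → v ≤ 1 → (D k).P.R18 (lam k) v ≤ (D k).P.N ^ (-s)) →
    ∀ κ : ℝ, 0 < κ → κ < 1 / 2 →
      Tendsto (fun k => ∫ v in κ..(1 - κ), |Sn (D k).P.n ((D k).Pb (lam k) (r k)) ((D k).Ph (lam k) (r k)) v - r k v|) U (𝓝 0)

theorem cm6s_eqns_cite : True := by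
  have := @P6ImpS18.eq_1
  trivial

/-- one instance of the sequence -/
theorem cm6s_s18_one {cE D0 K Tm ca ce c1 C1 C0 s κ K1 C1' : ℝ} (hcE : 0 < cE) (hTm : K + D0 ^ 2 ≤ Tm) (hκ : 0 < κ) (hκ2 : κ < 1 / 2) (hK1 : 0 < K1)
    {D : P6D} {lam x : ℝ} {q : CmQ D.P}
    (h : ∀ (I : CmI) (x : ℝ), I.Std cE D0 Tm → MonotoneOn I.h0 (Icc I.P.u0 1) → I.Loc ca ce c1 (max c1 C1) C0 x → I.P.u0 ≤ x → C1' * x ≤ 1 →
        I.P = D.P → IntegrableOn (cm6xF I.q I.num) (Icc κ 1) ∧ ∫ u in Icc κ 1, cm6xF I.q I.num u ≤ K1 * I.P.N ^ (2 * (s / 2)) * I.P.R18 I.lam 1 ^ 2)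
    (hok : D.P.Ok cE D0) (hclk : P6Bd D.b0 D.h0 K) (hmono : MonotoneOn D.h0 (Icc D.P.u0 1)) (hl0 : 0 < lam) (hl1 : lam ≤ D.P.d ^ 2) (hfam : D.Fam lam)
    (hmin : D.IsMin (fun n => skCPr n 1) lam q.r) (hx0 : 0 < x) (hx1 : x ≤ 1) (hxC : C1' * x ≤ 1) (hxa : ca * D.P.a ≤ x)
    (hxe : ce * (D.P.N * D.P.E ^ 2) ≤ D.P.e lam x * x ^ 2) (hu0 : D.P.u0 ≤ x) (hreg : P6Reg D.P.u0 q.r c1 C1 C0 x) (hR : D.P.R18 lam 1 ≤ D.P.N ^ (-s)) :
    ∫ v in κ..(1 - κ), |skCS D.P.n 1 (D.Pb lam q.r) (D.Ph lam q.r) (ghPosA v) - q.r v| ≤ (1 + K1) * D.P.N ^ (-(s / 2)) := by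
  have hN := cm_N_pos hok
  have h01 : D.P.u0 ≤ 1 := le_trans hok.u01 (by norm_num)
  have hrm : D.P.rmin ≤ 1 := by
    have := q.r_mem 1 ⟨h01, le_rfl⟩
    exact le_trans this.1 this.2
  have hb1 := hclk 1 ⟨zero_le_one, le_rfl⟩
  have hd : D.P.d ^ 2 ≤ D0 ^ 2 := pow_le_pow_left₀ hok.d0.le hok.d1 2
  have hStd : (⟨D.P, lam, D.b0, D.h0, q⟩ : CmI).Std cE D0 Tm := by
    refine { ok := hok, lam0 := hl0, lam1 := hl1, adm := cm6s_adm D lam hfam, min := (cm6s_min D lam q).1 hmin, bT := ?_, hT := ?_ }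
    · show q.bq lam D.b0 1 ≤ Tm
      have := cm_e_nonneg D.P hl0.le (q.r 1)
      simp only [CmQ.bq, h01, if_true]
      linarith [le_abs_self (D.b0 1), hb1.1, sq_nonneg D0]
    · show q.hq lam D.h0 1 ≤ Tm
      have h1 := cm_e_le D.P hl0.le (q.r 1)
      simp only [CmQ.hq, h01, if_true, cm_q_r_one q hrm, mul_one] at h1 ⊢
      linarith [le_abs_self (D.h0 1), hb1.2]
  have hLoc : (⟨D.P, lam, D.b0, D.h0, q⟩ : CmI).Loc ca ce c1 (max c1 C1) C0 x :=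
    { x0 := hx0, x1 := hx1, xa := hxa, xe := hxe
      reg := fun u a1 a2 a3 => by
        obtain ⟨b1, b2⟩ := hreg u a1 a2 a3
        have hu : 0 ≤ u := le_trans hok.u00 a3
        exact ⟨b1, b2.trans (mul_le_mul_of_nonneg_right (le_max_right _ _) hu)⟩ }
  obtain ⟨hFi, hFb⟩ := h ⟨D.P, lam, D.b0, D.h0, q⟩ x hStd hmono hLoc hu0 hxC rfl
  have hR0 := cm6o_R18_nonneg hcE hok hl0 zero_le_one
  have hp1 : 0 < D.P.N ^ (-(s / 2)) := Real.rpow_pos_of_pos hN _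
  have hA : ∫ u in Icc κ 1, cm6xF q (cmkNum D.P.n (q.bq lam D.b0) (q.hq lam D.h0)) u ≤ K1 * D.P.N ^ (-s) := by
    refine hFb.trans ?_
    show K1 * D.P.N ^ (2 * (s / 2)) * D.P.R18 lam 1 ^ 2 ≤ K1 * D.P.N ^ (-s)
    have e1 : D.P.R18 lam 1 ^ 2 ≤ (D.P.N ^ (-s)) ^ 2 := pow_le_pow_left₀ hR0 hR 2
    have e2 : D.P.N ^ (2 * (s / 2)) * (D.P.N ^ (-s)) ^ 2 = D.P.N ^ (-s) := by
      rw [pow_two, ← Real.rpow_add hN, ← Real.rpow_add hN]; congr 1; ring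
    calc K1 * D.P.N ^ (2 * (s / 2)) * D.P.R18 lam 1 ^ 2 ≤ K1 * D.P.N ^ (2 * (s / 2)) * (D.P.N ^ (-s)) ^ 2 := by
          apply mul_le_mul_of_nonneg_left e1
          have := Real.rpow_pos_of_pos hN (2 * (s / 2))
          positivity
      _ = K1 * (D.P.N ^ (2 * (s / 2)) * (D.P.N ^ (-s)) ^ 2) := by ring
      _ = _ := by rw [e2]
  have hl1' := cm6s_l1_of_l2 (g := fun u => (cmkNum D.P.n (q.bq lam D.b0) (q.hq lam D.h0)).S u - q.r u) hκ hκ2 hp1 hFi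
    (fun u _ => le_add_of_nonneg_left (sq_nonneg _)) hA
  have e3 : D.P.N ^ (-(s / 2)) + K1 * D.P.N ^ (-s) / D.P.N ^ (-(s / 2)) = (1 + K1) * D.P.N ^ (-(s / 2)) := by
    have : D.P.N ^ (-s) = D.P.N ^ (-(s / 2)) * D.P.N ^ (-(s / 2)) := by
      rw [← Real.rpow_add hN]; congr 1; ring
    rw [this]
    field_simp
  rw [e3] at hl1'
  refine le_trans (le_of_eq ?_) hl1'
  refine intervalIntegral.integral_congr fun u hu => ?_
  rw [uIcc_of_le (by linarith)] at hu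
  have hu01 : u ∈ Icc (0 : ℝ) 1 := ⟨by linarith [hu.1], by linarith [hu.2]⟩
  show |skCS D.P.n 1 (D.Pb lam q.r) (D.Ph lam q.r) (ghPosA u) - q.r u| = |skCS D.P.n 1 (q.bq lam D.b0) (q.hq lam D.h0) (ghPosA (cmkCl u)) - q.r u|
  rw [cm6g_cl hu01]
  rfl

/-- **the import for the SK pressure** -/
theorem cm6s_s18 (hsup : ∀ mm cE D0 Tm : ℝ, 0 < mm → 0 < cE → 0 < D0 → 0 < Tm → CmkSup mm cE D0 Tm) (c : P6C) (hc : c.Ok) :
    P6ImpS18 (fun n => skCPr n 1) (fun n b h v => skCS n 1 b h (ghPosA v)) c := by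
  intro U D lam x r c1 C1 C0 hc1 hC1 hC0 hseq hlam hfam hmin hx0 hxlim haO hnO hreg hR κ hκ hκ2
  obtain ⟨s, hs0, hRs⟩ := hR 1 one_pos
  obtain ⟨A, hA0, hA⟩ := haO.exists_pos
  obtain ⟨B, hB0, hB⟩ := hnO.exists_pos
  have hTm : 0 < c.K + c.D0 ^ 2 := by have := hc.K_pos; have := hc.D0_pos; positivity
  have hs := hsup c.m c.cE c.D0 (c.K + c.D0 ^ 2) hc.m_pos hc.cE_pos hc.D0_pos hTm
  obtain ⟨K1, C1', n0, hK1, hC1', h⟩ := cm6g_s18 (ca := 1 / A) (ce := 1 / B) (c := c1) (C := max c1 C1) (C0 := C0) (ε := s / 2) (κ := κ) hs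
    hc.m_pos hc.cE_pos hc.D0_pos hTm (by positivity) (by positivity) hc1 (le_max_left _ _) hC0 (by positivity) hκ (by linarith)
  have hn : ∀ᶠ k in U, ((n0 : ℕ) : ℝ) ≤ (D k).P.N := hseq.n_top.eventually_ge_atTop _
  have hu0 : ∀ᶠ k in U, ‖(D k).P.u0‖ ≤ (1 / A) * ‖(D k).P.a‖ := hseq.u0_small.bound (by positivity)
  have hxs : ∀ᶠ k in U, x k < min 1 (1 / C1') := hxlim.eventually (gt_mem_nhds (lt_min one_pos (by positivity)))
  have hbd : ∀ᶠ k in U, ∫ v in κ..(1 - κ), |skCS (D k).P.n 1 ((D k).Pb (lam k) (r k)) ((D k).Ph (lam k) (r k)) (ghPosA v) - r k v|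
      ≤ (1 + K1) * (D k).P.N ^ (-(s / 2)) := by
    filter_upwards [hn, hu0, hxs, hseq.m_eq, hseq.ok, hseq.clk, hseq.mono, hlam, hfam, hmin, hx0, hA.bound, hB.bound, hreg, hRs]
      with k hn hu0 hxs hm hok hclk hmono hlam hfam hmin hx0 hA hB hreg hRs
    generalize r k = rk at hmin hreg ⊢
    obtain ⟨⟨q, rfl⟩, -⟩ := id hmin
    have hnn : n0 ≤ (D k).P.n := by
      have h' : ((n0 : ℕ) : ℝ) ≤ ((D k).P.n : ℝ) := hn
      exact_mod_cast h'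
    have ha : 0 < (D k).P.a := cm_a_pos hc.cE_pos hok
    have hxa : 1 / A * (D k).P.a ≤ x k := by
      rw [Real.norm_eq_abs, Real.norm_eq_abs, abs_of_pos ha, abs_of_pos hx0] at hA
      rw [div_mul_eq_mul_div, one_mul, div_le_iff₀ hA0]
      linarith
    have hu0' : (D k).P.u0 ≤ x k := by
      have h1 := le_trans (le_abs_self _) hu0
      rw [Real.norm_eq_abs, abs_of_pos ha] at h1
      exact h1.trans hxa
    have hxe : 1 / B * ((D k).P.N * (D k).P.E ^ 2) ≤ (D k).P.e (lam k) (x k) * x k ^ 2 := by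
      have h1 : 0 ≤ (D k).P.e (lam k) (x k) * x k ^ 2 := mul_nonneg (cm_e_nonneg _ hlam.1.le _) (sq_nonneg _)
      have h2 := le_trans (le_abs_self _) hB
      rw [Real.norm_eq_abs, abs_of_nonneg h1] at h2
      rw [div_mul_eq_mul_div, one_mul, div_le_iff₀ hB0]
      linarith
    have hxC : C1' * x k ≤ 1 := by
      have h1 : x k ≤ 1 / C1' := (hxs.trans_le (min_le_right _ _)).le
      rw [le_div_iff₀ (by linarith)] at h1
      linarith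
    exact cm6s_s18_one (K := c.K) hc.cE_pos le_rfl hκ hκ2 hK1
      (fun I x' a1 a2 a3 a4 a5 a6 => h I x' a1 a2 (by rw [a6]; exact hm) a3 a4 (by rw [a6]; exact hnn) a5)
      hok hclk hmono.2 hlam.1 hlam.2 hfam hmin hx0 (hxs.trans_le (min_le_left _ _)).le hxC hxa hxe hu0' hreg (hRs 1 le_rfl le_rfl)
  have hlim : Tendsto (fun k => (1 + K1) * (D k).P.N ^ (-(s / 2))) U (𝓝 0) := by
    have h1 : Tendsto (fun k => (D k).P.N ^ (-(s / 2))) U (𝓝 0) := (tendsto_rpow_neg_atTop (by positivity : 0 < s / 2)).comp hseq.n_top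
    simpa using h1.const_mul (1 + K1)
  refine squeeze_zero' (Filter.Eventually.of_forall fun k => ?_) hbd hlim
  exact intervalIntegral.integral_nonneg (by linarith) fun _ _ => abs_nonneg _

/-- the import only sees the pressure and `S` on admissible paths (at masses in `(0,1)`, sizes `n > 0`) -/
theorem cm6s_s18_congr {fn fn' : ℕ → (ℝ → ℝ) → (ℝ → ℝ) → ℝ} {Sn Sn' : ℕ → (ℝ → ℝ) → (ℝ → ℝ) → ℝ → ℝ} {c : P6C}
    (hf : ∀ n b h, 0 < n → P6Adm b h → fn n b h = fn' n b h) (hS : ∀ n b h, 0 < n → P6Adm b h → ∀ v ∈ Ioo (0 : ℝ) 1, Sn n b h v = Sn' n b h v)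
    (h : P6ImpS18 fn Sn c) : P6ImpS18 fn' Sn' c := by
  intro U D lam x r c1 C1 C0 hc1 hC1 hC0 hseq hlam hfam hmin hx0 hxlim haO hnO hreg hR κ hκ hκ2
  have hmin' : ∀ᶠ k in U, (D k).IsMin fn (lam k) (r k) := by
    filter_upwards [hmin, hfam, hseq.ok] with k hmin hfam hok
    have hn : 0 < (D k).P.n := by have := hok.n3; omega
    have e : ∀ r', (D k).P.Fe r' → (D k).obj fn (lam k) r' = (D k).obj fn' (lam k) r' := fun r' hr' => by
      unfold P6D.obj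
      rw [hf _ _ _ hn (hfam r' hr')]
    refine ⟨hmin.1, fun r' hr' => ?_⟩
    rw [e _ hmin.1, e _ hr']
    exact hmin.2 r' hr'
  refine (h U D lam x r c1 C1 C0 hc1 hC1 hC0 hseq hlam hfam hmin' hx0 hxlim haO hnO hreg hR κ hκ hκ2).congr' ?_
  filter_upwards [hmin, hfam, hseq.ok] with k hmin hfam hok
  have hn : 0 < (D k).P.n := by have := hok.n3; omega
  refine intervalIntegral.integral_congr fun u hu => ?_
  rw [uIcc_of_le (by linarith)] at hu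
  show |Sn _ _ _ u - r k u| = |Sn' _ _ _ u - r k u|
  rw [hS _ _ _ hn (hfam _ hmin.1) u ⟨by linarith [hu.1], by linarith [hu.2]⟩]

end

end Claimed.Agent.R286
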