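import Claimed.Agent.R286.L08.SPB

/-!
# Row 286 (S0533), PE Section 3.4 (package P06), file Cmp/P6Mst : THE MASTER INEQUALITY ON A FINITE PATH      (architect + owner helper21; prefix `m6_`, defs `L8P.m*`)

TEX[PE:comp:bracket] l.912-975 (the MODEL side of Lemma 3.11; the deterministic side is `Cmp/P6Abs.lean`, `cm_br_abs`, helper294).
Everything is proved on the abstract single path `L8P` (L08/SP.lean, API L08/SPA + SPB), from `P.Ok` and the ONE analytic input `P.Pin 1 1` ((1) line 3, `p = 2`, `c_2 = 1`).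
EXITS = `m6_master'` (explicit wrong-side costs; the form for limits) and `m6_master` : the discrete twin of the field `CmNum.Ok.master` (Cmp/P6Defs.lean): cut `k`, weights `wp, wm` on the cuts (`∑ dv l * w l = 1`):
      `D2 k ≤ E tr C_k² + 8 q4 + 16 (mSide k wp + mSide k wm)`.
Other exits for `cmk_num_ok` (Cmp/Inst.lean, helper295): `m6_Q4_sqrt_le` (N4), `m6_q4_int` (Hoelder interpolation = field `q4_int`), `m6_D2_le`, `m6_D2_nonneg`.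
LEAVES: every `sorry` is ONE leaf: claim it in claim286 by its Lean name, replace ONLY your sorry, helpers just above (name = theorem + suffix), land directly.   helper21 proves `m6_mix`, `m6_T_sq`, `m6_Q4_sqrt_le'`, `m6_side_int`, `m6_VL_le` himself.
USER: helper295 / helper181 (step paths `skSP n a P` of L08/SPI + `ghLim`): node weights = cell averages of the weight functions.

PROOF (paper l.912-975; 290's note sec. 1).   `Z = L_k - S_k/2`, `A = ∑ dv l w l L_l`.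
 `L_l - L_k = T_kl + |X_l - X_k|²/2`, `T_kl = (y - X_l)·(X_l - X_k)`  (`m6_L_sub`, all `k, l`).   So for `l ≥ k`: `L_k - L_l ≤ |T_kl|`;  for `l < k`: `L_k - L_l = T_lk + |X_k - X_l|²/2`.
 `Z ≤ ∑ dv wp |T| + ½ ∑_{l<k} dv wp |X_k-X_l|² + |A⁺ - E A⁺| + |E A⁺ - S_k/2|`, and `-Z ≤` the same with `wm` and `l > k`  (`m6_up`, `m6_dn`).
 `E T_kl² ≤ (E tr C_l²)^{1/2} (E|X_l-X_k|⁴)^{1/2}` (`m6_T_sq`),   `(E|X_l-X_k|⁴)^{1/2} ≤ |S_l-S_k| + 3 (D_k + D_l)` (`m6_Q4_sqrt_le`),   `Var A ≤ ∑ dv w² E W` (`m6_pin_var`),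
 `D² ≤ 4 Var L + E tr C²` (`m6_D2_le`).
-/

set_option autoImplicit false

namespace Claimed.Agent.R286

open MeasureTheory ProbabilityTheory Finset
open scoped ENNReal

variable {Ω : Type} [mΩ : MeasurableSpace Ω] {m : ℕ}

namespace L8P

variable (P : L8P Ω m)

/-- `E |X_l - X_k|⁴` -/
noncomputable def mQ4 (k l : ℕ) : ℝ := ∫ ω, (∑ i, P.XX k l i ω ^ 2) ^ 2 ∂P.μ
/-- `E tr C_k²` -/
noncomputable def mTC (k : ℕ) : ℝ := ∫ ω, P.trC2 k ω ∂P.μ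
/-- `E W_k = E tr (H_k C_k)` -/
noncomputable def mTW (k : ℕ) : ℝ := ∫ ω, P.W k ω ∂P.μ
/-- `E X_kᵀ C_k X_k` -/
noncomputable def mXC (k : ℕ) : ℝ := ∫ ω, P.xCx k ω ∂P.μ
/-- `Var |X_k|²` -/
noncomputable def mVX (k : ℕ) : ℝ := ∫ ω, (P.nX k ω - P.S k) ^ 2 ∂P.μ
/-- `Var L_k` -/
noncomputable def mVL (k : ℕ) : ℝ := ∫ ω, (P.L k ω - P.S k / 2) ^ 2 ∂P.μ
/-- `T_kl = (y - X_l)·(X_l - X_k)` -/
noncomputable def mT (k l : ℕ) (ω : Ω) : ℝ := ∑ i, P.R l i ω * P.XX k l i ω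
/-- `‖X_k‖_{2q}` -/
noncomputable def mNX (q k : ℕ) : ℝ := (∫ ω, P.nX k ω ^ q ∂P.μ) ^ (1 / (2 * (q : ℝ)))

/-- the cost of one side average with the weights `w` at the cut `k` (discrete twin of `CmNum.side`) -/
noncomputable def mSide (k : ℕ) (w : ℕ → ℝ) : ℝ :=
  (∑ l ∈ range (P.n + 1), P.dv l * (w l * ((Real.sqrt (P.mTC k) + Real.sqrt (P.mTC l))
      * (|P.S l - P.S k| + 3 * (Real.sqrt (P.D2 k) + Real.sqrt (P.D2 l))))))
    + (∑ l ∈ range (P.n + 1), P.dv l * (w l ^ 2 * P.mTW l))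
    + (1 / 4) * (∑ l ∈ range (P.n + 1), P.dv l * (w l * (P.S l - P.S k))) ^ 2

/-! ## 0. tools -/

theorem m6_cs_sq (h : P.Ok) {f g : Ω → ℝ} (hf : L8Bd f) (hg : L8Bd g) :
    (∫ ω, f ω * g ω ∂P.μ) ^ 2 ≤ (∫ ω, f ω ^ 2 ∂P.μ) * ∫ ω, g ω ^ 2 ∂P.μ := by
  have := h.prob
  obtain ⟨ω⟩ : Nonempty Ω := nonempty_of_isProbabilityMeasure P.μ
  have := P.l8s_E_cs h 0 hf hg ω
  simpa only [P.l8s_E_root h] using this

/-- Cauchy-Schwarz under `μ` -/
theorem m6_cs (h : P.Ok) {f g : Ω → ℝ} (hf : L8Bd f) (hg : L8Bd g) :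
    ∫ ω, f ω * g ω ∂P.μ ≤ Real.sqrt (∫ ω, f ω ^ 2 ∂P.μ) * Real.sqrt (∫ ω, g ω ^ 2 ∂P.μ) := by
  have h1 := P.m6_cs_sq h hf hg
  have hA : 0 ≤ ∫ ω, f ω ^ 2 ∂P.μ := integral_nonneg fun ω => sq_nonneg _
  rw [← Real.sqrt_mul hA]
  exact Real.le_sqrt_of_sq_le h1

/-- Minkowski in `L²(μ)` -/
theorem m6_mink (h : P.Ok) {f g : Ω → ℝ} (hf : L8Bd f) (hg : L8Bd g) :
    Real.sqrt (∫ ω, (f ω + g ω) ^ 2 ∂P.μ) ≤ Real.sqrt (∫ ω, f ω ^ 2 ∂P.μ) + Real.sqrt (∫ ω, g ω ^ 2 ∂P.μ) := by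
  have := h.prob
  have hA : 0 ≤ ∫ ω, f ω ^ 2 ∂P.μ := integral_nonneg fun ω => sq_nonneg _
  have hB : 0 ≤ ∫ ω, g ω ^ 2 ∂P.μ := integral_nonneg fun ω => sq_nonneg _
  have hcs := P.m6_cs h hf hg
  have e : ∫ ω, (f ω + g ω) ^ 2 ∂P.μ = (∫ ω, f ω ^ 2 ∂P.μ) + 2 * (∫ ω, f ω * g ω ∂P.μ) + ∫ ω, g ω ^ 2 ∂P.μ := by
    have e1 : (fun ω => (f ω + g ω) ^ 2) = fun ω => (f ω ^ 2 + 2 * (f ω * g ω)) + g ω ^ 2 := by
      funext ω; ring
    rw [e1, integral_add (((hf.pow 2).add ((hf.mul hg).const_mul 2)).integrable P.μ) ((hg.pow 2).integrable P.μ),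
      integral_add ((hf.pow 2).integrable P.μ) (((hf.mul hg).const_mul 2).integrable P.μ), integral_const_mul]
  rw [e]
  refine Real.sqrt_le_iff.2 ⟨add_nonneg (Real.sqrt_nonneg _) (Real.sqrt_nonneg _), ?_⟩
  have s1 := Real.sq_sqrt hA
  have s2 := Real.sq_sqrt hB
  nlinarith

/-- Jensen for a finite weighted sum -/
theorem _root_.Claimed.Agent.R286.m6_jensen {ι : Type} (s : Finset ι) (a b : ι → ℝ) (ha : ∀ i ∈ s, 0 ≤ a i) :
    (∑ i ∈ s, a i * b i) ^ 2 ≤ (∑ i ∈ s, a i) * ∑ i ∈ s, a i * b i ^ 2 := by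
  refine Finset.sum_sq_le_sum_mul_sum_of_sq_le_mul s ha (fun i hi => mul_nonneg (ha i hi) (sq_nonneg _)) fun i _ => le_of_eq ?_
  ring

/-- Hilbert-Schmidt bound of a quadratic form -/
theorem _root_.Claimed.Agent.R286.m6_hs (C : Fin m → Fin m → ℝ) (u : Fin m → ℝ) :
    ∑ i, ∑ j, u i * C i j * u j ≤ Real.sqrt (∑ i, ∑ j, C i j ^ 2) * ∑ i, u i ^ 2 := by
  have h1 : (∑ p : Fin m × Fin m, C p.1 p.2 * (u p.1 * u p.2)) ^ 2
      ≤ (∑ p : Fin m × Fin m, C p.1 p.2 ^ 2) * ∑ p : Fin m × Fin m, (u p.1 * u p.2) ^ 2 :=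
    Finset.sum_mul_sq_le_sq_mul_sq _ _ _
  have e1 : ∑ p : Fin m × Fin m, C p.1 p.2 * (u p.1 * u p.2) = ∑ i, ∑ j, u i * C i j * u j := by
    rw [Fintype.sum_prod_type]
    exact Finset.sum_congr rfl fun i _ => Finset.sum_congr rfl fun j _ => by ring
  have e2 : ∑ p : Fin m × Fin m, C p.1 p.2 ^ 2 = ∑ i, ∑ j, C i j ^ 2 := Fintype.sum_prod_type _
  have e3 : ∑ p : Fin m × Fin m, (u p.1 * u p.2) ^ 2 = (∑ i, u i ^ 2) ^ 2 := by
    rw [Fintype.sum_prod_type, sq (∑ i, u i ^ 2), Finset.sum_mul_sum]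
    exact Finset.sum_congr rfl fun i _ => Finset.sum_congr rfl fun j _ => by ring
  rw [e1, e2, e3] at h1
  have hu : 0 ≤ ∑ i, u i ^ 2 := Finset.sum_nonneg fun i _ => sq_nonneg _
  have h2 := Real.le_sqrt_of_sq_le h1
  rwa [Real.sqrt_mul (Finset.sum_nonneg fun i _ => Finset.sum_nonneg fun j _ => sq_nonneg _), Real.sqrt_sq hu] at h2

theorem m6_dv_nonneg (h : P.Ok) (l : ℕ) : 0 ≤ P.dv l := by
  unfold L8P.dv
  split_ifs with h0
  · simpa using h.v_nonneg l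
  · exact sub_nonneg.2 (h.v_mono (Nat.sub_le l 1))

/-- freezing: a quadratic form in the residual with prefix-measurable coefficients -/
theorem m6_freeze (h : P.Ok) (l : ℕ) (u : Fin m → Ω → ℝ) (hu : ∀ i, Measurable[P.ℱ l] (u i)) (ω : Ω) :
    P.E l (fun ω' => (∑ i, P.R l i ω' * u i ω') ^ 2) ω = ∑ i, ∑ j, u i ω * P.C l i j ω * u j ω := by
  have h1 := l8k_E_freeze h hu (fun c ω' => (∑ i, P.R l i ω' * c i) ^ 2) ω
  rw [h1, P.l8s_C_quad h l (fun i => u i ω) ω]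
  refine P.l8s_E_congr l (fun ω' => ?_) ω
  congr 1
  exact Finset.sum_congr rfl fun i _ => mul_comm _ _

/-- the residual is conditionally centred, with prefix-measurable coefficients -/
theorem m6_centre (h : P.Ok) (l : ℕ) (u : Fin m → Ω → ℝ) (hu : ∀ i, Measurable[P.ℱ l] (u i)) (ω : Ω) :
    P.E l (fun ω' => ∑ i, P.R l i ω' * u i ω') ω = 0 := by
  have h1 := l8k_E_freeze h hu (fun c ω' => ∑ i, P.R l i ω' * c i) ω
  rw [h1, P.l8s_E_sum h l _ fun i _ => (P.l8sb_R_bd h l i).mul_const _]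
  refine Finset.sum_eq_zero fun i _ => ?_
  rw [P.l8s_E_mul_const]
  have e : P.E l (P.R l i) ω = 0 := by
    have e1 : P.R l i = fun ω' => P.y i ω' - P.X l i ω' := rfl
    rw [e1, P.l8s_E_sub h l (P.l8s_y_bd h i) (P.l8s_X_bd h l i), P.l8s_E_self h l (P.l8s_X_sm h l i).measurable]
    exact sub_self _
  rw [e, zero_mul]

theorem m6_XX_meas (h : P.Ok) {k l : ℕ} (hkl : k ≤ l) (i : Fin m) : Measurable[P.ℱ l] (P.XX k l i) := by
  exact (P.l8s_X_sm h l i).measurable.sub ((P.l8s_X_sm h k i).measurable.mono (P.ℱ.mono hkl) le_rfl)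

theorem m6_nX_bd (h : P.Ok) (k : ℕ) : L8Bd (P.nX k) := by
  exact P.l8s_W_bd_nX h k

theorem m6_trC2_bd (h : P.Ok) (k : ℕ) : L8Bd (P.trC2 k) := by
  exact L8Bd.sum _ fun i _ => L8Bd.sum _ fun j _ => (P.l8s_W_bd_C h k i j).pow 2

theorem m6_xCx_bd (h : P.Ok) (k : ℕ) : L8Bd (P.xCx k) := by
  exact L8Bd.sum _ fun i _ => L8Bd.sum _ fun j _ => ((P.l8s_X_bd h k i).mul (P.l8s_W_bd_C h k i j)).mul (P.l8s_X_bd h k j)

theorem m6_T_bd (h : P.Ok) (k l : ℕ) : L8Bd (P.mT k l) := by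
  exact L8Bd.sum _ fun i _ => (P.l8s_W_bd_R h l i).mul (P.l8s_W_bd_XX h k l i)

theorem m6_XX2_bd (h : P.Ok) (k l : ℕ) : L8Bd (fun ω => ∑ i, P.XX k l i ω ^ 2) := by
  exact L8Bd.sum _ fun i _ => (P.l8s_W_bd_XX h k l i).pow 2

/-! ## 1. one cut -/

theorem m6_TC_nonneg (k : ℕ) : 0 ≤ P.mTC k := by
  exact integral_nonneg fun ω => Finset.sum_nonneg fun i _ => Finset.sum_nonneg fun j _ => sq_nonneg _

theorem m6_XC_nonneg (h : P.Ok) (k : ℕ) : 0 ≤ P.mXC k := by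
  exact integral_nonneg fun ω => P.l8s_C_psd h k (fun i => P.X k i ω) ω

theorem m6_VX_nonneg (k : ℕ) : 0 ≤ P.mVX k := by
  exact integral_nonneg fun ω => sq_nonneg _

theorem m6_D2_eq (h : P.Ok) (k : ℕ) : P.D2 k = P.mVX k + 2 * P.mXC k + P.mTC k := P.l8s_D2_eq h k

theorem m6_D2_nonneg (h : P.Ok) (k : ℕ) : 0 ≤ P.D2 k := by
  rw [P.m6_D2_eq h k]
  have := P.m6_VX_nonneg k
  have := P.m6_XC_nonneg h k
  have := P.m6_TC_nonneg k
  linarith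

/-- `E ((y - X)·X + c (|X|² - S))² = E XᵀCX + c² Var|X|²`  (condition on the prefix: the cross term vanishes by `m6_centre`, the square is `m6_freeze`) -/
theorem m6_mix (h : P.Ok) (k : ℕ) (c : ℝ) :
    ∫ ω, ((∑ i, P.R k i ω * P.X k i ω) + c * (P.nX k ω - P.S k)) ^ 2 ∂P.μ = P.mXC k + c ^ 2 * P.mVX k := by
  have := h.prob
  have hXm : ∀ i, Measurable[P.ℱ k] (P.X k i) := fun i => (P.l8s_X_sm h k i).measurable
  have hA : L8Bd (fun ω => ∑ i, P.R k i ω * P.X k i ω) := L8Bd.sum _ fun i _ => (P.l8sb_R_bd h k i).mul (P.l8s_X_bd h k i)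
  have hB : L8Bd (fun ω => P.nX k ω - P.S k) := (P.m6_nX_bd h k).sub (l8Bd_const _)
  have hBm : Measurable[P.ℱ k] (fun ω => (2 * c) * (P.nX k ω - P.S k)) := by
    unfold L8P.nX
    exact ((Finset.measurable_fun_sum _ fun i _ => (hXm i).pow_const 2).sub_const _).const_mul _
  have e1 : ∀ ω, ((∑ i, P.R k i ω * P.X k i ω) + c * (P.nX k ω - P.S k)) ^ 2
      = ((∑ i, P.R k i ω * P.X k i ω) ^ 2 + ((2 * c) * (P.nX k ω - P.S k)) * (∑ i, P.R k i ω * P.X k i ω))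
        + c ^ 2 * (P.nX k ω - P.S k) ^ 2 := fun ω => by ring
  rw [integral_congr_ae (ae_of_all _ e1),
    integral_add (((hA.pow 2).add ((hB.const_mul _).mul hA)).integrable _) (((hB.pow 2).const_mul _).integrable _),
    integral_add ((hA.pow 2).integrable _) (((hB.const_mul _).mul hA).integrable _), integral_const_mul,
    ← P.l8s_integral_mul_E h k hBm (hB.const_mul _) hA, ← P.l8s_integral_E h k (hA.pow 2)]
  have e2 : ∀ ω, P.E k (fun ω' => (∑ i, P.R k i ω' * P.X k i ω') ^ 2) ω = P.xCx k ω := fun ω => P.m6_freeze h k _ hXm ω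
  have e3 : ∀ ω, (2 * c) * (P.nX k ω - P.S k) * P.E k (fun ω' => ∑ i, P.R k i ω' * P.X k i ω') ω = 0 := fun ω => by
    rw [P.m6_centre h k _ hXm ω, mul_zero]
  rw [integral_congr_ae (ae_of_all _ e2), integral_congr_ae (ae_of_all _ e3)]
  simp [mXC, mVX]

/-- `Var L = E XᵀCX + Var|X|²/4` -/
theorem m6_VL_eq (h : P.Ok) (k : ℕ) : P.mVL k = P.mXC k + P.mVX k / 4 := by
  have e := P.m6_mix h k (1 / 2)
  have e2 : P.mVL k = ∫ ω, ((∑ i, P.R k i ω * P.X k i ω) + (1 / 2) * (P.nX k ω - P.S k)) ^ 2 ∂P.μ := by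
    unfold mVL
    congr 1
    funext ω
    congr 1
    unfold L8P.L L8P.R L8P.nX
    simp only [sub_mul, Finset.sum_sub_distrib]
    have : ∑ i, P.X k i ω * P.X k i ω = ∑ i, P.X k i ω ^ 2 := Finset.sum_congr rfl fun i _ => by ring
    rw [this]
    ring
  rw [e2, e]
  ring

/-- `D² ≤ 4 Var L + E tr C²` -/
theorem m6_D2_le (h : P.Ok) (k : ℕ) : P.D2 k ≤ 4 * P.mVL k + P.mTC k := by
  rw [P.m6_D2_eq h k, P.m6_VL_eq h k]
  have := P.m6_XC_nonneg h k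
  linarith

theorem m6_VX_le (h : P.Ok) (k : ℕ) : P.mVX k ≤ P.D2 k := by
  rw [P.m6_D2_eq h k]
  have := P.m6_XC_nonneg h k
  have := P.m6_TC_nonneg k
  linarith

/-- `Var (y·X_k) ≤ D_k²` -/
theorem m6_var_yX (h : P.Ok) (k : ℕ) : ∫ ω, ((∑ i, P.y i ω * P.X k i ω) - P.S k) ^ 2 ∂P.μ ≤ P.D2 k := by
  have e := P.m6_mix h k 1
  have e2 : ∫ ω, ((∑ i, P.y i ω * P.X k i ω) - P.S k) ^ 2 ∂P.μ
      = ∫ ω, ((∑ i, P.R k i ω * P.X k i ω) + 1 * (P.nX k ω - P.S k)) ^ 2 ∂P.μ := by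
    congr 1
    funext ω
    congr 1
    unfold L8P.R L8P.nX
    simp only [sub_mul, Finset.sum_sub_distrib]
    have : ∑ i, P.X k i ω * P.X k i ω = ∑ i, P.X k i ω ^ 2 := Finset.sum_congr rfl fun i _ => by ring
    rw [this]
    ring
  rw [e2, e, P.m6_D2_eq h k]
  have := P.m6_XC_nonneg h k
  have := P.m6_TC_nonneg k
  linarith

/-! ## 2. two cuts -/

theorem m6_Q4_symm (k l : ℕ) : P.mQ4 k l = P.mQ4 l k := by
  unfold mQ4
  congr 1
  funext ω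
  congr 1
  refine Finset.sum_congr rfl fun i _ => ?_
  unfold L8P.XX
  ring

theorem m6_Q4_nonneg (k l : ℕ) : 0 ≤ P.mQ4 k l := by
  exact integral_nonneg fun ω => sq_nonneg _

/-- the identity of l.914 -/
theorem m6_L_sub (k l : ℕ) (ω : Ω) : P.L l ω - P.L k ω = P.mT k l ω + (∑ i, P.XX k l i ω ^ 2) / 2 := by
  unfold L8P.L mT L8P.nX L8P.R L8P.XX
  rw [Finset.sum_div, Finset.sum_div, Finset.sum_div, ← Finset.sum_sub_distrib, ← Finset.sum_sub_distrib, ← Finset.sum_sub_distrib,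
    ← Finset.sum_add_distrib]
  exact Finset.sum_congr rfl fun i _ => by ring

theorem _root_.Claimed.Agent.R286.m6_T_sq_sqrt {f : Ω → ℝ} (hf : L8Bd f) : L8Bd (fun ω => Real.sqrt (f ω)) := by
  obtain ⟨hm, C, hC⟩ := hf
  refine ⟨hm.sqrt, Real.sqrt C, fun x => ?_⟩
  rw [abs_of_nonneg (Real.sqrt_nonneg _)]
  exact Real.sqrt_le_sqrt ((le_abs_self _).trans (hC x))

/-- `E T_kl² ≤ (E tr C_l²)^{1/2} (E|X_l - X_k|⁴)^{1/2}`   (`l8s_integral_E`, `m6_freeze`, `m6_hs`, `m6_cs`) -/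
theorem m6_T_sq (h : P.Ok) {k l : ℕ} (hkl : k ≤ l) :
    ∫ ω, P.mT k l ω ^ 2 ∂P.μ ≤ Real.sqrt (P.mTC l) * Real.sqrt (P.mQ4 k l) := by
  have := h.prob
  have hu : ∀ i, Measurable[P.ℱ l] (P.XX k l i) := fun i => P.m6_XX_meas h hkl i
  have hC := P.m6_trC2_bd h l
  have hC0 : ∀ ω, 0 ≤ P.trC2 l ω := fun ω => Finset.sum_nonneg fun i _ => Finset.sum_nonneg fun j _ => sq_nonneg _
  have hN := P.m6_XX2_bd h k l
  have hs := m6_T_sq_sqrt hC
  rw [← P.l8s_integral_E h l ((P.m6_T_bd h k l).pow 2)]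
  have e1 : ∀ ω, P.E l (fun ω' => P.mT k l ω' ^ 2) ω = ∑ i, ∑ j, P.XX k l i ω * P.C l i j ω * P.XX k l j ω :=
    fun ω => P.m6_freeze h l _ hu ω
  have hq : L8Bd (fun ω => ∑ i, ∑ j, P.XX k l i ω * P.C l i j ω * P.XX k l j ω) :=
    L8Bd.sum _ fun i _ => L8Bd.sum _ fun j _ => ((P.l8sb_XX_bd h k l i).mul (P.l8s_W_bd_C h l i j)).mul (P.l8sb_XX_bd h k l j)
  rw [integral_congr_ae (ae_of_all _ e1)]
  have h1 : ∫ ω, ∑ i, ∑ j, P.XX k l i ω * P.C l i j ω * P.XX k l j ω ∂P.μ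
      ≤ ∫ ω, Real.sqrt (P.trC2 l ω) * ∑ i, P.XX k l i ω ^ 2 ∂P.μ :=
    integral_mono (hq.integrable _) ((hs.mul hN).integrable _) fun ω => m6_hs (fun i j => P.C l i j ω) (fun i => P.XX k l i ω)
  refine h1.trans ((P.m6_cs h hs hN).trans (le_of_eq ?_))
  have e2 : ∀ ω, Real.sqrt (P.trC2 l ω) ^ 2 = P.trC2 l ω := fun ω => Real.sq_sqrt (hC0 ω)
  rw [integral_congr_ae (ae_of_all _ e2)]
  rfl

/-- `Var (X_k·X_l) ≤ Var (X_k·y) ≤ D_k²` for `k ≤ l`   (`X_k·X_l - S_k = E_l (X_k·y - S_k)`, `l8s_integral_E_pow_le`) -/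
theorem m6_var_XX (h : P.Ok) {k l : ℕ} (hkl : k ≤ l) :
    ∫ ω, ((∑ i, P.X k i ω * P.X l i ω) - P.S k) ^ 2 ∂P.μ ≤ P.D2 k := by
  have hb : L8Bd (fun ω => (∑ i, P.y i ω * P.X k i ω) - P.S k) :=
    (L8Bd.sum _ fun i _ => (P.l8s_y_bd h i).mul (P.l8s_X_bd h k i)).sub (l8Bd_const _)
  have e : ∀ ω, P.E l (fun ω' => (∑ i, P.y i ω' * P.X k i ω') - P.S k) ω = (∑ i, P.X k i ω * P.X l i ω) - P.S k := by
    intro ω
    rw [P.l8s_E_sub h l (L8Bd.sum _ fun i _ => (P.l8s_y_bd h i).mul (P.l8s_X_bd h k i)) (l8Bd_const _), P.l8s_E_const h,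
      P.l8s_E_sum h l _ fun i _ => (P.l8s_y_bd h i).mul (P.l8s_X_bd h k i)]
    congr 1
    refine Finset.sum_congr rfl fun i _ => ?_
    rw [P.l8sb_E_pull_right h l ((P.l8s_X_sm h k i).measurable.mono (P.ℱ.mono hkl) le_rfl)]
    unfold L8P.X
    ring
  have h1 := P.l8s_integral_E_pow_le h l hb 2
  simp only [sq_abs, e] at h1
  exact h1.trans (P.m6_var_yX h k)

/-- (N4), ordered form:  `|X_l-X_k|² = (|X_l|²-S_l) - 2 (X_k·X_l - S_k) + (|X_k|²-S_k) + (S_l-S_k)`, Minkowski -/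
theorem m6_Q4_sqrt_le' (h : P.Ok) {k l : ℕ} (hkl : k ≤ l) :
    Real.sqrt (P.mQ4 k l) ≤ |P.S l - P.S k| + 3 * (Real.sqrt (P.D2 k) + Real.sqrt (P.D2 l)) := by
  have := h.prob
  have ha : L8Bd (fun ω => P.nX l ω - P.S l) := (P.m6_nX_bd h l).sub (l8Bd_const _)
  have hb0 : L8Bd (fun ω => (∑ i, P.X k i ω * P.X l i ω) - P.S k) :=
    (L8Bd.sum _ fun i _ => (P.l8s_X_bd h k i).mul (P.l8s_X_bd h l i)).sub (l8Bd_const _)
  have hb : L8Bd (fun ω => (-2) * ((∑ i, P.X k i ω * P.X l i ω) - P.S k)) := hb0.const_mul _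
  have hc : L8Bd (fun ω => P.nX k ω - P.S k) := (P.m6_nX_bd h k).sub (l8Bd_const _)
  have hd : L8Bd (fun _ : Ω => P.S l - P.S k) := l8Bd_const _
  have e : ∀ ω, (∑ i, P.XX k l i ω ^ 2) ^ 2
      = ((((P.nX l ω - P.S l) + (-2) * ((∑ i, P.X k i ω * P.X l i ω) - P.S k)) + (P.nX k ω - P.S k)) + (P.S l - P.S k)) ^ 2 := by
    intro ω
    congr 1
    have e1 : ∑ i, P.XX k l i ω ^ 2 = P.nX l ω + (-2) * (∑ i, P.X k i ω * P.X l i ω) + P.nX k ω := by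
      unfold L8P.XX L8P.nX
      rw [Finset.mul_sum, ← Finset.sum_add_distrib, ← Finset.sum_add_distrib]
      exact Finset.sum_congr rfl fun i _ => by ring
    rw [e1]
    ring
  unfold mQ4
  rw [integral_congr_ae (ae_of_all _ e)]
  have m1 := P.m6_mink h ((ha.add hb).add hc) hd
  have m2 := P.m6_mink h (ha.add hb) hc
  have m3 := P.m6_mink h ha hb
  have b1 : Real.sqrt (∫ ω, (P.nX l ω - P.S l) ^ 2 ∂P.μ) ≤ Real.sqrt (P.D2 l) := Real.sqrt_le_sqrt (P.m6_VX_le h l)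
  have b3 : Real.sqrt (∫ ω, (P.nX k ω - P.S k) ^ 2 ∂P.μ) ≤ Real.sqrt (P.D2 k) := Real.sqrt_le_sqrt (P.m6_VX_le h k)
  have b2 : Real.sqrt (∫ ω, ((-2) * ((∑ i, P.X k i ω * P.X l i ω) - P.S k)) ^ 2 ∂P.μ) ≤ 2 * Real.sqrt (P.D2 k) := by
    have e2 : ∀ ω, ((-2) * ((∑ i, P.X k i ω * P.X l i ω) - P.S k)) ^ 2 = 2 ^ 2 * ((∑ i, P.X k i ω * P.X l i ω) - P.S k) ^ 2 :=
      fun ω => by ring
    rw [integral_congr_ae (ae_of_all _ e2), integral_const_mul, Real.sqrt_mul (by norm_num), Real.sqrt_sq (by norm_num)]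
    exact mul_le_mul_of_nonneg_left (Real.sqrt_le_sqrt (P.m6_var_XX h hkl)) (by norm_num)
  have b4 : Real.sqrt (∫ _ω, (P.S l - P.S k) ^ 2 ∂P.μ) = |P.S l - P.S k| := by
    simp [Real.sqrt_sq_eq_abs]
  have := Real.sqrt_nonneg (P.D2 l)
  linarith

/-- **(N4)** -/
theorem m6_Q4_sqrt_le (h : P.Ok) (k l : ℕ) :
    Real.sqrt (P.mQ4 k l) ≤ |P.S l - P.S k| + 3 * (Real.sqrt (P.D2 k) + Real.sqrt (P.D2 l)) := by
  rcases le_total k l with hkl | hlk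
  · exact P.m6_Q4_sqrt_le' h hkl
  · have := P.m6_Q4_sqrt_le' h hlk
    rw [P.m6_Q4_symm k l, abs_sub_comm]
    linarith

theorem m6_q4_int_sqrt {f : Ω → ℝ} (hf : L8Bd f) : L8Bd (fun ω => Real.sqrt (f ω)) := by
  obtain ⟨hm, C, hC⟩ := hf
  refine ⟨hm.sqrt, Real.sqrt C, fun ω => ?_⟩
  rw [abs_of_nonneg (Real.sqrt_nonneg _)]
  exact Real.sqrt_le_sqrt ((le_abs_self _).trans (hC ω))

/-- Minkowski in `L^r(μ)` for nonnegative bounded functions -/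
theorem m6_q4_int_mink (h : P.Ok) {f g : Ω → ℝ} (hf : L8Bd f) (hg : L8Bd g) (hf0 : ∀ ω, 0 ≤ f ω) (hg0 : ∀ ω, 0 ≤ g ω)
    {r : ℝ} (hr : 1 ≤ r) :
    (∫ ω, (f ω + g ω) ^ r ∂P.μ) ^ (1 / r) ≤ (∫ ω, f ω ^ r ∂P.μ) ^ (1 / r) + (∫ ω, g ω ^ r ∂P.μ) ^ (1 / r) := by
  have := h.prob
  have hr0 : 0 < r := by linarith
  have hp0 : ENNReal.ofReal r ≠ 0 := ENNReal.ofReal_ne_zero_iff.2 hr0
  have hpt : ENNReal.ofReal r ≠ ⊤ := ENNReal.ofReal_ne_top
  have hp1 : 1 ≤ ENNReal.ofReal r := ENNReal.one_le_ofReal.2 hr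
  have hfL := l8k_bd_memLp hf P.μ (ENNReal.ofReal r)
  have hgL := l8k_bd_memLp hg P.μ (ENNReal.ofReal r)
  have hadd := eLpNorm_add_le hfL.1 hgL.1 hp1
  have n1 : 0 ≤ (∫ ω, ‖f ω‖ ^ r ∂P.μ) ^ r⁻¹ := Real.rpow_nonneg (integral_nonneg fun ω => Real.rpow_nonneg (norm_nonneg _) _) _
  have n2 : 0 ≤ (∫ ω, ‖g ω‖ ^ r ∂P.μ) ^ r⁻¹ := Real.rpow_nonneg (integral_nonneg fun ω => Real.rpow_nonneg (norm_nonneg _) _) _
  rw [(hfL.add hgL).eLpNorm_eq_integral_rpow_norm hp0 hpt, hfL.eLpNorm_eq_integral_rpow_norm hp0 hpt,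
    hgL.eLpNorm_eq_integral_rpow_norm hp0 hpt, ENNReal.toReal_ofReal hr0.le, ← ENNReal.ofReal_add n1 n2,
    ENNReal.ofReal_le_ofReal_iff (add_nonneg n1 n2)] at hadd
  have e1 : ∀ ω, ‖(f + g) ω‖ = f ω + g ω := fun ω => by
    rw [Pi.add_apply, Real.norm_eq_abs, abs_of_nonneg (add_nonneg (hf0 ω) (hg0 ω))]
  have e2 : ∀ ω, ‖f ω‖ = f ω := fun ω => by rw [Real.norm_eq_abs, abs_of_nonneg (hf0 ω)]
  have e3 : ∀ ω, ‖g ω‖ = g ω := fun ω => by rw [Real.norm_eq_abs, abs_of_nonneg (hg0 ω)]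
  simp only [e1, e2, e3] at hadd
  rw [one_div]
  exact hadd

/-- Hoelder interpolation between `L¹` and `L^q` -/
theorem m6_q4_int_holder (h : P.Ok) {N : Ω → ℝ} (hN : L8Bd N) (hN0 : ∀ ω, 0 ≤ N ω) (q : ℕ) (hq : 3 ≤ q) :
    ∫ ω, N ω ^ 2 ∂P.μ ≤ (∫ ω, N ω ∂P.μ) ^ (1 - 1 / ((q : ℝ) - 1)) * (∫ ω, N ω ^ q ∂P.μ) ^ (1 / ((q : ℝ) - 1)) := by
  have := h.prob
  have hq1 : (3 : ℝ) ≤ q := by exact_mod_cast hq
  obtain ⟨s, hs⟩ : ∃ s : ℝ, s = (q : ℝ) - 1 := ⟨_, rfl⟩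
  have hs2 : 2 ≤ s := by rw [hs]; linarith
  have hs0 : 0 < s := by linarith
  obtain ⟨α, hα⟩ : ∃ α : ℝ, α = 1 - 1 / s := ⟨_, rfl⟩
  have h1s : 1 / s ≤ 1 / 2 := one_div_le_one_div_of_le (by norm_num) hs2
  have h1s0 : 0 < 1 / s := by positivity
  have hα0 : 0 < α := by rw [hα]; linarith
  have hα1 : α < 1 := by rw [hα]; linarith
  have hpq : (α⁻¹).HolderConjugate s := by
    rw [Real.holderConjugate_iff]
    refine ⟨(one_lt_inv₀ hα0).2 hα1, ?_⟩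
    rw [inv_inv, hα, one_div]
    ring
  have habs : ∀ ω, |N ω| = N ω := fun ω => abs_of_nonneg (hN0 ω)
  have hfb : L8Bd (fun ω => N ω ^ α) := by
    have := l8k_bd_rpow hN hα0.le
    simpa only [habs] using this
  have hgb : L8Bd (fun ω => N ω ^ (1 + 1 / s)) := by
    have := l8k_bd_rpow hN (p := 1 + 1 / s) (by positivity)
    simpa only [habs] using this
  have key := integral_mul_le_Lp_mul_Lq_of_nonneg hpq (μ := P.μ) (f := fun ω => N ω ^ α) (g := fun ω => N ω ^ (1 + 1 / s))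
    (Filter.Eventually.of_forall fun ω => Real.rpow_nonneg (hN0 ω) _)
    (Filter.Eventually.of_forall fun ω => Real.rpow_nonneg (hN0 ω) _)
    (l8k_bd_memLp hfb P.μ _) (l8k_bd_memLp hgb P.μ _)
  have e1 : ∀ ω, N ω ^ α * N ω ^ (1 + 1 / s) = N ω ^ 2 := fun ω => by
    rw [← Real.rpow_add_of_nonneg (hN0 ω) hα0.le (by positivity), hα, ← Real.rpow_natCast]
    congr 1
    push_cast
    ring
  have e2 : ∀ ω, (N ω ^ α) ^ α⁻¹ = N ω := fun ω => by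
    rw [← Real.rpow_mul (hN0 ω), mul_inv_cancel₀ hα0.ne', Real.rpow_one]
  have e3 : ∀ ω, (N ω ^ (1 + 1 / s)) ^ s = N ω ^ q := fun ω => by
    rw [← Real.rpow_mul (hN0 ω), ← Real.rpow_natCast]
    congr 1
    rw [hs]
    have : (q : ℝ) - 1 ≠ 0 := by linarith
    field_simp
    ring
  simp only [e1, e2, e3] at key
  rw [one_div α⁻¹, inv_inv, hα, hs] at key
  exact key

/-- triangle inequality for the Euclidean norm, in coordinates -/
theorem _root_.Claimed.Agent.R286.m6_q4_int_tri (a b : Fin m → ℝ) :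
    Real.sqrt (∑ i, (a i - b i) ^ 2) ≤ Real.sqrt (∑ i, a i ^ 2) + Real.sqrt (∑ i, b i ^ 2) := by
  have := norm_sub_le (WithLp.toLp 2 a : EuclideanSpace ℝ (Fin m)) (WithLp.toLp 2 b)
  simpa [EuclideanSpace.norm_eq, Real.norm_eq_abs, sq_abs] using this

/-- `‖X_l - X_k‖_{2q} ≤ ‖X_k‖_{2q} + ‖X_l‖_{2q}` -/
theorem m6_q4_int_norm (h : P.Ok) (q : ℕ) (hq : 1 ≤ q) (k l : ℕ) :
    (∫ ω, (∑ i, P.XX k l i ω ^ 2) ^ q ∂P.μ) ^ (1 / (2 * (q : ℝ))) ≤ P.mNX q k + P.mNX q l := by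
  have := h.prob
  have hq1 : (1 : ℝ) ≤ q := by exact_mod_cast hq
  have hr : (1 : ℝ) ≤ 2 * (q : ℝ) := by linarith
  have hpow : ∀ x : ℝ, 0 ≤ x → Real.sqrt x ^ (2 * (q : ℝ)) = x ^ q := fun x hx => by
    have : (2 * (q : ℝ)) = ((2 * q : ℕ) : ℝ) := by push_cast; ring
    rw [this, Real.rpow_natCast, pow_mul, Real.sq_sqrt hx]
  have hnX0 : ∀ k ω, 0 ≤ P.nX k ω := fun k ω => Finset.sum_nonneg fun _ _ => sq_nonneg _
  have hN0 : ∀ ω, 0 ≤ ∑ i, P.XX k l i ω ^ 2 := fun ω => Finset.sum_nonneg fun _ _ => sq_nonneg _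
  have ha := m6_q4_int_sqrt (P.m6_nX_bd h l)
  have hb := m6_q4_int_sqrt (P.m6_nX_bd h k)
  have hmk := P.m6_q4_int_mink h ha hb (fun ω => Real.sqrt_nonneg _) (fun ω => Real.sqrt_nonneg _) hr
  have e1 : ∀ k, (∫ ω, Real.sqrt (P.nX k ω) ^ (2 * (q : ℝ)) ∂P.μ) ^ (1 / (2 * (q : ℝ))) = P.mNX q k := fun k => by
    unfold mNX
    congr 2
    funext ω
    exact hpow _ (hnX0 k ω)
  rw [e1, e1] at hmk
  have hle : ∫ ω, (∑ i, P.XX k l i ω ^ 2) ^ q ∂P.μ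
      ≤ ∫ ω, (Real.sqrt (P.nX l ω) + Real.sqrt (P.nX k ω)) ^ (2 * (q : ℝ)) ∂P.μ := by
    have hbd : L8Bd (fun ω => (Real.sqrt (P.nX l ω) + Real.sqrt (P.nX k ω)) ^ (2 * (q : ℝ))) := by
      have := l8k_bd_rpow (ha.add hb) (p := 2 * (q : ℝ)) (by linarith)
      have e : ∀ ω, |Real.sqrt (P.nX l ω) + Real.sqrt (P.nX k ω)| = Real.sqrt (P.nX l ω) + Real.sqrt (P.nX k ω) :=
        fun ω => abs_of_nonneg (add_nonneg (Real.sqrt_nonneg _) (Real.sqrt_nonneg _))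
      simpa only [e] using this
    refine integral_mono (((P.m6_XX2_bd h k l).pow q).integrable P.μ) (hbd.integrable P.μ) fun ω => ?_
    show (∑ i, P.XX k l i ω ^ 2) ^ q ≤ (Real.sqrt (P.nX l ω) + Real.sqrt (P.nX k ω)) ^ (2 * (q : ℝ))
    rw [← hpow _ (hN0 ω)]
    refine Real.rpow_le_rpow (Real.sqrt_nonneg _) ?_ (by linarith)
    exact m6_q4_int_tri (fun i => P.X l i ω) (fun i => P.X k i ω)
  have h0 : 0 ≤ ∫ ω, (∑ i, P.XX k l i ω ^ 2) ^ q ∂P.μ := integral_nonneg fun ω => pow_nonneg (hN0 ω) q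
  have := Real.rpow_le_rpow h0 hle (z := 1 / (2 * (q : ℝ))) (by positivity)
  linarith

/-- `E |X_l - X_k|² = |S_l - S_k|` -/
theorem m6_q4_int_one (h : P.Ok) (k l : ℕ) : ∫ ω, ∑ i, P.XX k l i ω ^ 2 ∂P.μ = |P.S l - P.S k| := by
  rcases le_total k l with hkl | hlk
  · rw [← P.l8s_S_sub h hkl, abs_of_nonneg (sub_nonneg.2 (P.l8s_S_mono h hkl))]
  · have e : ∀ ω, ∑ i, P.XX k l i ω ^ 2 = ∑ i, P.XX l k i ω ^ 2 := fun ω =>
      Finset.sum_congr rfl fun i _ => by unfold L8P.XX; ring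
    simp only [e]
    rw [← P.l8s_S_sub h hlk, abs_sub_comm, abs_of_nonneg (sub_nonneg.2 (P.l8s_S_mono h hlk))]

/-- **Hoelder interpolation** (twin of the field `q4_int`):  `E|V|⁴ ≤ (E|V|²)^{(q-2)/(q-1)} (E|V|^{2q})^{1/(q-1)}`, `E|V|² = |S_l - S_k|` (`l8s_S_sub`), `‖V‖_{2q} ≤ ‖X_k‖_{2q} + ‖X_l‖_{2q}` -/
theorem m6_q4_int (h : P.Ok) (q : ℕ) (hq : 3 ≤ q) (k l : ℕ) :
    P.mQ4 k l ≤ |P.S l - P.S k| ^ (1 - 1 / ((q : ℝ) - 1)) * (P.mNX q k + P.mNX q l) ^ (2 * (q : ℝ) / ((q : ℝ) - 1)) := by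
  have hq1 : (3 : ℝ) ≤ q := by exact_mod_cast hq
  have hN0 : ∀ ω, 0 ≤ ∑ i, P.XX k l i ω ^ 2 := fun ω => Finset.sum_nonneg fun _ _ => sq_nonneg _
  have h1 := P.m6_q4_int_holder h (P.m6_XX2_bd h k l) hN0 q hq
  rw [P.m6_q4_int_one h k l] at h1
  refine h1.trans (mul_le_mul_of_nonneg_left ?_ (Real.rpow_nonneg (abs_nonneg _) _))
  have h2 := P.m6_q4_int_norm h q (by omega) k l
  have h0 : 0 ≤ ∫ ω, (∑ i, P.XX k l i ω ^ 2) ^ q ∂P.μ := integral_nonneg fun ω => pow_nonneg (hN0 ω) q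
  have h3 := Real.rpow_le_rpow (Real.rpow_nonneg h0 _) h2 (z := 2 * (q : ℝ) / ((q : ℝ) - 1))
    (div_nonneg (by linarith) (by linarith))
  rw [← Real.rpow_mul h0] at h3
  have e : 1 / (2 * (q : ℝ)) * (2 * (q : ℝ) / ((q : ℝ) - 1)) = 1 / ((q : ℝ) - 1) := by
    have : (q : ℝ) ≠ 0 := by linarith
    have : (q : ℝ) - 1 ≠ 0 := by linarith
    field_simp
  rwa [e] at h3

/-! ## 3. the master inequality -/

/-- the residual term between the cuts `k` and `l`, in the physical order -/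
noncomputable def mTo (k l : ℕ) (ω : Ω) : ℝ := P.mT (min k l) (max k l) ω

theorem m6_To_sq (h : P.Ok) (k l : ℕ) :
    ∫ ω, P.mTo k l ω ^ 2 ∂P.μ ≤ (Real.sqrt (P.mTC k) + Real.sqrt (P.mTC l))
      * (|P.S l - P.S k| + 3 * (Real.sqrt (P.D2 k) + Real.sqrt (P.D2 l))) := by
  have hTk := Real.sqrt_nonneg (P.mTC k)
  have hTl := Real.sqrt_nonneg (P.mTC l)
  have hQ := P.m6_Q4_sqrt_le h k l
  have hQ0 := Real.sqrt_nonneg (P.mQ4 k l)
  unfold mTo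
  rcases le_total k l with hkl | hlk
  · rw [min_eq_left hkl, max_eq_right hkl]
    refine (P.m6_T_sq h hkl).trans ?_
    exact mul_le_mul (by linarith) hQ hQ0 (by linarith)
  · rw [min_eq_right hlk, max_eq_left hlk]
    refine (P.m6_T_sq h hlk).trans ?_
    rw [P.m6_Q4_symm l k]
    exact mul_le_mul (by linarith) hQ hQ0 (by linarith)

theorem m6_XX2_symm (k l : ℕ) (ω : Ω) : ∑ i, P.XX k l i ω ^ 2 = ∑ i, P.XX l k i ω ^ 2 := by
  refine Finset.sum_congr rfl fun i _ => ?_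
  unfold L8P.XX
  ring

theorem m6_XX2_nonneg (k l : ℕ) (ω : Ω) : 0 ≤ ∑ i, P.XX k l i ω ^ 2 := Finset.sum_nonneg fun _ _ => sq_nonneg _

/-- upper deviation, pointwise -/
theorem m6_up (h : P.Ok) (k : ℕ) (w : ℕ → ℝ) (hw0 : ∀ l, 0 ≤ w l) (hw1 : ∑ l ∈ range (P.n + 1), P.dv l * w l = 1) (ω : Ω) :
    P.L k ω - ∑ l ∈ range (P.n + 1), P.dv l * w l * P.L l ω
      ≤ (∑ l ∈ range (P.n + 1), P.dv l * w l * |P.mTo k l ω|)
        + (1 / 2) * ∑ l ∈ range (P.n + 1), P.dv l * w l * (if l < k then ∑ i, P.XX k l i ω ^ 2 else 0) := by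
  have e : P.L k ω = ∑ l ∈ range (P.n + 1), P.dv l * w l * P.L k ω := by
    rw [← Finset.sum_mul, hw1, one_mul]
  rw [e, ← Finset.sum_sub_distrib, Finset.mul_sum, ← Finset.sum_add_distrib]
  refine Finset.sum_le_sum fun l _ => ?_
  have ha : 0 ≤ P.dv l * w l := mul_nonneg (P.m6_dv_nonneg h l) (hw0 l)
  have key : P.L k ω - P.L l ω ≤ |P.mTo k l ω| + (1 / 2) * (if l < k then ∑ i, P.XX k l i ω ^ 2 else 0) := by
    unfold mTo
    by_cases hlk : l < k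
    · rw [if_pos hlk, min_eq_right hlk.le, max_eq_left hlk.le, P.m6_L_sub l k ω, P.m6_XX2_symm k l ω]
      have := le_abs_self (P.mT l k ω)
      linarith
    · rw [if_neg hlk, min_eq_left (not_lt.1 hlk), max_eq_right (not_lt.1 hlk)]
      have h1 := P.m6_L_sub k l ω
      have h2 := P.m6_XX2_nonneg k l ω
      have := neg_abs_le (P.mT k l ω)
      linarith
  calc P.dv l * w l * P.L k ω - P.dv l * w l * P.L l ω = P.dv l * w l * (P.L k ω - P.L l ω) := by ring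
    _ ≤ P.dv l * w l * (|P.mTo k l ω| + (1 / 2) * (if l < k then ∑ i, P.XX k l i ω ^ 2 else 0)) :=
        mul_le_mul_of_nonneg_left key ha
    _ = _ := by ring

/-- lower deviation, pointwise -/
theorem m6_dn (h : P.Ok) (k : ℕ) (w : ℕ → ℝ) (hw0 : ∀ l, 0 ≤ w l) (hw1 : ∑ l ∈ range (P.n + 1), P.dv l * w l = 1) (ω : Ω) :
    (∑ l ∈ range (P.n + 1), P.dv l * w l * P.L l ω) - P.L k ω
      ≤ (∑ l ∈ range (P.n + 1), P.dv l * w l * |P.mTo k l ω|)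
        + (1 / 2) * ∑ l ∈ range (P.n + 1), P.dv l * w l * (if k < l then ∑ i, P.XX k l i ω ^ 2 else 0) := by
  have e : P.L k ω = ∑ l ∈ range (P.n + 1), P.dv l * w l * P.L k ω := by
    rw [← Finset.sum_mul, hw1, one_mul]
  rw [e, ← Finset.sum_sub_distrib, Finset.mul_sum, ← Finset.sum_add_distrib]
  refine Finset.sum_le_sum fun l _ => ?_
  have ha : 0 ≤ P.dv l * w l := mul_nonneg (P.m6_dv_nonneg h l) (hw0 l)
  have key : P.L l ω - P.L k ω ≤ |P.mTo k l ω| + (1 / 2) * (if k < l then ∑ i, P.XX k l i ω ^ 2 else 0) := by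
    unfold mTo
    by_cases hkl : k < l
    · rw [if_pos hkl, min_eq_left hkl.le, max_eq_right hkl.le, P.m6_L_sub k l ω]
      have := le_abs_self (P.mT k l ω)
      linarith
    · rw [if_neg hkl, min_eq_right (not_lt.1 hkl), max_eq_left (not_lt.1 hkl)]
      have h1 := P.m6_L_sub l k ω
      have h2 := P.m6_XX2_nonneg l k ω
      have := neg_abs_le (P.mT l k ω)
      linarith
  calc P.dv l * w l * P.L l ω - P.dv l * w l * P.L k ω = P.dv l * w l * (P.L l ω - P.L k ω) := by ring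
    _ ≤ P.dv l * w l * (|P.mTo k l ω| + (1 / 2) * (if k < l then ∑ i, P.XX k l i ω ^ 2 else 0)) :=
        mul_le_mul_of_nonneg_left key ha
    _ = _ := by ring

/-- Jensen + integration: second moment of a weighted average -/
theorem m6_avg_sq (h : P.Ok) (w : ℕ → ℝ) (hw0 : ∀ l, 0 ≤ w l) (hw1 : ∑ l ∈ range (P.n + 1), P.dv l * w l = 1)
    (b : ℕ → Ω → ℝ) (hb : ∀ l, L8Bd (b l)) :
    ∫ ω, (∑ l ∈ range (P.n + 1), P.dv l * w l * b l ω) ^ 2 ∂P.μ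
      ≤ ∑ l ∈ range (P.n + 1), P.dv l * (w l * ∫ ω, b l ω ^ 2 ∂P.μ) := by
  have := h.prob
  have h1 : ∀ ω, (∑ l ∈ range (P.n + 1), P.dv l * w l * b l ω) ^ 2 ≤ ∑ l ∈ range (P.n + 1), P.dv l * w l * b l ω ^ 2 := by
    intro ω
    have := m6_jensen (range (P.n + 1)) (fun l => P.dv l * w l) (fun l => b l ω)
      (fun l _ => mul_nonneg (P.m6_dv_nonneg h l) (hw0 l))
    rwa [hw1, one_mul] at this
  have hi1 : L8Bd (fun ω => (∑ l ∈ range (P.n + 1), P.dv l * w l * b l ω) ^ 2) :=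
    (L8Bd.sum _ fun l _ => (hb l).const_mul _).pow 2
  have hi2 : L8Bd (fun ω => ∑ l ∈ range (P.n + 1), P.dv l * w l * b l ω ^ 2) :=
    L8Bd.sum _ fun l _ => ((hb l).pow 2).const_mul _
  refine (integral_mono (hi1.integrable P.μ) (hi2.integrable P.μ) h1).trans (le_of_eq ?_)
  rw [integral_finsetSum _ fun l _ => (((hb l).pow 2).const_mul _).integrable P.μ]
  refine Finset.sum_congr rfl fun l _ => ?_
  rw [integral_const_mul, mul_assoc]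

theorem m6_To_bd (h : P.Ok) (k l : ℕ) : L8Bd (P.mTo k l) := P.m6_T_bd h _ _

/-- second moment of the first term -/
theorem m6_term1 (h : P.Ok) (k : ℕ) (w : ℕ → ℝ) (hw0 : ∀ l, 0 ≤ w l) (hw1 : ∑ l ∈ range (P.n + 1), P.dv l * w l = 1) :
    ∫ ω, (∑ l ∈ range (P.n + 1), P.dv l * w l * |P.mTo k l ω|) ^ 2 ∂P.μ
      ≤ ∑ l ∈ range (P.n + 1), P.dv l * (w l * ((Real.sqrt (P.mTC k) + Real.sqrt (P.mTC l))
          * (|P.S l - P.S k| + 3 * (Real.sqrt (P.D2 k) + Real.sqrt (P.D2 l))))) := by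
  refine (P.m6_avg_sq h w hw0 hw1 (fun l ω => |P.mTo k l ω|) fun l => (P.m6_To_bd h k l).abs).trans ?_
  refine Finset.sum_le_sum fun l _ => ?_
  refine mul_le_mul_of_nonneg_left (mul_le_mul_of_nonneg_left ?_ (hw0 l)) (P.m6_dv_nonneg h l)
  simp only [sq_abs]
  exact P.m6_To_sq h k l

/-- second moment of the wrong-side term; `A` = the wrong side   (`m6_jensen`, then integrate) -/
theorem m6_term2 (h : P.Ok) (k : ℕ) (w : ℕ → ℝ) (hw0 : ∀ l, 0 ≤ w l) (hw1 : ∑ l ∈ range (P.n + 1), P.dv l * w l = 1)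
    (A : ℕ → Prop) [DecidablePred A] :
    ∫ ω, (∑ l ∈ range (P.n + 1), P.dv l * w l * (if A l then ∑ i, P.XX k l i ω ^ 2 else 0)) ^ 2 ∂P.μ
      ≤ ∑ l ∈ range (P.n + 1), P.dv l * (w l * (if A l then P.mQ4 k l else 0)) := by
  have hb : ∀ l, L8Bd (fun ω => if A l then ∑ i, P.XX k l i ω ^ 2 else 0) := by
    intro l
    by_cases hA : A l
    · simpa only [if_pos hA] using P.m6_XX2_bd h k l
    · simpa only [if_neg hA] using l8Bd_const (Ω := Ω) 0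
  refine (P.m6_avg_sq h w hw0 hw1 (fun l ω => if A l then ∑ i, P.XX k l i ω ^ 2 else 0) hb).trans (le_of_eq ?_)
  refine Finset.sum_congr rfl fun l _ => ?_
  by_cases hA : A l
  · simp only [if_pos hA]
    rfl
  · simp [if_neg hA]

/-- the wrong-side cost under a uniform bound -/
theorem m6_wrong_le (h : P.Ok) (k : ℕ) (w : ℕ → ℝ) (hw0 : ∀ l, 0 ≤ w l) (hw1 : ∑ l ∈ range (P.n + 1), P.dv l * w l = 1)
    (A : ℕ → Prop) [DecidablePred A] (q4 : ℝ) (hq4 : 0 ≤ q4) (hQ : ∀ l, l ≤ P.n → A l → w l ≠ 0 → P.mQ4 k l ≤ q4) :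
    ∑ l ∈ range (P.n + 1), P.dv l * (w l * (if A l then P.mQ4 k l else 0)) ≤ q4 := by
  have h1 : ∀ l ∈ range (P.n + 1), P.dv l * (w l * (if A l then P.mQ4 k l else 0)) ≤ P.dv l * w l * q4 := by
    intro l hl
    rw [mul_assoc]
    refine mul_le_mul_of_nonneg_left ?_ (P.m6_dv_nonneg h l)
    by_cases hw : w l = 0
    · simp [hw]
    · refine mul_le_mul_of_nonneg_left ?_ (hw0 l)
      by_cases hA : A l
      · rw [if_pos hA]
        exact hQ l (Nat.lt_succ_iff.1 (Finset.mem_range.1 hl)) hA hw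
      · rw [if_neg hA]
        exact hq4
  refine (Finset.sum_le_sum h1).trans (le_of_eq ?_)
  rw [← Finset.sum_mul, hw1, one_mul]

/-- the variance of a side average: `Pin 1 1` with the polynomials `X` -/
theorem m6_pin_var (h : P.Ok) (hp : P.Pin 1 1) (w : ℕ → ℝ) :
    ∫ ω, (∑ l ∈ range (P.n + 1), P.dv l * w l * (P.L l ω - P.S l / 2)) ^ 2 ∂P.μ
      ≤ ∑ l ∈ range (P.n + 1), P.dv l * (w l ^ 2 * P.mTW l) := by
  have := h.prob
  have h1 := hp w (fun _ => Polynomial.X)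
  simp only [Polynomial.eval_X, Polynomial.derivative_X, Polynomial.eval_one, one_pow, mul_one, pow_one, one_mul] at h1
  have e1 : ∀ l, ∫ ω', P.L l ω' ∂P.μ = P.S l / 2 := fun l => by
    have := P.l8s_two_integral_L h l
    linarith
  simp only [e1] at h1
  refine h1.trans (le_of_eq ?_)
  rw [integral_finsetSum _ fun l _ => ((P.l8s_W_bd h l).const_mul _).integrable P.μ]
  refine Finset.sum_congr rfl fun l _ => ?_
  rw [integral_const_mul, mul_assoc]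
  rfl

theorem _root_.Claimed.Agent.R286.m6_side_alg (a b c d : ℝ) :
    (a + (1 / 2) * b + |c| + |d| / 2) ^ 2 ≤ ((4 * a ^ 2 + b ^ 2) + 4 * c ^ 2) + d ^ 2 := by
  have h1 : |c| ^ 2 = c ^ 2 := sq_abs c
  have h2 : |d| ^ 2 = d ^ 2 := sq_abs d
  nlinarith [sq_nonneg (a - b / 2), sq_nonneg (a - |c|), sq_nonneg (a - |d| / 2), sq_nonneg (b / 2 - |c|),
    sq_nonneg (b / 2 - |d| / 2), sq_nonneg (|c| - |d| / 2)]

theorem m6_side_bd (h : P.Ok) (k : ℕ) (w : ℕ → ℝ) (A : ℕ → Prop) [DecidablePred A] :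
    L8Bd (fun ω => ∑ l ∈ range (P.n + 1), P.dv l * w l * |P.mTo k l ω|)
    ∧ L8Bd (fun ω => ∑ l ∈ range (P.n + 1), P.dv l * w l * (if A l then ∑ i, P.XX k l i ω ^ 2 else 0))
    ∧ L8Bd (fun ω => ∑ l ∈ range (P.n + 1), P.dv l * w l * (P.L l ω - P.S l / 2)) := by
  refine ⟨L8Bd.sum _ fun l _ => (P.m6_To_bd h k l).abs.const_mul _, L8Bd.sum _ fun l _ => L8Bd.const_mul ?_ _,
    L8Bd.sum _ fun l _ => ((P.l8s_L_bd h l).sub (l8Bd_const _)).const_mul _⟩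
  by_cases hA : A l
  · simpa only [if_pos hA] using P.m6_XX2_bd h k l
  · simpa only [if_neg hA] using l8Bd_const (Ω := Ω) 0

/-- one side: second moment of `a₁ + a₂/2 + |A - E A| + |E A - S_k/2|`   (`(a+b+c+d)² ≤ 4 (a²+b²+c²+d²)`, `m6_term1`, `m6_term2`, `m6_pin_var`) -/
theorem m6_side_int (h : P.Ok) (hp : P.Pin 1 1) (k : ℕ) (w : ℕ → ℝ) (hw0 : ∀ l, 0 ≤ w l)
    (hw1 : ∑ l ∈ range (P.n + 1), P.dv l * w l = 1) (A : ℕ → Prop) [DecidablePred A] :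
    ∫ ω, ((∑ l ∈ range (P.n + 1), P.dv l * w l * |P.mTo k l ω|)
        + (1 / 2) * (∑ l ∈ range (P.n + 1), P.dv l * w l * (if A l then ∑ i, P.XX k l i ω ^ 2 else 0))
        + |∑ l ∈ range (P.n + 1), P.dv l * w l * (P.L l ω - P.S l / 2)|
        + |∑ l ∈ range (P.n + 1), P.dv l * (w l * (P.S l - P.S k))| / 2) ^ 2 ∂P.μ
      ≤ 4 * P.mSide k w + ∑ l ∈ range (P.n + 1), P.dv l * (w l * (if A l then P.mQ4 k l else 0)) := by
  have := h.prob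
  obtain ⟨ha, hb, hc⟩ := P.m6_side_bd h k w A
  have t1 := P.m6_term1 h k w hw0 hw1
  have t2 := P.m6_term2 h k w hw0 hw1 A
  have t3 := P.m6_pin_var h hp w
  have hle : ∀ ω, ((∑ l ∈ range (P.n + 1), P.dv l * w l * |P.mTo k l ω|)
        + (1 / 2) * (∑ l ∈ range (P.n + 1), P.dv l * w l * (if A l then ∑ i, P.XX k l i ω ^ 2 else 0))
        + |∑ l ∈ range (P.n + 1), P.dv l * w l * (P.L l ω - P.S l / 2)|
        + |∑ l ∈ range (P.n + 1), P.dv l * (w l * (P.S l - P.S k))| / 2) ^ 2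
      ≤ ((4 * (∑ l ∈ range (P.n + 1), P.dv l * w l * |P.mTo k l ω|) ^ 2
        + (∑ l ∈ range (P.n + 1), P.dv l * w l * (if A l then ∑ i, P.XX k l i ω ^ 2 else 0)) ^ 2)
        + 4 * (∑ l ∈ range (P.n + 1), P.dv l * w l * (P.L l ω - P.S l / 2)) ^ 2)
        + (∑ l ∈ range (P.n + 1), P.dv l * (w l * (P.S l - P.S k))) ^ 2 := by
    intro ω
    exact m6_side_alg _ _ _ _
  have hd : L8Bd (fun _ : Ω => |∑ l ∈ range (P.n + 1), P.dv l * (w l * (P.S l - P.S k))| / 2) := l8Bd_const _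
  refine (integral_mono (((((ha.add (hb.const_mul _)).add hc.abs).add hd).pow 2).integrable _)
    ((((((ha.pow 2).const_mul 4).add (hb.pow 2)).add ((hc.pow 2).const_mul 4)).add (l8Bd_const _)).integrable _) hle).trans ?_
  rw [integral_add (((((ha.pow 2).const_mul 4).add (hb.pow 2)).add ((hc.pow 2).const_mul 4)).integrable _) (integrable_const _),
    integral_add ((((ha.pow 2).const_mul 4).add (hb.pow 2)).integrable _) (((hc.pow 2).const_mul 4).integrable _),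
    integral_add (((ha.pow 2).const_mul 4).integrable _) ((hb.pow 2).integrable _), integral_const_mul, integral_const_mul]
  simp only [integral_const, probReal_univ, one_smul]
  unfold mSide
  linarith

theorem _root_.Claimed.Agent.R286.m6_VL_alg (z a b : ℝ) (h1 : z ≤ a) (h2 : -z ≤ b) : z ^ 2 ≤ a ^ 2 + b ^ 2 := by
  rcases le_total 0 z with hz | hz
  · nlinarith [sq_nonneg b]
  · nlinarith [sq_nonneg a]

/-- `Var L_k ≤ 4 (side⁺ + side⁻) + wrong-side costs` -/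
theorem m6_VL_le (h : P.Ok) (hp : P.Pin 1 1) (k : ℕ) (wp wm : ℕ → ℝ) (hp0 : ∀ l, 0 ≤ wp l) (hm0 : ∀ l, 0 ≤ wm l)
    (hp1 : ∑ l ∈ range (P.n + 1), P.dv l * wp l = 1) (hm1 : ∑ l ∈ range (P.n + 1), P.dv l * wm l = 1) :
    P.mVL k ≤ 4 * (P.mSide k wp + P.mSide k wm)
      + (∑ l ∈ range (P.n + 1), P.dv l * (wp l * (if l < k then P.mQ4 k l else 0)))
      + ∑ l ∈ range (P.n + 1), P.dv l * (wm l * (if k < l then P.mQ4 k l else 0)) := by
  have := h.prob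
  have sp := P.m6_side_int h hp k wp hp0 hp1 (fun l => l < k)
  have sm := P.m6_side_int h hp k wm hm0 hm1 (fun l => k < l)
  obtain ⟨ha, hb, hc⟩ := P.m6_side_bd h k wp (fun l => l < k)
  obtain ⟨ha', hb', hc'⟩ := P.m6_side_bd h k wm (fun l => k < l)
  have hd : L8Bd (fun _ : Ω => |∑ l ∈ range (P.n + 1), P.dv l * (wp l * (P.S l - P.S k))| / 2) := l8Bd_const _
  have hd' : L8Bd (fun _ : Ω => |∑ l ∈ range (P.n + 1), P.dv l * (wm l * (P.S l - P.S k))| / 2) := l8Bd_const _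
  have hU := (((ha.add (hb.const_mul (1 / 2))).add hc.abs).add hd).pow 2
  have hU' := (((ha'.add (hb'.const_mul (1 / 2))).add hc'.abs).add hd').pow 2
  have hZ : L8Bd (fun ω => (P.L k ω - P.S k / 2) ^ 2) := ((P.l8s_L_bd h k).sub (l8Bd_const _)).pow 2
  have key : ∀ (w : ℕ → ℝ), (∑ l ∈ range (P.n + 1), P.dv l * w l = 1) → ∀ ω,
      P.L k ω - P.S k / 2 = (P.L k ω - ∑ l ∈ range (P.n + 1), P.dv l * w l * P.L l ω)
        + (∑ l ∈ range (P.n + 1), P.dv l * w l * (P.L l ω - P.S l / 2))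
        + (∑ l ∈ range (P.n + 1), P.dv l * (w l * (P.S l - P.S k))) / 2 := by
    intro w hw ω
    have e1 : ∑ l ∈ range (P.n + 1), P.dv l * w l * (P.L l ω - P.S l / 2)
        = (∑ l ∈ range (P.n + 1), P.dv l * w l * P.L l ω) - (∑ l ∈ range (P.n + 1), P.dv l * w l * P.S l) / 2 := by
      rw [Finset.sum_div, ← Finset.sum_sub_distrib]
      exact Finset.sum_congr rfl fun l _ => by ring
    have e2 : ∑ l ∈ range (P.n + 1), P.dv l * (w l * (P.S l - P.S k))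
        = (∑ l ∈ range (P.n + 1), P.dv l * w l * P.S l) - (∑ l ∈ range (P.n + 1), P.dv l * w l) * P.S k := by
      rw [Finset.sum_mul, ← Finset.sum_sub_distrib]
      exact Finset.sum_congr rfl fun l _ => by ring
    rw [e1, e2, hw]
    ring
  have hle : ∀ ω, (P.L k ω - P.S k / 2) ^ 2
      ≤ ((∑ l ∈ range (P.n + 1), P.dv l * wp l * |P.mTo k l ω|)
        + (1 / 2) * (∑ l ∈ range (P.n + 1), P.dv l * wp l * (if l < k then ∑ i, P.XX k l i ω ^ 2 else 0))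
        + |∑ l ∈ range (P.n + 1), P.dv l * wp l * (P.L l ω - P.S l / 2)|
        + |∑ l ∈ range (P.n + 1), P.dv l * (wp l * (P.S l - P.S k))| / 2) ^ 2
      + ((∑ l ∈ range (P.n + 1), P.dv l * wm l * |P.mTo k l ω|)
        + (1 / 2) * (∑ l ∈ range (P.n + 1), P.dv l * wm l * (if k < l then ∑ i, P.XX k l i ω ^ 2 else 0))
        + |∑ l ∈ range (P.n + 1), P.dv l * wm l * (P.L l ω - P.S l / 2)|
        + |∑ l ∈ range (P.n + 1), P.dv l * (wm l * (P.S l - P.S k))| / 2) ^ 2 := by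
    intro ω
    have u1 := P.m6_up h k wp hp0 hp1 ω
    have d1 := P.m6_dn h k wm hm0 hm1 ω
    have k1 := key wp hp1 ω
    have k2 := key wm hm1 ω
    have a1 := le_abs_self (∑ l ∈ range (P.n + 1), P.dv l * wp l * (P.L l ω - P.S l / 2))
    have a2 := le_abs_self (∑ l ∈ range (P.n + 1), P.dv l * (wp l * (P.S l - P.S k)))
    have a3 := neg_abs_le (∑ l ∈ range (P.n + 1), P.dv l * wm l * (P.L l ω - P.S l / 2))
    have a4 := neg_abs_le (∑ l ∈ range (P.n + 1), P.dv l * (wm l * (P.S l - P.S k)))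
    refine m6_VL_alg _ _ _ ?_ ?_
    · linarith
    · linarith
  refine (integral_mono (hZ.integrable _) ((hU.add hU').integrable _) hle).trans ?_
  rw [integral_add (hU.integrable _) (hU'.integrable _)]
  linarith

/-- **THE MASTER INEQUALITY ON A FINITE PATH**, form with the explicit wrong-side costs (the form which passes to the limit of fine chains by dominated convergence).   TEX[PE:comp:bracket] -/
theorem m6_master' (h : P.Ok) (hp : P.Pin 1 1) (k : ℕ) (wp wm : ℕ → ℝ) (hp0 : ∀ l, 0 ≤ wp l) (hm0 : ∀ l, 0 ≤ wm l)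
    (hp1 : ∑ l ∈ range (P.n + 1), P.dv l * wp l = 1) (hm1 : ∑ l ∈ range (P.n + 1), P.dv l * wm l = 1) :
    P.D2 k ≤ P.mTC k + 16 * (P.mSide k wp + P.mSide k wm)
      + 4 * ((∑ l ∈ range (P.n + 1), P.dv l * (wp l * (if l < k then P.mQ4 k l else 0)))
        + ∑ l ∈ range (P.n + 1), P.dv l * (wm l * (if k < l then P.mQ4 k l else 0))) := by
  have h1 := P.m6_D2_le h k
  have h2 := P.m6_VL_le h hp k wp wm hp0 hm0 hp1 hm1
  linarith

/-- **THE MASTER INEQUALITY ON A FINITE PATH** (two-sided level averaging at one cut): discrete twin of `CmNum.Ok.master`.   TEX[PE:comp:bracket] -/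
theorem m6_master (h : P.Ok) (hp : P.Pin 1 1) (k : ℕ) (wp wm : ℕ → ℝ) (hp0 : ∀ l, 0 ≤ wp l) (hm0 : ∀ l, 0 ≤ wm l)
    (hp1 : ∑ l ∈ range (P.n + 1), P.dv l * wp l = 1) (hm1 : ∑ l ∈ range (P.n + 1), P.dv l * wm l = 1)
    (q4 : ℝ) (hq4 : 0 ≤ q4) (hQp : ∀ l, l ≤ P.n → l < k → wp l ≠ 0 → P.mQ4 k l ≤ q4)
    (hQm : ∀ l, l ≤ P.n → k < l → wm l ≠ 0 → P.mQ4 k l ≤ q4) :
    P.D2 k ≤ P.mTC k + 8 * q4 + 16 * (P.mSide k wp + P.mSide k wm) := by
  have h1 := P.m6_master' h hp k wp wm hp0 hm0 hp1 hm1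
  have h2 := P.m6_wrong_le h k wp hp0 hp1 (fun l => l < k) q4 hq4 hQp
  have h3 := P.m6_wrong_le h k wm hm0 hm1 (fun l => k < l) q4 hq4 hQm
  linarith

end L8P

end Claimed.Agent.R286
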