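import Claimed.Agent.R286.Cmp.P6Geo

/-!
# Row 286 (S0533), PE Section 3.4 (package P06): CUT OF THE EXIT `cm_x18` = PE (18)      (architect helper31; head of P06 helper294; prefix `cm6x_`)

TEX[PE:comp:bracket] comparisons.tex l.1015-1030 ("Proof of (18)").   Deterministic; rests on `Cmp/P6Geo.lean`, `Cmp/Num.lean`, `Cmp/Prof.lean`.
EXIT  `cm6x_18` = the statement of `cm_x18` (P6Out) verbatim;   `cm6x_dyad` = the same bound for `D² + (S - r)²` (used by Prop. 3.9, file `Cmp/P6CE*.lean`).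

NOTATION for a regular dyad:  `J = [v/Gam, min(Gam v, 1)]`,  `G2 = 2 Gam C/c`,  `Γ = max 8 G2²`,  `C1 = 2 G2 C0`,  `v ≥ C1 x`.
PLAN
* GENERIC (any `CmGeo`):  `cm6x_br_opt` ((21) with the optimal number of bins = `cm_br_geo` ∘ `cm_brR_opt`),  `cm6x_int`,  `cm6x_mis_grp` ((9),(10) on a group),  `cm6x_cover` (integral form of `cm_cover_units`).
* `cm6x_cap_reg`   a cap meeting `J` has both end masses in `[v/G2, G2 v]`, is not broad, is not initial, and `ℓ ≤ G2³ n^{-δ}(E/d³)/v`.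
* `cm6x_split`     `∫_J F ≤ ∫_{floor ∩ J} F + ∫_{grp} F`.
* `cm6x_floor`     floor part `≤ Kf v n^δ u_*²`.
* `cm6x_grp`       group part `≤ 3 Kg Lp² cm6xR(..)`.
* `cm6x_arith`     `Lp² cm6xR(..) ≤ K1 n^{2ε} v R18²`  (pure arithmetic).
LEAVES = the `sorry`s; each is independent of the others.   Claim by Lean name in `claim286`; prove IN PLACE (small) or in `Cmp/P6X18<Name>.lean` + one-line splice.
-/

set_option autoImplicit false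

namespace Claimed.Agent.R286

open MeasureTheory Set

noncomputable section

/-- the right side of (21) after the optimisation of the number of bins (`cm_brR_opt`), with `T = 2 Gam² Kg² Lp²/(N eg)`, `ω = Kg Lp l0` -/
def cm6xR (Gam Kg Lp N v y0 eg l0 Cq th : ℝ) (qq : ℕ) : ℝ :=
  10000000 * Gam ^ 3 * (1 + Real.log (1 + Gam * v / th)) ^ 2 *
      (v * ((y0 * (2 * Gam ^ 2 * Kg ^ 2 * Lp ^ 2 / (N * eg)) / v ^ 2) ^ (2 / 3 : ℝ) + (2 * Gam ^ 2 * Kg ^ 2 * Lp ^ 2 / (N * eg)) / v ^ 2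
        + (Kg * Lp * l0) ^ 2 + cmQ4 (Kg * Lp * l0) Cq y0 qq))
    + 1000000 * (3 + (y0 ^ 2 * v ^ 2 / (2 * Gam ^ 2 * Kg ^ 2 * Lp ^ 2 / (N * eg))) ^ (1 / 3 : ℝ)) * th

/-- `G2 = 2 Gam C / c` -/
def cm6xG2 (K : CmK) (Gam : ℝ) : ℝ := 2 * Gam * K.C / K.c
/-- `Γ = max 8 G2²`: ratio of the ordinary caps, enlargement of the band of the group -/
def cm6xG (K : CmK) (Gam : ℝ) : ℝ := max 8 (cm6xG2 K Gam ^ 2)
/-- `C1 = 2 G2 C0` -/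
def cm6xC1 (K : CmK) (Gam : ℝ) : ℝ := 2 * cm6xG2 K Gam * K.C0
/-- the integrand of (7) without the weight `e` -/
def cm6xF {P : CmCall} (q : CmQ P) (X : CmNum) (u : ℝ) : ℝ := X.D u ^ 2 + (X.S u - q.r u) ^ 2

theorem cm6x_eqns_cite : True := by
  have := @cm6xR.eq_1; have := @cm6xG2.eq_1; have := @cm6xG.eq_1; have := @cm6xC1.eq_1; have := @cm6xF.eq_1
  trivial

/-! ## 0. constants -/

theorem cm6x_G2_ge (K : CmK) (hK : K.Ok) {Gam : ℝ} (hGam : 1 ≤ Gam) : 2 * Gam ≤ cm6xG2 K Gam := by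
  unfold cm6xG2
  have hc := hK.c0
  rw [le_div_iff₀ hc]
  have h1 : K.c ≤ K.C := hK.c1.trans hK.C1
  have : 2 * Gam * K.c ≤ 2 * Gam * K.C := mul_le_mul_of_nonneg_left h1 (by linarith)
  exact this

theorem cm6x_G_ge (K : CmK) (hK : K.Ok) {Gam : ℝ} (hGam : 1 ≤ Gam) : 8 ≤ cm6xG K Gam ∧ cm6xG2 K Gam ≤ cm6xG K Gam ∧ cm6xG2 K Gam ^ 2 ≤ cm6xG K Gam := by
  have h2 := cm6x_G2_ge K hK hGam
  have h3 : cm6xG2 K Gam ^ 2 ≤ cm6xG K Gam := le_max_right _ _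
  refine ⟨le_max_left _ _, ?_, h3⟩
  refine le_trans ?_ h3
  nlinarith

theorem cm6x_C1_ge (K : CmK) (hK : K.Ok) {Gam : ℝ} (hGam : 1 ≤ Gam) :
    1 ≤ cm6xC1 K Gam ∧ 4 * Gam ≤ cm6xC1 K Gam ∧ 2 * cm6xG2 K Gam ≤ cm6xC1 K Gam ∧ cm6xC1 K Gam = 2 * cm6xG2 K Gam * K.C0 := by
  have h2 := cm6x_G2_ge K hK hGam
  have h0 := hK.C01
  have h3 : 2 * cm6xG2 K Gam ≤ cm6xC1 K Gam := by
    unfold cm6xC1
    nlinarith
  exact ⟨by linarith, by linarith, h3, rfl⟩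

/-! ## 1. generic tools (any `CmGeo`) -/

section generic

variable {P : CmCall} {cE D0 lam Kg Lp : ℝ} {q : CmQ P} {X : CmNum} {Z : CmCaps}

theorem cm6x_Q4_nn {ω Cq y0 : ℝ} (qq : ℕ) (hω : 0 ≤ ω) (hCq : 0 ≤ Cq) : 0 ≤ cmQ4 ω Cq y0 qq := by
  unfold cmQ4
  have : 0 ≤ 2 * Cq * Real.sqrt y0 := by positivity
  exact mul_nonneg (Real.rpow_nonneg hω _) (Real.rpow_nonneg this _)

/-- **(21) with the optimal number of bins**: `cm_br_geo` ∘ `cm_brR_opt`.   GLUE: `V = (volume G).toReal ≤ Gam v` by `hband`; `T = 2 Gam² Kg² Lp²/(N eg) > 0`; take the `k0` of `cm_brR_opt` (`ω = Kg Lp l0`, `q4 = cmQ4 ..`). -/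
theorem cm6x_br_opt (hc : 0 < cE) (hP : P.Ok cE D0) (hl : 0 < lam) (hX : X.Ok) (hG : CmGeo P lam q X Z Kg Lp)
    {G : Set ℝ} (hGr : Z.IsGroup q.al G) {v Gam y0 l0 eg th Cq : ℝ} {qq : ℕ}
    (hv : 0 < v) (hGam : 1 ≤ Gam) (hy0 : 0 < y0) (hl0 : 0 ≤ l0) (heg0 : 0 < eg) (hth : 0 < th) (hCq : 0 ≤ Cq) (hqq : 3 ≤ qq)
    (hband : G ⊆ Icc (v / Gam) (Gam * v))
    (hratio : ∀ i, Z.cL i < Z.cR i → Z.capM q.al i ⊆ G → q.al (Z.cR i) + P.us ≤ Gam * (q.al (Z.cL i) + P.us))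
    (hwall : ∀ i, Z.cL i < Z.cR i → Z.capM q.al i ⊆ G → Z.io P.rmin i = 0 ∨ P.us ≤ q.al (Z.cR i) - q.al (Z.cL i))
    (hlen : ∀ i, Z.cL i < Z.cR i → Z.capM q.al i ⊆ G → Z.len i + Z.io P.rmin i ≤ l0)
    (heg : ∀ u ∈ G, eg ≤ P.e lam (q.r u)) (hS : ∀ u ∈ G, X.S u ≤ y0) (hNX : ∀ u ∈ G, X.NX qq u ≤ Cq * Real.sqrt y0) :
    ∫ u in G, X.D u ^ 2 ≤ cm6xR Gam Kg Lp P.N v y0 eg l0 Cq th qq := by
  have hKg : 0 < Kg := lt_of_lt_of_le one_pos hG.Kg1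
  have hLp : 0 < Lp := lt_of_lt_of_le one_pos hG.Lp1
  have hN := cm_N_pos hP
  have hGam0 : 0 < Gam := lt_of_lt_of_le one_pos hGam
  have hV0 : 0 ≤ (volume G).toReal := ENNReal.toReal_nonneg
  have hV : (volume G).toReal ≤ Gam * v := by
    have h1 : volume G ≤ volume (Icc (v / Gam) (Gam * v)) := measure_mono hband
    rw [Real.volume_Icc] at h1
    have h2 := ENNReal.toReal_mono ENNReal.ofReal_ne_top h1
    have h3 : 0 ≤ v / Gam := by positivity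
    have h4 : v / Gam ≤ Gam * v := by
      rw [div_le_iff₀ hGam0]
      have : 1 ≤ Gam * Gam := by nlinarith
      nlinarith
    rw [ENNReal.toReal_ofReal (by linarith)] at h2
    linarith
  have hω : 0 ≤ Kg * Lp * l0 := by positivity
  have hT : 0 < 2 * Gam ^ 2 * Kg ^ 2 * Lp ^ 2 / (P.N * eg) := by positivity
  obtain ⟨k0, hk1, -, hk3⟩ := cm_brR_opt (q4 := cmQ4 (Kg * Lp * l0) Cq y0 qq) hV0 hV hv hGam hy0 hω (cm6x_Q4_nn qq hω hCq) hT hth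
  have h := cm_br_geo hc hP hl hX hG hGr hv hGam hy0 hl0 heg0 hth hCq hqq hk1 hband hratio hwall hlen heg hS hNX
  exact h.trans hk3

/-- `cm6xR` dominates its `ω²` term -/
theorem cm6x_R_ge {Gam Kg Lp N v y0 eg l0 Cq th : ℝ} {qq : ℕ} (hGam : 1 ≤ Gam) (hKg : 1 ≤ Kg) (hLp : 1 ≤ Lp) (hN : 0 < N) (hv : 0 < v) (hy0 : 0 < y0)
    (heg : 0 < eg) (hl0 : 0 ≤ l0) (hCq : 0 ≤ Cq) (hth : 0 < th) : Gam * v * l0 ^ 2 ≤ cm6xR Gam Kg Lp N v y0 eg l0 Cq th qq := by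
  unfold cm6xR
  have hGam0 : 0 < Gam := lt_of_lt_of_le one_pos hGam
  have hKg0 : 0 < Kg := lt_of_lt_of_le one_pos hKg
  have hLp0 : 0 < Lp := lt_of_lt_of_le one_pos hLp
  have hω : 0 ≤ Kg * Lp * l0 := by positivity
  have hq := cm6x_Q4_nn (y0 := y0) qq hω hCq
  set T := 2 * Gam ^ 2 * Kg ^ 2 * Lp ^ 2 / (N * eg) with hTdef
  have hT : 0 < T := by positivity
  have h1 : 0 ≤ (y0 * T / v ^ 2) ^ (2 / 3 : ℝ) := Real.rpow_nonneg (by positivity) _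
  have h2 : 0 ≤ (y0 ^ 2 * v ^ 2 / T) ^ (1 / 3 : ℝ) := Real.rpow_nonneg (by positivity) _
  have h3 : 0 ≤ Real.log (1 + Gam * v / th) := Real.log_nonneg (by have : 0 ≤ Gam * v / th := by positivity
                                                                   linarith)
  have h4 : 1 ≤ (1 + Real.log (1 + Gam * v / th)) ^ 2 := by nlinarith
  have h5 : l0 ≤ Kg * Lp * l0 := by
    have : 1 ≤ Kg * Lp := by nlinarith
    nlinarith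
  have h6 : l0 ^ 2 ≤ (Kg * Lp * l0) ^ 2 := by gcongr
  have h7 : Gam ≤ 10000000 * Gam ^ 3 * (1 + Real.log (1 + Gam * v / th)) ^ 2 := by
    have : Gam ≤ Gam ^ 3 := by nlinarith [sq_nonneg Gam, mul_pos hGam0 hGam0]
    nlinarith [pow_pos hGam0 3]
  have h8 : 0 ≤ T / v ^ 2 := by positivity
  have h9 : v * l0 ^ 2 ≤ v * ((y0 * T / v ^ 2) ^ (2 / 3 : ℝ) + T / v ^ 2 + (Kg * Lp * l0) ^ 2 + cmQ4 (Kg * Lp * l0) Cq y0 qq) := by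
    apply mul_le_mul_of_nonneg_left _ hv.le
    linarith
  have h10 : 0 ≤ 1000000 * (3 + (y0 ^ 2 * v ^ 2 / T) ^ (1 / 3 : ℝ)) * th := by positivity
  calc Gam * v * l0 ^ 2 = Gam * (v * l0 ^ 2) := by ring
    _ ≤ 10000000 * Gam ^ 3 * (1 + Real.log (1 + Gam * v / th)) ^ 2 * (v * ((y0 * T / v ^ 2) ^ (2 / 3 : ℝ) + T / v ^ 2 + (Kg * Lp * l0) ^ 2 + cmQ4 (Kg * Lp * l0) Cq y0 qq)) :=
        mul_le_mul h7 h9 (by positivity) (by positivity)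
    _ ≤ _ := by linarith

/-- the integrand of (7) is integrable on the working interval (`D`, `S` measurable and bounded on `[0,1]`; `r` monotone and bounded on `[u0,1]`) -/
theorem cm6x_int (hc : 0 < cE) (hP : P.Ok cE D0) (hX : X.Ok) (q : CmQ P) : IntegrableOn (cm6xF q X) (Icc P.u0 1) := by
  have hsub : Icc P.u0 1 ⊆ Icc (0 : ℝ) 1 := Icc_subset_Icc_left hP.u00
  have hr : AEStronglyMeasurable q.r (volume.restrict (Icc P.u0 1)) := (cm_q_r_cont hc hP q).aestronglyMeasurable measurableSet_Icc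
  have hm : AEStronglyMeasurable (cm6xF q X) (volume.restrict (Icc P.u0 1)) := by
    unfold cm6xF
    exact (hX.D_meas.aestronglyMeasurable.pow 2).add ((hX.S_meas.aestronglyMeasurable.sub hr).pow 2)
  refine Integrable.mono' (integrable_const (2 : ℝ)) hm ?_
  refine (ae_restrict_iff' measurableSet_Icc).2 (Filter.Eventually.of_forall fun u hu => ?_)
  have hu' := hsub hu
  have d0 := hX.D_nn u hu'
  have d1 := hX.D_le u hu'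
  have s0 := hX.S_nn u hu'
  have s1 := hX.S_le u hu'
  have r0 := (q.r_mem u hu).1
  have r1 := (q.r_mem u hu).2
  have r00 := hP.r0
  unfold cm6xF
  rw [Real.norm_eq_abs, abs_of_nonneg (by positivity)]
  have e1 : X.D u ^ 2 ≤ 1 := by nlinarith
  have e2 : (X.S u - q.r u) ^ 2 ≤ 1 := by
    have : |X.S u - q.r u| ≤ 1 := abs_le.2 ⟨by linarith, by linarith⟩
    calc (X.S u - q.r u) ^ 2 = |X.S u - q.r u| ^ 2 := (sq_abs _).symm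
      _ ≤ 1 ^ 2 := by gcongr
      _ = 1 := by norm_num
  linarith

theorem cm6x_intD (hc : 0 < cE) (hP : P.Ok cE D0) (hX : X.Ok) : IntegrableOn (fun u => X.D u ^ 2) (Icc P.u0 1) := by
  have hsub : Icc P.u0 1 ⊆ Icc (0 : ℝ) 1 := Icc_subset_Icc_left hP.u00
  have hm : AEStronglyMeasurable (fun u => X.D u ^ 2) (volume.restrict (Icc P.u0 1)) := hX.D_meas.aestronglyMeasurable.pow 2
  refine Integrable.mono' (integrable_const (1 : ℝ)) hm ?_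
  refine (ae_restrict_iff' measurableSet_Icc).2 (Filter.Eventually.of_forall fun u hu => ?_)
  have hu' := hsub hu
  have d0 := hX.D_nn u hu'
  have d1 := hX.D_le u hu'
  rw [Real.norm_eq_abs, abs_of_nonneg (by positivity)]
  nlinarith

/-- **the mismatch on a group**: (9) on contact, (10) on caps -/
theorem cm6x_mis_grp (hc : 0 < cE) (hP : P.Ok cE D0) (hG : CmGeo P lam q X Z Kg Lp) {G : Set ℝ} (hGr : Z.IsGroup q.al G) {l0 : ℝ}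
    (hlen : ∀ i, Z.cL i < Z.cR i → Z.capM q.al i ⊆ G → Z.len i + Z.io P.rmin i ≤ l0) :
    ∀ u ∈ G, (X.S u - q.r u) ^ 2 ≤ Kg * Lp ^ 2 * (X.D u ^ 2 + l0 ^ 2) := by
  intro u hu
  have hKg : 0 < Kg := lt_of_lt_of_le one_pos hG.Kg1
  have hLp : 0 < Lp := lt_of_lt_of_le one_pos hG.Lp1
  rcases hGr.sub hu with hcap | hct
  · obtain ⟨i, hi⟩ := mem_iUnion.1 hcap
    have hlt : Z.cL i < Z.cR i := by
      rcases (hG.cap_le i).eq_or_lt with h | h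
      · exfalso
        unfold CmCaps.capM at hi
        rw [h] at hi
        exact lt_irrefl _ (hi.1.trans hi.2)
      · exact h
    have hsub := hGr.sat i ⟨u, hi, hu⟩
    have hl := hlen i hlt hsub
    rw [cm_capM_image hc hP hG i] at hi
    obtain ⟨r, hr, rfl⟩ := hi
    have hrm : r ∈ Icc P.rmin 1 := cm_g_cap_sub hG i ⟨hr.1.le, hr.2.le⟩
    rw [q.r_al r hrm]
    have h1 := hG.cap_mis i r hr
    have hlen0 : 0 ≤ Z.len i := by unfold CmCaps.len; linarith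
    have hio0 : 0 ≤ Z.io P.rmin i := by
      unfold CmCaps.io
      split_ifs
      · exact hP.r0
      · exact le_rfl
    have h2 : Z.len i ^ 2 + Z.io P.rmin i ^ 2 ≤ l0 ^ 2 := by nlinarith
    refine h1.trans ?_
    apply mul_le_mul_of_nonneg_left _ (by positivity)
    linarith
  · obtain ⟨r, hr, rfl⟩ := hct
    have hrm := hG.ct_sub hr
    rw [q.r_al r hrm]
    have h1 := hG.ct_mis r hr
    refine h1.trans ?_
    have h2 : 1 ≤ Lp ^ 2 := by nlinarith [hG.Lp1]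
    have h3 : 0 ≤ X.D (q.al r) ^ 2 := sq_nonneg _
    have h4 : 0 ≤ l0 ^ 2 := sq_nonneg _
    calc Kg * X.D (q.al r) ^ 2 = Kg * 1 * X.D (q.al r) ^ 2 := by ring
      _ ≤ Kg * Lp ^ 2 * (X.D (q.al r) ^ 2 + l0 ^ 2) := by
        apply mul_le_mul (mul_le_mul_of_nonneg_left h2 hKg.le) (by linarith) h3 (by positivity)

/-- a group lies in the working interval -/
theorem cm6x_grp_sub (hc : 0 < cE) (hP : P.Ok cE D0) (hG : CmGeo P lam q X Z Kg Lp) {G : Set ℝ} (hGr : Z.IsGroup q.al G) : G ⊆ Icc P.u0 1 := by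
  intro u hu
  rcases hGr.sub hu with hcap | hct
  · obtain ⟨i, hi⟩ := mem_iUnion.1 hcap
    exact cm_capM_sub hc hP hG i hi
  · obtain ⟨r, hr, rfl⟩ := hct
    exact cm_q_al_mem hc hP q (hG.ct_sub hr)

/-- subadditivity of the integral of a nonnegative function -/
theorem cm6x_union_le {F : ℝ → ℝ} {T s t : Set ℝ} (hT : MeasurableSet T) (hFi : IntegrableOn F T) (hF0 : ∀ u ∈ T, 0 ≤ F u) (hs : s ⊆ T) (ht : t ⊆ T) :
    ∫ u in s ∪ t, F u ≤ (∫ u in s, F u) + ∫ u in t, F u := by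
  have hae : ∀ᵐ u ∂(volume.restrict T), 0 ≤ F u := (ae_restrict_iff' hT).2 (Filter.Eventually.of_forall hF0)
  have h1 : Integrable F (volume.restrict s) := hFi.mono_set hs
  have h2 : Integrable F (volume.restrict t) := hFi.mono_set ht
  rw [← integral_add_measure h1 h2]
  refine integral_mono_measure (Measure.restrict_union_le s t) ?_ (h1.add_measure h2)
  exact ae_add_measure_iff.2 ⟨ae_restrict_of_ae_restrict_of_subset hs hae, ae_restrict_of_ae_restrict_of_subset ht hae⟩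

theorem cm6x_biUnion_le {F : ℝ → ℝ} {T : Set ℝ} (hT : MeasurableSet T) (hFi : IntegrableOn F T) (hF0 : ∀ u ∈ T, 0 ≤ F u) (A : ℕ → Set ℝ) (hA : ∀ i, A i ⊆ T)
    (B : Finset ℕ) : ∫ u in ⋃ i ∈ B, A i, F u ≤ ∑ i ∈ B, ∫ u in A i, F u := by
  induction B using Finset.induction_on with
  | empty => simp
  | insert a s ha ih =>
    rw [Finset.set_biUnion_insert, Finset.sum_insert ha]
    refine (cm6x_union_le hT hFi hF0 (hA a) (iUnion₂_subset fun i _ => hA i)).trans ?_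
    linarith

/-- **integral form of the covering** `cm_cover_units` + `cm_broad_count` -/
theorem cm6x_cover (hc : 0 < cE) (hP : P.Ok cE D0) (hG : CmGeo P lam q X Z Kg Lp) {Gam v1 v2 : ℝ} (hGam : 8 ≤ Gam) (h0 : 0 < v1) (h1 : P.u0 ≤ v1)
    (h12 : v1 ≤ v2) (h2 : v2 ≤ 1) {F : ℝ → ℝ} (hFi : IntegrableOn F (Icc P.u0 1)) (hF0 : ∀ u ∈ Icc P.u0 1, 0 ≤ F u) :
    ∃ B : Finset ℕ, (∀ i ∈ B, Z.Broad P q.al Gam i ∧ (Z.capM q.al i ∩ Icc v1 v2).Nonempty) ∧ (B.card : ℝ) ≤ 4 * v2 / v1 ∧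
      ∫ u in Icc v1 v2, F u ≤ (∫ u in q.al '' Z.Fl ∩ Icc v1 v2, F u) + (∫ u in Z.grp P q.al Gam (Icc v1 v2), F u)
        + (∑ i ∈ B, ∫ u in Z.capM q.al i ∩ Icc v1 v2, F u) + ∫ u in Ioo P.u0 (P.u0 + P.us) ∩ Icc v1 v2, F u := by
  obtain ⟨hfin, hcard⟩ := cm_broad_count hc hP hG hGam h0 h12
  refine ⟨hfin.toFinset, fun i hi => hfin.mem_toFinset.1 hi, ?_, ?_⟩
  · rw [← ncard_eq_toFinset_card _ hfin]
    exact hcard
  have hT : MeasurableSet (Icc P.u0 1) := measurableSet_Icc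
  have hJ : Icc v1 v2 ⊆ Icc P.u0 1 := Icc_subset_Icc h1 h2
  have s1 : q.al '' Z.Fl ∩ Icc v1 v2 ⊆ Icc P.u0 1 := inter_subset_right.trans hJ
  have s2 : Z.grp P q.al Gam (Icc v1 v2) ⊆ Icc P.u0 1 := cm6x_grp_sub hc hP hG (cm_grp_isGroup hc hP hG measurableSet_Icc)
  have s3 : ∀ i, Z.capM q.al i ∩ Icc v1 v2 ⊆ Icc P.u0 1 := fun i => inter_subset_right.trans hJ
  have s3' : (⋃ i ∈ hfin.toFinset, Z.capM q.al i ∩ Icc v1 v2) ⊆ Icc P.u0 1 := iUnion₂_subset fun i _ => s3 i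
  have s4 : Ioo P.u0 (P.u0 + P.us) ∩ Icc v1 v2 ⊆ Icc P.u0 1 := inter_subset_right.trans hJ
  set U : Set ℝ := (q.al '' Z.Fl ∩ Icc v1 v2) ∪ Z.grp P q.al Gam (Icc v1 v2) ∪ (⋃ i ∈ hfin.toFinset, Z.capM q.al i ∩ Icc v1 v2)
    ∪ (Ioo P.u0 (P.u0 + P.us) ∩ Icc v1 v2) with hU
  have sU : U ⊆ Icc P.u0 1 := union_subset (union_subset (union_subset s1 s2) s3') s4
  have hae : ∀ᵐ u ∂(volume.restrict (Icc P.u0 1)), 0 ≤ F u := (ae_restrict_iff' hT).2 (Filter.Eventually.of_forall hF0)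
  have hJU : (Icc v1 v2 : Set ℝ) ≤ᵐ[volume] U := by
    rw [ae_le_set]
    refine measure_mono_null ?_ (cm_cover_units hc hP hG (Gam := Gam) (by linarith) h1 h2)
    rintro u ⟨huJ, hnU⟩
    refine ⟨huJ, ?_⟩
    rintro (((h | h) | h) | h)
    · exact hnU (Or.inl (Or.inl (Or.inl ⟨h, huJ⟩)))
    · exact hnU (Or.inl (Or.inl (Or.inr h)))
    · obtain ⟨i, hi, hui⟩ := mem_iUnion₂.1 h
      refine hnU (Or.inl (Or.inr (mem_iUnion₂.2 ⟨i, hfin.mem_toFinset.2 ⟨hi, ⟨u, hui, huJ⟩⟩, ⟨hui, huJ⟩⟩)))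
    · exact hnU (Or.inr ⟨h, huJ⟩)
  have a1 : ∫ u in Icc v1 v2, F u ≤ ∫ u in U, F u :=
    setIntegral_mono_set (hFi.mono_set sU) (ae_restrict_of_ae_restrict_of_subset sU hae) hJU
  have a2 := cm6x_union_le hT hFi hF0 (union_subset (union_subset s1 s2) s3') s4
  have a3 := cm6x_union_le hT hFi hF0 (union_subset s1 s2) s3'
  have a4 := cm6x_union_le hT hFi hF0 s1 s2
  have a5 := cm6x_biUnion_le hT hFi hF0 (fun i => Z.capM q.al i ∩ Icc v1 v2) s3 hfin.toFinset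
  linarith

end generic

/-! ## 2. a regular outer dyad -/

/-- basic facts on a regular dyad: `0 < x ≤ v/(4 Gam)`, `C0 x ≤ v/G2 ≤ v/Gam` -/
theorem cm6x_dy (K : CmK) (hK : K.Ok) {Gam x v : ℝ} (hGam : 1 ≤ Gam) (hx : 0 < x) (hv : cm6xC1 K Gam * x ≤ v) :
    0 < v ∧ 4 * Gam * x ≤ v ∧ 2 * K.C0 * x ≤ v / cm6xG2 K Gam ∧ v / cm6xG2 K Gam ≤ v / Gam ∧ x ≤ v / Gam ∧ K.C0 * x ≤ v / Gam := by
  have hC1 := cm6x_C1_ge K hK hGam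
  have hG2 := cm6x_G2_ge K hK hGam
  have hGam0 : 0 < Gam := lt_of_lt_of_le one_pos hGam
  have hG20 : 0 < cm6xG2 K Gam := by linarith
  have hv0 : 0 < v := lt_of_lt_of_le (mul_pos (lt_of_lt_of_le one_pos hC1.1) hx) hv
  have h4 : 4 * Gam * x ≤ v := (mul_le_mul_of_nonneg_right hC1.2.1 hx.le).trans hv
  have h5 : 2 * K.C0 * x ≤ v / cm6xG2 K Gam := by
    rw [le_div_iff₀ hG20]
    rw [hC1.2.2.2] at hv
    linarith
  have h6 : v / cm6xG2 K Gam ≤ v / Gam := div_le_div_of_nonneg_left hv0.le hGam0 (by linarith)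
  have h7 : x ≤ v / Gam := by
    rw [le_div_iff₀ hGam0]
    nlinarith [mul_pos hGam0 hx]
  have h8 : 0 ≤ K.C0 * x := mul_nonneg (by linarith [hK.C01]) hx.le
  exact ⟨hv0, h4, h5, h6, h7, by linarith⟩

/-- powers of `log n` against a negative power of `n` -/
theorem cm6x_small (j : ℕ) {s η : ℝ} (hs : 0 < s) (hη : 0 < η) : ∃ n0 : ℕ, ∀ N : ℝ, (n0 : ℝ) ≤ N → Real.log N ^ j * N ^ (-s) ≤ η := by
  obtain ⟨C, hC, hlog⟩ := cm_log_pow j (ε := s / 2) (by positivity)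
  have h1 : ∀ᶠ x : ℝ in Filter.atTop, x ^ (-(s / 2)) ≤ η / C :=
    (tendsto_rpow_neg_atTop (by positivity : 0 < s / 2)).eventually (ge_mem_nhds (by positivity))
  obtain ⟨a, ha⟩ := Filter.eventually_atTop.1 h1
  refine ⟨⌈max a 1⌉₊, fun N hN => ?_⟩
  have hN' : max a 1 ≤ N := (Nat.le_ceil _).trans hN
  have hNa : a ≤ N := (le_max_left _ _).trans hN'
  have hN1 : 1 ≤ N := (le_max_right _ _).trans hN'
  have hN0 : 0 < N := by linarith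
  have e1 := hlog N hN1
  have e2 := ha N hNa
  have e3 : N ^ (s / 2) * N ^ (-s) = N ^ (-(s / 2)) := by
    rw [← Real.rpow_add hN0]
    congr 1
    ring
  calc Real.log N ^ j * N ^ (-s) ≤ C * N ^ (s / 2) * N ^ (-s) := mul_le_mul_of_nonneg_right e1 (Real.rpow_nonneg hN0.le _)
    _ = C * N ^ (-(s / 2)) := by rw [mul_assoc, e3]
    _ ≤ C * (η / C) := mul_le_mul_of_nonneg_left e2 hC.le
    _ = η := by field_simp

/-- for `n ≥ n0`: `u_* ≤ x` and every cap has length `≤ η x` -/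
theorem cm6x_len_small (K : CmK) (hK : K.Ok) {η : ℝ} (hη : 0 < η) :
    ∃ n0 : ℕ, ∀ (P : CmCall) (lam : ℝ) (q : CmQ P) (X : CmNum) (Z : CmCaps) (Lp x : ℝ), CmStd K P lam q X Z Lp x → n0 ≤ P.n →
      P.us ≤ x ∧ ∀ i, Z.len i ≤ η * x := by
  have hc := hK.cE0
  have hca := hK.ca0
  obtain ⟨Cl, hCl, hlog⟩ := cm_log_us hc hK.D00
  set A : ℝ := K.cE⁻¹ ^ 3 / K.ca with hA
  have hA0 : 0 < A := by positivity
  have hs : 0 < 3 * K.mm := by linarith [hK.mm0]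
  obtain ⟨n1, hn1⟩ := cm6x_small 0 hs (η := 1 / A) (by positivity)
  obtain ⟨n2, hn2⟩ := cm6x_small 1 hs (η := η / (Cl * A)) (by positivity)
  refine ⟨max n1 n2, fun P lam q X Z Lp x hS hn => ?_⟩
  have hP := hS.base.ok
  have hG := hS.base.geo
  have hN := cm_N_pos hP
  have hN1 : 1 ≤ P.N := by linarith [cm_N_ge hP]
  have hus := cm_us_pos hc hP
  have ha := cm_a_pos hc hP
  have hNn : (P.n : ℝ) = P.N := rfl
  have b1 := hn1 P.N (by rw [← hNn]; exact_mod_cast (le_max_left _ _).trans hn)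
  have b2 := hn2 P.N (by rw [← hNn]; exact_mod_cast (le_max_right _ _).trans hn)
  rw [pow_zero, one_mul] at b1
  rw [pow_one] at b2
  have hpw : 0 ≤ P.N ^ (-(3 * K.mm)) := Real.rpow_nonneg hN.le _
  have hax : P.a ≤ x / K.ca := by
    rw [le_div_iff₀ hca]
    linarith [hS.xa]
  have c1 : P.us ≤ A * P.N ^ (-(3 * K.mm)) * x := by
    have := cm_us_a hc hP
    rw [hS.base.m_eq] at this
    calc P.us ≤ K.cE⁻¹ ^ 3 * P.N ^ (-(3 * K.mm)) * P.a := this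
      _ ≤ K.cE⁻¹ ^ 3 * P.N ^ (-(3 * K.mm)) * (x / K.ca) := mul_le_mul_of_nonneg_left hax (by positivity)
      _ = _ := by rw [hA]; ring
  refine ⟨?_, fun i => ?_⟩
  · calc P.us ≤ A * P.N ^ (-(3 * K.mm)) * x := c1
      _ ≤ A * (1 / A) * x := by gcongr; exact hS.x0.le
      _ = x := by field_simp
  · have hL := cm_q_al_mem hc hP q (cm_geo_cL_mem hG i)
    have hR := cm_q_al_mem hc hP q (cm_geo_cR_mem hG i)
    have hLR : q.al (Z.cL i) ≤ q.al (Z.cR i) :=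
      (cm_q_al_strictMono hc hP q).monotoneOn (cm_geo_cL_mem hG i) (cm_geo_cR_mem hG i) (hG.cap_le i)
    have l1 := hlog P hP _ _ (hP.u00.trans hL.1) hLR hR.2
    have l2 := cm_cap_len hc hP hG i
    have hdl : P.N ^ (-P.dl) ≤ 1 := Real.rpow_le_one_of_one_le_of_nonpos hN1 (by linarith [cm_dl_pos hP])
    have hdl0 : 0 ≤ P.N ^ (-P.dl) := Real.rpow_nonneg hN.le _
    have hL0 := cm_L_pos hc hP
    have hLam : 0 ≤ P.Lam := by linarith [cm_Lam_ge_one hP]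
    have l3 : P.N ^ (-P.dl) * P.L ≤ P.us := by
      calc P.N ^ (-P.dl) * P.L ≤ 1 * P.us := mul_le_mul hdl cm_L_le_us hL0.le zero_le_one
        _ = P.us := one_mul _
    calc Z.len i ≤ P.N ^ (-P.dl) * P.L * Real.log ((q.al (Z.cR i) + P.us) / (q.al (Z.cL i) + P.us)) := l2
      _ ≤ P.N ^ (-P.dl) * P.L * (Cl * P.Lam) := mul_le_mul_of_nonneg_left l1 (by positivity)
      _ ≤ P.us * (Cl * P.Lam) := mul_le_mul_of_nonneg_right l3 (by positivity)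
      _ ≤ A * P.N ^ (-(3 * K.mm)) * x * (Cl * P.Lam) := mul_le_mul_of_nonneg_right c1 (by positivity)
      _ = Cl * A * x * (Real.log P.N * P.N ^ (-(3 * K.mm))) := by unfold CmCall.Lam; ring
      _ ≤ Cl * A * x * (η / (Cl * A)) := mul_le_mul_of_nonneg_left b2 (by have := hS.x0; positivity)
      _ = η * x := by field_simp

/-- **caps in a regular band** (l.1016-1019).   Let `u ∈ cap ∩ J`, `ℓ = len i`.   `cm_cap_len`, `cm_log_us`, `cm_L_le_us`, `cm_us_a`, `xa`: `ℓ ≤ C u_* log n ≤ (c/(2 Gam)) x` and `u_* ≤ x` for `n ≥ n0`.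
`Reg` at `u`: `c u ≤ r u ≤ C u`, `r u ∈ (cL, cR)`.   UP: `c α(cR) ≤ cR ≤ r u + ℓ ≤ C Gam v + c v/(2 Gam)`.   DOWN: `cL ≥ r u - ℓ ≥ c v/(2 Gam)`; if `α(cL) < w := v/G2` then (`w ≥ C0 x`) `cL = r(α cL) ≤ r w ≤ C w = c v/(2 Gam)`,
and equality is excluded by strict monotonicity.   NOT BROAD: `α cR + u_* ≤ G2 v + u_* ≤ G2² (α cL + u_*)`.   NOT INITIAL: `cL = rmin` gives `α cL = u0 ≤ x < v/G2`.   LENGTH: `cm_cap_len'`. -/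
theorem cm6x_cap_reg (K : CmK) (hK : K.Ok) {Gam : ℝ} (hGam : 1 ≤ Gam) :
    ∃ n0 : ℕ, ∀ (P : CmCall) (lam : ℝ) (q : CmQ P) (X : CmNum) (Z : CmCaps) (Lp x : ℝ), CmStd K P lam q X Z Lp x → n0 ≤ P.n →
      ∀ v : ℝ, cm6xC1 K Gam * x ≤ v → v ≤ 1 → P.u0 + P.us ≤ v / Gam ∧
        ∀ i, Z.cL i < Z.cR i → (Z.capM q.al i ∩ Icc (v / Gam) (min (Gam * v) 1)).Nonempty →
          v / cm6xG2 K Gam ≤ q.al (Z.cL i) ∧ q.al (Z.cR i) ≤ cm6xG2 K Gam * v ∧ ¬ Z.Broad P q.al (cm6xG K Gam) i ∧ Z.io P.rmin i = 0 ∧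
          Z.len i ≤ cm6xG2 K Gam ^ 3 * (P.N ^ (-P.dl) * (P.E / P.d ^ 3)) / v := by
  have hGam0 : 0 < Gam := lt_of_lt_of_le one_pos hGam
  have hc0 := hK.c0
  have hC : 0 < K.C := lt_of_lt_of_le one_pos hK.C1
  obtain ⟨n0, hn0⟩ := cm6x_len_small K hK (η := K.c / (2 * Gam)) (by positivity)
  refine ⟨n0, fun P lam q X Z Lp x hS hn v hv hv1 => ?_⟩
  obtain ⟨husx, hlen⟩ := hn0 P lam q X Z Lp x hS hn
  have hP := hS.base.ok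
  have hc := hK.cE0
  have hG := hS.base.geo
  have hN := cm_N_pos hP
  have hus := cm_us_pos hc hP
  have hE := cm_E_pos hc hP
  have hd := hP.d0
  have hx := hS.x0
  obtain ⟨hv0, h4, hw2, hwG, hxv, hC0v⟩ := cm6x_dy K hK hGam hS.x0 hv
  have hG2 := cm6x_G2_ge K hK hGam
  have hG20 : 0 < cm6xG2 K Gam := by linarith
  have hΓ := cm6x_G_ge K hK hGam
  have h4' : 4 * x ≤ v / Gam := by
    rw [le_div_iff₀ hGam0]
    linarith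
  refine ⟨by linarith [hS.u0x], fun i hi hne => ?_⟩
  obtain ⟨u, hucap, hu1, hu2⟩ := hne
  have hu21 : u ≤ 1 := hu2.trans (min_le_right _ _)
  have hu2G : u ≤ Gam * v := hu2.trans (min_le_left _ _)
  have hL := cm_q_al_mem hc hP q (cm_geo_cL_mem hG i)
  have hR := cm_q_al_mem hc hP q (cm_geo_cR_mem hG i)
  have hu0u : P.u0 ≤ u := hL.1.trans hucap.1.le
  have hru : q.r u ∈ Ioo (Z.cL i) (Z.cR i) := by
    have h := hucap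
    rw [cm_capM_image hc hP hG i] at h
    obtain ⟨r, hr, rfl⟩ := h
    rwa [q.r_al r (cm_g_cap_sub hG i ⟨hr.1.le, hr.2.le⟩)]
  have regu := hS.reg u (hC0v.trans hu1) hu21 hu0u
  have hl := hlen i
  have hlen_eq : Z.cR i = Z.cL i + Z.len i := by unfold CmCaps.len; ring
  have hlx : K.c / (2 * Gam) * x ≤ K.c * v / (2 * Gam) / 4 := by
    rw [div_mul_eq_mul_div, div_div, div_le_div_iff₀ (by positivity) (by positivity)]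
    have : x * 4 ≤ v := by nlinarith
    nlinarith [mul_pos hc0 hGam0]
  have hcv : 0 < K.c * v / (2 * Gam) := by positivity
  -- UP
  have hup : q.al (Z.cR i) ≤ cm6xG2 K Gam * v := by
    have regR := hS.reg (q.al (Z.cR i)) ((hC0v.trans hu1).trans hucap.2.le) hR.2 hR.1
    rw [q.r_al _ (cm_geo_cR_mem hG i)] at regR
    have e1 : K.c * q.al (Z.cR i) ≤ K.C * (Gam * v) + K.c * v / (2 * Gam) := by
      have : K.C * u ≤ K.C * (Gam * v) := mul_le_mul_of_nonneg_left hu2G hC.le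
      linarith [regR.1, hru.1, regu.2]
    have e2 : K.c * v / (2 * Gam) ≤ K.C * (Gam * v) := by
      rw [div_le_iff₀ (by positivity)]
      have : K.c ≤ K.C := hK.c1.trans hK.C1
      have h1 : K.c * v ≤ K.C * v := mul_le_mul_of_nonneg_right this hv0.le
      have h2 : 1 ≤ Gam * (2 * Gam) := by nlinarith
      have h3 : 0 < K.C * v := by positivity
      nlinarith
    have e3 : cm6xG2 K Gam * v = (2 * (K.C * (Gam * v))) / K.c := by unfold cm6xG2; field_simp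
    rw [e3, le_div_iff₀ hc0]
    linarith
  -- DOWN
  have hcL : K.c * v / (2 * Gam) < Z.cL i := by
    have e1 : K.c * (v / Gam) ≤ K.c * u := mul_le_mul_of_nonneg_left hu1 hc0.le
    have e2 : K.c * (v / Gam) = 2 * (K.c * v / (2 * Gam)) := by field_simp
    linarith [hru.2, regu.1]
  have hdown : v / cm6xG2 K Gam ≤ q.al (Z.cL i) := by
    by_contra hcon
    push Not at hcon
    have hw1 : v / cm6xG2 K Gam ≤ 1 := hwG.trans ((div_le_self hv0.le hGam).trans hv1)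
    have hwm : v / cm6xG2 K Gam ∈ Icc P.u0 1 := ⟨hL.1.trans hcon.le, hw1⟩
    have hC0x : 0 ≤ K.C0 * x := mul_nonneg (by linarith [hK.C01]) hx.le
    have regw := hS.reg (v / cm6xG2 K Gam) (by linarith) hw1 hwm.1
    have hlt := cm_q_r_strictMono hc hP q hL hwm hcon
    rw [q.r_al _ (cm_geo_cL_mem hG i)] at hlt
    have e3 : K.C * (v / cm6xG2 K Gam) = K.c * v / (2 * Gam) := by unfold cm6xG2; field_simp
    linarith [regw.2]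
  have hx2 : 2 * x ≤ v / cm6xG2 K Gam := by
    have : 2 * 1 * x ≤ 2 * K.C0 * x := by
      have := hK.C01
      gcongr
    linarith
  refine ⟨hdown, hup, ?_, ?_, ?_⟩
  · rintro ⟨-, hb⟩
    have e1 : cm6xG2 K Gam ^ 2 * (q.al (Z.cL i) + P.us) ≤ cm6xG K Gam * (q.al (Z.cL i) + P.us) :=
      mul_le_mul_of_nonneg_right hΓ.2.2 (by linarith [hP.u00, hL.1])
    have e2 : cm6xG2 K Gam ^ 2 * (v / cm6xG2 K Gam + P.us) ≤ cm6xG2 K Gam ^ 2 * (q.al (Z.cL i) + P.us) :=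
      mul_le_mul_of_nonneg_left (by linarith) (by positivity)
    have e3 : cm6xG2 K Gam ^ 2 * (v / cm6xG2 K Gam + P.us) = cm6xG2 K Gam * v + cm6xG2 K Gam ^ 2 * P.us := by field_simp
    have e4 : P.us ≤ cm6xG2 K Gam ^ 2 * P.us := by
      have h1 : 1 ≤ cm6xG2 K Gam ^ 2 := one_le_pow₀ (by linarith)
      calc P.us = 1 * P.us := (one_mul _).symm
        _ ≤ _ := mul_le_mul_of_nonneg_right h1 hus.le
    linarith
  · unfold CmCaps.io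
    rw [if_neg]
    intro h
    rw [h, q.al_min] at hdown
    linarith [hS.u0x]
  · have e1 := cm_cap_len' hc hP hG i
    have hB : 0 ≤ P.N ^ (-P.dl) * (P.E / P.d ^ 3) := by positivity
    have hlen0 : 0 ≤ Z.len i := by unfold CmCaps.len; linarith
    have e2 : P.N ^ (-P.dl) * (P.E / P.d ^ 3) * (q.al (Z.cR i) - q.al (Z.cL i)) ≤ P.N ^ (-P.dl) * (P.E / P.d ^ 3) * (cm6xG2 K Gam * v) :=
      mul_le_mul_of_nonneg_left (by linarith [hP.u00, hL.1]) hB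
    have hw0 : 0 < v / cm6xG2 K Gam := by positivity
    have e3 : (v / cm6xG2 K Gam) ^ 2 * Z.len i ≤ q.al (Z.cL i) ^ 2 * Z.len i := by gcongr
    have e4 : (v / cm6xG2 K Gam) ^ 2 * Z.len i ≤ P.N ^ (-P.dl) * (P.E / P.d ^ 3) * (cm6xG2 K Gam * v) := e3.trans (e1.trans e2)
    have e5 : Z.len i ≤ P.N ^ (-P.dl) * (P.E / P.d ^ 3) * (cm6xG2 K Gam * v) / (v / cm6xG2 K Gam) ^ 2 := by
      rw [le_div_iff₀ (by positivity)]
      linarith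
    refine e5.trans (le_of_eq ?_)
    field_simp

/-- **no broad cap, no initial strip in a regular band**.   GLUE: `cm6x_cover` with `Gam := Γ` (`cm6x_G_ge`), `v1 = v/Gam`, `v2 = min (Gam v) 1`; by `cm6x_cap_reg` every `i ∈ B` is contradictory (`Broad` gives `cL < cR`), so the sum is empty;
`Ioo u0 (u0+u_*) ∩ J = ∅` since `u0 + u_* ≤ v/Gam`. -/
theorem cm6x_split (K : CmK) (hK : K.Ok) {Gam : ℝ} (hGam : 1 ≤ Gam) :
    ∃ n0 : ℕ, ∀ (P : CmCall) (lam : ℝ) (q : CmQ P) (X : CmNum) (Z : CmCaps) (Lp x : ℝ), CmStd K P lam q X Z Lp x → n0 ≤ P.n →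
      ∀ v : ℝ, cm6xC1 K Gam * x ≤ v → v ≤ 1 → ∀ F : ℝ → ℝ, IntegrableOn F (Icc P.u0 1) → (∀ u ∈ Icc P.u0 1, 0 ≤ F u) →
        ∫ u in Icc (v / Gam) (min (Gam * v) 1), F u ≤ (∫ u in q.al '' Z.Fl ∩ Icc (v / Gam) (min (Gam * v) 1), F u)
          + ∫ u in Z.grp P q.al (cm6xG K Gam) (Icc (v / Gam) (min (Gam * v) 1)), F u := by
  obtain ⟨n0, hn0⟩ := cm6x_cap_reg K hK hGam
  refine ⟨n0, fun P lam q X Z Lp x hS hn v hv hv1 F hFi hF0 => ?_⟩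
  obtain ⟨h1, h2⟩ := hn0 P lam q X Z Lp x hS hn v hv hv1
  have hP := hS.base.ok
  have hc := hK.cE0
  have hus := cm_us_pos hc hP
  have hGam0 : 0 < Gam := lt_of_lt_of_le one_pos hGam
  have hC1 := cm6x_C1_ge K hK hGam
  have hv0 : 0 < v := lt_of_lt_of_le (mul_pos (lt_of_lt_of_le one_pos hC1.1) hS.x0) hv
  have hv1' : 0 < v / Gam := by positivity
  have hu0 : P.u0 ≤ v / Gam := by linarith
  have h12 : v / Gam ≤ min (Gam * v) 1 := by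
    have e1 : v / Gam ≤ v := div_le_self hv0.le hGam
    refine le_min ?_ (e1.trans hv1)
    nlinarith
  obtain ⟨B, hB1, -, hB3⟩ := cm6x_cover hc hP hS.base.geo (cm6x_G_ge K hK hGam).1 hv1' hu0 h12 (min_le_right _ _) hFi hF0
  have hBe : B = ∅ := by
    apply Finset.eq_empty_of_forall_notMem
    intro i hi
    obtain ⟨hb, hm⟩ := hB1 i hi
    exact (h2 i hb.1 hm).2.2.1 hb
  have hI : Ioo P.u0 (P.u0 + P.us) ∩ Icc (v / Gam) (min (Gam * v) 1) = ∅ := by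
    apply eq_empty_of_forall_notMem
    rintro u ⟨hu1, hu2⟩
    linarith [hu1.2, hu2.1]
  rw [hBe, hI] at hB3
  simpa using hB3

/-- **the floor part** (l.1024-1027).   On `J`: `D ≤ NR ≤ Cp 1 (u + x) ≤ 2 Gam Cp1 v`, `0 ≤ S = NX 1 ² ≤ 2 Gam Cp1² v`, `0 ≤ r ≤ C Gam v`;   `cm_floor_mass_loc`: mass `≤ (r v2 - r v1) k(r v1) ≤ C Gam v k(c v/Gam)`,
`k(t) ≤ n^δ u_*²/t²`. -/
theorem cm6x_floor (K : CmK) (hK : K.Ok) {Gam : ℝ} (hGam : 1 ≤ Gam) :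
    ∃ Kf : ℝ, 0 < Kf ∧ ∀ (P : CmCall) (lam : ℝ) (q : CmQ P) (X : CmNum) (Z : CmCaps) (Lp x : ℝ), CmStd K P lam q X Z Lp x →
      ∀ v : ℝ, cm6xC1 K Gam * x ≤ v → v ≤ 1 →
        ∫ u in q.al '' Z.Fl ∩ Icc (v / Gam) (min (Gam * v) 1), cm6xF q X u ≤ Kf * v * (P.N ^ P.dl * P.us ^ 2) := by
  have hGam0 : 0 < Gam := lt_of_lt_of_le one_pos hGam
  have hCp : 0 < K.Cp 1 := lt_of_lt_of_le one_pos (hK.Cp1 1)
  have hC : 0 < K.C := lt_of_lt_of_le one_pos hK.C1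
  have hc0 := hK.c0
  set A : ℝ := 4 * Gam ^ 2 * K.Cp 1 ^ 2 + (2 * Gam * K.Cp 1 ^ 2 + K.C * Gam) ^ 2 with hA
  have hA0 : 0 < A := by positivity
  refine ⟨A * (K.C * Gam ^ 3 / K.c ^ 2), by positivity, fun P lam q X Z Lp x hS v hv hv1 => ?_⟩
  have hP := hS.base.ok
  have hc := hK.cE0
  have hX := hS.base.num
  have hG := hS.base.geo
  have hN := cm_N_pos hP
  have hus := cm_us_pos hc hP
  obtain ⟨hv0, h4, -, -, hxv, hC0v⟩ := cm6x_dy K hK hGam hS.x0 hv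
  have hu0 : P.u0 ≤ v / Gam := hS.u0x.trans hxv
  have hv1p : 0 < v / Gam := by positivity
  have h12 : v / Gam ≤ min (Gam * v) 1 := by
    have e1 : v / Gam ≤ v := div_le_self hv0.le hGam
    refine le_min ?_ (e1.trans hv1)
    nlinarith
  have h21 : min (Gam * v) 1 ≤ 1 := min_le_right _ _
  have h2G : min (Gam * v) 1 ≤ Gam * v := min_le_left _ _
  -- the mass
  have hmass := cm_floor_mass_loc hc hP hG hu0 h12 h21
  have r1 := hS.reg (v / Gam) hC0v (h12.trans h21) hu0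
  have r2 := hS.reg (min (Gam * v) 1) (hC0v.trans h12) h21 (hu0.trans h12)
  have hcv : 0 < K.c * (v / Gam) := by positivity
  have hk1 : P.k (q.r (v / Gam)) ≤ P.k (K.c * (v / Gam)) := cm_k_anti hc hP (mem_Ici.2 hcv.le) (mem_Ici.2 (hcv.le.trans r1.1)) r1.1
  have hk2 : P.k (K.c * (v / Gam)) ≤ P.N ^ P.dl * P.us ^ 2 / (K.c * (v / Gam)) ^ 2 := by
    unfold CmCall.k
    have e0 := cm_c_pos hc hP
    apply div_le_div_of_nonneg_left (by positivity) (by positivity)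
    gcongr
    linarith
  have hk0 : 0 ≤ P.k (q.r (v / Gam)) := (cm_k_pos hc hP (hcv.le.trans r1.1)).le
  have hdr : q.r (min (Gam * v) 1) - q.r (v / Gam) ≤ K.C * (Gam * v) := by
    have : K.C * min (Gam * v) 1 ≤ K.C * (Gam * v) := mul_le_mul_of_nonneg_left h2G hC.le
    linarith [r2.2, r1.1]
  have hm1 : (q.r (min (Gam * v) 1) - q.r (v / Gam)) * P.k (q.r (v / Gam)) ≤ K.C * (Gam * v) * (P.N ^ P.dl * P.us ^ 2 / (K.c * (v / Gam)) ^ 2) :=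
    mul_le_mul hdr (hk1.trans hk2) hk0 (by positivity)
  have hfin : volume (q.al '' Z.Fl ∩ Icc (v / Gam) (min (Gam * v) 1)) < ⊤ := lt_of_le_of_lt hmass ENNReal.ofReal_lt_top
  have hm2 : volume.real (q.al '' Z.Fl ∩ Icc (v / Gam) (min (Gam * v) 1)) ≤ K.C * (Gam * v) * (P.N ^ P.dl * P.us ^ 2 / (K.c * (v / Gam)) ^ 2) := by
    have e1 := ENNReal.toReal_mono ENNReal.ofReal_ne_top (hmass.trans (ENNReal.ofReal_le_ofReal hm1))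
    rwa [ENNReal.toReal_ofReal (by positivity)] at e1
  -- the integrand
  have hF : ∀ u ∈ q.al '' Z.Fl ∩ Icc (v / Gam) (min (Gam * v) 1), ‖cm6xF q X u‖ ≤ A * v ^ 2 := by
    rintro u ⟨-, hu1, hu2⟩
    have hu01 : u ∈ Icc (0 : ℝ) 1 := ⟨hv1p.le.trans hu1, hu2.trans h21⟩
    have huG : u ≤ Gam * v := hu2.trans h2G
    have hxG : x ≤ Gam * v := by nlinarith [hS.x0]
    have hux : u + x ≤ 2 * Gam * v := by linarith
    have hux0 : 0 ≤ u + x := by linarith [hu01.1, hS.x0]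
    obtain ⟨w1, w2⟩ := hS.raw u hu01
    have d0 := hX.D_nn u hu01
    have d1 : X.D u ≤ 2 * Gam * K.Cp 1 * v := by
      calc X.D u ≤ X.NR u := hX.d_nr u hu01
        _ ≤ K.Cp 1 * (u + x) := w2
        _ ≤ K.Cp 1 * (2 * Gam * v) := mul_le_mul_of_nonneg_left hux hCp.le
        _ = _ := by ring
    have s0 := hX.S_nn u hu01
    have s1 : X.S u ≤ 2 * Gam * K.Cp 1 ^ 2 * v := by
      rw [hX.s_nx u hu01]
      have n0 := hX.NX_nn 1 u hu01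
      calc X.NX 1 u ^ 2 ≤ (K.Cp 1 * Real.sqrt (u + x)) ^ 2 := by
            have := w1 1 le_rfl
            gcongr
        _ = K.Cp 1 ^ 2 * (u + x) := by rw [mul_pow, Real.sq_sqrt hux0]
        _ ≤ K.Cp 1 ^ 2 * (2 * Gam * v) := mul_le_mul_of_nonneg_left hux (by positivity)
        _ = _ := by ring
    have ru := hS.reg u (hC0v.trans hu1) hu01.2 (hu0.trans hu1)
    have ru0 : 0 ≤ q.r u := le_trans (mul_nonneg hc0.le hu01.1) ru.1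
    have ru1 : q.r u ≤ K.C * Gam * v := by
      calc q.r u ≤ K.C * u := ru.2
        _ ≤ K.C * (Gam * v) := mul_le_mul_of_nonneg_left huG hC.le
        _ = _ := by ring
    unfold cm6xF
    rw [Real.norm_eq_abs, abs_of_nonneg (by positivity)]
    have e1 : X.D u ^ 2 ≤ (2 * Gam * K.Cp 1 * v) ^ 2 := by gcongr
    have e2 : (X.S u - q.r u) ^ 2 ≤ ((2 * Gam * K.Cp 1 ^ 2 + K.C * Gam) * v) ^ 2 := by
      have e3 : (2 * Gam * K.Cp 1 ^ 2 + K.C * Gam) * v = 2 * Gam * K.Cp 1 ^ 2 * v + K.C * Gam * v := by ring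
      have : |X.S u - q.r u| ≤ (2 * Gam * K.Cp 1 ^ 2 + K.C * Gam) * v := by
        rw [e3]
        exact abs_le.2 ⟨by linarith, by linarith⟩
      calc (X.S u - q.r u) ^ 2 = |X.S u - q.r u| ^ 2 := (sq_abs _).symm
        _ ≤ _ := by gcongr
    calc X.D u ^ 2 + (X.S u - q.r u) ^ 2 ≤ (2 * Gam * K.Cp 1 * v) ^ 2 + ((2 * Gam * K.Cp 1 ^ 2 + K.C * Gam) * v) ^ 2 := add_le_add e1 e2
      _ = A * v ^ 2 := by rw [hA]; ring
  have hI := norm_setIntegral_le_of_norm_le_const hfin hF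
  calc ∫ u in q.al '' Z.Fl ∩ Icc (v / Gam) (min (Gam * v) 1), cm6xF q X u ≤ ‖∫ u in q.al '' Z.Fl ∩ Icc (v / Gam) (min (Gam * v) 1), cm6xF q X u‖ := le_abs_self _
    _ ≤ A * v ^ 2 * volume.real (q.al '' Z.Fl ∩ Icc (v / Gam) (min (Gam * v) 1)) := hI
    _ ≤ A * v ^ 2 * (K.C * (Gam * v) * (P.N ^ P.dl * P.us ^ 2 / (K.c * (v / Gam)) ^ 2)) := mul_le_mul_of_nonneg_left hm2 (by positivity)
    _ = A * (K.C * Gam ^ 3 / K.c ^ 2) * v * (P.N ^ P.dl * P.us ^ 2) := by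
        field_simp

theorem cm6x_grp_int {F D2 : ℝ → ℝ} {G : Set ℝ} {A B R V : ℝ} (hGm : MeasurableSet G) (hfin : volume G ≠ ⊤) (hF : IntegrableOn F G) (hD : IntegrableOn D2 G)
    (hpt : ∀ u ∈ G, F u ≤ A * D2 u + B) (hA : 0 ≤ A) (hB : 0 ≤ B) (hR : ∫ u in G, D2 u ≤ R) (hV : volume.real G ≤ V) :
    ∫ u in G, F u ≤ A * R + B * V := by
  have hc : IntegrableOn (fun _ : ℝ => B) G := integrableOn_const hfin
  have h1 : ∫ u in G, F u ≤ ∫ u in G, (A * D2 u + B) := setIntegral_mono_on hF ((hD.const_mul A).add hc) hGm hpt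
  have h2 : ∫ u in G, (A * D2 u + B) = A * (∫ u in G, D2 u) + B * volume.real G := by
    rw [integral_add (hD.const_mul A) hc, integral_const_mul, setIntegral_const, smul_eq_mul, mul_comm B]
  rw [h2] at h1
  have h3 : A * (∫ u in G, D2 u) ≤ A * R := mul_le_mul_of_nonneg_left hR hA
  have h4 : B * volume.real G ≤ B * V := mul_le_mul_of_nonneg_left hV hB
  linarith

theorem cm6x_grp_fin {k R l0 V : ℝ} (hk : 1 ≤ k) (hR : V * l0 ^ 2 ≤ R) (h0 : 0 ≤ V * l0 ^ 2) : (1 + k) * R + k * l0 ^ 2 * V ≤ 3 * k * R := by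
  have hR0 : 0 ≤ R := h0.trans hR
  have h1 : k * (V * l0 ^ 2) ≤ k * R := mul_le_mul_of_nonneg_left hR (by linarith)
  have h2 : 1 * R ≤ k * R := mul_le_mul_of_nonneg_right hk hR0
  nlinarith

/-- **the group part** (l.1019-1023).   `G = grp Γ J`.   `cm_grp_isGroup`, `cm_grp_cap` (caps of `G` are ordinary and meet `J`), `cm6x_cap_reg`: `G ⊆ [v/Γ, Γ v]`, `len + io ≤ l0`.
`cm6x_br_opt` with `Gam := Γ`, `y0 = 2 Γ Cp1² v`, `eg = e(v)/(C Γ)` (`r u ≤ C u ≤ C Γ v`, `cm_e_anti`, `cm_e_scale`), `Cq = Cp qq`, `th = n^{-10}`;   `cm6x_mis_grp`, `cm6x_R_ge`: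
`∫_G F ≤ (1 + Kg Lp²) ∫_G D² + Kg Lp² |G| l0² ≤ 3 Kg Lp² R`. -/
theorem cm6x_grp (K : CmK) (hK : K.Ok) {Gam : ℝ} (hGam : 1 ≤ Gam) :
    ∃ n0 : ℕ, ∀ (P : CmCall) (lam : ℝ) (q : CmQ P) (X : CmNum) (Z : CmCaps) (Lp x : ℝ), CmStd K P lam q X Z Lp x → n0 ≤ P.n →
      ∀ v : ℝ, cm6xC1 K Gam * x ≤ v → v ≤ 1 → ∀ qq : ℕ, 3 ≤ qq →
        ∫ u in Z.grp P q.al (cm6xG K Gam) (Icc (v / Gam) (min (Gam * v) 1)), cm6xF q X u ≤
          3 * K.Kg * Lp ^ 2 * cm6xR (cm6xG K Gam) K.Kg Lp P.N v (2 * cm6xG K Gam * K.Cp 1 ^ 2 * v) (P.e lam v / (K.C * cm6xG K Gam))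
            (cm6xG2 K Gam ^ 3 * (P.N ^ (-P.dl) * (P.E / P.d ^ 3)) / v) (K.Cp qq) (P.N ^ (-(10 : ℝ))) qq := by
  obtain ⟨n0, hn0⟩ := cm6x_cap_reg K hK hGam
  refine ⟨n0, fun P lam q X Z Lp x hS hn v hv hv1 qq hqq => ?_⟩
  obtain ⟨hu0us, hcap⟩ := hn0 P lam q X Z Lp x hS hn v hv hv1
  have hGam0 : 0 < Gam := lt_of_lt_of_le one_pos hGam
  have hP := hS.base.ok
  have hc := hK.cE0
  have hX := hS.base.num
  have hG := hS.base.geo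
  have hl := hS.base.lam0
  have hN := cm_N_pos hP
  have hE := cm_E_pos hc hP
  have hd := hP.d0
  have hCp : 1 ≤ K.Cp 1 := hK.Cp1 1
  have hCq : 1 ≤ K.Cp qq := hK.Cp1 qq
  have hC := hK.C1
  have hKg := hK.Kg1
  have hLp := hG.Lp1
  obtain ⟨hv0, h4, h2C0, hG2Gam, hxv, hC0v⟩ := cm6x_dy K hK hGam hS.x0 hv
  have hG2 := cm6x_G2_ge K hK hGam
  obtain ⟨hΓ8, hΓG2, -⟩ := cm6x_G_ge K hK hGam
  generalize hΓ : cm6xG K Gam = Γ at *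
  generalize hg2 : cm6xG2 K Gam = G2 at *
  have hG20 : 0 < G2 := by linarith
  have hΓ0 : 0 < Γ := by linarith
  have hΓ1 : 1 ≤ Γ := by linarith
  have hGr : Z.IsGroup q.al (Z.grp P q.al Γ (Icc (v / Gam) (min (Gam * v) 1))) := cm_grp_isGroup hc hP hG measurableSet_Icc
  have hsub := cm6x_grp_sub hc hP hG hGr
  -- location
  have hloc : ∀ u ∈ Z.grp P q.al Γ (Icc (v / Gam) (min (Gam * v) 1)), v / G2 ≤ u ∧ u ≤ G2 * v := by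
    rintro u (hu | hu)
    · refine ⟨hG2Gam.trans hu.1.1, (hu.1.2.trans (min_le_left _ _)).trans ?_⟩
      apply mul_le_mul_of_nonneg_right _ hv0.le
      linarith
    · obtain ⟨i, hi, hui⟩ := mem_iUnion₂.1 hu
      obtain ⟨a1, a2, -⟩ := hcap i hi.1.1 hi.2
      exact ⟨a1.trans hui.1.le, hui.2.le.trans a2⟩
  have hband : Z.grp P q.al Γ (Icc (v / Gam) (min (Gam * v) 1)) ⊆ Icc (v / Γ) (Γ * v) := by
    intro u hu
    obtain ⟨a1, a2⟩ := hloc u hu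
    exact ⟨(div_le_div_of_nonneg_left hv0.le hG20 hΓG2).trans a1, a2.trans (mul_le_mul_of_nonneg_right hΓG2 hv0.le)⟩
  have hl00 : 0 ≤ G2 ^ 3 * (P.N ^ (-P.dl) * (P.E / P.d ^ 3)) / v := by positivity
  have hlen : ∀ i, Z.cL i < Z.cR i → Z.capM q.al i ⊆ Z.grp P q.al Γ (Icc (v / Gam) (min (Gam * v) 1)) →
      Z.len i + Z.io P.rmin i ≤ G2 ^ 3 * (P.N ^ (-P.dl) * (P.E / P.d ^ 3)) / v := by
    intro i hi hs
    obtain ⟨-, hne⟩ := cm_grp_cap hc hP hG hi hs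
    obtain ⟨-, -, -, a4, a5⟩ := hcap i hi hne
    rw [a4, add_zero]; exact a5
  have hxv' : x ≤ v := by
    have : v / Gam ≤ v := div_le_self hv0.le hGam
    linarith
  have hy0 : 0 < 2 * Γ * K.Cp 1 ^ 2 * v := by positivity
  have heg0 : 0 < P.e lam v / (K.C * Γ) := by
    have := cm_e_pos (P := P) hl v
    positivity
  have hth : 0 < P.N ^ (-(10 : ℝ)) := Real.rpow_pos_of_pos hN _
  have hux : ∀ u ∈ Z.grp P q.al Γ (Icc (v / Gam) (min (Gam * v) 1)), u ∈ Icc (0 : ℝ) 1 ∧ 0 ≤ u + x ∧ u + x ≤ 2 * Γ * v := by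
    intro u hu
    obtain ⟨a1, a2⟩ := hloc u hu
    have b := hsub hu
    have h0 : 0 ≤ u := le_trans (by positivity) a1
    refine ⟨⟨h0, b.2⟩, by linarith [hS.x0], ?_⟩
    have : G2 * v ≤ Γ * v := mul_le_mul_of_nonneg_right hΓG2 hv0.le
    have : v ≤ Γ * v := by nlinarith
    linarith
  have heg : ∀ u ∈ Z.grp P q.al Γ (Icc (v / Gam) (min (Gam * v) 1)), P.e lam v / (K.C * Γ) ≤ P.e lam (q.r u) := by
    intro u hu
    obtain ⟨a1, a2⟩ := hloc u hu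
    have b := hsub hu
    have hC0x : 0 ≤ K.C0 * x := mul_nonneg (by linarith [hK.C01]) hS.x0.le
    have ru := hS.reg u (by linarith) b.2 b.1
    have h1 : q.r u ≤ K.C * Γ * v := by
      calc q.r u ≤ K.C * u := ru.2
        _ ≤ K.C * (Γ * v) := by
            apply mul_le_mul_of_nonneg_left _ (by linarith)
            exact a2.trans (mul_le_mul_of_nonneg_right hΓG2 hv0.le)
        _ = _ := by ring
    have h2 := cm_e_scale P hd (G := K.C * Γ) hl.le (by nlinarith) hv0.le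
    exact h2.trans (cm_e_anti P hd hl.le h1)
  have hSb : ∀ u ∈ Z.grp P q.al Γ (Icc (v / Gam) (min (Gam * v) 1)), X.S u ≤ 2 * Γ * K.Cp 1 ^ 2 * v := by
    intro u hu
    obtain ⟨hu01, b0, b1⟩ := hux u hu
    obtain ⟨w1, -⟩ := hS.raw u hu01
    have n0' := hX.NX_nn 1 u hu01
    rw [hX.s_nx u hu01]
    calc X.NX 1 u ^ 2 ≤ (K.Cp 1 * Real.sqrt (u + x)) ^ 2 := by
          have := w1 1 le_rfl
          gcongr
      _ = K.Cp 1 ^ 2 * (u + x) := by rw [mul_pow, Real.sq_sqrt b0]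
      _ ≤ K.Cp 1 ^ 2 * (2 * Γ * v) := mul_le_mul_of_nonneg_left b1 (by positivity)
      _ = _ := by ring
  have hNX : ∀ u ∈ Z.grp P q.al Γ (Icc (v / Gam) (min (Gam * v) 1)), X.NX qq u ≤ K.Cp qq * Real.sqrt (2 * Γ * K.Cp 1 ^ 2 * v) := by
    intro u hu
    obtain ⟨hu01, b0, b1⟩ := hux u hu
    obtain ⟨w1, -⟩ := hS.raw u hu01
    refine (w1 qq (by omega)).trans ?_
    apply mul_le_mul_of_nonneg_left _ (by linarith)
    apply Real.sqrt_le_sqrt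
    have h1 : (1 : ℝ) ≤ K.Cp 1 ^ 2 := by nlinarith
    have h2 : 0 ≤ 2 * Γ * v := by positivity
    nlinarith
  have hbr := cm6x_br_opt hc hP hl hX hG hGr (th := P.N ^ (-(10 : ℝ))) (Cq := K.Cp qq) hv0 hΓ1 hy0 hl00 heg0 hth (by linarith) hqq hband
    (fun i hi hs => (cm_grp_cap hc hP hG hi hs).1.2.1) (fun i hi hs => (cm_grp_cap hc hP hG hi hs).1.2.2) hlen heg hSb hNX
  have hmis := cm6x_mis_grp hc hP hG hGr hlen
  have hRge := cm6x_R_ge (Cq := K.Cp qq) (qq := qq) hΓ1 hKg hLp hN hv0 hy0 heg0 hl00 (by linarith) hth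
  have hvΓ : v / Γ ≤ Γ * v := by
    exact (div_le_self hv0.le hΓ1).trans (le_mul_of_one_le_left hv0.le hΓ1)
  have hvol : volume (Z.grp P q.al Γ (Icc (v / Gam) (min (Gam * v) 1))) ≤ ENNReal.ofReal (Γ * v - v / Γ) := by
    have := measure_mono (μ := volume) hband
    rwa [Real.volume_Icc] at this
  have hfin : volume (Z.grp P q.al Γ (Icc (v / Gam) (min (Gam * v) 1))) ≠ ⊤ := (lt_of_le_of_lt hvol ENNReal.ofReal_lt_top).ne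
  have hV : volume.real (Z.grp P q.al Γ (Icc (v / Gam) (min (Gam * v) 1))) ≤ Γ * v := by
    have e1 := ENNReal.toReal_mono ENNReal.ofReal_ne_top hvol
    rw [ENNReal.toReal_ofReal (by linarith)] at e1
    have : 0 ≤ v / Γ := by positivity
    exact e1.trans (by linarith)
  have hKL : 1 ≤ K.Kg * Lp ^ 2 := one_le_mul_of_one_le_of_one_le hKg (one_le_pow₀ hLp)
  have hint := cm6x_grp_int (F := cm6xF q X) (D2 := fun u => X.D u ^ 2) (A := 1 + K.Kg * Lp ^ 2)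
    (B := K.Kg * Lp ^ 2 * (G2 ^ 3 * (P.N ^ (-P.dl) * (P.E / P.d ^ 3)) / v) ^ 2) hGr.meas hfin
    ((cm6x_int hc hP hX q).mono_set hsub) ((cm6x_intD hc hP hX).mono_set hsub)
    (fun u hu => by
      have := hmis u hu
      unfold cm6xF
      linarith) (by linarith) (by positivity) hbr hV
  refine hint.trans ?_
  generalize cm6xR Γ K.Kg Lp P.N v (2 * Γ * K.Cp 1 ^ 2 * v) (P.e lam v / (K.C * Γ)) (G2 ^ 3 * (P.N ^ (-P.dl) * (P.E / P.d ^ 3)) / v) (K.Cp qq)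
    (P.N ^ (-(10 : ℝ))) qq = R at hRge ⊢
  generalize G2 ^ 3 * (P.N ^ (-P.dl) * (P.E / P.d ^ 3)) / v = l0 at hRge hl00 ⊢
  have h := cm6x_grp_fin hKL hRge (by positivity)
  calc (1 + K.Kg * Lp ^ 2) * R + K.Kg * Lp ^ 2 * l0 ^ 2 * (Γ * v) ≤ 3 * (K.Kg * Lp ^ 2) * R := h
    _ = _ := by ring

/-! ### arithmetic kit for `cm6x_arith` (helper290) -/

/-- `(c/w)^(2/3) ≤ c (w^(-1/3))²` for `c ≥ 1` -/
theorem cm6x_ar1 {c w : ℝ} (hc : 1 ≤ c) (hw : 0 < w) : (c / w) ^ (2 / 3 : ℝ) ≤ c * (w ^ (-(1 / 3 : ℝ))) ^ 2 := by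
  have hc0 : 0 < c := by linarith
  rw [div_eq_mul_inv, Real.mul_rpow hc0.le (inv_pos.2 hw).le]
  have h1 : c ^ (2 / 3 : ℝ) ≤ c := by
    calc c ^ (2 / 3 : ℝ) ≤ c ^ (1 : ℝ) := Real.rpow_le_rpow_of_exponent_le hc (by norm_num)
      _ = c := Real.rpow_one c
  have h2 : (w⁻¹) ^ (2 / 3 : ℝ) = (w ^ (-(1 / 3 : ℝ))) ^ 2 := by
    rw [← Real.rpow_natCast (w ^ (-(1 / 3 : ℝ))) 2, ← Real.rpow_mul hw.le, ← Real.rpow_neg_one, ← Real.rpow_mul hw.le]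
    norm_num
  rw [h2]
  gcongr

theorem cm6x_ar2 {w : ℝ} (hw : 0 < w) : (w ^ (-(1 / 2 : ℝ))) ^ 2 = 1 / w := by
  rw [← Real.rpow_natCast (w ^ (-(1 / 2 : ℝ))) 2, ← Real.rpow_mul hw.le]
  norm_num
  rw [Real.rpow_neg_one]

theorem cm6x_ar3 {w : ℝ} (hw : 0 ≤ w) : (w ^ (1 / 2 : ℝ)) ^ 2 = w := by
  rw [← Real.rpow_natCast (w ^ (1 / 2 : ℝ)) 2, ← Real.rpow_mul hw]
  norm_num

/-- the interpolation cost: `cmQ4 ω Cq y0 q = ω (4Cq²y0) ((4Cq²y0)/ω)^s`, `s = 1/(q-1)` -/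
theorem cm6x_ar4 {ω Cq y0 M : ℝ} {q : ℕ} (hq : 3 ≤ q) (hω : 0 < ω) (hCq : 0 < Cq) (hy0 : 0 < y0) (hM : 4 * Cq ^ 2 * y0 / ω ≤ M) :
    cmQ4 ω Cq y0 q ≤ ω * (4 * Cq ^ 2 * y0) * M ^ (1 / ((q : ℝ) - 1)) := by
  unfold cmQ4
  have hq1 : (0 : ℝ) < (q : ℝ) - 1 := by
    have : (3 : ℝ) ≤ q := by exact_mod_cast hq
    linarith
  set s : ℝ := 1 / ((q : ℝ) - 1) with hs
  have hs0 : 0 < s := by positivity
  set Y : ℝ := 4 * Cq ^ 2 * y0 with hY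
  have hY0 : 0 < Y := by positivity
  have e1 : (2 * Cq * Real.sqrt y0) ^ (2 * (q : ℝ) / ((q : ℝ) - 1)) = Y ^ (1 + s) := by
    have h2 : 2 * Cq * Real.sqrt y0 = Y ^ (1 / 2 : ℝ) := by
      rw [← Real.sqrt_eq_rpow, hY]
      rw [show 4 * Cq ^ 2 * y0 = (2 * Cq) ^ 2 * y0 by ring, Real.sqrt_mul (by positivity), Real.sqrt_sq (by positivity)]
    rw [h2, ← Real.rpow_mul hY0.le]
    congr 1
    rw [hs]; field_simp; ring
  rw [e1, Real.rpow_add hY0, Real.rpow_one, Real.rpow_sub hω, Real.rpow_one]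
  have e2 : ω / ω ^ s * (Y * Y ^ s) = ω * Y * (Y / ω) ^ s := by
    rw [Real.div_rpow hY0.le hω.le]
    have : 0 < ω ^ s := Real.rpow_pos_of_pos hω s
    field_simp
  rw [e2]
  gcongr

theorem cm6x_ar5 {Z : ℝ} (hZ : 0 ≤ Z) : Z ^ (1 / 3 : ℝ) ≤ 1 + Z := by
  rcases le_total Z 1 with h | h
  · have := Real.rpow_le_one hZ h (by norm_num : (0 : ℝ) ≤ 1 / 3)
    linarith
  · have : Z ^ (1 / 3 : ℝ) ≤ Z ^ (1 : ℝ) := Real.rpow_le_rpow_of_exponent_le h (by norm_num)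
    rw [Real.rpow_one] at this
    linarith

/-- monotonicity of `cm6xR` in its constituents -/
theorem cm6x_R_le {Gam Kg Lp N v y0 eg l0 Cq th LgB b1 b2 b3 b4 b5 : ℝ} {qq : ℕ} (hGam : 0 ≤ Gam) (hv : 0 ≤ v)
    (hL0 : 0 ≤ 1 + Real.log (1 + Gam * v / th)) (hL : 1 + Real.log (1 + Gam * v / th) ≤ LgB)
    (h0 : 0 ≤ (y0 * (2 * Gam ^ 2 * Kg ^ 2 * Lp ^ 2 / (N * eg)) / v ^ 2) ^ (2 / 3 : ℝ) + (2 * Gam ^ 2 * Kg ^ 2 * Lp ^ 2 / (N * eg)) / v ^ 2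
        + (Kg * Lp * l0) ^ 2 + cmQ4 (Kg * Lp * l0) Cq y0 qq)
    (h1 : (y0 * (2 * Gam ^ 2 * Kg ^ 2 * Lp ^ 2 / (N * eg)) / v ^ 2) ^ (2 / 3 : ℝ) ≤ b1)
    (h2 : (2 * Gam ^ 2 * Kg ^ 2 * Lp ^ 2 / (N * eg)) / v ^ 2 ≤ b2) (h3 : (Kg * Lp * l0) ^ 2 ≤ b3)
    (h4 : cmQ4 (Kg * Lp * l0) Cq y0 qq ≤ b4)
    (h5 : (3 + (y0 ^ 2 * v ^ 2 / (2 * Gam ^ 2 * Kg ^ 2 * Lp ^ 2 / (N * eg))) ^ (1 / 3 : ℝ)) * th ≤ b5) :
    cm6xR Gam Kg Lp N v y0 eg l0 Cq th qq ≤ 10000000 * Gam ^ 3 * LgB ^ 2 * (v * (b1 + b2 + b3 + b4)) + 1000000 * b5 := by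
  unfold cm6xR
  have e : 1000000 * (3 + (y0 ^ 2 * v ^ 2 / (2 * Gam ^ 2 * Kg ^ 2 * Lp ^ 2 / (N * eg))) ^ (1 / 3 : ℝ)) * th
      = 1000000 * ((3 + (y0 ^ 2 * v ^ 2 / (2 * Gam ^ 2 * Kg ^ 2 * Lp ^ 2 / (N * eg))) ^ (1 / 3 : ℝ)) * th) := by ring
  rw [e]
  have hs : (y0 * (2 * Gam ^ 2 * Kg ^ 2 * Lp ^ 2 / (N * eg)) / v ^ 2) ^ (2 / 3 : ℝ) + (2 * Gam ^ 2 * Kg ^ 2 * Lp ^ 2 / (N * eg)) / v ^ 2
        + (Kg * Lp * l0) ^ 2 + cmQ4 (Kg * Lp * l0) Cq y0 qq ≤ b1 + b2 + b3 + b4 := by linarith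
  gcongr

section scales
variable {P : CmCall} {cE D0 : ℝ}

theorem cm6x_sc1 (hc : 0 < cE) (h : P.Ok cE D0) {ca x v : ℝ} (hca : 0 < ca) (hx : ca * P.a ≤ x) (hxv : x ≤ v) :
    P.N ^ (-P.dl) * (P.E / P.d ^ 3) ≤ cE⁻¹ ^ 3 / ca ^ 2 * v ^ 2 := by
  have hN := cm_N_ge h
  have hN0 := cm_N_pos h
  have hE := cm_E_pos hc h
  have hd := h.d0
  have ha := cm_a_pos hc h
  have hus := cm_us_pos hc h
  have hdl := cm_dl_pos h
  have h1 : P.N ^ (-P.dl) ≤ 1 := Real.rpow_le_one_of_one_le_of_nonpos (by linarith) (by linarith)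
  have h2 : P.E / P.d ^ 3 = P.us / P.d * P.a ^ 2 := by
    unfold CmCall.us CmCall.a
    rw [div_pow, mul_pow, Real.sq_sqrt hN0.le]
    field_simp
  have h3 : P.us ≤ cE⁻¹ ^ 3 * P.a := by
    have := cm_us_a hc h
    have h4 : P.N ^ (-(3 * P.m)) ≤ 1 := Real.rpow_le_one_of_one_le_of_nonpos (by linarith) (by have := h.m0; linarith)
    calc P.us ≤ cE⁻¹ ^ 3 * P.N ^ (-(3 * P.m)) * P.a := this
      _ ≤ cE⁻¹ ^ 3 * 1 * P.a := by gcongr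
      _ = cE⁻¹ ^ 3 * P.a := by ring
  have h5 : P.us / P.d ≤ cE⁻¹ ^ 3 := by
    rw [div_le_iff₀ hd]
    calc P.us ≤ cE⁻¹ ^ 3 * P.a := h3
      _ ≤ cE⁻¹ ^ 3 * P.d := by gcongr; exact cm_a_le_d hc h
  have h6 : P.a ≤ v / ca := by rw [le_div_iff₀ hca]; linarith
  have h7 : 0 ≤ P.E / P.d ^ 3 := by positivity
  calc P.N ^ (-P.dl) * (P.E / P.d ^ 3) ≤ 1 * (P.E / P.d ^ 3) := by gcongr
    _ = P.us / P.d * P.a ^ 2 := by rw [one_mul, h2]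
    _ ≤ cE⁻¹ ^ 3 * (v / ca) ^ 2 := by gcongr
    _ = cE⁻¹ ^ 3 / ca ^ 2 * v ^ 2 := by rw [div_pow]; ring

theorem cm6x_sc2 (hc : 0 < cE) (h : P.Ok cE D0) : cE / (D0 ^ 2 * P.N) ≤ P.N ^ (-P.dl) * (P.E / P.d ^ 3) := by
  have hN := cm_N_ge h
  have hN0 := cm_N_pos h
  have hE := cm_E_pos hc h
  have hd := h.d0
  have hD0 : 0 < D0 := hd.trans_le h.d1
  have hm0 := h.m0
  have hm1 := h.m1
  have h1 : cE * P.N ^ (-(2 / 3 : ℝ)) * P.d ≤ P.E := by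
    refine le_trans ?_ h.E1
    have : P.N ^ (-(2 / 3 : ℝ)) ≤ P.N ^ (-(2 / 3 : ℝ) + P.m) := Real.rpow_le_rpow_of_exponent_le (by linarith) (by linarith)
    gcongr
  have h2 : P.N ^ (-(1 : ℝ)) ≤ P.N ^ (-P.dl) * P.N ^ (-(2 / 3 : ℝ)) := by
    rw [← Real.rpow_add hN0]
    apply Real.rpow_le_rpow_of_exponent_le (by linarith)
    unfold CmCall.dl; linarith
  have h3 : P.N ^ (-(1 : ℝ)) = 1 / P.N := by rw [Real.rpow_neg_one, one_div]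
  have h4 : P.d ^ 2 ≤ D0 ^ 2 := by gcongr; exact h.d1
  have hp : 0 < P.N ^ (-P.dl) := Real.rpow_pos_of_pos hN0 _
  calc cE / (D0 ^ 2 * P.N) = cE * (1 / P.N) / D0 ^ 2 := by field_simp
    _ ≤ cE * (P.N ^ (-P.dl) * P.N ^ (-(2 / 3 : ℝ))) / D0 ^ 2 := by rw [← h3]; gcongr
    _ ≤ cE * (P.N ^ (-P.dl) * P.N ^ (-(2 / 3 : ℝ))) / P.d ^ 2 := by gcongr
    _ = P.N ^ (-P.dl) * ((cE * P.N ^ (-(2 / 3 : ℝ)) * P.d) / P.d ^ 3) := by field_simp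
    _ ≤ P.N ^ (-P.dl) * (P.E / P.d ^ 3) := by gcongr

theorem cm6x_sc3 (hc : 0 < cE) (h : P.Ok cE D0) {ca x v : ℝ} (hca : 0 < ca) (hx : ca * P.a ≤ x) (hxv : x ≤ v) :
    ca * cE / D0 ^ 4 / P.N ^ 3 ≤ v * (P.N ^ (P.dl / 2) * P.us) ^ 2 := by
  have hN := cm_N_ge h
  have hN0 := cm_N_pos h
  have hd := h.d0
  have hD0 : 0 < D0 := hd.trans_le h.d1
  have hus := cm_us_pos hc h
  have hdl := cm_dl_pos h
  have hm0 := h.m0
  have h1 : 1 / P.N / D0 ^ 2 ≤ P.us := by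
    refine le_trans ?_ (cm_us_ge hc h)
    have : P.N ^ (-(1 : ℝ)) ≤ P.N ^ (-(1 / 2 : ℝ)) := Real.rpow_le_rpow_of_exponent_le (by linarith) (by norm_num)
    rw [Real.rpow_neg_one, ← one_div] at this
    gcongr
  have h2 : cE * (1 / P.N) ≤ P.a := by
    refine le_trans ?_ (cm_a_ge hc h)
    have : P.N ^ (-(1 : ℝ)) ≤ P.N ^ (-(1 / 6 : ℝ) + P.m) := Real.rpow_le_rpow_of_exponent_le (by linarith) (by linarith)
    rw [Real.rpow_neg_one, ← one_div] at this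
    gcongr
  have h3 : 1 ≤ P.N ^ (P.dl / 2) := Real.one_le_rpow (by linarith) (by linarith)
  have h4 : ca * (cE * (1 / P.N)) ≤ v := by
    calc ca * (cE * (1 / P.N)) ≤ ca * P.a := by gcongr
      _ ≤ v := hx.trans hxv
  have h5 : 1 / P.N / D0 ^ 2 ≤ P.N ^ (P.dl / 2) * P.us := by
    calc 1 / P.N / D0 ^ 2 ≤ P.us := h1
      _ = 1 * P.us := (one_mul _).symm
      _ ≤ P.N ^ (P.dl / 2) * P.us := by gcongr
  calc ca * cE / D0 ^ 4 / P.N ^ 3 = ca * (cE * (1 / P.N)) * (1 / P.N / D0 ^ 2) ^ 2 := by field_simp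
    _ ≤ v * (P.N ^ (P.dl / 2) * P.us) ^ 2 := by
        have hv0 : 0 ≤ v := le_trans (by positivity) h4
        gcongr

theorem cm6x_sc4 (h : P.Ok cE D0) {Γ v : ℝ} (hΓ : 1 ≤ Γ) (hv0 : 0 < v) (hv : v ≤ 1) :
    0 ≤ 1 + Real.log (1 + Γ * v / P.N ^ (-(10 : ℝ))) ∧
    1 + Real.log (1 + Γ * v / P.N ^ (-(10 : ℝ))) ≤ (11 + Real.log (2 * Γ)) * P.Lam := by
  have hN := cm_N_ge h
  have hN0 := cm_N_pos h
  have hL := cm_Lam_ge_one h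
  have e1 : Γ * v / P.N ^ (-(10 : ℝ)) = Γ * v * P.N ^ 10 := by
    rw [Real.rpow_neg hN0.le, div_inv_eq_mul]
    congr 1
    exact_mod_cast Real.rpow_natCast P.N 10
  have hp : 1 ≤ P.N ^ 10 := one_le_pow₀ (by linarith)
  have h1 : 1 + Γ * v * P.N ^ 10 ≤ 2 * Γ * P.N ^ 10 := by
    have : Γ * v * P.N ^ 10 ≤ Γ * 1 * P.N ^ 10 := by gcongr
    have h2 : 1 ≤ Γ * P.N ^ 10 := by nlinarith
    linarith
  have h0 : 1 ≤ 1 + Γ * v * P.N ^ 10 := by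
    have : 0 ≤ Γ * v * P.N ^ 10 := by positivity
    linarith
  rw [e1]
  refine ⟨by have := Real.log_nonneg h0; linarith, ?_⟩
  have h3 : Real.log (1 + Γ * v * P.N ^ 10) ≤ Real.log (2 * Γ) + 10 * P.Lam := by
    calc Real.log (1 + Γ * v * P.N ^ 10) ≤ Real.log (2 * Γ * P.N ^ 10) := Real.log_le_log (by linarith) h1
      _ = Real.log (2 * Γ) + 10 * P.Lam := by
        rw [Real.log_mul (by positivity) (by positivity), Real.log_pow]; simp [CmCall.Lam]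
  have h4 : 0 ≤ Real.log (2 * Γ) := Real.log_nonneg (by linarith)
  nlinarith

end scales

/-- the last step of `cm6x_arith`, pure real algebra -/
theorem cm6x_ar6 {Lp Λ Ne R2 v cS c8 k7 CL Ce B b5 X : ℝ} (hLp1 : 1 ≤ Lp) (hLp : Lp ≤ CL * Λ) (hΛ : 1 ≤ Λ) (hNe : 1 ≤ Ne) (hR2 : 0 ≤ R2) (hv : 0 ≤ v)
    (hcS : 0 ≤ cS) (hc8 : 0 ≤ c8) (hk7 : 0 ≤ k7) (hΛ6 : Λ ^ 6 ≤ Ce * Ne)
    (hB : B ≤ cS * Lp ^ 2 * Ne * R2) (hb5 : b5 ≤ c8 * (v * R2))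
    (hX : X ≤ k7 * Λ ^ 2 * (v * B) + 1000000 * b5) :
    Lp ^ 2 * X ≤ CL ^ 4 * Ce * (k7 * cS + 1000000 * c8) * (Ne * Ne) * v * R2 := by
  have hLp0 : 0 ≤ Lp := by linarith
  have hΛ0 : 0 ≤ Λ := by linarith
  have hvR : 0 ≤ v * R2 := by positivity
  have h1 : X ≤ k7 * Λ ^ 2 * (v * (cS * Lp ^ 2 * Ne * R2)) + 1000000 * (c8 * (v * R2)) := by
    refine hX.trans ?_
    gcongr
  have hLp2 : 1 ≤ Lp ^ 2 := by nlinarith
  have hΛ2 : 1 ≤ Λ ^ 2 := by nlinarith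
  have h2 : k7 * Λ ^ 2 * (v * (cS * Lp ^ 2 * Ne * R2)) + 1000000 * (c8 * (v * R2))
      ≤ (k7 * cS + 1000000 * c8) * (Lp ^ 2 * Λ ^ 2 * Ne) * (v * R2) := by
    have h3 : 1 ≤ Lp ^ 2 * Λ ^ 2 * Ne := by
      calc (1 : ℝ) = 1 * 1 * 1 := by norm_num
        _ ≤ Lp ^ 2 * Λ ^ 2 * Ne := by gcongr
    have h4 : 1000000 * (c8 * (v * R2)) ≤ 1000000 * c8 * (Lp ^ 2 * Λ ^ 2 * Ne) * (v * R2) := by
      have : 0 ≤ 1000000 * c8 * (v * R2) := by positivity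
      nlinarith
    nlinarith
  have h5 : Lp ^ 4 ≤ CL ^ 4 * Λ ^ 4 := by
    calc Lp ^ 4 ≤ (CL * Λ) ^ 4 := by gcongr
      _ = CL ^ 4 * Λ ^ 4 := by ring
  have hCL : 0 ≤ CL ^ 4 := by positivity
  have h6 : Lp ^ 2 * (Lp ^ 2 * Λ ^ 2 * Ne) ≤ CL ^ 4 * Ce * (Ne * Ne) := by
    calc Lp ^ 2 * (Lp ^ 2 * Λ ^ 2 * Ne) = Lp ^ 4 * (Λ ^ 2 * Ne) := by ring
      _ ≤ CL ^ 4 * Λ ^ 4 * (Λ ^ 2 * Ne) := by gcongr
      _ = CL ^ 4 * Λ ^ 6 * Ne := by ring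
      _ ≤ CL ^ 4 * (Ce * Ne) * Ne := by gcongr
      _ = CL ^ 4 * Ce * (Ne * Ne) := by ring
  have hk : 0 ≤ k7 * cS + 1000000 * c8 := by positivity
  calc Lp ^ 2 * X ≤ Lp ^ 2 * ((k7 * cS + 1000000 * c8) * (Lp ^ 2 * Λ ^ 2 * Ne) * (v * R2)) := by
        gcongr; exact h1.trans h2
    _ = (k7 * cS + 1000000 * c8) * (Lp ^ 2 * (Lp ^ 2 * Λ ^ 2 * Ne)) * (v * R2) := by ring
    _ ≤ (k7 * cS + 1000000 * c8) * (CL ^ 4 * Ce * (Ne * Ne)) * (v * R2) := by gcongr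
    _ = CL ^ 4 * Ce * (k7 * cS + 1000000 * c8) * (Ne * Ne) * v * R2 := by ring


theorem cm6x_t1 {Γ Kg Lp N v C Cp1 e : ℝ} (hΓ : 1 ≤ Γ) (hKg : 1 ≤ Kg) (hLp : 1 ≤ Lp) (hN : 0 < N) (hv : 0 < v) (hC : 1 ≤ C) (hCp : 1 ≤ Cp1) (he : 0 < e) :
    (2 * Γ * Cp1 ^ 2 * v * (2 * Γ ^ 2 * Kg ^ 2 * Lp ^ 2 / (N * (e / (C * Γ)))) / v ^ 2) ^ (2 / 3 : ℝ)
      ≤ 4 * C * Γ ^ 4 * Kg ^ 2 * Cp1 ^ 2 * Lp ^ 2 * ((N * e * v) ^ (-(1 / 3 : ℝ))) ^ 2 := by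
  have hΓ0 : 0 < Γ := by linarith
  have hC0 : 0 < C := by linarith
  have e1 : 2 * Γ * Cp1 ^ 2 * v * (2 * Γ ^ 2 * Kg ^ 2 * Lp ^ 2 / (N * (e / (C * Γ)))) / v ^ 2
      = (4 * C * Γ ^ 4 * Kg ^ 2 * Cp1 ^ 2 * Lp ^ 2) / (N * e * v) := by
    field_simp
    ring
  rw [e1]
  refine cm6x_ar1 ?_ (by positivity)
  calc (1 : ℝ) = 4 * 1 * 1 ^ 4 * 1 ^ 2 * 1 ^ 2 * 1 ^ 2 - 3 := by norm_num
    _ ≤ 4 * 1 * 1 ^ 4 * 1 ^ 2 * 1 ^ 2 * 1 ^ 2 := by norm_num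
    _ ≤ 4 * C * Γ ^ 4 * Kg ^ 2 * Cp1 ^ 2 * Lp ^ 2 := by gcongr

theorem cm6x_t2 {Γ Kg Lp N v C e : ℝ} (hΓ : 0 < Γ) (hN : 0 < N) (hv : 0 < v) (hC : 0 < C) (he : 0 < e) :
    (2 * Γ ^ 2 * Kg ^ 2 * Lp ^ 2 / (N * (e / (C * Γ)))) / v ^ 2 = 2 * C * Γ ^ 3 * Kg ^ 2 * Lp ^ 2 * ((N * e * v ^ 2) ^ (-(1 / 2 : ℝ))) ^ 2 := by
  rw [cm6x_ar2 (by positivity)]
  field_simp

theorem cm6x_t3 {Kg Lp G2 A3 v kA : ℝ} (hv : 0 < v) (hA0 : 0 ≤ A3) (hA : A3 ≤ kA * v ^ 2) :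
    (Kg * Lp * (G2 ^ 3 * A3 / v)) ^ 2 ≤ Kg ^ 2 * G2 ^ 6 * kA * Lp ^ 2 * A3 := by
  have e1 : (Kg * Lp * (G2 ^ 3 * A3 / v)) ^ 2 = Kg ^ 2 * G2 ^ 6 * Lp ^ 2 * A3 * (A3 / v ^ 2) := by
    field_simp
  have h1 : A3 / v ^ 2 ≤ kA := by rw [div_le_iff₀ (by positivity)]; exact hA
  rw [e1]
  calc Kg ^ 2 * G2 ^ 6 * Lp ^ 2 * A3 * (A3 / v ^ 2) ≤ Kg ^ 2 * G2 ^ 6 * Lp ^ 2 * A3 * kA := by gcongr
    _ = _ := by ring

theorem cm6x_t4 {Γ Kg Lp N v Cp1 Cq G2 A3 kB ε : ℝ} {qq : ℕ} (hq : 3 ≤ qq) (hs : 1 / ((qq : ℝ) - 1) ≤ ε)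
    (hΓ : 1 ≤ Γ) (hKg : 1 ≤ Kg) (hLp : 1 ≤ Lp) (hN : 1 ≤ N) (hv : 0 < v) (hv1 : v ≤ 1) (hCp : 1 ≤ Cp1) (hCq : 1 ≤ Cq) (hG2 : 1 ≤ G2)
    (hkB : 0 < kB) (hA : kB / N ≤ A3) :
    cmQ4 (Kg * Lp * (G2 ^ 3 * A3 / v)) Cq (2 * Γ * Cp1 ^ 2 * v) qq
      ≤ 8 * Kg * G2 ^ 3 * Γ * Cq ^ 2 * Cp1 ^ 2 * (8 * Cq ^ 2 * Γ * Cp1 ^ 2 / kB + 1) * Lp ^ 2 * N ^ ε * A3 := by
  have hN0 : 0 < N := by linarith
  have hA0 : 0 < A3 := lt_of_lt_of_le (by positivity) hA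
  have hΓ0 : 0 < Γ := by linarith
  have hKg0 : 0 < Kg := by linarith
  have hLp0 : 0 < Lp := by linarith
  have hCp0 : 0 < Cp1 := by linarith
  have hCq0 : 0 < Cq := by linarith
  have hG20 : 0 < G2 := by linarith
  have hq1 : (2 : ℝ) ≤ (qq : ℝ) - 1 := by
    have : (3 : ℝ) ≤ qq := by exact_mod_cast hq
    linarith
  set s : ℝ := 1 / ((qq : ℝ) - 1) with hsd
  have hs0 : 0 < s := by positivity
  have hs1 : s ≤ 1 := by rw [hsd, div_le_one (by linarith)]; linarith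
  set c5 : ℝ := 8 * Cq ^ 2 * Γ * Cp1 ^ 2 / kB + 1 with hc5
  have hc51 : 1 ≤ c5 := by
    have : 0 ≤ 8 * Cq ^ 2 * Γ * Cp1 ^ 2 / kB := by positivity
    linarith
  have hM : 4 * Cq ^ 2 * (2 * Γ * Cp1 ^ 2 * v) / (Kg * Lp * (G2 ^ 3 * A3 / v)) ≤ c5 * N := by
    have e1 : 4 * Cq ^ 2 * (2 * Γ * Cp1 ^ 2 * v) / (Kg * Lp * (G2 ^ 3 * A3 / v))
        = 8 * Cq ^ 2 * Γ * Cp1 ^ 2 * (v ^ 2 / (Kg * Lp * G2 ^ 3)) / A3 := by
      field_simp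
      ring
    have h1 : v ^ 2 / (Kg * Lp * G2 ^ 3) ≤ 1 := by
      rw [div_le_one (by positivity)]
      calc v ^ 2 ≤ 1 ^ 2 := by gcongr
        _ = 1 * 1 * 1 ^ 3 := by norm_num
        _ ≤ Kg * Lp * G2 ^ 3 := by gcongr
    have h2 : 1 / A3 ≤ N / kB := by
      rw [div_le_div_iff₀ hA0 hkB]
      rw [div_le_iff₀ hN0] at hA
      linarith
    rw [e1]
    calc 8 * Cq ^ 2 * Γ * Cp1 ^ 2 * (v ^ 2 / (Kg * Lp * G2 ^ 3)) / A3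
        = 8 * Cq ^ 2 * Γ * Cp1 ^ 2 * (v ^ 2 / (Kg * Lp * G2 ^ 3)) * (1 / A3) := by ring
      _ ≤ 8 * Cq ^ 2 * Γ * Cp1 ^ 2 * 1 * (N / kB) := by gcongr
      _ = (8 * Cq ^ 2 * Γ * Cp1 ^ 2 / kB) * N := by ring
      _ ≤ c5 * N := by gcongr; linarith
  have h4 := cm6x_ar4 hq (ω := Kg * Lp * (G2 ^ 3 * A3 / v)) (Cq := Cq) (y0 := 2 * Γ * Cp1 ^ 2 * v) (by positivity) hCq0 (by positivity) hM
  refine h4.trans ?_
  have h5 : (c5 * N) ^ s ≤ c5 * N ^ ε := by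
    rw [Real.mul_rpow (by linarith) hN0.le]
    have a : c5 ^ s ≤ c5 := by
      calc c5 ^ s ≤ c5 ^ (1 : ℝ) := Real.rpow_le_rpow_of_exponent_le hc51 hs1
        _ = c5 := Real.rpow_one _
    have b : N ^ s ≤ N ^ ε := Real.rpow_le_rpow_of_exponent_le hN hs
    gcongr
  have e2 : Kg * Lp * (G2 ^ 3 * A3 / v) * (4 * Cq ^ 2 * (2 * Γ * Cp1 ^ 2 * v)) = 8 * Kg * G2 ^ 3 * Γ * Cq ^ 2 * Cp1 ^ 2 * Lp * A3 := by
    field_simp
    ring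
  rw [e2]
  have hNe : 0 < N ^ ε := Real.rpow_pos_of_pos hN0 _
  calc 8 * Kg * G2 ^ 3 * Γ * Cq ^ 2 * Cp1 ^ 2 * Lp * A3 * (c5 * N) ^ s
      ≤ 8 * Kg * G2 ^ 3 * Γ * Cq ^ 2 * Cp1 ^ 2 * Lp ^ 2 * A3 * (c5 * N ^ ε) := by
        have : Lp ≤ Lp ^ 2 := by nlinarith
        gcongr
    _ = _ := by ring

theorem cm6x_t5 {Γ Kg Lp N v C Cp1 e D2 : ℝ} (hΓ : 1 ≤ Γ) (hKg : 1 ≤ Kg) (hLp : 1 ≤ Lp) (hN : 1 ≤ N) (hv : 0 < v) (hv1 : v ≤ 1) (hC : 1 ≤ C) (hCp : 1 ≤ Cp1)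
    (he : 0 < e) (heD : e ≤ D2) :
    (3 + ((2 * Γ * Cp1 ^ 2 * v) ^ 2 * v ^ 2 / (2 * Γ ^ 2 * Kg ^ 2 * Lp ^ 2 / (N * (e / (C * Γ))))) ^ (1 / 3 : ℝ)) * N ^ (-(10 : ℝ))
      ≤ (4 + 4 * Γ ^ 2 * Cp1 ^ 4 * D2) / N ^ 3 := by
  have hN0 : 0 < N := by linarith
  have hΓ0 : 0 < Γ := by linarith
  have hKg0 : 0 < Kg := by linarith
  have hLp0 : 0 < Lp := by linarith
  have hC0 : 0 < C := by linarith
  have hCp0 : 0 < Cp1 := by linarith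
  have hD2 : 0 < D2 := by linarith
  set Z : ℝ := (2 * Γ * Cp1 ^ 2 * v) ^ 2 * v ^ 2 / (2 * Γ ^ 2 * Kg ^ 2 * Lp ^ 2 / (N * (e / (C * Γ)))) with hZ
  have hZ0 : 0 ≤ Z := by positivity
  have e1 : Z = 4 * Γ ^ 2 * Cp1 ^ 4 * (v ^ 4 / (2 * C * Γ ^ 3 * Kg ^ 2 * Lp ^ 2)) * e * N := by
    rw [hZ]; field_simp; ring
  have h1 : v ^ 4 / (2 * C * Γ ^ 3 * Kg ^ 2 * Lp ^ 2) ≤ 1 := by
    rw [div_le_one (by positivity)]
    calc v ^ 4 ≤ 1 ^ 4 := by gcongr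
      _ ≤ 2 * 1 * 1 ^ 3 * 1 ^ 2 * 1 ^ 2 := by norm_num
      _ ≤ 2 * C * Γ ^ 3 * Kg ^ 2 * Lp ^ 2 := by gcongr
  have h2 : Z ≤ 4 * Γ ^ 2 * Cp1 ^ 4 * D2 * N := by
    rw [e1]
    calc 4 * Γ ^ 2 * Cp1 ^ 4 * (v ^ 4 / (2 * C * Γ ^ 3 * Kg ^ 2 * Lp ^ 2)) * e * N ≤ 4 * Γ ^ 2 * Cp1 ^ 4 * 1 * D2 * N := by gcongr
      _ = _ := by ring
  have h3 := cm6x_ar5 hZ0
  have h4 : 3 + Z ^ (1 / 3 : ℝ) ≤ (4 + 4 * Γ ^ 2 * Cp1 ^ 4 * D2) * N := by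
    have : (4 : ℝ) ≤ 4 * N := by linarith
    nlinarith
  have h5 : N ^ (-(10 : ℝ)) ≤ 1 / N ^ 4 := by
    have h6 : N ^ (-(10 : ℝ)) ≤ N ^ (-(4 : ℝ)) := Real.rpow_le_rpow_of_exponent_le hN (by norm_num)
    have e4 : N ^ (-(4 : ℝ)) = 1 / N ^ 4 := by
      rw [Real.rpow_neg hN0.le, one_div]
      congr 1
      exact_mod_cast Real.rpow_natCast N 4
    rw [e4] at h6
    exact h6
  have hp : 0 ≤ N ^ (-(10 : ℝ)) := Real.rpow_nonneg hN0.le _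
  calc (3 + Z ^ (1 / 3 : ℝ)) * N ^ (-(10 : ℝ)) ≤ ((4 + 4 * Γ ^ 2 * Cp1 ^ 4 * D2) * N) * (1 / N ^ 4) := by gcongr
    _ = _ := by field_simp

theorem cm6x_sq4 {a1 a2 a3 a4 : ℝ} (h1 : 0 ≤ a1) (h2 : 0 ≤ a2) (h3 : 0 ≤ a3) (h4 : 0 ≤ a4) :
    a1 ^ 2 + a2 ^ 2 + a3 ^ 2 + a4 ^ 2 ≤ (a1 + a2 + a3 + a4) ^ 2 := by
  nlinarith [mul_nonneg h1 h2, mul_nonneg h1 h3, mul_nonneg h1 h4, mul_nonneg h2 h3, mul_nonneg h2 h4, mul_nonneg h3 h4]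


theorem cm6x_ar9 {c1 c2 c3 c4 L2 Ne a1 a2 a3 a4 R2 : ℝ} (h1 : 0 ≤ c1) (h2 : 0 ≤ c2) (h3 : 0 ≤ c3) (h4 : 0 ≤ c4) (hL : 0 ≤ L2) (hNe : 1 ≤ Ne)
    (ha1 : 0 ≤ a1) (ha2 : 0 ≤ a2) (ha3 : 0 ≤ a3) (ha4 : 0 ≤ a4) (h : a1 + a2 + a3 + a4 ≤ R2) :
    c1 * L2 * a1 + c2 * L2 * a2 + c3 * L2 * a3 + c4 * L2 * Ne * a3 ≤ (c1 + c2 + c3 + c4) * L2 * Ne * R2 := by
  have hR : 0 ≤ R2 := by linarith
  have b1 : c1 * L2 * a1 ≤ c1 * L2 * Ne * R2 := by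
    calc c1 * L2 * a1 = c1 * L2 * 1 * a1 := by ring
      _ ≤ c1 * L2 * Ne * R2 := by gcongr; linarith
  have b2 : c2 * L2 * a2 ≤ c2 * L2 * Ne * R2 := by
    calc c2 * L2 * a2 = c2 * L2 * 1 * a2 := by ring
      _ ≤ c2 * L2 * Ne * R2 := by gcongr; linarith
  have b3 : c3 * L2 * a3 ≤ c3 * L2 * Ne * R2 := by
    calc c3 * L2 * a3 = c3 * L2 * 1 * a3 := by ring
      _ ≤ c3 * L2 * Ne * R2 := by gcongr; linarith
  have b4 : c4 * L2 * Ne * a3 ≤ c4 * L2 * Ne * R2 := by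
    gcongr; linarith
  calc c1 * L2 * a1 + c2 * L2 * a2 + c3 * L2 * a3 + c4 * L2 * Ne * a3
      ≤ c1 * L2 * Ne * R2 + c2 * L2 * Ne * R2 + c3 * L2 * Ne * R2 + c4 * L2 * Ne * R2 := by linarith
    _ = _ := by ring

/-- the instance step of `cm6x_arith` with all constants explicit -/
theorem cm6x_ar8 (K : CmK) (hK : K.Ok) {ε Γ G2 Ce : ℝ} {qq : ℕ} (hε : 0 < ε) (hΓ : 1 ≤ Γ) (hG2 : 1 ≤ G2) (hq : 3 ≤ qq) (hs : 1 / ((qq : ℝ) - 1) ≤ ε)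
    {P : CmCall} {lam Lp x v : ℝ} (hP : P.Ok K.cE K.D0) (hl : 0 < lam) (hl2 : lam ≤ P.d ^ 2) (hLp1 : 1 ≤ Lp) (hLp : Lp ≤ K.CL * P.Lam)
    (hx : K.ca * P.a ≤ x) (hxv : x ≤ v) (hv1 : v ≤ 1) (hCe : P.Lam ^ 6 ≤ Ce * P.N ^ ε) :
    Lp ^ 2 * cm6xR Γ K.Kg Lp P.N v (2 * Γ * K.Cp 1 ^ 2 * v) (P.e lam v / (K.C * Γ)) (G2 ^ 3 * (P.N ^ (-P.dl) * (P.E / P.d ^ 3)) / v) (K.Cp qq)
          (P.N ^ (-(10 : ℝ))) qq ≤
      K.CL ^ 4 * Ce * (10000000 * Γ ^ 3 * (11 + Real.log (2 * Γ)) ^ 2 * (4 * K.C * Γ ^ 4 * K.Kg ^ 2 * K.Cp 1 ^ 2 + 2 * K.C * Γ ^ 3 * K.Kg ^ 2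
          + K.Kg ^ 2 * G2 ^ 6 * (K.cE⁻¹ ^ 3 / K.ca ^ 2)
          + 8 * K.Kg * G2 ^ 3 * Γ * K.Cp qq ^ 2 * K.Cp 1 ^ 2 * (8 * K.Cp qq ^ 2 * Γ * K.Cp 1 ^ 2 / (K.cE / K.D0 ^ 2) + 1))
        + 1000000 * ((4 + 4 * Γ ^ 2 * K.Cp 1 ^ 4 * K.D0 ^ 2) * (K.D0 ^ 4 / (K.ca * K.cE)))) * (P.N ^ ε * P.N ^ ε) * v * P.R18 lam v ^ 2 := by
  have hC := hK.C1
  have hKg := hK.Kg1
  have hCp1 := hK.Cp1 1
  have hCq := hK.Cp1 qq
  have hcE := hK.cE0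
  have hD0 := hK.D00
  have hca := hK.ca0
  have hΓ0 : 0 < Γ := by linarith
  have hG20 : 0 < G2 := by linarith
  have hC0 : 0 < K.C := by linarith
  have hKg0 : 0 < K.Kg := by linarith
  have hCp10 : 0 < K.Cp 1 := by linarith
  have hCq0 : 0 < K.Cp qq := by linarith
  have hN := cm_N_ge hP
  have hN0 := cm_N_pos hP
  have hN1 : 1 ≤ P.N := by linarith
  have hE := cm_E_pos hcE hP
  have hd := hP.d0
  have ha := cm_a_pos hcE hP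
  have hΛ := cm_Lam_ge_one hP
  have hv0 : 0 < v := lt_of_lt_of_le (by positivity) (hx.trans hxv)
  have hLp0 : 0 < Lp := by linarith
  have he0 : 0 < P.e lam v := cm_e_pos (P := P) hl v
  have heD : P.e lam v ≤ K.D0 ^ 2 := by
    calc P.e lam v ≤ lam := cm_e_le (P := P) hl.le v
      _ ≤ P.d ^ 2 := hl2
      _ ≤ K.D0 ^ 2 := by gcongr; exact hP.d1
  have hA30 : 0 < P.N ^ (-P.dl) * (P.E / P.d ^ 3) := by positivity
  have hA3le := cm6x_sc1 hcE hP hca hx hxv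
  have hA3ge : K.cE / K.D0 ^ 2 / P.N ≤ P.N ^ (-P.dl) * (P.E / P.d ^ 3) := by
    rw [div_div]; exact cm6x_sc2 hcE hP
  have hNe1 : 1 ≤ P.N ^ ε := Real.one_le_rpow hN1 hε.le
  have ha10 : 0 ≤ (P.N * P.e lam v * v) ^ (-(1 / 3 : ℝ)) := Real.rpow_nonneg (by positivity) _
  have ha20 : 0 ≤ (P.N * P.e lam v * v ^ 2) ^ (-(1 / 2 : ℝ)) := Real.rpow_nonneg (by positivity) _
  have ha30 : 0 ≤ (P.N ^ (-P.dl) * P.E / P.d ^ 3) ^ (1 / 2 : ℝ) := Real.rpow_nonneg (by positivity) _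
  have ha40 : 0 ≤ P.N ^ (P.dl / 2) * P.us := by have := cm_us_pos hcE hP; positivity
  have ha3sq : ((P.N ^ (-P.dl) * P.E / P.d ^ 3) ^ (1 / 2 : ℝ)) ^ 2 = P.N ^ (-P.dl) * (P.E / P.d ^ 3) := by
    rw [cm6x_ar3 (by positivity)]; ring
  have hR2ge := cm6x_sq4 ha10 ha20 ha30 ha40
  rw [ha3sq] at hR2ge
  have hR18 : ((P.N * P.e lam v * v) ^ (-(1 / 3 : ℝ)) + (P.N * P.e lam v * v ^ 2) ^ (-(1 / 2 : ℝ)) + (P.N ^ (-P.dl) * P.E / P.d ^ 3) ^ (1 / 2 : ℝ)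
    + P.N ^ (P.dl / 2) * P.us) = P.R18 lam v := by unfold CmCall.R18; rfl
  rw [hR18] at hR2ge
  have t1 := cm6x_t1 hΓ hKg hLp1 hN0 hv0 hC hCp1 he0
  have t2 := cm6x_t2 (Kg := K.Kg) (Lp := Lp) hΓ0 hN0 hv0 hC0 he0
  have t3 := cm6x_t3 (Kg := K.Kg) (Lp := Lp) (G2 := G2) hv0 hA30.le hA3le
  have t4 := cm6x_t4 hq hs hΓ hKg hLp1 hN1 hv0 hv1 hCp1 hCq hG2 (by positivity) hA3ge
  have t5 := cm6x_t5 hΓ hKg hLp1 hN1 hv0 hv1 hC hCp1 he0 heD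
  have s3 := cm6x_sc3 hcE hP hca hx hxv
  obtain ⟨s40, s4⟩ := cm6x_sc4 hP hΓ hv0 hv1
  have hq4 : 0 ≤ cmQ4 (K.Kg * Lp * (G2 ^ 3 * (P.N ^ (-P.dl) * (P.E / P.d ^ 3)) / v)) (K.Cp qq) (2 * Γ * K.Cp 1 ^ 2 * v) qq := by
    unfold cmQ4; positivity
  have hX := cm6x_R_le (Cq := K.Cp qq) (qq := qq) hΓ0.le hv0.le s40 s4 (by positivity) t1 t2.le t3 t4 t5
  have hc6 : 0 ≤ 11 + Real.log (2 * Γ) := by
    have : 0 ≤ Real.log (2 * Γ) := Real.log_nonneg (by linarith)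
    linarith
  have hB := cm6x_ar9 (c1 := 4 * K.C * Γ ^ 4 * K.Kg ^ 2 * K.Cp 1 ^ 2) (c2 := 2 * K.C * Γ ^ 3 * K.Kg ^ 2) (c3 := K.Kg ^ 2 * G2 ^ 6 * (K.cE⁻¹ ^ 3 / K.ca ^ 2))
    (c4 := 8 * K.Kg * G2 ^ 3 * Γ * K.Cp qq ^ 2 * K.Cp 1 ^ 2 * (8 * K.Cp qq ^ 2 * Γ * K.Cp 1 ^ 2 / (K.cE / K.D0 ^ 2) + 1)) (L2 := Lp ^ 2)
    (by positivity) (by positivity) (by positivity) (by positivity) (by positivity) hNe1 (sq_nonneg _) (sq_nonneg _) hA30.le (sq_nonneg _) hR2ge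
  have hb5 : (4 + 4 * Γ ^ 2 * K.Cp 1 ^ 4 * K.D0 ^ 2) / P.N ^ 3
      ≤ (4 + 4 * Γ ^ 2 * K.Cp 1 ^ 4 * K.D0 ^ 2) * (K.D0 ^ 4 / (K.ca * K.cE)) * (v * P.R18 lam v ^ 2) := by
    have h1 : (P.N ^ (P.dl / 2) * P.us) ^ 2 ≤ P.R18 lam v ^ 2 := by
      have := sq_nonneg ((P.N * P.e lam v * v) ^ (-(1 / 3 : ℝ)))
      have := sq_nonneg ((P.N * P.e lam v * v ^ 2) ^ (-(1 / 2 : ℝ)))
      linarith
    calc (4 + 4 * Γ ^ 2 * K.Cp 1 ^ 4 * K.D0 ^ 2) / P.N ^ 3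
        = (4 + 4 * Γ ^ 2 * K.Cp 1 ^ 4 * K.D0 ^ 2) * (K.D0 ^ 4 / (K.ca * K.cE)) * (K.ca * K.cE / K.D0 ^ 4 / P.N ^ 3) := by field_simp
      _ ≤ (4 + 4 * Γ ^ 2 * K.Cp 1 ^ 4 * K.D0 ^ 2) * (K.D0 ^ 4 / (K.ca * K.cE)) * (v * (P.N ^ (P.dl / 2) * P.us) ^ 2) := by gcongr
      _ ≤ _ := by gcongr
  refine cm6x_ar6 (k7 := 10000000 * Γ ^ 3 * (11 + Real.log (2 * Γ)) ^ 2) hLp1 hLp hΛ hNe1 (sq_nonneg _) hv0.le (by positivity) (by positivity) (by positivity) hCe hB hb5 ?_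
  refine hX.trans (le_of_eq ?_)
  ring


/-- **the arithmetic of (18)** (l.1019-1029).   `Λ = log n`, `s = 1/(qq-1) ≤ ε`, `T = 2 C Γ³ Kg² Lp²/(N e(v))`, `a1..a4` = the four terms of `R18`.
`(y0 T/v²)^{2/3} = c Lp^{4/3} a1²`;   `T/v² = c Lp² a2²`;   `ω² ≤ c Lp² a3²` (`(E/d³)/v² ≤ u_*/(ca² d) ≤ c`, `cm_us_a`, `cm_a_le_d`);
`cmQ4 ω Cq y0 qq = (2Cq)^{2+2s} ω y0 (y0/ω)^s`, `ω y0 = c Lp a3²`, `y0/ω ≤ c n` (`E1`, `d1`);   `1 + log(1 + Γ v n^{10}) ≤ c Λ`;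
last term `≤ c n^{-9} ≤ c v a4²` (`cm_us_ge`, `cm_a_ge`);   `Lp ≤ CL Λ`, `cm_log_pow 6`. -/
theorem cm6x_arith (K : CmK) (hK : K.Ok) {ε Γ G2 : ℝ} (hε : 0 < ε) (hΓ : 1 ≤ Γ) (hG2 : 1 ≤ G2) :
    ∃ (qq : ℕ) (K1 : ℝ) (n0 : ℕ), 3 ≤ qq ∧ 0 < K1 ∧ ∀ (P : CmCall) (lam Lp x v : ℝ), P.Ok K.cE K.D0 → P.m = K.mm → 0 < lam → lam ≤ P.d ^ 2 →
      1 ≤ Lp → Lp ≤ K.CL * P.Lam → K.ca * P.a ≤ x → x ≤ v → v ≤ 1 → n0 ≤ P.n →
        Lp ^ 2 * cm6xR Γ K.Kg Lp P.N v (2 * Γ * K.Cp 1 ^ 2 * v) (P.e lam v / (K.C * Γ)) (G2 ^ 3 * (P.N ^ (-P.dl) * (P.E / P.d ^ 3)) / v) (K.Cp qq)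
          (P.N ^ (-(10 : ℝ))) qq ≤ K1 * P.N ^ (2 * ε) * v * P.R18 lam v ^ 2 := by
  obtain ⟨Ce, hCe0, hCe⟩ := cm_log_pow 6 hε
  have hq3 : 3 ≤ ⌈1 / ε⌉₊ + 3 := by omega
  have hie : 0 < 1 / ε := by positivity
  have hqr : 1 / ε + 2 ≤ ((⌈1 / ε⌉₊ + 3 : ℕ) : ℝ) - 1 := by
    have : 1 / ε ≤ (⌈1 / ε⌉₊ : ℝ) := Nat.le_ceil _
    push_cast; linarith
  have hsε : 1 / (((⌈1 / ε⌉₊ + 3 : ℕ) : ℝ) - 1) ≤ ε := by
    rw [div_le_iff₀ (by linarith)]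
    have : ε * (1 / ε + 2) ≤ ε * (((⌈1 / ε⌉₊ + 3 : ℕ) : ℝ) - 1) := by gcongr
    have e : ε * (1 / ε + 2) = 1 + 2 * ε := by field_simp
    linarith
  have hC := hK.C1
  have hKg := hK.Kg1
  have hCp1 := hK.Cp1 1
  have hCq := hK.Cp1 (⌈1 / ε⌉₊ + 3)
  have hcE := hK.cE0
  have hD0 := hK.D00
  have hca := hK.ca0
  have hCL := hK.CL1
  have hΓ0 : 0 < Γ := by linarith
  have hG20 : 0 < G2 := by linarith
  have hC0 : 0 < K.C := by linarith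
  have hKg0 : 0 < K.Kg := by linarith
  have hCp10 : 0 < K.Cp 1 := by linarith
  have hCq0 : 0 < K.Cp (⌈1 / ε⌉₊ + 3) := by linarith
  have hCL0 : 0 < K.CL := by linarith
  have hc6 : 0 < 11 + Real.log (2 * Γ) := by
    have : 0 ≤ Real.log (2 * Γ) := Real.log_nonneg (by linarith)
    linarith
  refine ⟨⌈1 / ε⌉₊ + 3, K.CL ^ 4 * Ce * (10000000 * Γ ^ 3 * (11 + Real.log (2 * Γ)) ^ 2 * (4 * K.C * Γ ^ 4 * K.Kg ^ 2 * K.Cp 1 ^ 2 + 2 * K.C * Γ ^ 3 * K.Kg ^ 2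
          + K.Kg ^ 2 * G2 ^ 6 * (K.cE⁻¹ ^ 3 / K.ca ^ 2)
          + 8 * K.Kg * G2 ^ 3 * Γ * K.Cp (⌈1 / ε⌉₊ + 3) ^ 2 * K.Cp 1 ^ 2 * (8 * K.Cp (⌈1 / ε⌉₊ + 3) ^ 2 * Γ * K.Cp 1 ^ 2 / (K.cE / K.D0 ^ 2) + 1))
        + 1000000 * ((4 + 4 * Γ ^ 2 * K.Cp 1 ^ 4 * K.D0 ^ 2) * (K.D0 ^ 4 / (K.ca * K.cE)))), 0, hq3, by positivity,
    fun P lam Lp x v hP _ hl hl2 hLp1 hLp hx hxv hv1 _ => ?_⟩
  have hN1 : 1 ≤ P.N := by have := cm_N_ge hP; linarith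
  have h := cm6x_ar8 K hK hε hΓ hG2 hq3 hsε hP hl hl2 hLp1 hLp hx hxv hv1 (hCe P.N hN1)
  have e : P.N ^ (2 * ε) = P.N ^ ε * P.N ^ ε := by
    rw [← Real.rpow_add (cm_N_pos hP)]; congr 1; ring
  rw [e]
  exact h

/-- the floor term of `R18` -/
theorem cm6x_R18_floor {cE D0 : ℝ} (hc : 0 < cE) {P : CmCall} (hP : P.Ok cE D0) {lam v : ℝ} (hl : 0 < lam) (hv : 0 < v) :
    P.N ^ P.dl * P.us ^ 2 ≤ P.R18 lam v ^ 2 := by
  have hN := cm_N_pos hP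
  have hus := cm_us_pos hc hP
  have he := cm_e_pos (P := P) hl v
  have hE := cm_E_pos hc hP
  have hd := hP.d0
  have h1 : 0 ≤ (P.N * P.e lam v * v) ^ (-(1 / 3 : ℝ)) := Real.rpow_nonneg (by positivity) _
  have h2 : 0 ≤ (P.N * P.e lam v * v ^ 2) ^ (-(1 / 2 : ℝ)) := Real.rpow_nonneg (by positivity) _
  have h3 : 0 ≤ (P.N ^ (-P.dl) * P.E / P.d ^ 3) ^ (1 / 2 : ℝ) := Real.rpow_nonneg (by positivity) _
  have h4 : 0 ≤ P.N ^ (P.dl / 2) * P.us := by positivity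
  have h5 : P.N ^ (P.dl / 2) * P.us ≤ P.R18 lam v := by
    unfold CmCall.R18
    linarith
  have h6 : P.N ^ P.dl * P.us ^ 2 = (P.N ^ (P.dl / 2) * P.us) ^ 2 := by
    rw [mul_pow, ← Real.rpow_natCast (P.N ^ (P.dl / 2)) 2, ← Real.rpow_mul hN.le]
    congr 2
    push_cast
    ring
  rw [h6]
  gcongr

/-! ## 3. the exits -/

/-- **(18) with the mismatch**: `∫_J (D² + (S-r)²) ≤ K1 n^{2ε} v R18²` on regular outer dyads.   GLUE: `cm6x_split` (`F = cm6xF q X`, `cm6x_int`), `cm6x_floor`, `cm6x_R18_floor`, `cm6x_grp` at the `qq` of `cm6x_arith` (`Γ := cm6xG K Gam`, `G2 := cm6xG2 K Gam`);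
`K1 = Kf + 3 Kg K1'`, `1 ≤ n^{2ε}`. -/
theorem cm6x_dyad (K : CmK) (hK : K.Ok) {ε Gam : ℝ} (hε : 0 < ε) (hGam : 1 ≤ Gam) :
    ∃ (K1 : ℝ) (n0 : ℕ), 0 < K1 ∧ ∀ (P : CmCall) (lam : ℝ) (q : CmQ P) (X : CmNum) (Z : CmCaps) (Lp x : ℝ),
      CmStd K P lam q X Z Lp x → n0 ≤ P.n → ∀ v : ℝ, cm6xC1 K Gam * x ≤ v → v ≤ 1 →
        ∫ u in Icc (v / Gam) (min (Gam * v) 1), cm6xF q X u ≤ K1 * P.N ^ (2 * ε) * v * P.R18 lam v ^ 2 := by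
  obtain ⟨n1, hn1⟩ := cm6x_split K hK hGam
  obtain ⟨Kf, hKf, hfl⟩ := cm6x_floor K hK hGam
  obtain ⟨n2, hn2⟩ := cm6x_grp K hK hGam
  have hΓ := cm6x_G_ge K hK hGam
  have hG2 := cm6x_G2_ge K hK hGam
  obtain ⟨qq, K1, n3, hqq, hK1, har⟩ := cm6x_arith K hK hε (Γ := cm6xG K Gam) (G2 := cm6xG2 K Gam) (by linarith [hΓ.1]) (by linarith)
  have hKg : 0 < K.Kg := lt_of_lt_of_le one_pos hK.Kg1
  refine ⟨Kf + 3 * K.Kg * K1, max n1 (max n2 n3), by positivity, fun P lam q X Z Lp x hS hn v hv hv1 => ?_⟩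
  have hP := hS.base.ok
  have hc := hK.cE0
  have hN := cm_N_pos hP
  have hN1 : 1 ≤ P.N := by linarith [cm_N_ge hP]
  have hC1 := cm6x_C1_ge K hK hGam
  have hxv : x ≤ v := by
    have : x ≤ cm6xC1 K Gam * x := by nlinarith [hS.x0, hC1.1]
    linarith
  have hv0 : 0 < v := lt_of_lt_of_le hS.x0 hxv
  have a1 := hn1 P lam q X Z Lp x hS (le_trans (le_max_left _ _) hn) v hv hv1 (cm6xF q X) (cm6x_int hc hP hS.base.num q)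
    (fun u _ => by unfold cm6xF; positivity)
  have a2 := hfl P lam q X Z Lp x hS v hv hv1
  have a3 := hn2 P lam q X Z Lp x hS (le_trans (le_trans (le_max_left _ _) (le_max_right _ _)) hn) v hv hv1 qq hqq
  have a4 := har P lam Lp x v hP hS.base.m_eq hS.base.lam0 hS.base.lam1 hS.base.geo.Lp1 hS.base.Lp_le hS.xa hxv hv1
    (le_trans (le_trans (le_max_right _ _) (le_max_right _ _)) hn)
  have a5 := cm6x_R18_floor hc hP hS.base.lam0 hv0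
  have hNe : 1 ≤ P.N ^ (2 * ε) := Real.one_le_rpow hN1 (by positivity)
  have hR : 0 ≤ P.R18 lam v ^ 2 := sq_nonneg _
  have b1 : Kf * v * (P.N ^ P.dl * P.us ^ 2) ≤ Kf * P.N ^ (2 * ε) * v * P.R18 lam v ^ 2 := by
    calc Kf * v * (P.N ^ P.dl * P.us ^ 2) ≤ Kf * v * P.R18 lam v ^ 2 := mul_le_mul_of_nonneg_left a5 (by positivity)
      _ = 1 * (Kf * v * P.R18 lam v ^ 2) := by ring
      _ ≤ P.N ^ (2 * ε) * (Kf * v * P.R18 lam v ^ 2) := mul_le_mul_of_nonneg_right hNe (by positivity)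
      _ = _ := by ring
  set R := cm6xR (cm6xG K Gam) K.Kg Lp P.N v (2 * cm6xG K Gam * K.Cp 1 ^ 2 * v) (P.e lam v / (K.C * cm6xG K Gam))
            (cm6xG2 K Gam ^ 3 * (P.N ^ (-P.dl) * (P.E / P.d ^ 3)) / v) (K.Cp qq) (P.N ^ (-(10 : ℝ))) qq with hRdef
  have b2 : 3 * K.Kg * Lp ^ 2 * R ≤ 3 * K.Kg * K1 * P.N ^ (2 * ε) * v * P.R18 lam v ^ 2 := by
    calc 3 * K.Kg * Lp ^ 2 * R = 3 * K.Kg * (Lp ^ 2 * R) := by ring
      _ ≤ 3 * K.Kg * (K1 * P.N ^ (2 * ε) * v * P.R18 lam v ^ 2) := mul_le_mul_of_nonneg_left a4 (by positivity)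
      _ = _ := by ring
  calc ∫ u in Icc (v / Gam) (min (Gam * v) 1), cm6xF q X u ≤ _ := a1
    _ ≤ Kf * P.N ^ (2 * ε) * v * P.R18 lam v ^ 2 + 3 * K.Kg * K1 * P.N ^ (2 * ε) * v * P.R18 lam v ^ 2 := add_le_add (a2.trans b1) (a3.trans b2)
    _ = _ := by ring

/-- **(18)** = the statement of `cm_x18`.   GLUE: `C1 = cm6xC1 K Gam`; `u0 ≤ x ≤ v/Gam` gives `Icc (v/Gam) (Gam v) ∩ Icc u0 1 = Icc (v/Gam) (min (Gam v) 1)`; `D² ≤ cm6xF`, `setIntegral_mono_on` (`cm6x_intD`, `cm6x_int`). -/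
theorem cm6x_18 (K : CmK) (hK : K.Ok) {ε Gam : ℝ} (hε : 0 < ε) (hGam : 1 ≤ Gam) :
    ∃ (K1 C1 : ℝ) (n0 : ℕ), 0 < K1 ∧ 1 ≤ C1 ∧ ∀ (P : CmCall) (lam : ℝ) (q : CmQ P) (X : CmNum) (Z : CmCaps) (Lp x : ℝ),
      CmStd K P lam q X Z Lp x → n0 ≤ P.n → ∀ v : ℝ, C1 * x ≤ v → v ≤ 1 →
        ∫ u in Icc (v / Gam) (Gam * v) ∩ Icc P.u0 1, X.D u ^ 2 ≤ K1 * P.N ^ (2 * ε) * v * P.R18 lam v ^ 2 := by
  obtain ⟨K1, n0, hK1, h⟩ := cm6x_dyad K hK hε hGam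
  have hC1 := cm6x_C1_ge K hK hGam
  refine ⟨K1, cm6xC1 K Gam, n0, hK1, hC1.1, fun P lam q X Z Lp x hS hn v hv hv1 => ?_⟩
  have hP := hS.base.ok
  have hc := hK.cE0
  have hGam0 : 0 < Gam := lt_of_lt_of_le one_pos hGam
  have hu0 : P.u0 ≤ v / Gam := by
    rw [le_div_iff₀ hGam0]
    have e1 : 4 * Gam * x ≤ cm6xC1 K Gam * x := mul_le_mul_of_nonneg_right hC1.2.1 hS.x0.le
    have e2 : P.u0 * Gam ≤ x * Gam := mul_le_mul_of_nonneg_right hS.u0x hGam0.le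
    nlinarith [hS.x0, mul_pos hGam0 hS.x0]
  have hset : Icc (v / Gam) (Gam * v) ∩ Icc P.u0 1 = Icc (v / Gam) (min (Gam * v) 1) := by
    rw [Icc_inter_Icc, sup_eq_left.2 hu0]
  rw [hset]
  have hsub : Icc (v / Gam) (min (Gam * v) 1) ⊆ Icc P.u0 1 := Icc_subset_Icc hu0 (min_le_right _ _)
  refine le_trans ?_ (h P lam q X Z Lp x hS hn v hv hv1)
  refine setIntegral_mono_on ((cm6x_intD hc hP hS.base.num).mono_set hsub) ((cm6x_int hc hP hS.base.num q).mono_set hsub) measurableSet_Icc ?_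
  intro u _
  unfold cm6xF
  nlinarith [sq_nonneg (X.S u - q.r u)]

end

end Claimed.Agent.R286
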