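import Claimed.Agent.R286.Defs.GhBasic

/-!
# Row 286 (S0533), PE Sec. 3, C4 = PE Lemma 3.5 (13)  TEX[PE:comp:projection] : DEFINITIONS      (owner helper192; prefix `cmj`, `Cmj`, `cmj_`)

Design = 192 + 38 (`origin/helper38:notes/R286/C4_design_38.md`): LOG FREE form of (13), ONE STEP integrals only (no path measure, no Hoelder, no real powers).

Chain from an ARBITRARY revealed field `z`; remaining levels `lsA ++ Q ++ R`.      `Φ : S → ℝ` spin observable, `|Φ| ≤ v`  (SK: `Φ = V·y`, `v = |V|`).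
Every level `l` of the field clock interval `Q` carries a driver direction `η` and a number `c` with  `l.inc η = c • Φ`, `∑ η_i² ≤ v²`
(SK: `η = V` on the field drivers, `0` on the matrix drivers, `c = √(n dh_l)`).      `T(Q) = ∑ c² (= n D_h)`.
`A(ls1,R,z) = E_z (Φ(σ) - ghE R Φ (field after ls1))^p`.
**(13):  `A(lsA ++ Q, R, z) ≤ C_p v^p / (vm^p T(Q)^(p/2))`**  if all masses of `Q ++ R` are `≥ vm > 0`, nondecreasing, `≤ a`.

FILES (one owner each):  `Proj` defs (192) | `ProjK` kernel API, Jensen, contraction | `ProjC` covariance, `H ≥ m C`, LOWER | `ProjG` Cameron-Martin, mgf, IBP |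
`ProjU` `W ≤ exp`, UPPER | `ProjB` block inequality, scale induction (fine mesh) | `ProjS` refinement (mesh removed) | `ProjX` exits (192).
-/

set_option autoImplicit false

namespace Claimed.Agent.R286

open MeasureTheory ProbabilityTheory

variable {S ι : Type} [Fintype S] [Fintype ι]

/-- one level of a field clock interval, with its driver direction `η` and its scale `c` -/
structure CmjSt (S ι : Type) where
  l : GhLv S ι
  η : ι → ℝ
  c : ℝ

/-- the level reveals `Φ` : `l.inc η = c • Φ`, `|η| ≤ v` -/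
def CmjSt.Ok (e : CmjSt S ι) (Φ : S → ℝ) (v : ℝ) : Prop :=
  ∑ i, e.η i ^ 2 ≤ v ^ 2 ∧ ∀ s, e.l.inc e.η s = e.c * Φ s

/-- the levels of an interval -/
def cmjLs (Q : List (CmjSt S ι)) : List (GhLv S ι) := Q.map CmjSt.l

/-- the clock length `T(Q) = ∑ c²` -/
def cmjT (Q : List (CmjSt S ι)) : ℝ := (Q.map fun e => e.c ^ 2).sum

/-- the planted kernel through the levels `ls1` (then `ls2` remain), on functions of the revealed field -/
noncomputable def cmjK (B : GhB S) : List (GhLv S ι) → List (GhLv S ι) → ((S → ℝ) → ℝ) → (S → ℝ) → ℝ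
  | [], _, g, z => g z
  | l :: ls1, ls2, g, z => ghA B l (ls1 ++ ls2) (cmjK B ls1 ls2 g) z

/-- conditional central moment `E_z (Φ - E_z Φ)^p` -/
noncomputable def cmjM (B : GhB S) (ls : List (GhLv S ι)) (Φ : S → ℝ) (p : ℕ) (z : S → ℝ) : ℝ :=
  ghE B ls (fun s => (Φ s - ghE B ls Φ z) ^ p) z

/-- `A(ls1,ls2,z) = E_z (Φ - projection after ls1)^p` -/
noncomputable def cmjA (B : GhB S) (ls1 ls2 : List (GhLv S ι)) (Φ : S → ℝ) (p : ℕ) (z : S → ℝ) : ℝ :=
  cmjK B ls1 ls2 (cmjM B ls2 Φ p) z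

/-- difference of two later projections: `E_z (projection after ls1 ++ ls2 - projection after ls1)^p` -/
noncomputable def cmjA2 (B : GhB S) (ls1 ls2 ls3 : List (GhLv S ι)) (Φ : S → ℝ) (p : ℕ) (z : S → ℝ) : ℝ :=
  cmjK B ls1 (ls2 ++ ls3) (fun y => cmjK B ls2 ls3 (fun y' => (ghE B ls3 Φ y' - ghE B (ls2 ++ ls3) Φ y) ^ p) y) z

/-- the innovation of one level: `c (⟨η,ξ⟩ - c m E_z Φ)` -/
noncomputable def cmjN (B : GhB S) (e : CmjSt S ι) (ls : List (GhLv S ι)) (Φ : S → ℝ) (z : S → ℝ) (ξ : ι → ℝ) : ℝ :=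
  e.c * ((∑ i, e.η i * ξ i) - e.c * e.l.m * ghE B (e.l :: ls) Φ z)

/-- `W_t(Q,z) = E_z exp(t * innovation of Q)` -/
noncomputable def cmjW (B : GhB S) (Φ : S → ℝ) (t : ℝ) : List (CmjSt S ι) → List (GhLv S ι) → (S → ℝ) → ℝ
  | [], _, _ => 1
  | e :: Q, R, z => ∫ ξ, ghD B e.l (cmjLs Q ++ R) z ξ *
      (Real.exp (t * cmjN B e (cmjLs Q ++ R) Φ z ξ) * cmjW B Φ t Q R (z + e.l.inc ξ)) ∂ghStd ι

/-- `J(Q,z) = E_z [φ(σ) * innovation of Q]`, by its closed recursion -/
noncomputable def cmjJ (B : GhB S) (φ Φ : S → ℝ) : List (CmjSt S ι) → List (GhLv S ι) → (S → ℝ) → ℝ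
  | [], _, _ => 0
  | e :: Q, R, z => e.c ^ 2 * ghH B (e.l :: (cmjLs Q ++ R)) φ Φ z + ghA B e.l (cmjLs Q ++ R) (cmjJ B φ Φ Q R) z

theorem cmj_defs_eqns_cite : True := by
  have := @CmjSt.Ok.eq_1
  have := @cmjLs.eq_1
  have := @cmjT.eq_1
  have := @cmjK.eq_1
  have := @cmjK.eq_2
  have := @cmjK.eq_def
  have := @cmjK.induct
  have := @cmjM.eq_1
  have := @cmjA.eq_1
  have := @cmjA2.eq_1
  have := @cmjN.eq_1
  have := @cmjW.eq_1
  have := @cmjW.eq_2
  have := @cmjW.eq_def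
  have := @cmjW.induct
  have := @cmjJ.eq_1
  have := @cmjJ.eq_2
  have := @cmjJ.eq_def
  have := @cmjJ.induct
  trivial

end Claimed.Agent.R286
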