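import Claimed.Agent.R286.Cmp.ProjU

/-!
# Row 286, C4 (PE Lemma 3.5), part B : BLOCK INEQUALITY, SCALE INDUCTION (fine mesh)      (statements helper192; PROVED by helper179; prefix `cmj_`)

Design 1, 2 of `origin/helper38:notes/R286/C4_design_38.md`.
* `cmj_young` : `p |X|^(p-1) |w| ≤ (p-1) θ X^p + θ^-(p-1) w^p` (`cm_tk_young` at `a = θ^(1/p) |X|`) and `w^p ≤ p! t^-p (e^{tw} + e^{-tw})` (`cm_tk_pow_le_exp`).
* `cmj_blk`   : `cmj_lower` + `cmj_upper` at `x = 0`, `c0 = ghE .. Φ z`, `t² v² T = 1`, `cmj_W_bc`.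
* `cmj_blk_K` : apply the kernel through `Q1` (`cmj_K_mono`, `cmj_K_add`, `cmj_K_const_mul`, `cmj_A_append`).
* `cmj_fine`  : strong induction on `Q.length`.      If `vm² T ≤ 4`: `cmj_A_le`.      Else every `c² ≤ 1/(a m) ≤ 1/vm² < T/4`; shortest prefix `Q1` with `T1 ≥ T/4` has `T1 ≤ T/2`;
  IH for `Q1` (remaining `Q2 ++ R`), `θ = kap T/(8 4^q)`, `kap = vm 2^(2-2p)`.
-/

set_option autoImplicit false
set_option linter.unusedSectionVars false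

namespace Claimed.Agent.R286

open MeasureTheory ProbabilityTheory

variable {S ι : Type} [Fintype S] [Fintype ι]

/-- Young with a free parameter, no roots: `a^k b ≤ θ a^(k+1) + b^(k+1)/((k+1) θ^k)` -/
theorem cmj_young0 (k : ℕ) {θ : ℝ} (hθ : 0 < θ) {a b : ℝ} (ha : 0 ≤ a) (hb : 0 ≤ b) :
    a ^ k * b ≤ θ * a ^ (k + 1) + b ^ (k + 1) / ((k + 1) * θ ^ k) := by
  have h := cm_tk_young k (θ * a) b (by positivity) hb
  have hk : (0 : ℝ) < (k + 1) * θ ^ k := by positivity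
  have h2 : a ^ k * b = ((k + 1) * (θ * a) ^ k * b) / ((k + 1) * θ ^ k) := by
    rw [mul_pow]; field_simp
  have h3 : (k * (θ * a) ^ (k + 1)) / ((k + 1) * θ ^ k) ≤ θ * a ^ (k + 1) := by
    rw [div_le_iff₀ hk, mul_pow, pow_succ θ k]
    have : 0 ≤ θ ^ k * θ * a ^ (k + 1) := by positivity
    nlinarith
  calc a ^ k * b = ((k + 1) * (θ * a) ^ k * b) / ((k + 1) * θ ^ k) := h2
    _ ≤ (k * (θ * a) ^ (k + 1) + b ^ (k + 1)) / ((k + 1) * θ ^ k) := by gcongr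
    _ = (k * (θ * a) ^ (k + 1)) / ((k + 1) * θ ^ k) + b ^ (k + 1) / ((k + 1) * θ ^ k) := by rw [add_div]
    _ ≤ _ := by linarith

/-- the pointwise inequality `hY` of `cmj_upper` -/
theorem cmj_young {p : ℕ} (hp : Even p) (hp2 : 2 ≤ p) {θ t : ℝ} (hθ : 0 < θ) (ht : 0 < t) (X w : ℝ) :
    X ^ (p - 1) * w ≤ θ * X ^ p
      + ((p - 1).factorial / (θ ^ (p - 1) * t ^ p)) * (Real.exp (t * w) + Real.exp (-(t * w))) := by
  obtain ⟨j, hj⟩ := hp
  obtain ⟨k, rfl⟩ : ∃ k, p = k + 1 := ⟨p - 1, by omega⟩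
  have hev : Even (k + 1) := ⟨j, hj⟩
  simp only [Nat.add_sub_cancel]
  have h1 : X ^ k * w ≤ |X| ^ k * |w| := by
    calc X ^ k * w ≤ |X ^ k * w| := le_abs_self _
      _ = |X| ^ k * |w| := by rw [abs_mul, abs_pow]
  have h2 := cmj_young0 k hθ (abs_nonneg X) (abs_nonneg w)
  rw [hev.pow_abs, hev.pow_abs] at h2
  have h3 : (t * w) ^ (k + 1) ≤ (k + 1).factorial * (Real.exp (t * w) + Real.exp (-(t * w))) := by
    have := cm_tk_pow_le_exp j (t * w)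
    rwa [show 2 * j = k + 1 by omega] at this
  have h4 : w ^ (k + 1) / ((k + 1) * θ ^ k) ≤ (k.factorial / (θ ^ k * t ^ (k + 1))) * (Real.exp (t * w) + Real.exp (-(t * w))) := by
    rw [mul_pow] at h3
    rw [Nat.factorial_succ] at h3
    push_cast at h3
    rw [div_le_iff₀ (by positivity)]
    have e : (k.factorial / (θ ^ k * t ^ (k + 1))) * (Real.exp (t * w) + Real.exp (-(t * w))) * ((k + 1) * θ ^ k)
        = ((k + 1) * k.factorial * (Real.exp (t * w) + Real.exp (-(t * w)))) / t ^ (k + 1) := by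
      field_simp
    rw [e, le_div_iff₀ (by positivity)]
    linarith
  linarith

/-- a prefix whose sum lies in `[σ, σ + δ]` -/
theorem cmj_prefix0 {α : Type} (f : α → ℝ) (Q : List α) : ∀ (σ δ : ℝ), 0 ≤ σ → 0 ≤ δ → (∀ a ∈ Q, f a ≤ δ) → σ ≤ (Q.map f).sum →
    ∃ Q1 Q2 : List α, Q = Q1 ++ Q2 ∧ σ ≤ (Q1.map f).sum ∧ (Q1.map f).sum ≤ σ + δ := by
  induction Q with
  | nil =>
    intro σ δ hσ hδ _ hs
    refine ⟨[], [], rfl, ?_, ?_⟩
    · simpa using hs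
    · simp; linarith
  | cons a Q ih =>
    intro σ δ hσ hδ hsm hs
    by_cases h : σ ≤ f a
    · refine ⟨[a], Q, rfl, by simpa using h, ?_⟩
      have := hsm a List.mem_cons_self
      simp; linarith
    · push Not at h
      simp only [List.map_cons, List.sum_cons] at hs
      obtain ⟨Q1, Q2, hQ, h1, h2⟩ := ih (σ - f a) δ (by linarith) hδ (fun b hb => hsm b (List.mem_cons_of_mem _ hb)) (by linarith)
      refine ⟨a :: Q1, Q2, by rw [hQ]; rfl, ?_, ?_⟩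
      · simp only [List.map_cons, List.sum_cons]; linarith
      · simp only [List.map_cons, List.sum_cons]; linarith

/-- a list of nonnegative numbers `< τ/4` each, of sum `τ`: a prefix of sum in `[τ/4, τ/2]` -/
theorem cmj_prefix {α : Type} (f : α → ℝ) (hf : ∀ a, 0 ≤ f a) (Q : List α) (τ : ℝ) (hτ : (Q.map f).sum = τ)
    (hsm : ∀ a ∈ Q, f a ≤ τ / 4) (hpos : 0 < τ) :
    ∃ Q1 Q2 : List α, Q = Q1 ++ Q2 ∧ Q2 ≠ [] ∧ τ / 4 ≤ (Q1.map f).sum ∧ (Q1.map f).sum ≤ τ / 2 := by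
  obtain ⟨Q1, Q2, hQ, h1, h2⟩ := cmj_prefix0 f Q (τ / 4) (τ / 4) (by linarith) (by linarith) hsm (by linarith)
  refine ⟨Q1, Q2, hQ, ?_, h1, by linarith⟩
  rintro rfl
  rw [List.append_nil] at hQ
  rw [hQ] at hτ
  linarith

theorem cmj_T_nonneg (Q : List (CmjSt S ι)) : 0 ≤ cmjT Q := by
  unfold cmjT
  refine List.sum_nonneg (fun x hx => ?_)
  obtain ⟨e, _, rfl⟩ := List.mem_map.1 hx
  positivity

theorem cmj_T_append (Q1 Q2 : List (CmjSt S ι)) : cmjT (Q1 ++ Q2) = cmjT Q1 + cmjT Q2 := by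
  simp [cmjT, List.map_append, List.sum_append]

theorem cmj_Ls_append (Q1 Q2 : List (CmjSt S ι)) (R : List (GhLv S ι)) :
    cmjLs (Q1 ++ Q2) ++ R = cmjLs Q1 ++ (cmjLs Q2 ++ R) := by
  simp [cmjLs, List.map_append, List.append_assoc]

theorem CmjFine.drop {B : GhB S} {Q1 Q2 : List (CmjSt S ι)} {R : List (GhLv S ι)} {Φ : S → ℝ} {v : ℝ}
    (h : CmjFine B (Q1 ++ Q2) R Φ v) : CmjFine B Q2 R Φ v := by
  induction Q1 with
  | nil => exact h
  | cons e Q1 ih => exact ih h.tail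

theorem CmjFine.take {B : GhB S} {Q1 Q2 : List (CmjSt S ι)} {R : List (GhLv S ι)} {Φ : S → ℝ} {v : ℝ}
    (h : CmjFine B (Q1 ++ Q2) R Φ v) : CmjFine B Q1 (cmjLs Q2 ++ R) Φ v where
  nn := by rw [← cmj_Ls_append]; exact h.nn
  le := by rw [← cmj_Ls_append]; exact h.le
  bd := h.bd
  ok := fun e he => h.ok e (List.mem_append_left _ he)
  mesh := fun e he => h.mesh e (List.mem_append_left _ he)

theorem cmj_adm_drop {B : GhB S} {u : ℝ} {l1 l2 : List (GhLv S ι)} (h : GhAdm B u (l1 ++ l2)) : GhAdm B u l2 :=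
  ⟨(List.pairwise_append.1 h.1).2.1, fun l hl => h.2 l (List.mem_append_right _ hl)⟩

/-- **(Blk)**, linear in the residual at the start of the block; `θ > 0` free -/
theorem cmj_blk {B : GhB S} (hB : B.Ok) {p : ℕ} (hp : Even p) (hp2 : 2 ≤ p) {Q : List (CmjSt S ι)} {R : List (GhLv S ι)} {Φ : S → ℝ}
    {v vm : ℝ} (h : CmjFine B Q R Φ v) (hvm : 0 < vm) (hadm : GhAdm B vm (cmjLs Q ++ R)) (hva : vm ≤ B.a) {θ : ℝ} (hθ : 0 < θ)
    (z : S → ℝ) :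
    vm * cmjT Q * cmjA B (cmjLs Q) R Φ p z
      ≤ 2 ^ (2 * p - 2) * (θ * cmjM B (cmjLs Q ++ R) Φ p z
          + 2 * Real.exp 1 * (p - 1).factorial / θ ^ (p - 1) * (v ^ 2 * cmjT Q) ^ (p / 2)) := by
  have hT0 := cmj_T_nonneg Q
  have hM0 := cmj_M_nonneg hB h.nn Φ hp z
  have hA0 := cmj_A_nonneg hB h.nn Φ hp z
  have hp0 : p / 2 ≠ 0 := by omega
  by_cases hz : v ^ 2 * cmjT Q = 0
  · rw [hz, zero_pow hp0, mul_zero, add_zero]
    have hL : vm * cmjT Q * cmjA B (cmjLs Q) R Φ p z ≤ 0 := by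
      rcases mul_eq_zero.1 hz with hv | hT
      · have hv0 : v = 0 := by simpa using hv
        have := cmj_A_le hB h.nn h.bd p z
        rw [hv0, mul_zero, zero_pow (by omega)] at this
        have h2 : cmjA B (cmjLs Q) R Φ p z = 0 := le_antisymm this hA0
        rw [h2, mul_zero]
      · rw [hT]; simp
    exact hL.trans (by positivity)
  · have hpos : 0 < v ^ 2 * cmjT Q := lt_of_le_of_ne (by positivity) (Ne.symm hz)
    obtain ⟨t, ht, ht2⟩ : ∃ t : ℝ, 0 < t ∧ t ^ 2 * (v ^ 2 * cmjT Q) = 1 := by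
      refine ⟨1 / Real.sqrt (v ^ 2 * cmjT Q), by positivity, ?_⟩
      rw [div_pow, Real.sq_sqrt hpos.le, one_pow]
      exact one_div_mul_cancel hpos.ne'
    obtain ⟨c0, hc0⟩ : ∃ c0, c0 = ghE B (cmjLs Q ++ R) Φ z := ⟨_, rfl⟩
    have hlow := cmj_lower hB hp hp2 Φ c0 hvm.le hva Q hadm z
    have hup := cmj_upper hB hp2 (al := θ) (be := (p - 1).factorial / (θ ^ (p - 1) * t ^ p)) (t := t) (by positivity)
      (cmj_young hp hp2 hθ ht) h c0 z 0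
    simp only [zero_mul, zero_add, mul_zero, neg_zero, Real.exp_zero, one_mul] at hup
    have hMe : ghE B (cmjLs Q ++ R) (fun s => (Φ s - c0) ^ p) z = cmjM B (cmjLs Q ++ R) Φ p z := by
      rw [hc0]; rfl
    rw [hMe] at hup
    have hW1 : cmjW B Φ t Q R z ≤ Real.exp 1 := by
      have := (abs_le.1 ((cmj_W_bc hB h t).le z)).2
      rwa [show t ^ 2 * v ^ 2 * cmjT Q = 1 by rw [← ht2]; ring] at this
    have hW2 : cmjW B Φ (-t) Q R z ≤ Real.exp 1 := by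
      have := (abs_le.1 ((cmj_W_bc hB h (-t)).le z)).2
      rwa [show (-t) ^ 2 * v ^ 2 * cmjT Q = 1 by rw [← ht2]; ring] at this
    have htp : t ^ p * (v ^ 2 * cmjT Q) ^ (p / 2) = 1 := by
      obtain ⟨j, hj⟩ := hp
      have hj2 : p / 2 = j := by omega
      rw [hj2, show p = 2 * j by omega, pow_mul, ← mul_pow, ht2, one_pow]
    have hbe : ((p - 1).factorial / (θ ^ (p - 1) * t ^ p) : ℝ) = (p - 1).factorial / θ ^ (p - 1) * (v ^ 2 * cmjT Q) ^ (p / 2) := by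
      have htp0 : 0 < t ^ p := by positivity
      have : (v ^ 2 * cmjT Q) ^ (p / 2) = 1 / t ^ p := by
        rw [eq_div_iff htp0.ne', mul_comm]; exact htp
      rw [this]
      field_simp
    have hbe0 : (0 : ℝ) ≤ (p - 1).factorial / (θ ^ (p - 1) * t ^ p) := by positivity
    have h5 : ((p - 1).factorial / (θ ^ (p - 1) * t ^ p) : ℝ) * (cmjW B Φ t Q R z + cmjW B Φ (-t) Q R z)
        ≤ (p - 1).factorial / (θ ^ (p - 1) * t ^ p) * (2 * Real.exp 1) :=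
      mul_le_mul_of_nonneg_left (by linarith) hbe0
    rw [hbe] at h5 hup
    refine hlow.trans (mul_le_mul_of_nonneg_left ?_ (by positivity))
    refine hup.trans ?_
    have e : 2 * Real.exp 1 * ((p - 1).factorial : ℝ) / θ ^ (p - 1) * (v ^ 2 * cmjT Q) ^ (p / 2)
        = (p - 1).factorial / θ ^ (p - 1) * (v ^ 2 * cmjT Q) ^ (p / 2) * (2 * Real.exp 1) := by ring
    rw [e]
    linarith

/-- (Blk) seen from before `Q1` -/
theorem cmj_blk_K {B : GhB S} (hB : B.Ok) {p : ℕ} (hp : Even p) (hp2 : 2 ≤ p) {Q1 Q2 : List (CmjSt S ι)} {R : List (GhLv S ι)}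
    {Φ : S → ℝ} {v vm : ℝ} (h : CmjFine B (Q1 ++ Q2) R Φ v) (hvm : 0 < vm) (hadm : GhAdm B vm (cmjLs (Q1 ++ Q2) ++ R))
    (hva : vm ≤ B.a) {θ : ℝ} (hθ : 0 < θ) (z : S → ℝ) :
    vm * cmjT Q2 * cmjA B (cmjLs (Q1 ++ Q2)) R Φ p z
      ≤ 2 ^ (2 * p - 2) * (θ * cmjA B (cmjLs Q1) (cmjLs Q2 ++ R) Φ p z
          + 2 * Real.exp 1 * (p - 1).factorial / θ ^ (p - 1) * (v ^ 2 * cmjT Q2) ^ (p / 2)) := by
  have h2 := h.drop
  have hnn : GhNn (cmjLs Q1 ++ (cmjLs Q2 ++ R)) := by rw [← cmj_Ls_append]; exact h.nn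
  have hadm2 : GhAdm B vm (cmjLs Q2 ++ R) := by
    rw [cmj_Ls_append] at hadm; exact cmj_adm_drop hadm
  have hnnR : GhNn R := fun l hl => h2.nn l (List.mem_append_right _ hl)
  have hA2 : GhBC (cmjA B (cmjLs Q2) R Φ p) ((2 * v) ^ p) := cmj_K_bc hB h2.nn (cmj_M_bc hB hnnR h.bd p)
  have hM2 : GhBC (cmjM B (cmjLs Q2 ++ R) Φ p) ((2 * v) ^ p) := cmj_M_bc hB h2.nn h.bd p
  obtain ⟨cc, hcc⟩ : ∃ cc : ℝ, cc = 2 * Real.exp 1 * (p - 1).factorial / θ ^ (p - 1) * (v ^ 2 * cmjT Q2) ^ (p / 2) := ⟨_, rfl⟩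
  rw [← hcc]
  have hpt : ∀ y, vm * cmjT Q2 * cmjA B (cmjLs Q2) R Φ p y ≤ 2 ^ (2 * p - 2) * (θ * cmjM B (cmjLs Q2 ++ R) Φ p y + cc) := by
    intro y; rw [hcc]; exact cmj_blk hB hp hp2 h2 hvm hadm2 hva hθ y
  have hLs : cmjLs (Q1 ++ Q2) = cmjLs Q1 ++ cmjLs Q2 := by simp [cmjLs]
  rw [hLs, cmj_A_append, ← cmj_K_const_mul]
  have hb1 := hA2.const_mul (vm * cmjT Q2)
  have hb2 := ((hM2.const_mul θ).add (gh_b_bc_const cc)).const_mul (2 ^ (2 * p - 2))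
  refine (cmj_K_mono hB hnn hb1 hb2 hpt z).trans (le_of_eq ?_)
  rw [cmj_K_const_mul, cmj_K_add hB hnn (hM2.const_mul θ) (gh_b_bc_const cc), cmj_K_const_mul, cmj_K_const hB hnn]
  rfl

/-- the arithmetic of the induction step of `cmj_fine` -/
theorem cmj_fine_arith {q k p : ℕ} (hpq : p = 2 * q) (hpk : p = k + 1) {A A1 C D E0 v vm T T1 T2 : ℝ} (hA : 0 ≤ A) (hA1 : 0 ≤ A1)
    (hC : 0 ≤ C) (hD : 0 < D) (hE0 : 0 ≤ E0) (hv : 0 ≤ v) (hvm : 0 < vm) (hT : 0 < T) (hT1 : T / 4 ≤ T1) (hT2 : T / 2 ≤ T2) (hT2' : T2 ≤ T)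
    (hIH : A1 ≤ C * v ^ p / (vm ^ p * T1 ^ q))
    (hblk : vm * T2 * A ≤ D * (vm * T / (8 * D * 4 ^ q) * A1 + E0 / (vm * T / (8 * D * 4 ^ q)) ^ k * (v ^ 2 * T2) ^ q))
    (hCK : C / 4 + 2 * (D * E0 * (8 * D * 4 ^ q) ^ k) ≤ C) :
    A ≤ C * v ^ p / (vm ^ p * T ^ q) := by
  have hT1p : 0 < T1 := by linarith
  have hT2p : 0 < T2 := by linarith
  obtain ⟨G, hG⟩ : ∃ G : ℝ, G = 8 * D * 4 ^ q := ⟨_, rfl⟩
  have hG0 : 0 < G := by rw [hG]; positivity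
  rw [← hG] at hblk hCK
  obtain ⟨X, hX⟩ : ∃ X : ℝ, X = vm * T := ⟨_, rfl⟩
  have hX0 : 0 < X := by rw [hX]; positivity
  rw [← hX] at hblk
  rw [le_div_iff₀ (by positivity)]
  rw [le_div_iff₀ (by positivity)] at hIH
  -- `A1 P ≤ 4^q C v^p`
  have h1 : A1 * (vm ^ p * T ^ q) ≤ 4 ^ q * (C * v ^ p) := by
    have hTq : T ^ q ≤ 4 ^ q * T1 ^ q := by
      rw [← mul_pow]; exact pow_le_pow_left₀ hT.le (by linarith) q
    calc A1 * (vm ^ p * T ^ q) ≤ A1 * (vm ^ p * (4 ^ q * T1 ^ q)) := by gcongr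
      _ = 4 ^ q * (A1 * (vm ^ p * T1 ^ q)) := by ring
      _ ≤ 4 ^ q * (C * v ^ p) := by gcongr
  -- `(v² T2)^q P ≤ v^p X^p`
  have h2 : (v ^ 2 * T2) ^ q * (vm ^ p * T ^ q) ≤ v ^ p * (X ^ k * X) := by
    have e : v ^ p * (X ^ k * X) = (v ^ 2 * T) ^ q * (vm ^ p * T ^ q) := by
      rw [← pow_succ, ← hpk, hX, mul_pow, mul_pow, ← pow_mul, ← hpq]
      have : T ^ p = T ^ q * T ^ q := by rw [← pow_add]; congr 1; omega
      rw [this]; ring
    rw [e]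
    gcongr
  have h3 := mul_le_mul_of_nonneg_right hblk (show 0 ≤ vm ^ p * T ^ q by positivity)
  have e4 : D * (X / G * A1 + E0 / (X / G) ^ k * (v ^ 2 * T2) ^ q) * (vm ^ p * T ^ q)
      = D * (X / G) * (A1 * (vm ^ p * T ^ q)) + D * (E0 / (X / G) ^ k) * ((v ^ 2 * T2) ^ q * (vm ^ p * T ^ q)) := by ring
  rw [e4] at h3
  have h5 : D * (X / G) * (A1 * (vm ^ p * T ^ q)) ≤ D * (X / G) * (4 ^ q * (C * v ^ p)) := by gcongr
  have h6 : D * (E0 / (X / G) ^ k) * ((v ^ 2 * T2) ^ q * (vm ^ p * T ^ q)) ≤ D * (E0 / (X / G) ^ k) * (v ^ p * (X ^ k * X)) := by gcongr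
  have e7 : D * (X / G) * (4 ^ q * (C * v ^ p)) = X * (C / 8 * v ^ p) := by
    rw [hG]; field_simp
  have e8 : D * (E0 / (X / G) ^ k) * (v ^ p * (X ^ k * X)) = X * (D * E0 * G ^ k * v ^ p) := by
    rw [div_pow]; field_simp
  have h9 : X / 2 * (A * (vm ^ p * T ^ q)) ≤ vm * T2 * A * (vm ^ p * T ^ q) := by
    have : X / 2 ≤ vm * T2 := by rw [hX]; nlinarith
    calc X / 2 * (A * (vm ^ p * T ^ q)) ≤ vm * T2 * (A * (vm ^ p * T ^ q)) := by gcongr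
      _ = _ := by ring
  have h10 : X * (A * (vm ^ p * T ^ q)) ≤ X * ((C / 4 + 2 * (D * E0 * G ^ k)) * v ^ p) := by
    nlinarith
  have h11 := le_of_mul_le_mul_left h10 hX0
  exact h11.trans (by gcongr)

/-- **(13), log free, fine mesh** -/
theorem cmj_fine (p : ℕ) (hp : Even p) (hp2 : 2 ≤ p) : ∃ C : ℝ, 0 < C ∧
    ∀ (S ι : Type) [Fintype S] [Fintype ι] (B : GhB S) (Q : List (CmjSt S ι)) (R : List (GhLv S ι)) (Φ : S → ℝ) (v vm : ℝ) (z : S → ℝ),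
      B.Ok → CmjFine B Q R Φ v → 0 < vm → GhAdm B vm (cmjLs Q ++ R) → 0 < cmjT Q →
      cmjA B (cmjLs Q) R Φ p z ≤ C * v ^ p / (vm ^ p * cmjT Q ^ (p / 2)) := by
  obtain ⟨q, hq⟩ := hp
  have hpq : p = 2 * q := by omega
  have hq2 : p / 2 = q := by omega
  obtain ⟨k, hpk⟩ : ∃ k, p = k + 1 := ⟨p - 1, by omega⟩
  have hk : p - 1 = k := by omega
  obtain ⟨D, hD⟩ : ∃ D : ℝ, D = 2 ^ (2 * p - 2) := ⟨_, rfl⟩
  have hD0 : 0 < D := by rw [hD]; positivity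
  obtain ⟨E0, hE0⟩ : ∃ E0 : ℝ, E0 = 2 * Real.exp 1 * (p - 1).factorial := ⟨_, rfl⟩
  have hE00 : 0 ≤ E0 := by rw [hE0]; positivity
  obtain ⟨K2, hK2⟩ : ∃ K2 : ℝ, K2 = D * E0 * (8 * D * 4 ^ q) ^ k := ⟨_, rfl⟩
  have hK20 : 0 ≤ K2 := by rw [hK2]; positivity
  refine ⟨4 ^ p + 4 * K2, by positivity, ?_⟩
  intro S ι _ _ B Q R Φ v vm z hB h hvm hadm hT
  rw [hq2]
  induction' hn : Q.length using Nat.strong_induction_on with n ih generalizing Q R z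
  have hS : Nonempty S := by
    by_contra hne
    rw [not_nonempty_iff] at hne
    have := hB.sum
    simp at this
  obtain ⟨s0⟩ := hS
  have hv0 : 0 ≤ v := (abs_nonneg _).trans (h.bd s0)
  have hpe : Even p := ⟨q, hq⟩
  have hA0 := cmj_A_nonneg hB h.nn Φ hpe z
  by_cases hc : vm ^ 2 * cmjT Q ≤ 4
  · refine (cmj_A_le hB h.nn h.bd p z).trans ?_
    rw [le_div_iff₀ (by positivity)]
    have e1 : vm ^ p * cmjT Q ^ q = (vm ^ 2 * cmjT Q) ^ q := by rw [mul_pow, ← pow_mul, ← hpq]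
    have e2 : (vm ^ 2 * cmjT Q) ^ q ≤ 4 ^ q := pow_le_pow_left₀ (by positivity) hc q
    have e3 : (2 : ℝ) ^ p * 4 ^ q = 4 ^ p := by
      rw [hpq, pow_mul, pow_mul]; norm_num
      rw [← mul_pow]; norm_num
    rw [e1, mul_pow]
    calc 2 ^ p * v ^ p * (vm ^ 2 * cmjT Q) ^ q ≤ 2 ^ p * v ^ p * 4 ^ q := by gcongr
      _ = 4 ^ p * v ^ p := by rw [← e3]; ring
      _ ≤ (4 ^ p + 4 * K2) * v ^ p := by gcongr; linarith
  · push Not at hc
    -- every step is short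
    have hsm : ∀ e ∈ Q, (fun e : CmjSt S ι => e.c ^ 2) e ≤ cmjT Q / 4 := by
      intro e he
      have hm := h.mesh e he
      have hl : e.l ∈ cmjLs Q ++ R := List.mem_append_left _ (List.mem_map_of_mem he)
      obtain ⟨h1, h2⟩ := hadm.2 e.l hl
      have h3 : vm ^ 2 * e.c ^ 2 ≤ B.a * e.l.m * e.c ^ 2 := by
        have : vm ^ 2 ≤ B.a * e.l.m := by nlinarith
        gcongr
      have h4 : vm ^ 2 * e.c ^ 2 ≤ vm ^ 2 * (cmjT Q / 4) := by nlinarith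
      exact le_of_mul_le_mul_left h4 (by positivity)
    obtain ⟨Q1, Q2, hQ, hQ2, ht1, ht2⟩ := cmj_prefix (fun e : CmjSt S ι => e.c ^ 2) (fun e => by positivity) Q (cmjT Q) rfl hsm hT
    subst hQ
    have hT1e : (List.map (fun e : CmjSt S ι => e.c ^ 2) Q1).sum = cmjT Q1 := rfl
    rw [hT1e] at ht1 ht2
    have hTa := cmj_T_append Q1 Q2
    have hva : vm ≤ B.a := by
      obtain ⟨e, he⟩ := List.exists_mem_of_ne_nil Q2 hQ2
      have hl : e.l ∈ cmjLs (Q1 ++ Q2) ++ R := List.mem_append_left _ (List.mem_map_of_mem (List.mem_append_right _ he))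
      exact (hadm.2 e.l hl).1.trans (hadm.2 e.l hl).2
    have hlen : Q1.length < n := by
      rw [← hn, List.length_append]
      have := List.length_pos_of_ne_nil hQ2
      omega
    have hadm1 : GhAdm B vm (cmjLs Q1 ++ (cmjLs Q2 ++ R)) := by rw [← cmj_Ls_append]; exact hadm
    have hIH := ih Q1.length hlen Q1 (cmjLs Q2 ++ R) z h.take hadm1 (by linarith) rfl
    have hθ : 0 < vm * cmjT (Q1 ++ Q2) / (8 * D * 4 ^ q) := by positivity
    have hblk := cmj_blk_K hB hpe hp2 h hvm hadm hva hθ z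
    rw [← hD, hk, hq2] at hblk
    have hE0' : 2 * Real.exp 1 * (k.factorial : ℝ) = E0 := by rw [hE0, hk]
    rw [hE0'] at hblk
    have hA1 := cmj_A_nonneg hB h.take.nn Φ hpe z
    refine cmj_fine_arith hpq hpk hA0 hA1 (by positivity) hD0 hE00 hv0 hvm hT ht1 (by linarith) (by have := cmj_T_nonneg Q1; linarith)
      hIH hblk ?_
    rw [← hK2]
    have : (0 : ℝ) ≤ 4 ^ p := by positivity
    linarith

end Claimed.Agent.R286
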