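import Claimed.Agent.R286.Cmp.ProjK

/-!
# Row 286, C4 (PE Lemma 3.5), part C : COVARIANCE OF A MONOTONE PAIR, `H ≥ m C`, LOWER BOUND      (statements helper192; PROVED by helper172; prefix `cmj_`; sorry free, cites `cmj_K_bc`, `cmj_M_bc`, `cmj_M_nonneg`, `cmj_contr_M` of ProjK)

Design (iii), (v) of `origin/helper38:notes/R286/C4_design_38.md`.
* `cmj_C_lower` : `ghC ls φ Φ z = ghE ls ((φ - (y0-c0)^(p-1)) (Φ - y0)) z`, `y0 = ghE ls Φ z`, then `cm_tk_odd_even`.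
* `cmj_H_lower` : induction as in `gh_b_le_H`, IH at `μ' = l.m`, `gh_b_C_total`, `gh_b_H_cons`; uses `0 ≤ ghC` on all suffixes.
* `cmj_lower`   : induction on `Q` from the two + `cmj_contr_M`.
-/

set_option autoImplicit false
set_option linter.unusedSectionVars false

namespace Claimed.Agent.R286

open MeasureTheory ProbabilityTheory

variable {S ι : Type} [Fintype S] [Fintype ι]

/-- the covariance, centred at arbitrary constants (the second one = the mean) -/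
theorem cmj_C_center {B : GhB S} (hB : B.Ok) {ls : List (GhLv S ι)} (h : GhNn ls) (φ Φ : S → ℝ) (k0 : ℝ) (z : S → ℝ) :
    ghE B ls (fun s => (φ s - k0) * (Φ s - ghE B ls Φ z)) z = ghC B ls φ Φ z := by
  set y0 := ghE B ls Φ z with hy0
  have e : (fun s => (φ s - k0) * (Φ s - y0)) = fun s => (φ s * Φ s - (y0 * φ s + k0 * Φ s)) + k0 * y0 := by
    funext s; ring
  rw [e, gh_b_E_add hB _ _ h, gh_b_E_sub hB _ _ h, gh_b_E_add hB _ _ h, gh_b_E_const_mul, gh_b_E_const_mul,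
    gh_b_E_const hB _ h, ← hy0]
  unfold ghC
  rw [← hy0]
  ring

/-- uniform monotonicity of the odd power, under the planted conditional law; ANY centre `c0` -/
theorem cmj_C_lower {B : GhB S} (hB : B.Ok) {ls : List (GhLv S ι)} (h : GhNn ls) {p : ℕ} (hp : Even p) (hp2 : 2 ≤ p) (Φ : S → ℝ)
    (c0 : ℝ) (z : S → ℝ) :
    cmjM B ls Φ p z ≤ 2 ^ (p - 2) * ghC B ls (fun s => (Φ s - c0) ^ (p - 1)) Φ z := by
  rw [← cmj_C_center hB h (fun s => (Φ s - c0) ^ (p - 1)) Φ ((ghE B ls Φ z - c0) ^ (p - 1)) z, ← gh_b_E_const_mul]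
  unfold cmjM
  refine gh_b_E_mono hB (fun s => ?_) h z
  have := cm_tk_odd_even p hp hp2 (Φ s - c0) (ghE B ls Φ z - c0)
  rw [hp.pow_abs] at this
  have e : Φ s - c0 - (ghE B ls Φ z - c0) = Φ s - ghE B ls Φ z := by ring
  rw [e] at this
  exact this

/-- `μ C ≤ H` for a pair with nonnegative conditional covariances (Abel summation in the nondecreasing masses) -/
theorem cmj_H_lower {B : GhB S} (hB : B.Ok) (φ Φ : S → ℝ) {ls : List (GhLv S ι)} {μ : ℝ} (hμ : 0 ≤ μ) (hμa : μ ≤ B.a)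
    (hadm : GhAdm B μ ls) (hC : ∀ ls' : List (GhLv S ι), ls' <:+ ls → ∀ y, 0 ≤ ghC B ls' φ Φ y) (z : S → ℝ) :
    μ * ghC B ls φ Φ z ≤ ghH B ls φ Φ z := by
  induction ls generalizing μ z with
  | nil =>
    rw [gh_b_H_nil]
    exact mul_le_mul_of_nonneg_right hμa (hC [] (List.suffix_refl _) z)
  | cons l ls ih =>
    have hnn : GhNn (l :: ls) := hadm.ghNn hμ
    have hl := hadm.2 l List.mem_cons_self
    have hp := List.pairwise_cons.1 hadm.1
    have hadm' : GhAdm B l.m ls :=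
      ⟨hp.2, fun l' hl' => ⟨hp.1 l' hl', (hadm.2 l' (List.mem_cons_of_mem _ hl')).2⟩⟩
    have hC' : ∀ ls' : List (GhLv S ι), ls' <:+ ls → ∀ y, 0 ≤ ghC B ls' φ Φ y :=
      fun ls' hs => hC ls' (hs.trans (List.suffix_cons l ls))
    have h1 : l.m * ghC B (l :: ls) φ Φ z ≤ ghH B (l :: ls) φ Φ z := by
      obtain ⟨M, hM⟩ := gh_b_H_bc hB φ Φ hnn.tail
      rw [gh_b_H_cons, gh_b_C_total hB φ Φ hnn, ← gh_b_A_const_mul]
      refine gh_b_A_mono hB hnn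
        (((gh_b_C_bc hB φ Φ hnn.tail).add (gh_b_Q_bc hB φ Φ hnn z)).const_mul l.m)
        (hM.add ((gh_b_Q_bc hB φ Φ hnn z).const_mul l.m)) (fun y => ?_) z
      have := ih (hμ.trans hl.1) hl.2 hadm' hC' y
      linarith
    have h2 := mul_le_mul_of_nonneg_right hl.1 (hC (l :: ls) (List.suffix_refl _) z)
    linarith

theorem cmj_J_bc {B : GhB S} (hB : B.Ok) (φ Φ : S → ℝ) (Q : List (CmjSt S ι)) {R : List (GhLv S ι)} (h : GhNn (cmjLs Q ++ R)) :
    ∃ M, GhBC (cmjJ B φ Φ Q R) M := by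
  induction Q with
  | nil => exact ⟨_, gh_b_bc_const 0⟩
  | cons e Q ih =>
    have h' : GhNn (e.l :: (cmjLs Q ++ R)) := h
    obtain ⟨M, hM⟩ := ih h'.tail
    obtain ⟨M', hM'⟩ := gh_b_H_bc hB φ Φ h'
    exact ⟨_, (hM'.const_mul (e.c ^ 2)).add (gh_b_A_bc hB h' hM)⟩

/-- **LOWER** (design (v)) -/
theorem cmj_lower {B : GhB S} (hB : B.Ok) {p : ℕ} (hp : Even p) (hp2 : 2 ≤ p) (Φ : S → ℝ) (c0 : ℝ) {vm : ℝ} (hvm : 0 ≤ vm)
    (hva : vm ≤ B.a) (Q : List (CmjSt S ι)) {R : List (GhLv S ι)} (hadm : GhAdm B vm (cmjLs Q ++ R)) (z : S → ℝ) :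
    vm * cmjT Q * cmjA B (cmjLs Q) R Φ p z ≤ 2 ^ (2 * p - 2) * cmjJ B (fun s => (Φ s - c0) ^ (p - 1)) Φ Q R z := by
  induction Q generalizing z with
  | nil =>
    have h1 : cmjT ([] : List (CmjSt S ι)) = 0 := rfl
    have h2 : cmjJ B (fun s => (Φ s - c0) ^ (p - 1)) Φ [] R z = 0 := rfl
    rw [h1, h2]; simp
  | cons e Q ih =>
    set φ : S → ℝ := fun s => (Φ s - c0) ^ (p - 1) with hφ
    have hadm0 : GhAdm B vm (e.l :: (cmjLs Q ++ R)) := hadm
    have hnn : GhNn (e.l :: (cmjLs Q ++ R)) := hadm0.ghNn hvm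
    have hadm' : GhAdm B vm (cmjLs Q ++ R) :=
      ⟨(List.pairwise_cons.1 hadm0.1).2, fun l' hl' => hadm0.2 l' (List.mem_cons_of_mem _ hl')⟩
    have eT : cmjT (e :: Q) = e.c ^ 2 + cmjT Q := by simp [cmjT]
    have eA : cmjA B (cmjLs (e :: Q)) R Φ p z = ghA B e.l (cmjLs Q ++ R) (cmjA B (cmjLs Q) R Φ p) z := rfl
    have eJ : cmjJ B φ Φ (e :: Q) R z
        = e.c ^ 2 * ghH B (e.l :: (cmjLs Q ++ R)) φ Φ z + ghA B e.l (cmjLs Q ++ R) (cmjJ B φ Φ Q R) z := rfl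
    -- part 2: the later levels
    have hbcA : GhBC (cmjA B (cmjLs Q) R Φ p) ((2 * ‖Φ‖) ^ p) :=
      cmj_K_bc hB hnn.tail (cmj_M_bc hB (fun l hl => hnn.tail l (List.mem_append_right _ hl)) (gh_b_abs_le_norm Φ) p)
    obtain ⟨MJ, hMJ⟩ := cmj_J_bc hB φ Φ Q hnn.tail
    have p2 : vm * cmjT Q * ghA B e.l (cmjLs Q ++ R) (cmjA B (cmjLs Q) R Φ p) z
        ≤ 2 ^ (2 * p - 2) * ghA B e.l (cmjLs Q ++ R) (cmjJ B φ Φ Q R) z := by
      rw [← gh_b_A_const_mul, ← gh_b_A_const_mul]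
      exact gh_b_A_mono hB hnn (hbcA.const_mul _) (hMJ.const_mul _) (fun y => ih hadm' y) z
    -- part 1: the first level
    have hCnn : ∀ ls' : List (GhLv S ι), ls' <:+ (e.l :: (cmjLs Q ++ R)) → ∀ y, 0 ≤ ghC B ls' φ Φ y := by
      intro ls' hs y
      have hn' : GhNn ls' := fun l hl => hnn l (hs.subset hl)
      have h1 := cmj_C_lower hB hn' hp hp2 Φ c0 y
      have h2 := cmj_M_nonneg hB hn' Φ hp y
      have h3 : (0 : ℝ) < 2 ^ (p - 2) := by positivity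
      by_contra hneg
      push Not at hneg
      have := mul_neg_of_pos_of_neg h3 hneg
      linarith
    have q1 : cmjA B (cmjLs (e :: Q)) R Φ p z ≤ 2 ^ p * cmjM B (e.l :: (cmjLs Q ++ R)) Φ p z :=
      cmj_contr_M (ls1 := cmjLs (e :: Q)) (ls2 := R) hB hnn hp Φ z
    have q2 := cmj_C_lower hB hnn hp hp2 Φ c0 z
    have q3 := cmj_H_lower hB φ Φ hvm hva hadm0 hCnn z
    have e2 : (2 : ℝ) ^ (2 * p - 2) = 2 ^ p * 2 ^ (p - 2) := by
      rw [← pow_add]; congr 1; omega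
    have p1 : vm * cmjA B (cmjLs (e :: Q)) R Φ p z ≤ 2 ^ (2 * p - 2) * ghH B (e.l :: (cmjLs Q ++ R)) φ Φ z := by
      calc vm * cmjA B (cmjLs (e :: Q)) R Φ p z ≤ vm * (2 ^ p * (2 ^ (p - 2) * ghC B (e.l :: (cmjLs Q ++ R)) φ Φ z)) := by
            refine mul_le_mul_of_nonneg_left (q1.trans ?_) hvm
            exact mul_le_mul_of_nonneg_left q2 (by positivity)
        _ = 2 ^ (2 * p - 2) * (vm * ghC B (e.l :: (cmjLs Q ++ R)) φ Φ z) := by rw [e2]; ring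
        _ ≤ _ := mul_le_mul_of_nonneg_left q3 (by positivity)
    have p1' := mul_le_mul_of_nonneg_left p1 (sq_nonneg e.c)
    rw [eT, eJ]
    rw [eA] at p1' ⊢
    nlinarith

end Claimed.Agent.R286
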