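import Claimed.Agent.R286.Cmp.Proj
import Claimed.Agent.R286.Gh.Reg
import Claimed.Agent.R286.Cmp.Tk

/-!
# Row 286, C4 (PE Lemma 3.5), part K : KERNEL API, JENSEN, CONTRACTION      (statements helper192; PROVERS helper43 (kernel API) + helper36 (Jensen, contraction, later projections): 0 sorry; prefix `cmj_`)

All by induction on the list from `Defs/GhBasic` (`gh_b_A_*`, `gh_b_E_*`).      Jensen = tangent line of `x ^ p` (`p` even) + positivity and linearity of `ghE`.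
Continuity of `cmjM` etc.: binomial expansion in the centre, `gh_b_E_sum`.
-/

set_option autoImplicit false
set_option linter.unusedSectionVars false

namespace Claimed.Agent.R286

open MeasureTheory ProbabilityTheory

variable {S ι : Type} [Fintype S] [Fintype ι]

theorem cmj_K_bc {B : GhB S} (hB : B.Ok) {ls1 ls2 : List (GhLv S ι)} (h : GhNn (ls1 ++ ls2)) {g : (S → ℝ) → ℝ} {M : ℝ}
    (hg : GhBC g M) : GhBC (cmjK B ls1 ls2 g) M := by
  induction ls1 with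
  | nil => exact hg
  | cons l ls1 ih =>
    have h' : GhNn (l :: (ls1 ++ ls2)) := h
    exact gh_b_A_bc hB h' (ih h'.tail)

theorem cmj_K_const {B : GhB S} (hB : B.Ok) {ls1 ls2 : List (GhLv S ι)} (h : GhNn (ls1 ++ ls2)) (c : ℝ) (z : S → ℝ) :
    cmjK B ls1 ls2 (fun _ => c) z = c := by
  induction ls1 generalizing z with
  | nil => rfl
  | cons l ls1 ih =>
    have h' : GhNn (l :: (ls1 ++ ls2)) := h
    have e : cmjK B ls1 ls2 (fun _ => c) = fun _ => c := funext fun y => ih h'.tail y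
    show ghA B l (ls1 ++ ls2) (cmjK B ls1 ls2 fun _ => c) z = c
    rw [e, gh_b_A_const hB h']

theorem cmj_K_add {B : GhB S} (hB : B.Ok) {ls1 ls2 : List (GhLv S ι)} (h : GhNn (ls1 ++ ls2)) {g g' : (S → ℝ) → ℝ} {M M' : ℝ}
    (hg : GhBC g M) (hg' : GhBC g' M') (z : S → ℝ) :
    cmjK B ls1 ls2 (fun y => g y + g' y) z = cmjK B ls1 ls2 g z + cmjK B ls1 ls2 g' z := by
  induction ls1 generalizing z with
  | nil => rfl
  | cons l ls1 ih =>
    have h' : GhNn (l :: (ls1 ++ ls2)) := h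
    have e : cmjK B ls1 ls2 (fun y => g y + g' y) = fun y => cmjK B ls1 ls2 g y + cmjK B ls1 ls2 g' y :=
      funext fun y => ih h'.tail y
    show ghA B l (ls1 ++ ls2) (cmjK B ls1 ls2 fun y => g y + g' y) z = _
    rw [e, gh_b_A_add hB h' (cmj_K_bc hB h'.tail hg) (cmj_K_bc hB h'.tail hg')]
    rfl

theorem cmj_K_const_mul (B : GhB S) (ls1 ls2 : List (GhLv S ι)) (g : (S → ℝ) → ℝ) (c : ℝ) (z : S → ℝ) :
    cmjK B ls1 ls2 (fun y => c * g y) z = c * cmjK B ls1 ls2 g z := by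
  induction ls1 generalizing z with
  | nil => rfl
  | cons l ls1 ih =>
    have e : cmjK B ls1 ls2 (fun y => c * g y) = fun y => c * cmjK B ls1 ls2 g y := funext fun y => ih y
    show ghA B l (ls1 ++ ls2) (cmjK B ls1 ls2 fun y => c * g y) z = _
    rw [e, gh_b_A_const_mul]
    rfl

theorem cmj_K_mono {B : GhB S} (hB : B.Ok) {ls1 ls2 : List (GhLv S ι)} (h : GhNn (ls1 ++ ls2)) {g g' : (S → ℝ) → ℝ} {M M' : ℝ}
    (hg : GhBC g M) (hg' : GhBC g' M') (hle : ∀ y, g y ≤ g' y) (z : S → ℝ) :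
    cmjK B ls1 ls2 g z ≤ cmjK B ls1 ls2 g' z := by
  induction ls1 generalizing z with
  | nil => exact hle z
  | cons l ls1 ih =>
    have h' : GhNn (l :: (ls1 ++ ls2)) := h
    exact gh_b_A_mono hB h' (cmj_K_bc hB h'.tail hg) (cmj_K_bc hB h'.tail hg') (fun y => ih h'.tail y) z

/-- Chapman-Kolmogorov -/
theorem cmj_K_append (B : GhB S) (l1 l2 ls : List (GhLv S ι)) (g : (S → ℝ) → ℝ) :
    cmjK B (l1 ++ l2) ls g = cmjK B l1 (l2 ++ ls) (cmjK B l2 ls g) := by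
  induction l1 with
  | nil => rfl
  | cons l l1 ih =>
    funext z
    show ghA B l ((l1 ++ l2) ++ ls) (cmjK B (l1 ++ l2) ls g) z = ghA B l (l1 ++ (l2 ++ ls)) (cmjK B l1 (l2 ++ ls) (cmjK B l2 ls g)) z
    rw [ih, List.append_assoc]

/-- tower -/
theorem cmj_K_E (B : GhB S) (ls1 ls2 : List (GhLv S ι)) (Φ : S → ℝ) :
    cmjK B ls1 ls2 (ghE B ls2 Φ) = ghE B (ls1 ++ ls2) Φ := by
  induction ls1 with
  | nil => rfl
  | cons l ls1 ih =>
    funext z
    show ghA B l (ls1 ++ ls2) (cmjK B ls1 ls2 (ghE B ls2 Φ)) z = ghA B l (ls1 ++ ls2) (ghE B (ls1 ++ ls2) Φ) z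
    rw [ih]

/-- joint continuity in the centre: `y ↦ E_y (Φ - c(y))^p` -/
theorem cmj_Ec_bc {B : GhB S} (hB : B.Ok) {ls : List (GhLv S ι)} (h : GhNn ls) {Φ : S → ℝ} {v : ℝ} (hΦ : ∀ s, |Φ s| ≤ v)
    {c : (S → ℝ) → ℝ} (hc : GhBC c v) (p : ℕ) : GhBC (fun y => ghE B ls (fun s => (Φ s - c y) ^ p) y) ((2 * v) ^ p) := by
  constructor
  · have e : (fun y => ghE B ls (fun s => (Φ s - c y) ^ p) y)
        = fun y => ∑ m ∈ Finset.range (p + 1), ((-c y) ^ (p - m) * (p.choose m : ℝ)) * ghE B ls (fun s => Φ s ^ m) y := by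
      funext y
      have e1 : (fun s => (Φ s - c y) ^ p)
          = fun s => ∑ m ∈ Finset.range (p + 1), ((-c y) ^ (p - m) * (p.choose m : ℝ)) * Φ s ^ m := by
        funext s
        rw [sub_eq_add_neg, add_pow]
        exact Finset.sum_congr rfl fun m _ => by ring
      rw [e1, gh_b_E_sum hB _ _ h]
      exact Finset.sum_congr rfl fun m _ => gh_b_E_const_mul B _ _ ls y
    rw [e]
    refine continuous_finsetSum _ fun m _ => ?_
    exact ((hc.cont.neg.pow _).mul continuous_const).mul (gh_b_E_continuous hB _ h)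
  · intro y
    refine gh_b_E_abs_le hB (fun s => ?_) h y
    rw [abs_pow]
    refine pow_le_pow_left₀ (abs_nonneg _) ?_ p
    calc |Φ s - c y| ≤ |Φ s| + |c y| := abs_sub _ _
      _ ≤ v + v := add_le_add (hΦ s) (hc.le y)
      _ = 2 * v := by ring

theorem cmj_M_bc {B : GhB S} (hB : B.Ok) {ls : List (GhLv S ι)} (h : GhNn ls) {Φ : S → ℝ} {v : ℝ} (hΦ : ∀ s, |Φ s| ≤ v) (p : ℕ) :
    GhBC (cmjM B ls Φ p) ((2 * v) ^ p) :=
  cmj_Ec_bc hB h hΦ (gh_b_E_bc hB hΦ h) p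

theorem cmj_M_nonneg {B : GhB S} (hB : B.Ok) {ls : List (GhLv S ι)} (h : GhNn ls) (Φ : S → ℝ) {p : ℕ} (hp : Even p) (z : S → ℝ) :
    0 ≤ cmjM B ls Φ p z :=
  gh_b_E_nonneg hB (fun _ => hp.pow_nonneg _) h z

/-- positivity of the kernel (no regularity) -/
theorem cmj_K_nonneg {B : GhB S} (hB : B.Ok) {ls1 ls2 : List (GhLv S ι)} (h : GhNn (ls1 ++ ls2)) {g : (S → ℝ) → ℝ}
    (hg : ∀ y, 0 ≤ g y) (z : S → ℝ) : 0 ≤ cmjK B ls1 ls2 g z := by
  induction ls1 generalizing z with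
  | nil => exact hg z
  | cons l ls1 ih =>
    have h' : GhNn (l :: (ls1 ++ ls2)) := h
    exact gh_b_A_nonneg hB h' (fun y => ih h'.tail y) z

theorem cmj_nn_of_append_right {l1 l2 : List (GhLv S ι)} (h : GhNn (l1 ++ l2)) : GhNn l2 :=
  fun l hl => h l (List.mem_append_right _ hl)

theorem cmj_A_nonneg {B : GhB S} (hB : B.Ok) {ls1 ls2 : List (GhLv S ι)} (h : GhNn (ls1 ++ ls2)) (Φ : S → ℝ) {p : ℕ} (hp : Even p)
    (z : S → ℝ) : 0 ≤ cmjA B ls1 ls2 Φ p z :=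
  cmj_K_nonneg hB h (fun y => cmj_M_nonneg hB (cmj_nn_of_append_right h) Φ hp y) z

theorem cmj_A_le {B : GhB S} (hB : B.Ok) {ls1 ls2 : List (GhLv S ι)} (h : GhNn (ls1 ++ ls2)) {Φ : S → ℝ} {v : ℝ}
    (hΦ : ∀ s, |Φ s| ≤ v) (p : ℕ) (z : S → ℝ) : cmjA B ls1 ls2 Φ p z ≤ (2 * v) ^ p :=
  (le_abs_self _).trans ((cmj_K_bc hB h (cmj_M_bc hB (cmj_nn_of_append_right h) hΦ p)).le z)

/-- `A(l1 ++ l2, ls, z) = K_{l1} A(l2, ls, ·)(z)` -/
theorem cmj_A_append (B : GhB S) (l1 l2 ls : List (GhLv S ι)) (Φ : S → ℝ) (p : ℕ) :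
    cmjA B (l1 ++ l2) ls Φ p = cmjK B l1 (l2 ++ ls) (cmjA B l2 ls Φ p) := by
  funext z
  show cmjK B (l1 ++ l2) ls (cmjM B ls Φ p) z = cmjK B l1 (l2 ++ ls) (cmjK B l2 ls (cmjM B ls Φ p)) z
  rw [cmj_K_append]

/-! ### helpers for Jensen, contraction, later projections (helper36) -/

theorem cmj_K_cons (B : GhB S) (l : GhLv S ι) (ls1 ls2 : List (GhLv S ι)) (g : (S → ℝ) → ℝ) :
    cmjK B (l :: ls1) ls2 g = ghA B l (ls1 ++ ls2) (cmjK B ls1 ls2 g) := rfl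

theorem cmj_bc_sum {κ : Type} (t : Finset κ) {g : κ → (S → ℝ) → ℝ} {M : κ → ℝ} (hg : ∀ k ∈ t, GhBC (g k) (M k)) :
    GhBC (fun y => ∑ k ∈ t, g k y) (∑ k ∈ t, M k) := by
  classical
  induction t using Finset.induction_on with
  | empty => simpa using gh_b_bc_const (S := S) 0
  | insert a t ha ih =>
    simp only [Finset.sum_insert ha]
    exact (hg a (Finset.mem_insert_self a t)).add (ih fun k hk => hg k (Finset.mem_insert_of_mem hk))

theorem cmj_K_sum {B : GhB S} (hB : B.Ok) {ls1 ls2 : List (GhLv S ι)} (h : GhNn (ls1 ++ ls2)) {κ : Type} (t : Finset κ)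
    {g : κ → (S → ℝ) → ℝ} {M : κ → ℝ} (hg : ∀ k ∈ t, GhBC (g k) (M k)) (z : S → ℝ) :
    cmjK B ls1 ls2 (fun y => ∑ k ∈ t, g k y) z = ∑ k ∈ t, cmjK B ls1 ls2 (g k) z := by
  classical
  induction t using Finset.induction_on with
  | empty => simpa using cmj_K_const hB h 0 z
  | insert a t ha ih =>
    simp only [Finset.sum_insert ha]
    rw [cmj_K_add hB h (hg a (Finset.mem_insert_self a t))
      (cmj_bc_sum t fun k hk => hg k (Finset.mem_insert_of_mem hk)), ih fun k hk => hg k (Finset.mem_insert_of_mem hk)]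

theorem cmj_bc_pow {g : (S → ℝ) → ℝ} {M : ℝ} (hg : GhBC g M) (k : ℕ) : GhBC (fun y => g y ^ k) (M ^ k) :=
  ⟨hg.cont.pow k, fun y => by rw [abs_pow]; exact pow_le_pow_left₀ (abs_nonneg _) (hg.le y) k⟩

theorem cmj_sub_pow (x c : ℝ) (p : ℕ) :
    (x - c) ^ p = ∑ m ∈ Finset.range (p + 1), ((-c) ^ (p - m) * (p.choose m : ℝ)) * x ^ m := by
  rw [sub_eq_add_neg, add_pow]
  exact Finset.sum_congr rfl fun m _ => by ring

theorem cmj_abs_sub_pow_le {x c v : ℝ} (hx : |x| ≤ v) (hc : |c| ≤ v) (p : ℕ) : |(x - c) ^ p| ≤ (2 * v) ^ p := by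
  rw [abs_pow]
  refine pow_le_pow_left₀ (abs_nonneg _) ?_ p
  have := abs_sub x c
  linarith

/-- the tangent line of `x ^ p`, `p` even -/
theorem cmj_tangent {p : ℕ} (hp : Even p) (e x : ℝ) : e ^ p + (p * e ^ (p - 1)) * (x - e) ≤ x ^ p := by
  have hc : ConvexOn ℝ Set.univ (fun x : ℝ => x ^ p) := hp.convexOn_pow
  have hd : HasDerivAt (fun x : ℝ => x ^ p) (p * e ^ (p - 1)) e := hasDerivAt_pow p e
  rcases lt_trichotomy x e with hx | hx | hx
  · have := hc.slope_le_of_hasDerivAt (Set.mem_univ x) (Set.mem_univ e) hx hd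
    rw [slope_def_field, div_le_iff₀ (sub_pos.2 hx)] at this
    nlinarith
  · rw [hx]; simp
  · have := hc.le_slope_of_hasDerivAt (Set.mem_univ e) (Set.mem_univ x) hx hd
    rw [slope_def_field, le_div_iff₀ (sub_pos.2 hx)] at this
    nlinarith

/-- Jensen for the spin average -/
theorem cmj_E_jensen {B : GhB S} (hB : B.Ok) {ls : List (GhLv S ι)} (h : GhNn ls) {p : ℕ} (hp : Even p) (Φ : S → ℝ) (z : S → ℝ) :
    ghE B ls Φ z ^ p ≤ ghE B ls (fun s => Φ s ^ p) z := by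
  obtain ⟨e, he⟩ : ∃ e : ℝ, e = ghE B ls Φ z := ⟨_, rfl⟩
  have h1 := gh_b_E_mono hB (Φ := fun s => e ^ p + (p * e ^ (p - 1)) * (Φ s - e)) (Ψ := fun s => Φ s ^ p)
    (fun s => cmj_tangent hp e (Φ s)) h z
  rw [gh_b_E_add hB (fun _ => e ^ p) (fun s => (p * e ^ (p - 1)) * (Φ s - e)) h, gh_b_E_const hB _ h,
    gh_b_E_const_mul, gh_b_E_sub hB Φ (fun _ => e) h, gh_b_E_const hB _ h, ← he] at h1
  rw [← he]
  simpa using h1

/-- Jensen for one step -/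
theorem cmj_A1_jensen {B : GhB S} (hB : B.Ok) {l : GhLv S ι} {ls : List (GhLv S ι)} (h : GhNn (l :: ls)) {p : ℕ} (hp : Even p)
    {g : (S → ℝ) → ℝ} {M : ℝ} (hg : GhBC g M) (z : S → ℝ) :
    ghA B l ls g z ^ p ≤ ghA B l ls (fun y => g y ^ p) z := by
  obtain ⟨e, he⟩ : ∃ e : ℝ, e = ghA B l ls g z := ⟨_, rfl⟩
  have b1 : GhBC (fun y => (p * e ^ (p - 1)) * (g y - e)) _ := (hg.sub (gh_b_bc_const e)).const_mul (p * e ^ (p - 1))
  have h1 := gh_b_A_mono hB h ((gh_b_bc_const (e ^ p)).add b1) (cmj_bc_pow hg p)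
    (fun y => cmj_tangent hp e (g y)) z
  rw [gh_b_A_add hB h (gh_b_bc_const (e ^ p)) b1, gh_b_A_const hB h, gh_b_A_const_mul,
    gh_b_A_sub hB h hg (gh_b_bc_const e), gh_b_A_const hB h, ← he] at h1
  rw [← he]
  simpa using h1

/-- Jensen for the kernel -/
theorem cmj_K_jensen {B : GhB S} (hB : B.Ok) {ls1 ls2 : List (GhLv S ι)} (h : GhNn (ls1 ++ ls2)) {p : ℕ} (hp : Even p)
    {g : (S → ℝ) → ℝ} {M : ℝ} (hg : GhBC g M) (z : S → ℝ) :
    cmjK B ls1 ls2 g z ^ p ≤ cmjK B ls1 ls2 (fun y => g y ^ p) z := by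
  induction ls1 generalizing z with
  | nil => exact le_rfl
  | cons l ls1 ih =>
    rw [cmj_K_cons, cmj_K_cons]
    refine (cmj_A1_jensen hB h hp (cmj_K_bc hB h.tail hg) z).trans ?_
    exact gh_b_A_mono hB h (cmj_bc_pow (cmj_K_bc hB h.tail hg) p) (cmj_K_bc hB h.tail (cmj_bc_pow hg p))
      (fun y => ih h.tail y) z

/-- pointwise form of the contraction -/
theorem cmj_M_le {B : GhB S} (hB : B.Ok) {ls : List (GhLv S ι)} (h : GhNn ls) {p : ℕ} (hp : Even p) (Φ : S → ℝ) (c0 : ℝ)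
    (y : S → ℝ) : cmjM B ls Φ p y ≤ 2 ^ p * ghE B ls (fun s => (Φ s - c0) ^ p) y := by
  rcases Nat.eq_zero_or_pos p with rfl | hp0
  · simp only [cmjM, pow_zero, one_mul]
    exact le_rfl
  obtain ⟨e, he⟩ : ∃ e : ℝ, e = ghE B ls Φ y := ⟨_, rfl⟩
  have hj := cmj_E_jensen hB h hp (fun s => Φ s - c0) y
  rw [gh_b_E_sub hB Φ (fun _ => c0) h, gh_b_E_const hB _ h, ← he] at hj
  have h1 := gh_b_E_mono hB (Φ := fun s => (Φ s - e) ^ p)
    (Ψ := fun s => 2 ^ (p - 1) * ((Φ s - c0) ^ p + (e - c0) ^ p)) (fun s => by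
      have := hp.add_pow_le (a := Φ s - c0) (b := -(e - c0))
      rw [hp.neg_pow] at this
      have e2 : Φ s - c0 + -(e - c0) = Φ s - e := by ring
      rw [e2] at this
      exact this) h y
  rw [gh_b_E_const_mul, gh_b_E_add hB (fun s => (Φ s - c0) ^ p) (fun _ => (e - c0) ^ p) h, gh_b_E_const hB _ h] at h1
  unfold cmjM
  rw [← he]
  refine h1.trans ?_
  have e3 : (2 : ℝ) ^ p = 2 ^ (p - 1) * 2 := by
    rw [← pow_succ]
    congr 1
    omega
  rw [e3, mul_assoc]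
  refine mul_le_mul_of_nonneg_left ?_ (by positivity)
  linarith

/-- **contraction** (design (iv)): the residual after ANY later projection is at most twice the residual around ANY constant -/
theorem cmj_contr {B : GhB S} (hB : B.Ok) {ls1 ls2 : List (GhLv S ι)} (h : GhNn (ls1 ++ ls2)) {p : ℕ} (hp : Even p) (Φ : S → ℝ)
    (c0 : ℝ) (z : S → ℝ) :
    cmjA B ls1 ls2 Φ p z ≤ 2 ^ p * ghE B (ls1 ++ ls2) (fun s => (Φ s - c0) ^ p) z := by
  have h2 : GhNn ls2 := cmj_nn_of_append_right h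
  have b1 := cmj_M_bc hB h2 (gh_b_abs_le_norm Φ) p
  have b2 := (gh_b_E_bc' hB (fun s => (Φ s - c0) ^ p) h2).const_mul (2 ^ p)
  have := cmj_K_mono hB h b1 b2 (fun y => cmj_M_le hB h2 hp Φ c0 y) z
  rw [cmj_K_const_mul, cmj_K_E] at this
  exact this

theorem cmj_contr_M {B : GhB S} (hB : B.Ok) {ls1 ls2 : List (GhLv S ι)} (h : GhNn (ls1 ++ ls2)) {p : ℕ} (hp : Even p) (Φ : S → ℝ)
    (z : S → ℝ) : cmjA B ls1 ls2 Φ p z ≤ 2 ^ p * cmjM B (ls1 ++ ls2) Φ p z :=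
  cmj_contr hB h hp Φ (ghE B (ls1 ++ ls2) Φ z) z

/-- joint continuity in the centre for the kernel -/
theorem cmj_Kc_bc {B : GhB S} (hB : B.Ok) {ls1 ls2 : List (GhLv S ι)} (h : GhNn (ls1 ++ ls2)) {g c : (S → ℝ) → ℝ} {v : ℝ}
    (hg : GhBC g v) (hc : GhBC c v) (p : ℕ) :
    GhBC (fun y => cmjK B ls1 ls2 (fun y' => (g y' - c y) ^ p) y) ((2 * v) ^ p) := by
  have hb : ∀ y, GhBC (fun y' => (g y' - c y) ^ p) ((2 * v) ^ p) := fun y =>
    ⟨(hg.cont.sub continuous_const).pow p, fun y' => cmj_abs_sub_pow_le (hg.le y') (hc.le y) p⟩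
  refine ⟨?_, fun y => (cmj_K_bc hB h (hb y)).le y⟩
  have e : (fun y => cmjK B ls1 ls2 (fun y' => (g y' - c y) ^ p) y)
      = fun y => ∑ m ∈ Finset.range (p + 1), ((-c y) ^ (p - m) * (p.choose m : ℝ)) * cmjK B ls1 ls2 (fun y' => g y' ^ m) y := by
    funext y
    have e1 : (fun y' => (g y' - c y) ^ p)
        = fun y' => ∑ m ∈ Finset.range (p + 1), ((-c y) ^ (p - m) * (p.choose m : ℝ)) * g y' ^ m :=
      funext fun y' => cmj_sub_pow (g y') (c y) p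
    rw [e1, cmj_K_sum hB h _ (fun m _ => (cmj_bc_pow hg m).const_mul _)]
    exact Finset.sum_congr rfl fun m _ => cmj_K_const_mul B _ _ _ _ y
  rw [e]
  refine continuous_finsetSum _ fun m _ => ?_
  exact ((hc.cont.neg.pow _).mul continuous_const).mul (cmj_K_bc hB h (cmj_bc_pow hg m)).cont

/-- **later projections** (conditional Jensen) -/
theorem cmj_later {B : GhB S} (hB : B.Ok) {ls1 ls2 ls3 : List (GhLv S ι)} (h : GhNn (ls1 ++ (ls2 ++ ls3))) {p : ℕ} (hp : Even p)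
    (Φ : S → ℝ) (z : S → ℝ) : cmjA2 B ls1 ls2 ls3 Φ p z ≤ cmjA B ls1 (ls2 ++ ls3) Φ p z := by
  have h23 : GhNn (ls2 ++ ls3) := cmj_nn_of_append_right h
  have h3 : GhNn ls3 := cmj_nn_of_append_right h23
  have hΦ := gh_b_abs_le_norm Φ
  unfold cmjA2 cmjA
  refine cmj_K_mono hB h (cmj_Kc_bc hB h23 (gh_b_E_bc hB hΦ h3) (gh_b_E_bc hB hΦ h23) p) (cmj_M_bc hB h23 hΦ p)
    (fun y => ?_) z
  obtain ⟨e, he⟩ : ∃ e : ℝ, e = ghE B (ls2 ++ ls3) Φ y := ⟨_, rfl⟩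
  unfold cmjM
  rw [← he, ← cmj_K_E]
  have hce : |e| ≤ ‖Φ‖ := by rw [he]; exact gh_b_E_abs_le hB hΦ h23 y
  refine cmj_K_mono hB h23 (M := (2 * ‖Φ‖) ^ p) ⟨((gh_b_E_continuous hB Φ h3).sub continuous_const).pow p,
    fun y' => cmj_abs_sub_pow_le (gh_b_E_abs_le hB hΦ h3 y') hce p⟩ (gh_b_E_bc' hB _ h3) (fun y' => ?_) y
  have hj := cmj_E_jensen hB h3 hp (fun s => Φ s - e) y'
  rw [gh_b_E_sub hB Φ (fun _ => e) h3, gh_b_E_const hB _ h3] at hj
  exact hj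

end Claimed.Agent.R286
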