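import Claimed.Agent.R286.Cmp.ProjG
import Claimed.Agent.R286.Cmp.ProjC

/-!
# Row 286, C4 (PE Lemma 3.5), part U : `W_t ≤ exp(t² v² T)`, UPPER BOUND      (statements helper192; PROVED by helper179; prefix `cmj_`)

Design (i) end, (vi) of `origin/helper38:notes/R286/C4_design_38.md`.
* `cmj_W_bc` : induction on `Q` from `cmj_mgf`, `cmj_mgf_cont`.
* `cmj_upper`: induction on `Q` GENERALISED over `x` (the innovation accumulated so far).      Base: `hY` at `X = Φ s - c0`, `w = x`, then `ghE` (positive, linear).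
  Step: IH at `z + e.l.inc ξ`, `x + cmjN ..`, multiply by `ghD > 0`, integrate; `cmj_ibp_N`, `cmj_int_exp`, `cmj_int_lin`, `gh_b_E_tower`.
-/

set_option autoImplicit false
set_option linter.unusedSectionVars false

namespace Claimed.Agent.R286

open MeasureTheory ProbabilityTheory

variable {S ι : Type} [Fintype S] [Fintype ι]

/-- hypotheses on an interval `Q` followed by `R`: masses in `[0,a]`, directions, mesh -/
structure CmjFine (B : GhB S) (Q : List (CmjSt S ι)) (R : List (GhLv S ι)) (Φ : S → ℝ) (v : ℝ) : Prop where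
  nn : GhNn (cmjLs Q ++ R)
  le : ∀ l ∈ cmjLs Q ++ R, l.m ≤ B.a
  bd : ∀ s, |Φ s| ≤ v
  ok : ∀ e ∈ Q, e.Ok Φ v
  mesh : ∀ e ∈ Q, B.a * e.l.m * e.c ^ 2 ≤ 1

theorem CmjFine.tail {B : GhB S} {e : CmjSt S ι} {Q : List (CmjSt S ι)} {R : List (GhLv S ι)} {Φ : S → ℝ} {v : ℝ}
    (h : CmjFine B (e :: Q) R Φ v) : CmjFine B Q R Φ v where
  nn := GhNn.tail (l := e.l) h.nn
  le := fun l hl => h.le l (List.mem_cons_of_mem _ hl)
  bd := h.bd
  ok := fun e' he' => h.ok e' (List.mem_cons_of_mem _ he')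
  mesh := fun e' he' => h.mesh e' (List.mem_cons_of_mem _ he')

theorem cmj_W_nonneg (B : GhB S) (Φ : S → ℝ) (t : ℝ) (Q : List (CmjSt S ι)) (R : List (GhLv S ι)) (z : S → ℝ) :
    0 ≤ cmjW B Φ t Q R z := by
  induction Q generalizing z with
  | nil => simp [cmjW]
  | cons e Q ih =>
    rw [cmjW]
    exact integral_nonneg fun ξ => mul_nonneg (gh_b_D_pos _ _ _ _ _).le (mul_nonneg (Real.exp_pos _).le (ih _))

/-- the innovation of an interval is subgaussian with variance proxy `2 v² T(Q)` -/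
theorem cmj_W_bc {B : GhB S} (hB : B.Ok) {Q : List (CmjSt S ι)} {R : List (GhLv S ι)} {Φ : S → ℝ} {v : ℝ} (h : CmjFine B Q R Φ v)
    (t : ℝ) : GhBC (cmjW B Φ t Q R) (Real.exp (t ^ 2 * v ^ 2 * cmjT Q)) := by
  induction Q with
  | nil =>
    have : cmjW B Φ t ([] : List (CmjSt S ι)) R = fun _ => 1 := by funext z; simp [cmjW]
    rw [this]
    simpa [cmjT] using gh_b_bc_const (S := S) (1 : ℝ)
  | cons e Q ih =>
    have ih' := ih h.tail
    have hnn : GhNn (e.l :: (cmjLs Q ++ R)) := h.nn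
    have hfun : cmjW B Φ t (e :: Q) R = fun z => ∫ ξ, ghD B e.l (cmjLs Q ++ R) z ξ *
      (Real.exp (t * cmjN B e (cmjLs Q ++ R) Φ z ξ) * cmjW B Φ t Q R (z + e.l.inc ξ)) ∂ghStd ι := by
      funext z; rw [cmjW]
    refine ⟨?_, fun z => ?_⟩
    · rw [hfun]
      exact cmj_mgf_cont hB hnn Φ t ih'
    · rw [abs_of_nonneg (cmj_W_nonneg B Φ t _ R z), hfun]
      have := cmj_mgf hB hnn h.le h.bd (h.ok e List.mem_cons_self) (h.mesh e List.mem_cons_self) t ih'
        (fun y => cmj_W_nonneg B Φ t Q R y) z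
      refine this.trans (le_of_eq ?_)
      rw [← Real.exp_add]
      congr 1
      simp only [cmjT, List.map_cons, List.sum_cons]
      ring

/-- integrability of the tilted integrand -/
theorem cmj_int_N {B : GhB S} (hB : B.Ok) {e : CmjSt S ι} {ls : List (GhLv S ι)} (h : GhNn (e.l :: ls)) (Φ : S → ℝ) (t : ℝ)
    {f : (S → ℝ) → ℝ} {M : ℝ} (hf : GhBC f M) (z : S → ℝ) :
    Integrable (fun ξ => ghD B e.l ls z ξ * (Real.exp (t * cmjN B e ls Φ z ξ) * f (z + e.l.inc ξ))) (ghStd ι) := by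
  have h1 := (cmj_int_exp hB h e.η (t * e.c) hf z).const_mul (Real.exp (-(t * e.c * (e.c * e.l.m * ghE B (e.l :: ls) Φ z))))
  refine h1.congr (Filter.Eventually.of_forall fun ξ => ?_)
  simp only
  have : Real.exp (t * cmjN B e ls Φ z ξ)
      = Real.exp (-(t * e.c * (e.c * e.l.m * ghE B (e.l :: ls) Φ z))) * Real.exp (t * e.c * ∑ i, e.η i * ξ i) := by
    rw [← Real.exp_add]
    congr 1
    unfold cmjN
    ring
  rw [this]
  ring

/-- integrability of the innovation against a bounded function -/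
theorem cmj_int_N1 {B : GhB S} (hB : B.Ok) {e : CmjSt S ι} {ls : List (GhLv S ι)} (h : GhNn (e.l :: ls)) (Φ : S → ℝ)
    {f : (S → ℝ) → ℝ} {M : ℝ} (hf : GhBC f M) (z : S → ℝ) :
    Integrable (fun ξ => ghD B e.l ls z ξ * (cmjN B e ls Φ z ξ * f (z + e.l.inc ξ))) (ghStd ι) := by
  have h1 := ((cmj_int_lin hB h e.η hf z).const_mul e.c).sub
    ((gh_b_A_integrable hB h hf z).const_mul (e.c * (e.c * e.l.m * ghE B (e.l :: ls) Φ z)))
  refine h1.congr (Filter.Eventually.of_forall fun ξ => ?_)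
  simp only [Pi.sub_apply]
  unfold cmjN
  ring

/-- integration of a pointwise linear inequality -/
theorem cmj_lin6 {α : Type} [MeasurableSpace α] {μ : Measure α} {a1 a2 a3 b1 b2 b3 : α → ℝ} (i1 : Integrable a1 μ) (i2 : Integrable a2 μ)
    (i3 : Integrable a3 μ) (j1 : Integrable b1 μ) (j2 : Integrable b2 μ) (j3 : Integrable b3 μ) (x al be u w : ℝ)
    (hpt : ∀ ξ, x * a1 ξ + a2 ξ + a3 ξ ≤ al * b1 ξ + be * (u * b2 ξ + w * b3 ξ)) :
    x * (∫ ξ, a1 ξ ∂μ) + (∫ ξ, a2 ξ ∂μ) + (∫ ξ, a3 ξ ∂μ) ≤ al * (∫ ξ, b1 ξ ∂μ) + be * (u * (∫ ξ, b2 ξ ∂μ) + w * ∫ ξ, b3 ξ ∂μ) := by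
  have h := integral_mono (μ := μ) (by fun_prop) (by fun_prop) hpt
  rw [integral_add (by fun_prop) (by fun_prop), integral_add (by fun_prop) (by fun_prop), integral_add (by fun_prop) (by fun_prop),
    integral_const_mul, integral_const_mul, integral_const_mul, integral_add (by fun_prop) (by fun_prop), integral_const_mul,
    integral_const_mul] at h
  exact h

/-- **UPPER** (design (vi)), generalised over the accumulated innovation `x` -/
theorem cmj_upper {B : GhB S} (hB : B.Ok) {p : ℕ} (hp2 : 2 ≤ p) {al be t : ℝ} (hbe : 0 ≤ be)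
    (hY : ∀ X w : ℝ, X ^ (p - 1) * w ≤ al * X ^ p + be * (Real.exp (t * w) + Real.exp (-(t * w))))
    {Q : List (CmjSt S ι)} {R : List (GhLv S ι)} {Φ : S → ℝ} {v : ℝ} (h : CmjFine B Q R Φ v) (c0 : ℝ) (z : S → ℝ) (x : ℝ) :
    x * ghE B (cmjLs Q ++ R) (fun s => (Φ s - c0) ^ (p - 1)) z + cmjJ B (fun s => (Φ s - c0) ^ (p - 1)) Φ Q R z
      ≤ al * ghE B (cmjLs Q ++ R) (fun s => (Φ s - c0) ^ p) z
        + be * (Real.exp (t * x) * cmjW B Φ t Q R z + Real.exp (-(t * x)) * cmjW B Φ (-t) Q R z) := by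
  induction Q generalizing z x with
  | nil =>
    have hnn : GhNn R := h.nn
    simp only [cmjJ, cmjW, add_zero, mul_one]
    change x * ghE B R (fun s => (Φ s - c0) ^ (p - 1)) z ≤ al * ghE B R (fun s => (Φ s - c0) ^ p) z + _
    have h1 := gh_b_E_mono hB (Φ := fun s => x * (Φ s - c0) ^ (p - 1))
      (Ψ := fun s => al * (Φ s - c0) ^ p + be * (Real.exp (t * x) + Real.exp (-(t * x))))
      (fun s => by have := hY (Φ s - c0) x; linarith) hnn z
    rw [gh_b_E_const_mul, gh_b_E_add hB _ _ hnn, gh_b_E_const_mul, gh_b_E_const hB _ hnn] at h1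
    exact h1
  | cons e Q ih =>
    have ht := h.tail
    have hnn : GhNn (e.l :: (cmjLs Q ++ R)) := h.nn
    obtain ⟨MJ, hJ⟩ := cmj_J_bc hB (fun s => (Φ s - c0) ^ (p - 1)) Φ Q (R := R) hnn.tail
    have hE1 := gh_b_E_bc' hB (fun s => (Φ s - c0) ^ (p - 1)) hnn.tail
    have hE2 := gh_b_E_bc' hB (fun s => (Φ s - c0) ^ p) hnn.tail
    have i1 := gh_b_A_integrable hB hnn hE1 z
    have i2 := cmj_int_N1 hB hnn Φ hE1 z
    have i3 := gh_b_A_integrable hB hnn hJ z
    have j1 := gh_b_A_integrable hB hnn hE2 z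
    have j2 := cmj_int_N hB hnn Φ t (cmj_W_bc hB ht t) z
    have j3 := cmj_int_N hB hnn Φ (-t) (cmj_W_bc hB ht (-t)) z
    have hmono := cmj_lin6 i1 i2 i3 j1 j2 j3 x al be (Real.exp (t * x)) (Real.exp (-(t * x)))
      (fun ξ => by
        have hD := (gh_b_D_pos B e.l (cmjLs Q ++ R) z ξ).le
        have := mul_le_mul_of_nonneg_left (ih ht (z + e.l.inc ξ) (x + cmjN B e (cmjLs Q ++ R) Φ z ξ)) hD
        have e1 : Real.exp (t * (x + cmjN B e (cmjLs Q ++ R) Φ z ξ))
            = Real.exp (t * x) * Real.exp (t * cmjN B e (cmjLs Q ++ R) Φ z ξ) := by rw [← Real.exp_add]; congr 1; ring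
        have e2 : Real.exp (-(t * (x + cmjN B e (cmjLs Q ++ R) Φ z ξ)))
            = Real.exp (-(t * x)) * Real.exp (-t * cmjN B e (cmjLs Q ++ R) Φ z ξ) := by rw [← Real.exp_add]; congr 1; ring
        rw [e1, e2] at this
        linarith)
    rw [cmj_ibp_N hB hnn (h.ok e List.mem_cons_self)] at hmono
    rw [cmjJ, cmjW, cmjW, ← add_assoc]
    exact hmono

end Claimed.Agent.R286
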